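import Vale.Agent.Lib.P347.Defs

/-!
P347: calculus vocabulary. `Dv u` lists the first derivatives of a vector valued map `u`; its
Euclidean norm is the Hilbert-Schmidt norm of the derivative. `CB k u` says that `u` is bounded
with `k` bounded continuous derivatives. Definitions only (lemmas in CalcA and CalcB).
-/

open MeasureTheory

namespace Vale.Agent.P347

/-- The class of potentials, with the Hessian written as an iterated Frechet derivative. -/
structure Pot (d : ℕ) (V : E d → ℝ) : Prop where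
  smooth : ContDiff ℝ 2 V
  val_zero : V 0 = 0
  grad_zero : gradient V 0 = 0
  lower : ∀ x v : E d, ‖v‖ ^ 2 ≤ fderiv ℝ (fderiv ℝ V) x v v
  upper : ∀ x v : E d, fderiv ℝ (fderiv ℝ V) x v v ≤ 2 * ‖v‖ ^ 2

theorem iteratedDeriv_line {d : ℕ} {V : E d → ℝ} (hV : ContDiff ℝ 2 V) (x v : E d) :
    iteratedDeriv 2 (fun t : ℝ => V (x + t • v)) 0 = fderiv ℝ (fderiv ℝ V) x v v := by
  have hl : ∀ t : ℝ, HasDerivAt (fun t : ℝ => x + t • v) v t := by
    intro t
    simpa using ((hasDerivAt_id t).smul_const v).const_add x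
  have h1 : ∀ t : ℝ, HasDerivAt (fun t : ℝ => V (x + t • v)) (fderiv ℝ V (x + t • v) v) t := by
    intro t
    have hd : HasFDerivAt V (fderiv ℝ V (x + t • v)) (x + t • v) :=
      (hV.differentiable (by norm_num) _).hasFDerivAt
    exact hd.comp_hasDerivAt t (hl t)
  have hD : ContDiff ℝ 1 (fderiv ℝ V) := hV.fderiv_right (by norm_num)
  have h2 : HasDerivAt (fun t : ℝ => fderiv ℝ V (x + t • v) v)
      (fderiv ℝ (fderiv ℝ V) x v v) 0 := by
    have hd : HasFDerivAt (fderiv ℝ V) (fderiv ℝ (fderiv ℝ V) (x + (0 : ℝ) • v))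
        (x + (0 : ℝ) • v) :=
      (hD.differentiable (by norm_num) _).hasFDerivAt
    have hc := hd.comp_hasDerivAt (0 : ℝ) (hl 0)
    have := hc.clm_apply (hasDerivAt_const (0 : ℝ) v)
    simpa using this
  rw [iteratedDeriv_succ, iteratedDeriv_one]
  have e : deriv (fun t : ℝ => V (x + t • v)) = fun t => fderiv ℝ V (x + t • v) v := by
    funext t
    exact (h1 t).deriv
  rw [e]
  exact h2.deriv

theorem Potential.pot {d : ℕ} {V : E d → ℝ} (h : Potential d V) : Pot d V where
  smooth := h.smooth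
  val_zero := h.val_zero
  grad_zero := h.grad_zero
  lower := fun x v => by
    rw [← iteratedDeriv_line h.smooth]
    exact h.lower x v
  upper := fun x v => by
    rw [← iteratedDeriv_line h.smooth]
    exact h.upper x v

/-- first derivatives of a vector valued map; its norm is the Hilbert-Schmidt norm -/
noncomputable def Dv {d : ℕ} {ι : Type} [Fintype ι] (u : E d → EuclideanSpace ℝ ι) (x : E d) :
    EuclideanSpace ℝ (Fin d × ι) :=
  WithLp.toLp 2 (fun p => fderiv ℝ u x (EuclideanSpace.single p.1 1) p.2)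

/-- a scalar function seen as a vector valued one -/
noncomputable def sc {d : ℕ} (f : E d → ℝ) (x : E d) : EuclideanSpace ℝ Unit :=
  WithLp.toLp 2 (fun _ => f x)

/-- bounded, with `k` bounded continuous derivatives -/
def CB {d : ℕ} : (k : ℕ) → {ι : Type} → [Fintype ι] → (E d → EuclideanSpace ℝ ι) → Prop
  | 0, _, _, u => Continuous u ∧ ∃ C, ∀ x, ‖u x‖ ≤ C
  | k + 1, _, _, u => ContDiff ℝ 1 u ∧ (∃ C, ∀ x, ‖u x‖ ≤ C) ∧ CB k (Dv u)

/-- polynomial growth -/
def PG {d : ℕ} {F : Type} [Norm F] (u : E d → F) : Prop :=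
  ∃ (C : ℝ) (p : ℕ), ∀ x, ‖u x‖ ≤ C * (1 + ‖x‖) ^ p

variable {d : ℕ} {ι : Type} [Fintype ι]

theorem Dv_apply (u : E d → EuclideanSpace ℝ ι) (x : E d) (i : Fin d) (k : ι) :
    Dv u x (i, k) = fderiv ℝ u x (EuclideanSpace.single i 1) k := rfl

end Vale.Agent.P347
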