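import Vale.Agent.Lib.P347.Calc

/-!
P347: basic facts on `Dv`.
-/

open MeasureTheory
open scoped RealInnerProductSpace

namespace Vale.Agent.P347

variable {d : ℕ} {ι : Type} [Fintype ι]

theorem norm_Dv_sq (u : E d → EuclideanSpace ℝ ι) (x : E d) :
    ‖Dv u x‖ ^ 2 = ∑ i, ‖fderiv ℝ u x (EuclideanSpace.single i 1)‖ ^ 2 := by
  rw [EuclideanSpace.norm_sq_eq, Fintype.sum_prod_type]
  refine Finset.sum_congr rfl fun i _ => ?_
  rw [EuclideanSpace.norm_sq_eq]
  exact Finset.sum_congr rfl fun k _ => by rw [Dv_apply]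

private theorem gradient_coord (f : E d → ℝ) (x : E d) (i : Fin d) :
    gradient f x i = fderiv ℝ f x (EuclideanSpace.single i 1) := by
  have h1 : ⟪gradient f x, EuclideanSpace.single i (1 : ℝ)⟫ =
      fderiv ℝ f x (EuclideanSpace.single i 1) := by
    rw [gradient, InnerProductSpace.toDual_symm_apply]
  rw [← h1, EuclideanSpace.inner_single_right]
  simp

private theorem norm_gradient_eq (f : E d → ℝ) (x : E d) : ‖gradient f x‖ = ‖fderiv ℝ f x‖ := by
  rw [gradient, LinearIsometryEquiv.norm_map]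

private theorem fderiv_coord {u : E d → EuclideanSpace ℝ ι} {x : E d}
    (hu : DifferentiableAt ℝ u x) (k : ι) (v : E d) :
    fderiv ℝ (fun y => u y k) x v = fderiv ℝ u x v k := by
  have h1 : HasFDerivAt (fun y => u y k)
      ((EuclideanSpace.proj k : EuclideanSpace ℝ ι →L[ℝ] ℝ).comp (fderiv ℝ u x)) x :=
    (EuclideanSpace.proj k : EuclideanSpace ℝ ι →L[ℝ] ℝ).hasFDerivAt.comp x hu.hasFDerivAt
  rw [h1.fderiv]
  rfl

private theorem differentiableAt_coord {u : E d → EuclideanSpace ℝ ι} {x : E d}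
    (hu : DifferentiableAt ℝ u x) (k : ι) : DifferentiableAt ℝ (fun y => u y k) x :=
  ((EuclideanSpace.proj k : EuclideanSpace ℝ ι →L[ℝ] ℝ).hasFDerivAt.comp x
    hu.hasFDerivAt).differentiableAt

theorem norm_Dv_sq' {u : E d → EuclideanSpace ℝ ι} {x : E d} (hu : DifferentiableAt ℝ u x) :
    ‖Dv u x‖ ^ 2 = ∑ k, ‖gradient (fun y => u y k) x‖ ^ 2 := by
  rw [EuclideanSpace.norm_sq_eq, Fintype.sum_prod_type_right]
  refine Finset.sum_congr rfl fun k _ => ?_
  rw [EuclideanSpace.norm_sq_eq]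
  refine Finset.sum_congr rfl fun i _ => ?_
  rw [Dv_apply, gradient_coord, fderiv_coord hu]

private theorem basis_expand (v : E d) :
    v = ∑ i, v i • (EuclideanSpace.single i (1 : ℝ) : E d) := by
  ext j
  simp [Finset.sum_apply, Pi.single_apply]

theorem opNorm_le_Dv (u : E d → EuclideanSpace ℝ ι) (x : E d) :
    ‖fderiv ℝ u x‖ ≤ ‖Dv u x‖ := by
  refine ContinuousLinearMap.opNorm_le_bound _ (norm_nonneg _) fun v => ?_
  have h1 : fderiv ℝ u x v = ∑ i, v i • fderiv ℝ u x (EuclideanSpace.single i 1) := by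
    conv_lhs => rw [basis_expand v]
    rw [map_sum]
    exact Finset.sum_congr rfl fun i _ => map_smul _ _ _
  have h2 : ‖fderiv ℝ u x v‖ ≤ ∑ i, ‖v i‖ * ‖fderiv ℝ u x (EuclideanSpace.single i 1)‖ := by
    rw [h1]
    refine (norm_sum_le _ _).trans (le_of_eq (Finset.sum_congr rfl fun i _ => norm_smul _ _))
  have h3 := Finset.sum_mul_sq_le_sq_mul_sq Finset.univ (fun i => ‖v i‖)
    (fun i => ‖fderiv ℝ u x (EuclideanSpace.single i 1)‖)
  rw [← norm_Dv_sq, ← EuclideanSpace.norm_sq_eq, ← mul_pow] at h3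
  have h4 := abs_le_of_sq_le_sq h3 (mul_nonneg (norm_nonneg _) (norm_nonneg _))
  calc ‖fderiv ℝ u x v‖ ≤ ∑ i, ‖v i‖ * ‖fderiv ℝ u x (EuclideanSpace.single i 1)‖ := h2
    _ ≤ ‖v‖ * ‖Dv u x‖ := (le_abs_self _).trans h4
    _ = ‖Dv u x‖ * ‖v‖ := mul_comm _ _

private theorem norm_single_one (i : Fin d) : ‖(EuclideanSpace.single i (1 : ℝ) : E d)‖ = 1 := by
  simp

theorem norm_Dv_le_of_opNorm {u : E d → EuclideanSpace ℝ ι} {x : E d} {b : ℝ} (hb : 0 ≤ b)
    (h : ‖fderiv ℝ u x‖ ≤ b) : ‖Dv u x‖ ≤ b * √d := by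
  have h1 : ‖Dv u x‖ ^ 2 ≤ (b * √d) ^ 2 := by
    rw [norm_Dv_sq, mul_pow, Real.sq_sqrt (Nat.cast_nonneg d)]
    calc ∑ i, ‖fderiv ℝ u x (EuclideanSpace.single i 1)‖ ^ 2 ≤ ∑ _i : Fin d, b ^ 2 := by
          refine Finset.sum_le_sum fun i _ => ?_
          have h2 := (fderiv ℝ u x).le_opNorm (EuclideanSpace.single i (1 : ℝ))
          rw [norm_single_one, mul_one] at h2
          exact pow_le_pow_left₀ (norm_nonneg _) (h2.trans h) 2
      _ = b ^ 2 * d := by
          rw [Finset.sum_const, Finset.card_univ, Fintype.card_fin, nsmul_eq_mul, mul_comm]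
  exact abs_le_of_sq_le_sq' h1 (mul_nonneg hb (Real.sqrt_nonneg _)) |>.2

/-- composing a linear map of operator norm at most `c` after the derivative -/
theorem norm_Dv_comp_le {κ : Type} [Fintype κ] (L : EuclideanSpace ℝ ι →L[ℝ] EuclideanSpace ℝ κ)
    {u : E d → EuclideanSpace ℝ ι} {x : E d} (hu : DifferentiableAt ℝ u x) :
    ‖Dv (fun y => L (u y)) x‖ ≤ ‖L‖ * ‖Dv u x‖ := by
  have h0 : fderiv ℝ (fun y => L (u y)) x = L.comp (fderiv ℝ u x) :=
    (L.hasFDerivAt.comp x hu.hasFDerivAt).fderiv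
  have h1 : ‖Dv (fun y => L (u y)) x‖ ^ 2 ≤ (‖L‖ * ‖Dv u x‖) ^ 2 := by
    rw [mul_pow, norm_Dv_sq, norm_Dv_sq, Finset.mul_sum, h0]
    refine Finset.sum_le_sum fun i _ => ?_
    rw [← mul_pow]
    exact pow_le_pow_left₀ (norm_nonneg _) (L.le_opNorm _) 2
  exact abs_le_of_sq_le_sq' h1 (mul_nonneg (norm_nonneg _) (norm_nonneg _)) |>.2

/-- chain rule: composing on the right with a map whose derivative has operator norm at most `L` -/
theorem norm_Dv_comp_right {u : E d → EuclideanSpace ℝ ι} {φ : E d → E d} {x : E d} {L : ℝ}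
    (hu : DifferentiableAt ℝ u (φ x)) (hφ : DifferentiableAt ℝ φ x) (hL : ‖fderiv ℝ φ x‖ ≤ L) :
    ‖Dv (fun y => u (φ y)) x‖ ≤ L * ‖Dv u (φ x)‖ := by
  have hL0 : 0 ≤ L := (norm_nonneg _).trans hL
  have h1 : ‖Dv (fun y => u (φ y)) x‖ ^ 2 ≤ (L * ‖Dv u (φ x)‖) ^ 2 := by
    have hc : DifferentiableAt ℝ (fun y => u (φ y)) x := hu.comp x hφ
    rw [mul_pow, norm_Dv_sq' hc, norm_Dv_sq' hu, Finset.mul_sum]
    refine Finset.sum_le_sum fun k _ => ?_
    rw [← mul_pow, norm_gradient_eq, norm_gradient_eq]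
    refine pow_le_pow_left₀ (norm_nonneg _) ?_ 2
    have h2 : fderiv ℝ (fun y => u (φ y) k) x =
        (fderiv ℝ (fun y => u y k) (φ x)).comp (fderiv ℝ φ x) :=
      ((differentiableAt_coord hu k).hasFDerivAt.comp x hφ.hasFDerivAt).fderiv
    rw [h2]
    calc ‖(fderiv ℝ (fun y => u y k) (φ x)).comp (fderiv ℝ φ x)‖
        ≤ ‖fderiv ℝ (fun y => u y k) (φ x)‖ * ‖fderiv ℝ φ x‖ :=
          ContinuousLinearMap.opNorm_comp_le _ _
      _ ≤ ‖fderiv ℝ (fun y => u y k) (φ x)‖ * L := mul_le_mul_of_nonneg_left hL (norm_nonneg _)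
      _ = L * ‖fderiv ℝ (fun y => u y k) (φ x)‖ := mul_comm _ _
  exact abs_le_of_sq_le_sq' h1 (mul_nonneg hL0 (norm_nonneg _)) |>.2

theorem lip_of_Dv {u : E d → EuclideanSpace ℝ ι} (hu : Differentiable ℝ u) {B : ℝ}
    (hB : ∀ x, ‖Dv u x‖ ≤ B) (x y : E d) : ‖u x - u y‖ ≤ B * ‖x - y‖ :=
  convex_univ.norm_image_sub_le_of_norm_fderiv_le (fun z _ => hu z)
    (fun z _ => (opNorm_le_Dv u z).trans (hB z)) (Set.mem_univ y) (Set.mem_univ x)

theorem Dv_add {u v : E d → EuclideanSpace ℝ ι} {x : E d} (hu : DifferentiableAt ℝ u x)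
    (hv : DifferentiableAt ℝ v x) : Dv (fun y => u y + v y) x = Dv u x + Dv v x := by
  ext p
  have h1 : fderiv ℝ (fun y => u y + v y) x = fderiv ℝ u x + fderiv ℝ v x :=
    (hu.hasFDerivAt.add hv.hasFDerivAt).fderiv
  rw [PiLp.add_apply, Dv_apply, Dv_apply, Dv_apply, h1]
  rfl

theorem Dv_sum {κ : Type} (s : Finset κ) {u : κ → E d → EuclideanSpace ℝ ι} {x : E d}
    (hu : ∀ j ∈ s, DifferentiableAt ℝ (u j) x) :
    Dv (fun y => ∑ j ∈ s, u j y) x = ∑ j ∈ s, Dv (u j) x := by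
  classical
  induction s using Finset.induction_on with
  | empty =>
    ext p
    have h1 : fderiv ℝ (fun y : E d => ∑ j ∈ (∅ : Finset κ), u j y) x = 0 := by
      simp
    rw [Dv_apply, h1, Finset.sum_empty]
    rfl
  | insert a s ha ih =>
    have h1 : ∀ j ∈ s, DifferentiableAt ℝ (u j) x := fun j hj =>
      hu j (Finset.mem_insert_of_mem hj)
    have h2 : DifferentiableAt ℝ (fun y => ∑ j ∈ s, u j y) x := DifferentiableAt.fun_sum h1
    rw [Finset.sum_insert ha, ← ih h1, ← Dv_add (hu a (Finset.mem_insert_self a s)) h2]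
    congr 1
    funext y
    rw [Finset.sum_insert ha]

theorem Dv_smul {u : E d → EuclideanSpace ℝ ι} {x : E d} (c : ℝ) (hu : DifferentiableAt ℝ u x) :
    Dv (fun y => c • u y) x = c • Dv u x := by
  ext p
  have h1 : fderiv ℝ (fun y => c • u y) x = c • fderiv ℝ u x :=
    (hu.hasFDerivAt.const_smul c).fderiv
  rw [PiLp.smul_apply, Dv_apply, Dv_apply, h1]
  rfl

theorem Dv_affine (u : E d → EuclideanSpace ℝ ι) (c x : E d) (s : ℝ) (hu : Differentiable ℝ u) :
    Dv (fun y => u (c + s • y)) x = s • Dv u (c + s • x) := by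
  ext p
  have h0 : HasFDerivAt (fun y : E d => c + s • y) (s • ContinuousLinearMap.id ℝ (E d)) x :=
    ((hasFDerivAt_id x).const_smul s).const_add c
  have h1 : fderiv ℝ (fun y => u (c + s • y)) x =
      (fderiv ℝ u (c + s • x)).comp (s • ContinuousLinearMap.id ℝ (E d)) :=
    ((hu (c + s • x)).hasFDerivAt.comp x h0).fderiv
  rw [PiLp.smul_apply, Dv_apply, Dv_apply, h1]
  have h2 : ((fderiv ℝ u (c + s • x)).comp (s • ContinuousLinearMap.id ℝ (E d)))
      (EuclideanSpace.single p.1 1) = s • fderiv ℝ u (c + s • x) (EuclideanSpace.single p.1 1) := by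
    rw [ContinuousLinearMap.comp_apply]
    exact map_smul (fderiv ℝ u (c + s • x)) s (EuclideanSpace.single p.1 1)
  rw [h2]
  rfl

/-- the real line as a Euclidean space -/
private noncomputable def scL : ℝ ≃L[ℝ] EuclideanSpace ℝ Unit :=
  (ContinuousLinearEquiv.funUnique Unit ℝ ℝ).symm.trans
    (PiLp.continuousLinearEquiv 2 ℝ (fun _ : Unit => ℝ)).symm

private theorem sc_eq (f : E d → ℝ) : sc f = scL ∘ f := by
  funext x
  ext k
  rfl

theorem Dv_sc (f : E d → ℝ) (x : E d) (i : Fin d) :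
    Dv (sc f) x (i, ()) = gradient f x i := by
  rw [gradient_coord, Dv_apply, sc_eq, ContinuousLinearEquiv.comp_fderiv]
  rfl

theorem norm_sc (f : E d → ℝ) (x : E d) : ‖sc f x‖ = |f x| := by
  rw [EuclideanSpace.norm_eq]
  simp [sc, Real.sqrt_sq_eq_abs]

theorem norm_Dv_sc (f : E d → ℝ) (x : E d) : ‖Dv (sc f) x‖ = ‖gradient f x‖ := by
  rw [EuclideanSpace.norm_eq, EuclideanSpace.norm_eq, Fintype.sum_prod_type]
  congr 1
  refine Finset.sum_congr rfl fun i _ => ?_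
  rw [Fintype.sum_unique]
  have h1 : Dv (sc f) x (i, default) = gradient f x i := Dv_sc f x i
  rw [h1]

/-- reindexing -/
private noncomputable def rI (d : ℕ) : E d ≃L[ℝ] EuclideanSpace ℝ (Fin d × Unit) :=
  (LinearIsometryEquiv.piLpCongrLeft 2 ℝ ℝ (Equiv.prodUnique (Fin d) Unit).symm).toContinuousLinearEquiv

private theorem rI_apply (v : E d) (i : Fin d) (k : Unit) : rI d v (i, k) = v i := by
  rfl

private theorem Dv_sc_eq (f : E d → ℝ) : Dv (sc f) = (rI d) ∘ (gradient f) := by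
  funext x
  ext p
  obtain ⟨i, k⟩ := p
  have h1 : Dv (sc f) x (i, k) = gradient f x i := Dv_sc f x i
  rw [h1]
  exact (rI_apply _ _ _).symm

private theorem DDv_sc (f : E d → ℝ) (x : E d) (j i : Fin d) (k : Unit) :
    Dv (Dv (sc f)) x (j, (i, k)) = Dv (gradient f) x (j, i) := by
  rw [Dv_apply, Dv_apply, Dv_sc_eq, ContinuousLinearEquiv.comp_fderiv]
  exact rI_apply _ _ _

theorem norm_DDv_sc {f : E d → ℝ} (hf : ContDiff ℝ 2 f) (x : E d) :
    ‖Dv (Dv (sc f)) x‖ = ‖Dv (gradient f) x‖ := by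
  rw [EuclideanSpace.norm_eq, EuclideanSpace.norm_eq, Fintype.sum_prod_type,
    Fintype.sum_prod_type]
  congr 1
  refine Finset.sum_congr rfl fun j _ => ?_
  rw [Fintype.sum_prod_type]
  refine Finset.sum_congr rfl fun i _ => ?_
  rw [Fintype.sum_unique, DDv_sc]

/-- modulus of continuity of the Hessian, in terms of `Dv (Dv (sc f))` -/
theorem norm_DDv_sc_sub {f : E d → ℝ} (hf : ContDiff ℝ 2 f) (x y : E d) :
    ‖Dv (gradient f) x - Dv (gradient f) y‖ = ‖Dv (Dv (sc f)) x - Dv (Dv (sc f)) y‖ := by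
  rw [EuclideanSpace.norm_eq, EuclideanSpace.norm_eq, Fintype.sum_prod_type,
    Fintype.sum_prod_type]
  congr 1
  refine Finset.sum_congr rfl fun j _ => ?_
  rw [Fintype.sum_prod_type]
  refine Finset.sum_congr rfl fun i _ => ?_
  rw [Fintype.sum_unique, PiLp.sub_apply, PiLp.sub_apply, DDv_sc, DDv_sc]

end Vale.Agent.P347
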