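import Vale.Agent.Lib.P347.CalcA

/-!
P347: basic facts on `CB` and `PG`.
-/

open MeasureTheory

namespace Vale.Agent.P347

variable {d : ℕ} {ι : Type} [Fintype ι]

/-- `Dv` as a linear function of the derivative -/
private noncomputable def calcB_L (d : ℕ) (ι : Type) [Fintype ι] :
    (E d →L[ℝ] EuclideanSpace ℝ ι) →ₗ[ℝ] EuclideanSpace ℝ (Fin d × ι) where
  toFun T := WithLp.toLp 2 (fun p => T (EuclideanSpace.single p.1 1) p.2)
  map_add' S T := by
    ext p
    simp
  map_smul' c T := by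
    ext p
    simp

private noncomputable def calcB_Lc (d : ℕ) (ι : Type) [Fintype ι] :
    (E d →L[ℝ] EuclideanSpace ℝ ι) →L[ℝ] EuclideanSpace ℝ (Fin d × ι) :=
  LinearMap.toContinuousLinearMap (calcB_L d ι)

private lemma calcB_Dv_eq (u : E d → EuclideanSpace ℝ ι) :
    Dv u = fun x => calcB_Lc d ι (fderiv ℝ u x) := rfl

private lemma calcB_L_inj : Function.Injective (calcB_L d ι) := by
  intro S T h
  apply ContinuousLinearMap.coe_injective
  refine (EuclideanSpace.basisFun (Fin d) ℝ).toBasis.ext fun i => ?_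
  ext k
  have h2 : calcB_L d ι S (i, k) = calcB_L d ι T (i, k) := by rw [h]
  simpa [calcB_L] using h2

private lemma calcB_exists_inv : ∃ K : EuclideanSpace ℝ (Fin d × ι) →L[ℝ]
    (E d →L[ℝ] EuclideanSpace ℝ ι), ∀ T, K (calcB_Lc d ι T) = T := by
  obtain ⟨g, hg⟩ := LinearMap.exists_leftInverse_of_injective (calcB_L d ι)
    (LinearMap.ker_eq_bot.2 calcB_L_inj)
  refine ⟨LinearMap.toContinuousLinearMap g, fun T => ?_⟩
  exact LinearMap.congr_fun hg T

theorem contDiff_Dv {k : ℕ} {u : E d → EuclideanSpace ℝ ι} (hu : ContDiff ℝ (k + 1 : ℕ) u) :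
    ContDiff ℝ k (Dv u) := by
  rw [calcB_Dv_eq]
  refine (calcB_Lc d ι).contDiff.comp (hu.fderiv_right ?_)
  push_cast
  exact le_rfl

/-- conversely, a `C^1` map whose `Dv` is `C^k` is `C^(k+1)` -/
theorem contDiff_of_Dv {k : ℕ} {u : E d → EuclideanSpace ℝ ι} (hu : ContDiff ℝ 1 u)
    (h : ContDiff ℝ k (Dv u)) : ContDiff ℝ (k + 1 : ℕ) u := by
  obtain ⟨K, hK⟩ := calcB_exists_inv (d := d) (ι := ι)
  have h2 : ContDiff ℝ k (fderiv ℝ u) := by
    have h3 : fderiv ℝ u = fun x => K (Dv u x) := by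
      funext x
      rw [calcB_Dv_eq]
      exact (hK _).symm
    rw [h3]
    exact K.contDiff.comp h
  have h4 : ContDiff ℝ ((k : WithTop ℕ∞) + 1) u := by
    rw [contDiff_succ_iff_fderiv]
    refine ⟨hu.differentiable one_ne_zero, ?_, h2⟩
    intro h5
    exact absurd h5 (by simp)
  exact_mod_cast h4

theorem CB.contDiff {k : ℕ} {u : E d → EuclideanSpace ℝ ι} (h : CB k u) : ContDiff ℝ k u := by
  induction k generalizing ι with
  | zero => exact_mod_cast contDiff_zero.2 h.1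
  | succ k ih =>
    rename_i inst
    exact contDiff_of_Dv h.1 (ih h.2.2)

theorem CB.bdd {k : ℕ} {u : E d → EuclideanSpace ℝ ι} (h : CB k u) : ∃ C, ∀ x, ‖u x‖ ≤ C := by
  cases k with
  | zero => exact h.2
  | succ k => exact h.2.1

theorem CB.dv {k : ℕ} {u : E d → EuclideanSpace ℝ ι} (h : CB (k + 1) u) : CB k (Dv u) := h.2.2

theorem CB.mono {k l : ℕ} (hkl : k ≤ l) {u : E d → EuclideanSpace ℝ ι} (h : CB l u) :
    CB k u := by
  induction k generalizing ι l with
  | zero => exact ⟨h.contDiff.continuous, h.bdd⟩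
  | succ k ih =>
    obtain ⟨l, rfl⟩ : ∃ m, l = m + 1 := ⟨l - 1, by omega⟩
    exact ⟨h.1, h.2.1, ih (by omega) h.2.2⟩

private lemma calcB_smul {k : ℕ} {u : E d → EuclideanSpace ℝ ι} (hu : CB k u) (c : ℝ) :
    CB k (fun y => c • u y) := by
  induction k generalizing ι with
  | zero =>
    obtain ⟨C, hC⟩ := hu.2
    refine ⟨hu.1.const_smul c, |c| * C, fun x => ?_⟩
    rw [norm_smul, Real.norm_eq_abs]
    exact mul_le_mul_of_nonneg_left (hC x) (abs_nonneg c)
  | succ k ih =>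
    obtain ⟨C, hC⟩ := hu.2.1
    refine ⟨hu.1.const_smul c, ⟨|c| * C, fun x => ?_⟩, ?_⟩
    · rw [norm_smul, Real.norm_eq_abs]
      exact mul_le_mul_of_nonneg_left (hC x) (abs_nonneg c)
    · have h : Dv (fun y => c • u y) = fun x => c • Dv u x := by
        funext x
        exact Dv_smul c (hu.1.differentiable one_ne_zero x)
      rw [h]
      exact ih hu.2.2

theorem CB.affine {k : ℕ} {u : E d → EuclideanSpace ℝ ι} (h : CB k u) (c : E d) (s : ℝ) :
    CB k (fun y => u (c + s • y)) := by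
  induction k generalizing ι with
  | zero =>
    obtain ⟨C, hC⟩ := h.2
    exact ⟨h.1.comp (by fun_prop), C, fun x => hC _⟩
  | succ k ih =>
    obtain ⟨C, hC⟩ := h.2.1
    refine ⟨h.1.comp (by fun_prop), ⟨C, fun x => hC _⟩, ?_⟩
    have h2 : Dv (fun y => u (c + s • y)) = fun x => s • Dv u (c + s • x) := by
      funext x
      exact Dv_affine u c x s (h.1.differentiable one_ne_zero)
    rw [h2]
    exact calcB_smul (ih h.2.2) s

theorem CB.add {k : ℕ} {u v : E d → EuclideanSpace ℝ ι} (hu : CB k u) (hv : CB k v) :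
    CB k (fun y => u y + v y) := by
  induction k generalizing ι with
  | zero =>
    obtain ⟨C, hC⟩ := hu.2
    obtain ⟨C', hC'⟩ := hv.2
    exact ⟨hu.1.add hv.1, C + C', fun x => (norm_add_le _ _).trans (add_le_add (hC x) (hC' x))⟩
  | succ k ih =>
    obtain ⟨C, hC⟩ := hu.2.1
    obtain ⟨C', hC'⟩ := hv.2.1
    refine ⟨hu.1.add hv.1, ⟨C + C', fun x => (norm_add_le _ _).trans (add_le_add (hC x) (hC' x))⟩, ?_⟩
    have h : Dv (fun y => u y + v y) = fun x => Dv u x + Dv v x := by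
      funext x
      exact Dv_add (hu.1.differentiable one_ne_zero x) (hv.1.differentiable one_ne_zero x)
    rw [h]
    exact ih hu.2.2 hv.2.2

theorem CB.smul {k : ℕ} {u : E d → EuclideanSpace ℝ ι} (hu : CB k u) (c : ℝ) :
    CB k (fun y => c • u y) := calcB_smul hu c

/-- bounded with `k` bounded derivatives, from `ContDiff` and bounds on `iteratedFDeriv` -/
theorem CB_of_iterated {k : ℕ} {u : E d → EuclideanSpace ℝ ι} (hu : ContDiff ℝ k u)
    (hb : ∀ m ≤ k, ∃ C, ∀ x, ‖iteratedFDeriv ℝ m u x‖ ≤ C) : CB k u := by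
  induction k generalizing ι with
  | zero =>
    obtain ⟨C, hC⟩ := hb 0 le_rfl
    refine ⟨hu.continuous, C, fun x => ?_⟩
    have := hC x
    rwa [norm_iteratedFDeriv_zero] at this
  | succ k ih =>
    obtain ⟨C, hC⟩ := hb 0 (Nat.zero_le _)
    refine ⟨hu.of_le (by push_cast; exact le_add_self), ⟨C, fun x => ?_⟩, ?_⟩
    · have := hC x
      rwa [norm_iteratedFDeriv_zero] at this
    · refine ih (contDiff_Dv hu) (fun m hm => ?_)
      obtain ⟨D, hD⟩ := hb (m + 1) (by omega)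
      have hf : ContDiff ℝ k (fderiv ℝ u) := hu.fderiv_right (by push_cast; exact le_rfl)
      refine ⟨‖calcB_Lc d ι‖ * D, fun x => ?_⟩
      rw [calcB_Dv_eq]
      have h1 := (calcB_Lc d ι).norm_iteratedFDeriv_comp_left (f := fderiv ℝ u) (x := x)
        (hf.contDiffAt) (n := m) (by exact_mod_cast hm)
      refine h1.trans (mul_le_mul_of_nonneg_left ?_ (norm_nonneg _))
      rw [norm_iteratedFDeriv_fderiv]
      exact hD x

/-- the linear map `w ↦ (i ↦ M (w (i, ·)))` -/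
private noncomputable def calcB_M (d : ℕ) {ι κ : Type} [Fintype ι] [Fintype κ]
    (M : EuclideanSpace ℝ ι →L[ℝ] EuclideanSpace ℝ κ) :
    EuclideanSpace ℝ (Fin d × ι) →ₗ[ℝ] EuclideanSpace ℝ (Fin d × κ) where
  toFun w := WithLp.toLp 2 (fun p => M (WithLp.toLp 2 (fun k => w (p.1, k))) p.2)
  map_add' v w := by
    ext p
    have h : (WithLp.toLp 2 (fun k => (v + w) (p.1, k)) : EuclideanSpace ℝ ι)
        = WithLp.toLp 2 (fun k => v (p.1, k)) + WithLp.toLp 2 (fun k => w (p.1, k)) := rfl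
    show M (WithLp.toLp 2 (fun k => (v + w) (p.1, k))) p.2 = _
    rw [h, map_add]
    rfl
  map_smul' c w := by
    ext p
    have h : (WithLp.toLp 2 (fun k => (c • w) (p.1, k)) : EuclideanSpace ℝ ι)
        = c • WithLp.toLp 2 (fun k => w (p.1, k)) := rfl
    show M (WithLp.toLp 2 (fun k => (c • w) (p.1, k))) p.2 = _
    rw [h, map_smul]
    rfl

private lemma calcB_comp {κ : Type} [Fintype κ] {k : ℕ} {u : E d → EuclideanSpace ℝ ι} (hu : CB k u)
    (M : EuclideanSpace ℝ ι →L[ℝ] EuclideanSpace ℝ κ) : CB k (fun y => M (u y)) := by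
  induction k generalizing ι κ with
  | zero =>
    obtain ⟨C, hC⟩ := hu.2
    refine ⟨M.continuous.comp hu.1, ‖M‖ * C, fun x => ?_⟩
    exact (M.le_opNorm _).trans (mul_le_mul_of_nonneg_left (hC x) (norm_nonneg _))
  | succ k ih =>
    obtain ⟨C, hC⟩ := hu.2.1
    refine ⟨M.contDiff.comp hu.1, ⟨‖M‖ * C, fun x => ?_⟩, ?_⟩
    · exact (M.le_opNorm _).trans (mul_le_mul_of_nonneg_left (hC x) (norm_nonneg _))
    · have h : Dv (fun y => M (u y)) =
          fun x => LinearMap.toContinuousLinearMap (calcB_M d M) (Dv u x) := by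
        funext x
        ext p
        have h1 : fderiv ℝ (fun y => M (u y)) x = M.comp (fderiv ℝ u x) :=
          (M.hasFDerivAt.comp x (hu.1.differentiable one_ne_zero x).hasFDerivAt).fderiv
        show fderiv ℝ (fun y => M (u y)) x (EuclideanSpace.single p.1 1) p.2 = _
        rw [h1]
        rfl
      rw [h]
      exact ih hu.2.2 _

/-- the linear map `w ↦ (i ↦ w (i, ()))` -/
private noncomputable def calcB_G (d : ℕ) :
    EuclideanSpace ℝ (Fin d × Unit) →ₗ[ℝ] EuclideanSpace ℝ (Fin d) where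
  toFun w := WithLp.toLp 2 (fun i => w (i, ()))
  map_add' _ _ := rfl
  map_smul' _ _ := rfl

theorem CB.gradient {f : E d → ℝ} {k : ℕ} (h : CB (k + 1) (sc f)) : CB k (gradient f) := by
  have h1 : _root_.gradient f = fun x => LinearMap.toContinuousLinearMap (calcB_G d) (Dv (sc f) x) := by
    funext x
    ext i
    exact (Dv_sc f x i).symm
  rw [h1]
  exact calcB_comp h.2.2 _

theorem CB.contDiff_of_sc {f : E d → ℝ} {k : ℕ} (h : CB k (sc f)) : ContDiff ℝ k f := by
  have h1 : f = fun x => EuclideanSpace.proj (𝕜 := ℝ) () (sc f x) := rfl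
  rw [h1]
  exact (EuclideanSpace.proj (𝕜 := ℝ) ()).contDiff.comp h.contDiff

private lemma calcB_nonneg {F : Type} [NormedAddCommGroup F] {u : E d → F} {C : ℝ} {p : ℕ}
    (h : ∀ x, ‖u x‖ ≤ C * (1 + ‖x‖) ^ p) : 0 ≤ C := by
  have h0 := (norm_nonneg (u 0)).trans (h 0)
  simpa using h0

private lemma calcB_one_le (x : E d) (p : ℕ) : 1 ≤ (1 + ‖x‖) ^ p :=
  one_le_pow₀ (by linarith [norm_nonneg x])

private lemma calcB_pow_le (x : E d) {p q : ℕ} (h : p ≤ q) : (1 + ‖x‖) ^ p ≤ (1 + ‖x‖) ^ q :=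
  pow_le_pow_right₀ (by linarith [norm_nonneg x]) h

theorem PG.of_bdd {F : Type} [NormedAddCommGroup F] {u : E d → F} {C : ℝ} (h : ∀ x, ‖u x‖ ≤ C) :
    PG u := ⟨C, 0, fun x => by rw [pow_zero, mul_one]; exact h x⟩

theorem PG.add {F : Type} [NormedAddCommGroup F] {u v : E d → F} (hu : PG u) (hv : PG v) :
    PG (fun x => u x + v x) := by
  obtain ⟨C, p, hC⟩ := hu
  obtain ⟨C', q, hC'⟩ := hv
  refine ⟨C + C', p + q, fun x => ?_⟩
  have h1 := mul_le_mul_of_nonneg_left (calcB_pow_le x (Nat.le_add_right p q)) (calcB_nonneg hC)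
  have h2 := mul_le_mul_of_nonneg_left (calcB_pow_le x (Nat.le_add_left q p)) (calcB_nonneg hC')
  calc ‖u x + v x‖ ≤ ‖u x‖ + ‖v x‖ := norm_add_le _ _
    _ ≤ C * (1 + ‖x‖) ^ (p + q) + C' * (1 + ‖x‖) ^ (p + q) :=
      add_le_add ((hC x).trans h1) ((hC' x).trans h2)
    _ = (C + C') * (1 + ‖x‖) ^ (p + q) := by ring

theorem PG.sub {F : Type} [NormedAddCommGroup F] {u v : E d → F} (hu : PG u) (hv : PG v) :
    PG (fun x => u x - v x) := by
  have hv' : PG (fun x => - v x) := by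
    obtain ⟨C, p, hC⟩ := hv
    exact ⟨C, p, fun x => by rw [norm_neg]; exact hC x⟩
  have h := hu.add hv'
  simpa only [sub_eq_add_neg] using h

theorem PG.smul {F : Type} [NormedAddCommGroup F] [NormedSpace ℝ F] {f : E d → ℝ} {u : E d → F}
    (hf : PG f) (hu : PG u) : PG (fun x => f x • u x) := by
  obtain ⟨C, p, hC⟩ := hf
  obtain ⟨C', q, hC'⟩ := hu
  refine ⟨C * C', p + q, fun x => ?_⟩
  have h0 : 0 ≤ C * (1 + ‖x‖) ^ p := (norm_nonneg _).trans (hC x)
  calc ‖f x • u x‖ = ‖f x‖ * ‖u x‖ := norm_smul _ _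
    _ ≤ (C * (1 + ‖x‖) ^ p) * (C' * (1 + ‖x‖) ^ q) :=
      mul_le_mul (hC x) (hC' x) (norm_nonneg _) h0
    _ = C * C' * (1 + ‖x‖) ^ (p + q) := by ring

theorem PG.mul {f g : E d → ℝ} (hf : PG f) (hg : PG g) : PG (fun x => f x * g x) :=
  hf.smul hg

theorem PG.norm {F : Type} [NormedAddCommGroup F] {u : E d → F} (hu : PG u) :
    PG (fun x => ‖u x‖) := by
  obtain ⟨C, p, hC⟩ := hu
  exact ⟨C, p, fun x => by rw [norm_norm]; exact hC x⟩

theorem PG.pow {f : E d → ℝ} (hf : PG f) (n : ℕ) : PG (fun x => f x ^ n) := by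
  induction n with
  | zero => exact PG.of_bdd (C := 1) (fun x => by simp)
  | succ n ih =>
    have h := ih.mul hf
    simpa only [pow_succ] using h

theorem PG.mono {F F' : Type} [NormedAddCommGroup F] [NormedAddCommGroup F'] {u : E d → F}
    {v : E d → F'} (hu : PG u) (h : ∀ x, ‖v x‖ ≤ ‖u x‖) : PG v := by
  obtain ⟨C, p, hC⟩ := hu
  exact ⟨C, p, fun x => (h x).trans (hC x)⟩

theorem PG.apply {u : E d → EuclideanSpace ℝ ι} (hu : PG u) (k : ι) : PG (fun x => u x k) :=
  hu.mono (fun x => PiLp.norm_apply_le (u x) k)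

theorem PG_id : PG (fun x : E d => x) :=
  ⟨1, 1, fun x => by rw [pow_one, one_mul]; linarith⟩

theorem PG_inner (e : E d) : PG (fun x : E d => inner ℝ x e) := by
  refine ⟨‖e‖, 1, fun x => ?_⟩
  rw [pow_one]
  have h := norm_inner_le_norm (𝕜 := ℝ) x e
  nlinarith [norm_nonneg e, norm_nonneg x]

end Vale.Agent.P347
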