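import Vale.Agent.Lib.P347.RGf

/-!
P347: scaling of the restricted Gaussian law.

Proofs. With `x = cen V h y + √h ξ`: `Gy ξ = V x + |x - y|^2/(2h) - |ξ|^2/2`; the quadratic part
`|x - y|^2/(2h) - |ξ|^2/2 = |√h ξ - h gradient V y|^2/(2h) - |ξ|^2/2` is affine in `ξ` and its gradient is
`- √h gradient V y`. So `gradient Gy = Fy` and the Hessian is `h` times that of `V` at `x`, between
`h` and `2h`. `|Fy 0| = √h |gradient V (y - h gradient V y) - gradient V y| ≤ √h 2 h |gradient V y|`.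
Image of the tilted measure under the affine map (change of variables; Lebesgue measure is scaled
by a constant, which disappears in the normalisation).
-/

open MeasureTheory ProbabilityTheory

namespace Vale.Agent.P347

variable {d : ℕ} {V : E d → ℝ} {h : ℝ}

private theorem Scale_smooth (hV : Pot d V) (y : E d) : ContDiff ℝ 2 (Gy V h y) := by
  have h1 : ContDiff ℝ 2 (fun ξ : E d => cen V h y + √h • ξ) :=
    contDiff_const.add (contDiff_id.const_smul (√h))
  have h2 : ContDiff ℝ 2 (fun ξ : E d => V (cen V h y + √h • ξ)) := hV.smooth.comp h1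
  have h3 : ContDiff ℝ 2 (fun ξ : E d => ‖cen V h y + √h • ξ - y‖ ^ 2 / (2 * h)) :=
    ((h1.sub contDiff_const).norm_sq ℝ).div_const _
  have h4 : ContDiff ℝ 2 (fun ξ : E d => ‖ξ‖ ^ 2 / 2) :=
    (contDiff_id.norm_sq ℝ).div_const _
  exact (h2.add h3).sub h4

private theorem Scale_Gy_eq (hh : 0 < h) (y : E d) : Gy V h y = fun ξ =>
    V (cen V h y + √h • ξ) + (h * ‖gradient V y‖ ^ 2 / 2 - √h * inner ℝ (gradient V y) ξ) := by
  funext ξ
  unfold Gy
  have e1 : cen V h y + √h • ξ - y = √h • ξ - h • gradient V y := by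
    unfold cen
    abel
  have hs : √h * √h = h := Real.mul_self_sqrt hh.le
  have e2 : ‖√h • ξ - h • gradient V y‖ ^ 2 =
      h * ‖ξ‖ ^ 2 - 2 * (h * √h * inner ℝ (gradient V y) ξ) + h ^ 2 * ‖gradient V y‖ ^ 2 := by
    rw [norm_sub_sq_real, norm_smul, norm_smul, inner_smul_left, inner_smul_right,
      Real.norm_eq_abs, Real.norm_eq_abs, abs_of_pos hh, abs_of_pos (Real.sqrt_pos.2 hh),
      real_inner_comm (gradient V y) ξ, mul_pow, mul_pow, Real.sq_sqrt hh.le]
    simp only [conj_trivial]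
    ring
  rw [e1, e2]
  field_simp
  ring

private theorem Scale_hasGradient (hV : Pot d V) (hh : 0 < h) (y ξ : E d) :
    HasGradientAt (Gy V h y) (Fy V h y ξ) ξ := by
  rw [Scale_Gy_eq hh y, hasGradientAt_iff_hasFDerivAt]
  have hdV : Differentiable ℝ V := hV.smooth.differentiable (by norm_num)
  have h1 : HasFDerivAt (fun ξ : E d => cen V h y + √h • ξ)
      (√h • ContinuousLinearMap.id ℝ (E d)) ξ :=
    ((hasFDerivAt_id ξ).const_smul (√h)).const_add _
  have h2 : HasFDerivAt (fun ξ : E d => V (cen V h y + √h • ξ))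
      ((fderiv ℝ V (cen V h y + √h • ξ)).comp (√h • ContinuousLinearMap.id ℝ (E d))) ξ :=
    (hdV _).hasFDerivAt.comp ξ h1
  have h3 : HasFDerivAt (fun ξ : E d => √h * inner ℝ (gradient V y) ξ)
      (√h • innerSL ℝ (gradient V y)) ξ :=
    (innerSL ℝ (gradient V y)).hasFDerivAt.const_mul (√h)
  have h4 := h2.add ((h3.const_sub (h * ‖gradient V y‖ ^ 2 / 2)))
  refine h4.congr_fderiv ?_
  ext v
  have e1 : ∀ x v : E d, fderiv ℝ V x v = inner ℝ (gradient V x) v := fun x v =>
    (Conv.inner_grad V x v).symm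
  simp only [_root_.add_apply, _root_.neg_apply, _root_.smul_apply,
    ContinuousLinearMap.comp_apply, ContinuousLinearMap.id_apply, smul_eq_mul,
    innerSL_apply_apply, InnerProductSpace.toDual_apply_apply, Fy, real_inner_smul_left,
    real_inner_smul_right, inner_sub_left, e1]
  ring

theorem gradient_Gy (hV : Pot d V) (hh : 0 < h) (y : E d) : gradient (Gy V h y) = Fy V h y := by
  funext ξ
  exact (Scale_hasGradient hV hh y ξ).gradient

theorem Gy_pert (hV : Pot d V) (hh : 0 < h) (y : E d) : Pert d (2 * h) (Gy V h y) := by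
  have hsm := Scale_smooth (h := h) hV y
  have hs : √h * √h = h := Real.mul_self_sqrt hh.le
  have key : ∀ ξ v : E d, fderiv ℝ (fderiv ℝ (Gy V h y)) ξ v v =
      h * fderiv ℝ (fderiv ℝ V) (cen V h y + √h • ξ) v v := by
    intro ξ v
    rw [← Conv.fderiv_grad hsm, gradient_Gy hV hh y, ← Conv.fderiv_grad hV.smooth]
    have h1 : HasFDerivAt (fun ξ : E d => cen V h y + √h • ξ)
        (√h • ContinuousLinearMap.id ℝ (E d)) ξ :=
      ((hasFDerivAt_id ξ).const_smul (√h)).const_add _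
    have h2 : HasFDerivAt (fun ξ : E d => gradient V (cen V h y + √h • ξ))
        ((fderiv ℝ (gradient V) (cen V h y + √h • ξ)).comp
          (√h • ContinuousLinearMap.id ℝ (E d))) ξ :=
      (Conv.differentiable_grad hV.smooth _).hasFDerivAt.comp ξ h1
    have h3 : HasFDerivAt (Fy V h y) (√h • ((fderiv ℝ (gradient V) (cen V h y + √h • ξ)).comp
          (√h • ContinuousLinearMap.id ℝ (E d)))) ξ :=
      (h2.sub_const (gradient V y)).const_smul (√h)
    rw [h3.fderiv]
    simp only [_root_.smul_apply, ContinuousLinearMap.comp_apply,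
      ContinuousLinearMap.id_apply, map_smul, smul_smul, hs, inner_smul_left, conj_trivial]
  refine ⟨hsm, fun ξ v => ?_, fun ξ v => ?_⟩
  · rw [key]
    have h1 := hV.lower (cen V h y + √h • ξ) v
    have h2 : 0 ≤ ‖v‖ ^ 2 := sq_nonneg _
    exact mul_nonneg hh.le (h2.trans h1)
  · rw [key]
    have h1 := hV.upper (cen V h y + √h • ξ) v
    nlinarith

theorem Fy_zero_le (hV : Pot d V) (hh : 0 < h) (y : E d) :
    ‖Fy V h y 0‖ ≤ 4 * (h * √h) * ‖y‖ := by
  unfold Fy
  rw [smul_zero, add_zero, norm_smul, Real.norm_eq_abs, abs_of_pos (Real.sqrt_pos.2 hh)]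
  have h1 := hV.lip (cen V h y) y
  have h2 : ‖cen V h y - y‖ = h * ‖gradient V y‖ := by
    unfold cen
    rw [sub_sub_cancel_left, norm_neg, norm_smul, Real.norm_eq_abs, abs_of_pos hh]
  have h3 := hV.norm_grad_le y
  rw [h2] at h1
  have h4 : ‖gradient V (cen V h y) - gradient V y‖ ≤ 4 * h * ‖y‖ := by
    have h5 : h * ‖gradient V y‖ ≤ h * (2 * ‖y‖) := mul_le_mul_of_nonneg_left h3 hh.le
    linarith
  calc √h * ‖gradient V (cen V h y) - gradient V y‖ ≤ √h * (4 * h * ‖y‖) :=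
        mul_le_mul_of_nonneg_left h4 (Real.sqrt_nonneg h)
    _ = 4 * (h * √h) * ‖y‖ := by ring

private theorem Scale_cov (hh : 0 < h) (c : E d) {F : Type} [NormedAddCommGroup F]
    [NormedSpace ℝ F] (f : E d → F) :
    ∫ ξ, f (c + √h • ξ) = |(√h ^ (Module.finrank ℝ (E d)))⁻¹| • ∫ x, f x := by
  have h1 := Measure.integral_comp_smul (volume : Measure (E d)) (fun z => f (c + z)) (√h)
  rw [h1]
  congr 1
  exact integral_add_left_eq_self f c

theorem Rop_eq_unit (hV : Pot d V) (hh : 0 < h) (y : E d) {F : Type} [NormedAddCommGroup F]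
    [NormedSpace ℝ F] (u : E d → F) :
    Rop (pertOf V) h u y = ∫ ξ, u (cen V h y + √h • ξ) ∂(nuG (Gy V h y)) := by
  unfold Rop RG nuG
  rw [SC.integral_tilted, SC.integral_tilted]
  have e1 : ∀ x : E d, ‖x‖ ^ 2 / 2 + pertOf V x + ‖x - y‖ ^ 2 / (2 * h) =
      V x + ‖x - y‖ ^ 2 / (2 * h) := by
    intro x
    unfold pertOf
    ring
  have e2 : ∀ ξ : E d, ‖ξ‖ ^ 2 / 2 + Gy V h y ξ = V (cen V h y + √h • ξ) +
      ‖cen V h y + √h • ξ - y‖ ^ 2 / (2 * h) := by
    intro ξ
    unfold Gy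
    ring
  simp only [e1, e2]
  rw [Scale_cov hh (cen V h y) (fun x => Real.exp (-(V x + ‖x - y‖ ^ 2 / (2 * h)))),
    Scale_cov hh (cen V h y) (fun x => Real.exp (-(V x + ‖x - y‖ ^ 2 / (2 * h))) • u x)]
  have hK : |(√h ^ (Module.finrank ℝ (E d)))⁻¹| ≠ 0 := by
    have := Real.sqrt_pos.2 hh
    positivity
  rw [smul_eq_mul, mul_inv, smul_smul]
  congr 1
  rw [mul_comm (|(√h ^ (Module.finrank ℝ (E d)))⁻¹|⁻¹) _, mul_assoc, inv_mul_cancel₀ hK, mul_one]

end Vale.Agent.P347
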