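import Vale.Agent.Lib.P347.Gauss
import Vale.Agent.Lib.P347.Scale

/-!
P347: total variation between the standard Gaussian law and a small perturbation; last step.

Proof of `tv_gauss`. Let `ν_s = nuG (s G)`, `0 ≤ s ≤ 1`. `d/ds ∫ f dν_s = - Cov_{ν_s} (f, G)`
(differentiate numerator and normalising constant under the integral sign, domination by
`SC.integrable_exp_smul` for the extreme cases), and `|Cov| ≤ √(Var f) √(Var G) ≤ √(Var G)`,
`Var G ≤ E_{ν_s} |gradient G|^2` (`nuG_poinc_scalar`), `|gradient G x| ≤ m0 + a |x|`, and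
`E_{ν_s} |x|^2 ≤ (√d + m0)^2`: by `nuG_ibp` `E ⟨x, x + s gradient G x⟩ = d` and
`⟨x, gradient G x⟩ ≥ - m0 |x|`. So the derivative is at most `m0 + a (√d + m0) ≤ 2 m0 + a √d`.
Integrate over `[0,1]` (mean value inequality).
`last_err`: `tv_gauss` for `Gy V h y` with `a = 2h` and `Rop_eq_unit`.
-/

open MeasureTheory ProbabilityTheory
open scoped RealInnerProductSpace

namespace Vale.Agent.P347

private theorem tvg_gradient_smul {d : ℕ} {a : ℝ} {G : E d → ℝ} (hG : Pert d a G) (s : ℝ)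
    (x : E d) : gradient (fun x => s * G x) x = s • gradient G x := by
  apply ext_inner_right ℝ
  intro v
  rw [Conv.inner_grad, inner_smul_left, Conv.inner_grad,
    fderiv_const_mul ((hG.smooth.differentiable (by norm_num)) x) s]
  simp

private theorem tvg_abs_moment {d : ℕ} {a : ℝ} {G : E d → ℝ} (hG : Pert d a G) :
    (∫ x, ‖x‖ ∂(nuG G)) ≤ √(∫ x, ‖x‖ ^ 2 ∂(nuG G)) := by
  haveI := nuG_isProb hG
  have i1 : Integrable (fun x : E d => ‖x‖) (nuG G) :=
    nuG_integrable hG continuous_norm.aestronglyMeasurable PG_id.norm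
  have i2 : Integrable (fun x : E d => ‖x‖ ^ 2) (nuG G) :=
    nuG_integrable hG (continuous_norm.pow 2).aestronglyMeasurable (PG_id.norm.pow 2)
  apply Real.le_sqrt_of_sq_le
  set m := ∫ x, ‖x‖ ∂(nuG G) with hm
  have h0 : 0 ≤ ∫ x, (‖x‖ - m) ^ 2 ∂(nuG G) := integral_nonneg fun x => sq_nonneg _
  have e1 : ∀ x : E d, (‖x‖ - m) ^ 2 = ‖x‖ ^ 2 + ((-2 * m) * ‖x‖ + m ^ 2) := by
    intro x; ring
  simp only [e1] at h0
  have i4 : Integrable (fun x : E d => (-2 * m) * ‖x‖ + m ^ 2) (nuG G) :=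
    (i1.const_mul _).add (integrable_const _)
  rw [integral_add i2 i4,
    integral_add (i1.const_mul _) (integrable_const _), integral_const_mul, ← hm] at h0
  simp only [integral_const, probReal_univ, one_smul] at h0
  nlinarith [h0]

private theorem tvg_moment {d : ℕ} {a : ℝ} {G : E d → ℝ} (ha0 : 0 ≤ a) (hG : Pert d a G) :
    √(∫ x, ‖x‖ ^ 2 ∂(nuG G)) ≤ √d + ‖gradient G 0‖ := by
  haveI := nuG_isProb hG
  have hgc : Continuous (gradient G) := hG.grad_contDiff.continuous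
  have hgp : PG (gradient G) := hG.PG_grad ha0
  have hi : ∀ i : Fin d, ∫ x, (x i + gradient G x i) * x i ∂(nuG G) = 1 := by
    intro i
    have hL : ∀ x : E d, fderiv ℝ (fun x : E d => x i) x =
        (EuclideanSpace.proj (𝕜 := ℝ) i : E d →L[ℝ] ℝ) := by
      intro x
      exact (EuclideanSpace.proj (𝕜 := ℝ) i : E d →L[ℝ] ℝ).hasFDerivAt.fderiv
    have hc : ContDiff ℝ 1 (fun x : E d => x i) :=
      (EuclideanSpace.proj (𝕜 := ℝ) i : E d →L[ℝ] ℝ).contDiff
    have h := nuG_ibp ha0 hG (u := fun x : E d => x i) hc (PG_id.apply i)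
      (by
        simp only [hL]
        exact PG.of_bdd (C := ‖(EuclideanSpace.proj (𝕜 := ℝ) i : E d →L[ℝ] ℝ)‖) fun _ => le_rfl)
      (EuclideanSpace.single i 1)
    simp only [hL] at h
    have e1 : ∀ x : E d, (⟪x, EuclideanSpace.single i 1⟫ + ⟪gradient G x, EuclideanSpace.single i 1⟫)
        • (x i) = (x i + gradient G x i) * x i := by
      intro x
      rw [EuclideanSpace.inner_single_right, EuclideanSpace.inner_single_right, smul_eq_mul]
      simp
    simp only [e1] at h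
    rw [← h]
    simp
  have hsum : ∫ x, (‖x‖ ^ 2 + ⟪gradient G x, x⟫) ∂(nuG G) = d := by
    have e1 : ∀ x : E d, ‖x‖ ^ 2 + ⟪gradient G x, x⟫ = ∑ i, (x i + gradient G x i) * x i := by
      intro x
      rw [EuclideanSpace.norm_sq_eq, PiLp.inner_apply, ← Finset.sum_add_distrib]
      refine Finset.sum_congr rfl fun i _ => ?_
      simp only [Real.norm_eq_abs, sq_abs, RCLike.inner_apply, conj_trivial]
      ring
    simp only [e1]
    rw [integral_finsetSum]
    · simp only [hi]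
      simp
    · intro i _
      refine nuG_integrable hG ?_ ?_
      · have c1 : Continuous (fun x : E d => x i) :=
          (EuclideanSpace.proj (𝕜 := ℝ) i : E d →L[ℝ] ℝ).continuous
        exact ((c1.add (c1.comp hgc)).mul c1).aestronglyMeasurable
      · exact ((PG_id.apply i).add (hgp.apply i)).mul (PG_id.apply i)
  have i1 : Integrable (fun x : E d => ‖x‖) (nuG G) :=
    nuG_integrable hG continuous_norm.aestronglyMeasurable PG_id.norm
  have i2 : Integrable (fun x : E d => ‖x‖ ^ 2) (nuG G) :=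
    nuG_integrable hG (continuous_norm.pow 2).aestronglyMeasurable (PG_id.norm.pow 2)
  have i3 : Integrable (fun x : E d => ‖x‖ ^ 2 + ⟪gradient G x, x⟫) (nuG G) := by
    refine i2.add (nuG_integrable hG (hgc.inner continuous_id).aestronglyMeasurable ?_)
    refine PG.mono (hgp.norm.mul PG_id.norm) fun x => ?_
    rw [norm_mul, norm_norm, norm_norm]
    exact norm_inner_le_norm _ _
  have hlow : (∫ x, ‖x‖ ^ 2 ∂(nuG G)) - ‖gradient G 0‖ * ∫ x, ‖x‖ ∂(nuG G) ≤ d := by
    rw [← hsum, ← integral_const_mul, ← integral_sub i2 (i1.const_mul _)]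
    refine integral_mono (i2.sub (i1.const_mul _)) i3 fun x => ?_
    have h1 := hG.mono x 0
    rw [sub_zero, inner_sub_left] at h1
    have h2 := (abs_le.1 (abs_real_inner_le_norm (gradient G 0) x)).1
    show ‖x‖ ^ 2 - ‖gradient G 0‖ * ‖x‖ ≤ ‖x‖ ^ 2 + ⟪gradient G x, x⟫
    linarith
  have hM := tvg_abs_moment hG
  set M := √(∫ x, ‖x‖ ^ 2 ∂(nuG G)) with hMd
  have hM0 : 0 ≤ M := Real.sqrt_nonneg _
  have hM2 : M ^ 2 = ∫ x, ‖x‖ ^ 2 ∂(nuG G) :=
    Real.sq_sqrt (integral_nonneg fun x => sq_nonneg _)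
  have hg0 := norm_nonneg (gradient G 0)
  have h3 : M ^ 2 - ‖gradient G 0‖ * M ≤ d := by
    rw [hM2]
    have := mul_le_mul_of_nonneg_left hM hg0
    linarith
  by_contra hcon
  push Not at hcon
  have hd0 : 0 ≤ √(d : ℝ) := Real.sqrt_nonneg _
  have hd2 : √(d : ℝ) ^ 2 = d := Real.sq_sqrt (Nat.cast_nonneg d)
  nlinarith

private theorem tvg_grad_moment {d : ℕ} {a s : ℝ} {G : E d → ℝ} (ha0 : 0 ≤ a) (ha1 : a ≤ 1)
    (hG : Pert d a G) (hs : 0 ≤ s) (hs1 : s ≤ 1) :
    ∫ x, ‖gradient G x‖ ^ 2 ∂(nuG (fun x => s * G x)) ≤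
      (2 * ‖gradient G 0‖ + a * √d) ^ 2 := by
  have hS := hG.smul hs hs1
  haveI := nuG_isProb hS
  have i1 : Integrable (fun x : E d => ‖x‖) (nuG (fun x => s * G x)) :=
    nuG_integrable hS continuous_norm.aestronglyMeasurable PG_id.norm
  have i2 : Integrable (fun x : E d => ‖x‖ ^ 2) (nuG (fun x => s * G x)) :=
    nuG_integrable hS (continuous_norm.pow 2).aestronglyMeasurable (PG_id.norm.pow 2)
  have hgc : Continuous (gradient G) := hG.grad_contDiff.continuous
  have hgp : PG (gradient G) := hG.PG_grad ha0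
  have i3 : Integrable (fun x : E d => ‖gradient G x‖ ^ 2) (nuG (fun x => s * G x)) :=
    nuG_integrable hS (hgc.norm.pow 2).aestronglyMeasurable (hgp.norm.pow 2)
  have hM := tvg_moment ha0 hS
  have hA := tvg_abs_moment hS
  have hn0 : ‖gradient (fun x => s * G x) 0‖ ≤ ‖gradient G 0‖ := by
    rw [tvg_gradient_smul hG, norm_smul, Real.norm_eq_abs, abs_of_nonneg hs]
    have := norm_nonneg (gradient G 0)
    nlinarith
  set M := √(∫ x, ‖x‖ ^ 2 ∂(nuG (fun x => s * G x))) with hMd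
  have hM0 : 0 ≤ M := Real.sqrt_nonneg _
  have hM2 : M ^ 2 = ∫ x, ‖x‖ ^ 2 ∂(nuG (fun x => s * G x)) :=
    Real.sq_sqrt (integral_nonneg fun x => sq_nonneg _)
  set m := ‖gradient G 0‖ with hm
  have hm0 : 0 ≤ m := norm_nonneg _
  have i4 : Integrable (fun x : E d => (2 * a * m) * ‖x‖ + a ^ 2 * ‖x‖ ^ 2)
      (nuG (fun x => s * G x)) := (i1.const_mul _).add (i2.const_mul _)
  have i5 : Integrable (fun x : E d => m ^ 2 + ((2 * a * m) * ‖x‖ + a ^ 2 * ‖x‖ ^ 2))
      (nuG (fun x => s * G x)) := (integrable_const _).add i4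
  have h1 : ∫ x, ‖gradient G x‖ ^ 2 ∂(nuG (fun x => s * G x)) ≤
      ∫ x, (m ^ 2 + ((2 * a * m) * ‖x‖ + a ^ 2 * ‖x‖ ^ 2)) ∂(nuG (fun x => s * G x)) := by
    refine integral_mono i3 i5
      fun x => ?_
    show ‖gradient G x‖ ^ 2 ≤ m ^ 2 + ((2 * a * m) * ‖x‖ + a ^ 2 * ‖x‖ ^ 2)
    have h2 := hG.lip ha0 x 0
    rw [sub_zero] at h2
    have h3 : ‖gradient G x‖ ≤ ‖gradient G x - gradient G 0‖ + ‖gradient G 0‖ := by
      have := norm_add_le (gradient G x - gradient G 0) (gradient G 0)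
      rwa [sub_add_cancel] at this
    have h4 : ‖gradient G x‖ ≤ m + a * ‖x‖ := by linarith
    calc ‖gradient G x‖ ^ 2 ≤ (m + a * ‖x‖) ^ 2 :=
          pow_le_pow_left₀ (norm_nonneg _) h4 2
      _ = _ := by ring
  rw [integral_add (integrable_const _) i4,
    integral_add (i1.const_mul _) (i2.const_mul _), integral_const_mul, integral_const_mul,
    ← hM2] at h1
  simp only [integral_const, probReal_univ, one_smul] at h1
  have h5 : (2 * a * m) * ∫ x, ‖x‖ ∂(nuG (fun x => s * G x)) ≤ (2 * a * m) * M :=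
    mul_le_mul_of_nonneg_left hA (by positivity)
  have h6 : M ≤ √d + m := hM.trans (by linarith)
  have h7 : m + a * M ≤ 2 * m + a * √d := by
    have := mul_le_mul_of_nonneg_left h6 ha0
    nlinarith
  have h8 : (m + a * M) ^ 2 = m ^ 2 + ((2 * a * m) * M + a ^ 2 * M ^ 2) := by ring
  calc ∫ x, ‖gradient G x‖ ^ 2 ∂(nuG (fun x => s * G x)) ≤ (m + a * M) ^ 2 := by
        rw [h8]
        exact h1.trans (by linarith)
    _ ≤ (2 * m + a * √d) ^ 2 := by
        have h9 : 0 ≤ m + a * M := add_nonneg hm0 (mul_nonneg ha0 hM0)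
        generalize m + a * M = A at h7 h9 ⊢
        exact pow_le_pow_left₀ h9 h7 2

private theorem tvg_cov {d : ℕ} {a s : ℝ} {G : E d → ℝ} (ha0 : 0 ≤ a) (ha1 : a ≤ 1)
    (hG : Pert d a G) (hs : 0 ≤ s) (hs1 : s ≤ 1) {f : E d → ℝ} (hf : Measurable f)
    (bf : ∀ x, |f x| ≤ 1) :
    |(∫ x, f x * G x ∂(nuG (fun x => s * G x))) - (∫ x, f x ∂(nuG (fun x => s * G x))) *
      ∫ x, G x ∂(nuG (fun x => s * G x))| ≤ 2 * ‖gradient G 0‖ + a * √d := by
  have hS := hG.smul hs hs1
  haveI := nuG_isProb hS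
  have pf : PG f := PG.of_bdd (C := 1) bf
  have pg : PG G := hG.PG_val ha0
  have hGm : Measurable G := hG.smooth.continuous.measurable
  have hff : Integrable (fun x => f x ^ 2) (nuG (fun x => s * G x)) :=
    nuG_integrable hS (hf.pow_const 2).aestronglyMeasurable (pf.pow 2)
  have h1 := cov_sq_le_of_integrable (nuG (fun x => s * G x))
    (nuG_integrable hS hf.aestronglyMeasurable pf)
    (nuG_integrable hS hGm.aestronglyMeasurable pg)
    hff
    (nuG_integrable hS (hGm.pow_const 2).aestronglyMeasurable (pg.pow 2))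
    (nuG_integrable hS (hf.mul hGm).aestronglyMeasurable (pf.mul pg))
  have h2 := nuG_poinc_scalar hS (hG.contDiff_one) pg (hG.PG_grad ha0)
  have h3 := tvg_grad_moment ha0 ha1 hG hs hs1
  have h4 : (∫ x, f x ^ 2 ∂(nuG (fun x => s * G x))) ≤ 1 := by
    have : (∫ x, f x ^ 2 ∂(nuG (fun x => s * G x))) ≤ ∫ x, (1 : ℝ) ∂(nuG (fun x => s * G x)) := by
      refine integral_mono hff (integrable_const _) fun x => ?_
      show f x ^ 2 ≤ 1
      rw [← sq_abs]
      exact pow_le_one₀ (abs_nonneg _) (bf x)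
    simpa using this
  have h5 : (0 : ℝ) ≤ 2 * ‖gradient G 0‖ + a * √d := by positivity
  apply abs_le_of_sq_le_sq _ h5
  have h6 : 0 ≤ (∫ x, G x ^ 2 ∂(nuG (fun x => s * G x))) -
      (∫ x, G x ∂(nuG (fun x => s * G x))) ^ 2 := by
    set c := ∫ x, G x ∂(nuG (fun x => s * G x)) with hc
    have h8 : 0 ≤ ∫ x, (G x - c) ^ 2 ∂(nuG (fun x => s * G x)) :=
      integral_nonneg fun x => sq_nonneg _
    have e1 : ∀ x : E d, (G x - c) ^ 2 = G x ^ 2 + ((-2 * c) * G x + c ^ 2) := by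
      intro x; ring
    simp only [e1] at h8
    have j1 := nuG_integrable hS hGm.aestronglyMeasurable pg
    have j2 := nuG_integrable hS (hGm.pow_const 2).aestronglyMeasurable (pg.pow 2)
    have j3 : Integrable (fun x : E d => (-2 * c) * G x + c ^ 2) (nuG (fun x => s * G x)) :=
      (j1.const_mul _).add (integrable_const _)
    rw [integral_add j2 j3,
      integral_add (j1.const_mul _) (integrable_const _), integral_const_mul, ← hc] at h8
    simp only [integral_const, probReal_univ, one_smul] at h8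
    nlinarith [h8]
  have h9 : (∫ x, f x ^ 2 ∂(nuG (fun x => s * G x))) -
      (∫ x, f x ∂(nuG (fun x => s * G x))) ^ 2 ≤ 1 := by
    have := sq_nonneg (∫ x, f x ∂(nuG (fun x => s * G x)))
    linarith
  calc _ ≤ _ := h1
    _ ≤ 1 * ((∫ x, G x ^ 2 ∂(nuG (fun x => s * G x))) -
      (∫ x, G x ∂(nuG (fun x => s * G x))) ^ 2) := mul_le_mul_of_nonneg_right h9 h6
    _ ≤ _ := by rw [one_mul]; exact h2.trans h3

/-- domination of the exponentials along the segment -/
private theorem tvg_exp_le {s g : ℝ} (hs : 0 ≤ s) (hs1 : s ≤ 1) (q : ℝ) :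
    Real.exp (-(q + s * g)) ≤ Real.exp (-q) + Real.exp (-(q + g)) := by
  rcases le_total 0 g with hg | hg
  · have : Real.exp (-(q + s * g)) ≤ Real.exp (-q) := by
      apply Real.exp_le_exp.mpr
      nlinarith
    have h2 := Real.exp_pos (-(q + g))
    linarith
  · have : Real.exp (-(q + s * g)) ≤ Real.exp (-(q + g)) := by
      apply Real.exp_le_exp.mpr
      nlinarith
    have h2 := Real.exp_pos (-q)
    linarith

/-- integrability of the dominating function -/
private theorem tvg_dom {d : ℕ} {a : ℝ} {G : E d → ℝ} (hG : Pert d a G) {u : E d → ℝ}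
    (hu : AEStronglyMeasurable u volume) (hp : PG u) :
    Integrable (fun x : E d => (Real.exp (-(‖x‖ ^ 2 / 2)) + Real.exp (-(‖x‖ ^ 2 / 2 + G x))) *
      |u x|) volume := by
  have h1 := (pert_zero d).sc_nu.integrable_exp_smul hu hp
  have h2 := hG.sc_nu.integrable_exp_smul hu hp
  have h3 := h1.abs.add h2.abs
  refine h3.congr (Filter.Eventually.of_forall fun x => ?_)
  simp only [smul_eq_mul, abs_mul, Real.abs_exp, Pi.add_apply, add_zero]
  ring

private theorem tvg_hasDeriv {d : ℕ} {a : ℝ} {G : E d → ℝ} (ha0 : 0 ≤ a) (hG : Pert d a G)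
    {u : E d → ℝ} (hu : AEStronglyMeasurable u volume) (hp : PG u) {s : ℝ}
    (hs : s ∈ Set.Ioo (0 : ℝ) 1) :
    HasDerivAt (fun t : ℝ => ∫ x : E d, Real.exp (-(‖x‖ ^ 2 / 2 + t * G x)) * u x)
      (∫ x : E d, -(Real.exp (-(‖x‖ ^ 2 / 2 + s * G x)) * (u x * G x))) s := by
  have hGm : AEStronglyMeasurable G volume := hG.smooth.continuous.aestronglyMeasurable
  have pg : PG G := hG.PG_val ha0
  have hcont : ∀ t : ℝ, Continuous (fun x : E d => Real.exp (-(‖x‖ ^ 2 / 2 + t * G x))) := by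
    intro t
    have := hG.smooth.continuous
    fun_prop
  refine (hasDerivAt_integral_of_dominated_loc_of_deriv_le (s := Set.Ioo (0 : ℝ) 1)
    (bound := fun x : E d => (Real.exp (-(‖x‖ ^ 2 / 2)) + Real.exp (-(‖x‖ ^ 2 / 2 + G x))) *
      |u x * G x|) (F := fun t x => Real.exp (-(‖x‖ ^ 2 / 2 + t * G x)) * u x)
    (F' := fun t x => -(Real.exp (-(‖x‖ ^ 2 / 2 + t * G x)) * (u x * G x)))
    (Ioo_mem_nhds hs.1 hs.2) ?_ ?_ ?_ ?_ ?_ ?_).2
  · exact Filter.Eventually.of_forall fun t => (hcont t).aestronglyMeasurable.mul hu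
  · have h := (hG.smul hs.1.le hs.2.le).sc_nu.integrable_exp_smul hu hp
    simpa only [smul_eq_mul] using h
  · exact ((hcont s).aestronglyMeasurable.mul (hu.mul hGm)).neg
  · refine Filter.Eventually.of_forall fun x t ht => ?_
    rw [norm_neg, norm_mul, Real.norm_eq_abs, Real.norm_eq_abs, Real.abs_exp]
    exact mul_le_mul_of_nonneg_right (tvg_exp_le ht.1.le ht.2.le _) (abs_nonneg _)
  · exact tvg_dom hG (hu.mul hGm) (hp.mul pg)
  · refine Filter.Eventually.of_forall fun x t _ => ?_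
    have h1 : HasDerivAt (fun t : ℝ => -(‖x‖ ^ 2 / 2 + t * G x)) (-(G x)) t := by
      have := (((hasDerivAt_id t).mul_const (G x)).const_add (‖x‖ ^ 2 / 2)).neg
      rw [one_mul] at this
      exact this
    have h2 := (h1.exp).mul_const (u x)
    refine h2.congr_deriv ?_
    ring

private theorem tvg_cont {d : ℕ} {a : ℝ} {G : E d → ℝ} (hG : Pert d a G)
    {u : E d → ℝ} (hu : AEStronglyMeasurable u volume) (hp : PG u) :
    ContinuousOn (fun t : ℝ => ∫ x : E d, Real.exp (-(‖x‖ ^ 2 / 2 + t * G x)) * u x)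
      (Set.Icc (0 : ℝ) 1) := by
  have hcont : ∀ t : ℝ, Continuous (fun x : E d => Real.exp (-(‖x‖ ^ 2 / 2 + t * G x))) := by
    intro t
    have := hG.smooth.continuous
    fun_prop
  refine continuousOn_of_dominated (bound := fun x : E d =>
    (Real.exp (-(‖x‖ ^ 2 / 2)) + Real.exp (-(‖x‖ ^ 2 / 2 + G x))) * |u x|) ?_ ?_ ?_ ?_
  · exact fun t _ => (hcont t).aestronglyMeasurable.mul hu
  · intro t ht
    refine Filter.Eventually.of_forall fun x => ?_
    rw [norm_mul, Real.norm_eq_abs, Real.norm_eq_abs, Real.abs_exp]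
    exact mul_le_mul_of_nonneg_right (tvg_exp_le ht.1 ht.2 _) (abs_nonneg _)
  · exact tvg_dom hG hu hp
  · refine Filter.Eventually.of_forall fun x => ?_
    apply Continuous.continuousOn
    fun_prop

theorem tv_gauss {d : ℕ} {a : ℝ} {G : E d → ℝ} (ha0 : 0 ≤ a) (ha1 : a ≤ 1) (hG : Pert d a G)
    {f : E d → ℝ} (hf : Measurable f) (bf : ∀ x, |f x| ≤ 1) :
    |(∫ x, f x ∂(stdGaussian (E d))) - ∫ x, f x ∂(nuG G)| ≤
      2 * ‖gradient G 0‖ + a * √d := by
  have pf : PG f := PG.of_bdd (C := 1) bf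
  have p1 : PG (fun _ : E d => (1 : ℝ)) := PG.of_bdd (C := 1) (fun _ => by simp)
  have hZpos : ∀ t ∈ Set.Icc (0 : ℝ) 1, 0 < ∫ x : E d, Real.exp (-(‖x‖ ^ 2 / 2 + t * G x)) := by
    intro t ht
    exact (hG.smul ht.1 ht.2).sc_nu.integral_exp_pos
  have hform : ∀ (t : ℝ) (u : E d → ℝ), ∫ x, u x ∂(nuG (fun x => t * G x)) =
      (∫ x : E d, Real.exp (-(‖x‖ ^ 2 / 2 + t * G x)) * u x) /
        ∫ x : E d, Real.exp (-(‖x‖ ^ 2 / 2 + t * G x)) * 1 := by
    intro t u
    unfold nuG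
    rw [SC.integral_tilted, smul_eq_mul, div_eq_inv_mul]
    simp only [smul_eq_mul, mul_one]
  set g : ℝ → ℝ := fun t => (∫ x : E d, Real.exp (-(‖x‖ ^ 2 / 2 + t * G x)) * f x) /
        ∫ x : E d, Real.exp (-(‖x‖ ^ 2 / 2 + t * G x)) * 1 with hg
  have hgc : ContinuousOn g (Set.Icc 0 1) := by
    refine (tvg_cont hG hf.aestronglyMeasurable pf).div
      (tvg_cont hG aestronglyMeasurable_const p1) fun t ht => ?_
    simp only [mul_one]
    exact (hZpos t ht).ne'
  have hgd : ∀ t ∈ Set.Ioo (0 : ℝ) 1, HasDerivAt g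
      (-((∫ x, f x * G x ∂(nuG (fun x => t * G x))) - (∫ x, f x ∂(nuG (fun x => t * G x))) *
      ∫ x, G x ∂(nuG (fun x => t * G x)))) t := by
    intro t ht
    have hZ : (∫ x : E d, Real.exp (-(‖x‖ ^ 2 / 2 + t * G x)) * 1) ≠ 0 := by
      simp only [mul_one]
      exact (hZpos t ⟨ht.1.le, ht.2.le⟩).ne'
    have h1 := tvg_hasDeriv ha0 hG hf.aestronglyMeasurable pf ht
    have h2 := tvg_hasDeriv ha0 hG aestronglyMeasurable_const p1 ht
    refine (h1.div h2 hZ).congr_deriv ?_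
    rw [hform, hform, hform, integral_neg, integral_neg]
    simp only [one_mul]
    field_simp
    ring
  obtain ⟨c, hc, hc2⟩ := exists_hasDerivAt_eq_slope g _ (zero_lt_one' ℝ) hgc hgd
  have h0 : ∫ x, f x ∂(stdGaussian (E d)) = g 0 := by
    have h1 := hform 0 f
    have h2 : (fun x : E d => 0 * G x) = fun _ : E d => (0 : ℝ) := by
      funext x; ring
    rw [h2, nuG_zero] at h1
    exact h1
  have h1 : ∫ x, f x ∂(nuG G) = g 1 := by
    have h1 := hform 1 f
    have h2 : (fun x : E d => 1 * G x) = G := by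
      funext x; ring
    rw [h2] at h1
    exact h1
  have h3 := tvg_cov ha0 ha1 hG hc.1.le hc.2.le hf bf
  rw [h0, h1]
  rw [sub_zero, div_one] at hc2
  have h4 : g 0 - g 1 = (∫ x, f x * G x ∂(nuG (fun x => c * G x))) -
      (∫ x, f x ∂(nuG (fun x => c * G x))) * ∫ x, G x ∂(nuG (fun x => c * G x)) := by
    linarith
  rw [h4]
  exact h3

theorem last_err {d : ℕ} {V : E d → ℝ} {h : ℝ} (hV : Pot d V) (hh : 0 < h) (hh2 : h ≤ 1 / 2)
    {f : E d → ℝ} (hf : Measurable f) (bf : ∀ x, |f x| ≤ 1) (y : E d) :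
    |Lst V h f y - Rop (pertOf V) h f y| ≤ 8 * (h * √h) * ‖y‖ + 2 * h * √d := by
  have hm : Measurable (fun ξ : E d => f (cen V h y + √h • ξ)) := by
    apply hf.comp
    apply Continuous.measurable
    fun_prop
  have h1 := tv_gauss (by linarith) (by linarith) (Gy_pert hV hh y) hm
    (fun x => bf _)
  rw [Rop_eq_unit hV hh y f]
  unfold Lst
  refine h1.trans ?_
  have h2 := Fy_zero_le hV hh y
  rw [gradient_Gy hV hh y]
  linarith

end Vale.Agent.P347
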