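import Vale.Agent.Lib.P347.ChainB

/-!
P347: second order bounds for the chain.

Proofs. Differentiate `comm_iter` (`Dv_add`, `Dv_smul`, `Dv_sum`). First term: `iter_contraction`
or (`hess_two`) `iter_reverse` for `Dv u`. In the sum write `w = Nop η (Pop^[j-1-l] u)`,
`|Dv w| ≤ (1+η)^-(j-1-l) B1`, so `|Phi w| ≤ η b |Dv w|` and `|Dv (Phi w)| ≤ 2 b √η |Dv w|`;
for `l = 0` use the latter, for `l ≥ 1` use `iter_reverse`:
`|Dv (Pop^[l] (Phi w))| ≤ (l η)^(-1/2) η b (1+η)^-(j-1-l) B1`. The total of the sum is at most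
`(1+η)^-j b √η B1 (2 + Σ_{1≤l<j} l^(-1/2)) ≤ 2 b √η (1 + √j) (1+η)^-j B1`.
`hess_three`: for `j = 1` use `norm_DDv_Rop_le` (`2/η ≤ 3/η`). For `j ≥ 2` write
`Pop^[j] u = Pop^[j1] (Pop^[j2] u)`, `j2 = j/2`, `j1 = j - j2`, bound `Dv (Pop^[j2] u)` by
`(j2 η)^(-1/2) B0` and apply `hess_two` with `j1`:
`1/(η √(j1 j2)) ≤ 3/(j η)` and `2 b (1 + √j1)/√j2 ≤ 7 b`.
-/

open MeasureTheory ProbabilityTheory

namespace Vale.Agent.P347

variable {d : ℕ} {b : ℝ} {G : E d → ℝ} {η : ℝ} {ι : Type} [Fintype ι]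

private theorem hl_sqrt_bound {l η x B : ℝ} (hl : 0 < l) (hη : 0 < η) (hx : 0 ≤ x) (hB : 0 ≤ B)
    (h : l * η * x ^ 2 ≤ B ^ 2) : x ≤ (√(l * η))⁻¹ * B := by
  have hs : 0 < √(l * η) := Real.sqrt_pos.2 (mul_pos hl hη)
  have h1 : (√(l * η) * x) ^ 2 ≤ B ^ 2 := by
    rw [mul_pow, Real.sq_sqrt (mul_pos hl hη).le]
    exact h
  have h2 : √(l * η) * x ≤ B := (pow_le_pow_iff_left₀ (by positivity) hB two_ne_zero).1 h1
  rw [inv_mul_eq_div, le_div_iff₀ hs]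
  linarith [mul_comm x (√(l * η))]

private theorem hl_sum_inv_sqrt (n : ℕ) :
    ∑ l ∈ Finset.range n, (√((l : ℝ) + 1))⁻¹ ≤ 2 * √n := by
  induction n with
  | zero => simp
  | succ n ih =>
    rw [Finset.sum_range_succ]
    have h1 : 0 < √((n : ℝ) + 1) := Real.sqrt_pos.2 (by positivity)
    have h2 : √((n : ℝ) + 1) ^ 2 = n + 1 := Real.sq_sqrt (by positivity)
    have h3 : √(n : ℝ) ^ 2 = n := Real.sq_sqrt (by positivity)
    have h4 : 0 ≤ √(n : ℝ) := Real.sqrt_nonneg _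
    have h5 : (√((n : ℝ) + 1))⁻¹ ≤ 2 * (√((n : ℝ) + 1) - √(n : ℝ)) := by
      rw [inv_le_iff_one_le_mul₀ h1]
      nlinarith [sq_nonneg (√((n : ℝ) + 1) - √(n : ℝ))]
    push_cast
    linarith

/-- bounds for the smoothed iterates -/
private theorem hl_w (hb : 0 ≤ b) (hG : Pert d b G) (hη : 0 < η)
    {u : E d → EuclideanSpace ℝ ι} (hu : CB 1 u) {B1 : ℝ} (h1 : ∀ x, ‖Dv u x‖ ≤ B1) (i : ℕ) :
    CB 1 (Nop η ((Pop G η)^[i] u)) ∧
      ∀ x, ‖Dv (Nop η ((Pop G η)^[i] u)) x‖ ≤ ((1 + η)⁻¹) ^ i * B1 := by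
  have hc : CB 1 ((Pop G η)^[i] u) := iter_CB (by norm_num) hb hG hη hu i
  refine ⟨Nop_CB_of hη.le hc, fun x => ?_⟩
  rw [Dv_Nop hη.le hc]
  exact norm_Nop_le (fun z => iter_contraction hb hG hη hu h1 i z) x

/-- one term of the sum -/
private theorem hl_term (hb : 0 ≤ b) (hG : Pert d b G) (hη : 0 < η)
    {w : E d → EuclideanSpace ℝ ι} (hw : CB 1 w) {B : ℝ} (h1 : ∀ x, ‖Dv w x‖ ≤ B) (l : ℕ)
    (hl : 1 ≤ l) (y : E d) :
    ‖Dv ((Pop G η)^[l] (Phi G η w)) y‖ ≤ b * √η * (√(l : ℝ))⁻¹ * B := by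
  have hB : 0 ≤ B := (norm_nonneg _).trans (h1 0)
  have hc : ContDiff ℝ 1 w := by exact_mod_cast hw.contDiff
  obtain ⟨C, hC⟩ := hw.bdd
  have hP : CB 1 (Phi G η w) := Phi_CB hb hG hη hw
  have h2 : ∀ x, ‖Phi G η w x‖ ≤ η * b * B := fun x =>
    norm_Phi_le hb hG hη hc (PG.of_bdd hC) h1 x
  have h3 := iter_reverse hb hG hη hP.contDiff.continuous.measurable h2 l y
  have hl' : (0 : ℝ) < l := by exact_mod_cast hl
  have h4 := hl_sqrt_bound hl' hη (norm_nonneg _) (by positivity) h3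
  refine h4.trans (le_of_eq ?_)
  rw [Real.sqrt_mul hl'.le]
  have hs : √η ≠ 0 := (Real.sqrt_pos.2 hη).ne'
  have hs2 : √η * √η = η := Real.mul_self_sqrt hη.le
  have hsl : √(l : ℝ) ≠ 0 := (Real.sqrt_pos.2 hl').ne'
  rw [mul_inv]
  calc (√(l : ℝ))⁻¹ * (√η)⁻¹ * (η * b * B)
      = (√(l : ℝ))⁻¹ * ((√η)⁻¹ * (√η * √η)) * b * B := by rw [hs2]; ring
    _ = (√(l : ℝ))⁻¹ * √η * b * B := by rw [inv_mul_cancel_left₀ hs]
    _ = _ := by ring

/-- differentiability of the terms, and bound of the sum -/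
private theorem hl_sum (hb : 0 ≤ b) (hG : Pert d b G) (hη : 0 < η)
    {u : E d → EuclideanSpace ℝ ι} (hu : CB 1 u) {B1 : ℝ} (h1 : ∀ x, ‖Dv u x‖ ≤ B1)
    (j : ℕ) (y : E d) :
    (∀ l ∈ Finset.range j, DifferentiableAt ℝ (fun y => ((1 + η)⁻¹) ^ (l + 1) •
        ((Pop G η)^[l] (Phi G η (Nop η ((Pop G η)^[j - 1 - l] u)))) y) y) ∧
    ‖Dv (fun y => ∑ l ∈ Finset.range j, ((1 + η)⁻¹) ^ (l + 1) •
        ((Pop G η)^[l] (Phi G η (Nop η ((Pop G η)^[j - 1 - l] u)))) y) y‖ ≤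
      2 * b * √η * (1 + √j) * ((1 + η)⁻¹) ^ j * B1 := by
  have hB : 0 ≤ B1 := (norm_nonneg _).trans (h1 0)
  have hq : 0 < (1 + η)⁻¹ := by positivity
  have hPhi : ∀ l, CB 1 (Phi G η (Nop η ((Pop G η)^[j - 1 - l] u))) := fun l =>
    Phi_CB hb hG hη (hl_w hb hG hη hu h1 (j - 1 - l)).1
  have hit : ∀ l, Differentiable ℝ
      ((Pop G η)^[l] (Phi G η (Nop η ((Pop G η)^[j - 1 - l] u)))) := fun l => by
    have := (iter_CB (k := 1) (by norm_num) hb hG hη (hPhi l) l).contDiff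
    exact this.differentiable (by norm_num)
  have hd : ∀ l ∈ Finset.range j, DifferentiableAt ℝ (fun y => ((1 + η)⁻¹) ^ (l + 1) •
        ((Pop G η)^[l] (Phi G η (Nop η ((Pop G η)^[j - 1 - l] u)))) y) y := fun l _ =>
    ((hit l) y).fun_const_smul _
  refine ⟨hd, ?_⟩
  rw [Dv_sum _ hd]
  have hterm : ∀ l ∈ Finset.range j, ‖Dv (fun y => ((1 + η)⁻¹) ^ (l + 1) •
        ((Pop G η)^[l] (Phi G η (Nop η ((Pop G η)^[j - 1 - l] u)))) y) y‖ ≤
      ((1 + η)⁻¹) ^ j * (b * √η * (if l = 0 then 2 else (√(l : ℝ))⁻¹) * B1) := by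
    intro l hl
    have hlj := Finset.mem_range.1 hl
    rw [Dv_smul _ ((hit l) y), norm_smul, norm_pow, Real.norm_eq_abs, abs_of_pos hq]
    obtain ⟨hw1, hw2⟩ := hl_w hb hG hη hu h1 (j - 1 - l)
    have hexp : ((1 + η)⁻¹) ^ j = ((1 + η)⁻¹) ^ (l + 1) * ((1 + η)⁻¹) ^ (j - 1 - l) := by
      rw [← pow_add]
      congr 1
      omega
    rw [hexp, mul_assoc]
    refine mul_le_mul_of_nonneg_left ?_ (by positivity)
    by_cases h0 : l = 0
    · subst h0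
      rw [if_pos rfl]
      have := norm_Dv_Phi_le hb hG hη hw1 hw2 y
      simp only [Function.iterate_zero, id_eq]
      refine this.trans (le_of_eq ?_)
      ring
    · rw [if_neg h0]
      have := hl_term hb hG hη hw1 hw2 l (Nat.one_le_iff_ne_zero.2 h0) y
      refine this.trans (le_of_eq ?_)
      ring
  refine (norm_sum_le _ _).trans ((Finset.sum_le_sum hterm).trans ?_)
  rw [← Finset.mul_sum, ← Finset.sum_mul, ← Finset.mul_sum]
  have hsum : ∑ l ∈ Finset.range j, (if l = 0 then (2 : ℝ) else (√(l : ℝ))⁻¹) ≤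
      2 * (1 + √j) := by
    cases j with
    | zero => simp
    | succ n =>
      rw [Finset.sum_range_succ']
      simp only [Nat.add_eq_zero_iff, one_ne_zero, and_false, if_false, if_true, Nat.cast_add,
        Nat.cast_one]
      have h2 := hl_sum_inv_sqrt n
      have h3 : √(n : ℝ) ≤ √((n : ℝ) + 1) := Real.sqrt_le_sqrt (by linarith)
      linarith
  have h5 : 0 ≤ ((1 + η)⁻¹) ^ j * (b * √η * B1) := by positivity
  calc ((1 + η)⁻¹) ^ j * (b * √η * (∑ l ∈ Finset.range j,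
        (if l = 0 then (2 : ℝ) else (√(l : ℝ))⁻¹)) * B1)
      = (((1 + η)⁻¹) ^ j * (b * √η * B1)) * ∑ l ∈ Finset.range j,
        (if l = 0 then (2 : ℝ) else (√(l : ℝ))⁻¹) := by ring
    _ ≤ (((1 + η)⁻¹) ^ j * (b * √η * B1)) * (2 * (1 + √j)) :=
        mul_le_mul_of_nonneg_left hsum h5
    _ = _ := by ring

private theorem hl_main (hb : 0 ≤ b) (hG : Pert d b G) (hη : 0 < η)
    {u : E d → EuclideanSpace ℝ ι} (hu : CB 1 u) {B1 T : ℝ} (h1 : ∀ x, ‖Dv u x‖ ≤ B1)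
    (j : ℕ) (y : E d) (hd : DifferentiableAt ℝ ((Pop G η)^[j] (Dv u)) y)
    (hT : ‖Dv ((Pop G η)^[j] (Dv u)) y‖ ≤ T) :
    ‖Dv (Dv ((Pop G η)^[j] u)) y‖ ≤
      ((1 + η)⁻¹) ^ j * T + 2 * b * √η * (1 + √j) * ((1 + η)⁻¹) ^ j * B1 := by
  have hq : 0 < (1 + η)⁻¹ := by positivity
  have hfun : Dv ((Pop G η)^[j] u) = fun y => ((1 + η)⁻¹) ^ j • ((Pop G η)^[j] (Dv u)) y +
      ∑ l ∈ Finset.range j, ((1 + η)⁻¹) ^ (l + 1) •
        ((Pop G η)^[l] (Phi G η (Nop η ((Pop G η)^[j - 1 - l] u)))) y := by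
    funext z
    exact comm_iter hb hG hη hu j z
  obtain ⟨hs1, hs2⟩ := hl_sum hb hG hη hu h1 j y
  rw [hfun, Dv_add (hd.fun_const_smul _) (DifferentiableAt.fun_sum hs1), Dv_smul _ hd]
  refine (norm_add_le _ _).trans (add_le_add ?_ hs2)
  rw [norm_smul, norm_pow, Real.norm_eq_abs, abs_of_pos hq]
  exact mul_le_mul_of_nonneg_left hT (by positivity)

theorem hess_one (hb : 0 ≤ b) (hG : Pert d b G) (hη : 0 < η)
    {u : E d → EuclideanSpace ℝ ι} (hu : CB 2 u) {B1 B2 : ℝ} (h1 : ∀ x, ‖Dv u x‖ ≤ B1)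
    (h2 : ∀ x, ‖Dv (Dv u) x‖ ≤ B2) (j : ℕ) (y : E d) :
    ‖Dv (Dv ((Pop G η)^[j] u)) y‖ ≤
      ((1 + η)⁻¹) ^ (2 * j) * B2 + 2 * b * √η * (1 + √j) * ((1 + η)⁻¹) ^ j * B1 := by
  have hD : CB 1 (Dv u) := hu.dv
  have hd : Differentiable ℝ ((Pop G η)^[j] (Dv u)) :=
    (iter_CB (k := 1) (by norm_num) hb hG hη hD j).contDiff.differentiable (by norm_num)
  have h := hl_main hb hG hη (hu.mono (by norm_num)) h1 j y (hd y)
    (iter_contraction hb hG hη hD h2 j y)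
  refine h.trans (le_of_eq ?_)
  have h3 : ((1 + η)⁻¹) ^ (2 * j) = ((1 + η)⁻¹) ^ j * ((1 + η)⁻¹) ^ j := by
    rw [← pow_add]
    congr 1
    omega
  rw [h3]
  ring

private theorem hl_iter_CB2 {κ : Type} [Fintype κ] (hb : 0 ≤ b) (hG : Pert d b G) (hη : 0 < η)
    {u : E d → EuclideanSpace ℝ κ} (hu : Measurable u) {B : ℝ} (hB : ∀ x, ‖u x‖ ≤ B)
    (j : ℕ) (hj : 1 ≤ j) : CB 2 ((Pop G η)^[j] u) := by
  obtain ⟨i, rfl⟩ : ∃ i, j = i + 1 := ⟨j - 1, by omega⟩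
  rw [Function.iterate_succ', Function.comp_apply]
  exact Pop_CB hb hG hη (iter_meas hb hG hη hu ⟨B, hB⟩ i)
    ⟨B, fun x => norm_iter_le hG hη hB i x⟩

theorem hess_two (hb : 0 ≤ b) (hG : Pert d b G) (hη : 0 < η)
    {u : E d → EuclideanSpace ℝ ι} (hu : CB 1 u) {B1 : ℝ} (h1 : ∀ x, ‖Dv u x‖ ≤ B1)
    (j : ℕ) (hj : 1 ≤ j) (y : E d) :
    ‖Dv (Dv ((Pop G η)^[j] u)) y‖ ≤
      ((1 + η)⁻¹) ^ j * ((√(j * η))⁻¹ + 2 * b * √η * (1 + √j)) * B1 := by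
  have hm : Measurable (Dv u) := hu.dv.contDiff.continuous.measurable
  have hB : 0 ≤ B1 := (norm_nonneg _).trans (h1 0)
  have hd : Differentiable ℝ ((Pop G η)^[j] (Dv u)) :=
    (hl_iter_CB2 hb hG hη hm h1 j hj).contDiff.differentiable (by norm_num)
  have hj' : (0 : ℝ) < j := by exact_mod_cast hj
  have h2 := hl_sqrt_bound hj' hη (norm_nonneg _) hB (iter_reverse hb hG hη hm h1 j y)
  have h := hl_main hb hG hη hu h1 j y (hd y) h2
  refine h.trans (le_of_eq ?_)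
  ring

private theorem hl_num {b η B : ℝ} (hb : 0 ≤ b) (hη : 0 < η) (hB : 0 ≤ B) (j i k : ℕ)
    (hi : 1 ≤ i) (hik : k = i ∨ k = i + 1) (hj : j = k + i) :
    ((√(k * η))⁻¹ + 2 * b * √η * (1 + √k)) * ((√(i * η))⁻¹ * B) ≤ (3 / (j * η) + 7 * b) * B := by
  have hi' : (1 : ℝ) ≤ i := by exact_mod_cast hi
  have hk' : (1 : ℝ) ≤ k := by
    have : 1 ≤ k := by omega
    exact_mod_cast this
  have hki : (k : ℝ) ≤ i + 1 := by
    have : k ≤ i + 1 := by omega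
    exact_mod_cast this
  have hik' : (i : ℝ) ≤ k := by
    have : i ≤ k := by omega
    exact_mod_cast this
  have hjr : (j : ℝ) = k + i := by rw [hj]; push_cast; ring
  have e0 : 0 < √η := Real.sqrt_pos.2 hη
  have e1 : √η ^ 2 = η := Real.sq_sqrt hη.le
  have k0 : 0 < √(k : ℝ) := Real.sqrt_pos.2 (by linarith)
  have k1 : √(k : ℝ) ^ 2 = k := Real.sq_sqrt (by linarith)
  have i0 : 0 < √(i : ℝ) := Real.sqrt_pos.2 (by linarith)
  have i1 : √(i : ℝ) ^ 2 = i := Real.sq_sqrt (by linarith)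
  have ii1 : 1 ≤ √(i : ℝ) := by
    rw [← Real.sqrt_one]
    exact Real.sqrt_le_sqrt hi'
  rw [Real.sqrt_mul (by positivity), Real.sqrt_mul (by positivity)]
  set s := √(k : ℝ)
  set t := √(i : ℝ)
  set r := √η
  have hst : (j : ℝ) ≤ 3 * (s * t) := by
    have h1 : (j : ℝ) ^ 2 ≤ (3 * (s * t)) ^ 2 := by
      have : (3 * (s * t)) ^ 2 = 9 * (s ^ 2) * (t ^ 2) := by ring
      rw [this, k1, i1, hjr]
      rcases hik with h | h
      · rw [h]; nlinarith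
      · rw [h]; push_cast; nlinarith
    exact (pow_le_pow_iff_left₀ (Nat.cast_nonneg j) (by positivity) two_ne_zero).1 h1
  have hs2 : s ≤ 3 / 2 * t := by
    have h1 : s ^ 2 ≤ (3 / 2 * t) ^ 2 := by
      rw [k1, mul_pow, i1]
      nlinarith
    exact (pow_le_pow_iff_left₀ k0.le (by positivity) two_ne_zero).1 h1
  have hj0 : (0 : ℝ) < j := by rw [hjr]; linarith
  have hA : (s * r)⁻¹ * (t * r)⁻¹ ≤ 3 / (j * η) := by
    rw [← mul_inv, inv_eq_one_div, div_le_div_iff₀ (by positivity) (by positivity)]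
    have : s * r * (t * r) = s * t * η := by rw [← e1]; ring
    rw [this]
    nlinarith
  have hC : 2 * b * r * (1 + s) * (t * r)⁻¹ ≤ 7 * b := by
    rw [← div_eq_mul_inv, div_le_iff₀ (by positivity)]
    have h3 : 2 * (1 + s) ≤ 7 * t := by linarith
    have h4 : 0 ≤ b * r := by positivity
    nlinarith
  calc ((s * r)⁻¹ + 2 * b * r * (1 + s)) * ((t * r)⁻¹ * B)
      = ((s * r)⁻¹ * (t * r)⁻¹ + 2 * b * r * (1 + s) * (t * r)⁻¹) * B := by ring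
    _ ≤ (3 / (j * η) + 7 * b) * B := mul_le_mul_of_nonneg_right (add_le_add hA hC) hB

theorem hess_three (hb : 0 ≤ b) (hG : Pert d b G) (hη : 0 < η) (hη1 : η ≤ 1)
    {u : E d → EuclideanSpace ℝ ι} (hu : Measurable u) {B0 : ℝ} (h0 : ∀ x, ‖u x‖ ≤ B0)
    (j : ℕ) (hj : 1 ≤ j) (y : E d) :
    ‖Dv (Dv ((Pop G η)^[j] u)) y‖ ≤ (3 / (j * η) + 7 * b) * B0 := by
  have hB : 0 ≤ B0 := (norm_nonneg _).trans (h0 0)
  rcases eq_or_lt_of_le hj with h | h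
  · subst h
    simp only [Function.iterate_one, Nat.cast_one, one_mul]
    have h1 := norm_DDv_Rop_le (u := Nop η u) hb hG hη (measurable_Nop hu)
      (fun x => norm_Nop_le h0 x) y
    refine h1.trans (mul_le_mul_of_nonneg_right ?_ hB)
    have h2 : 2 / η ≤ 3 / η := div_le_div_of_nonneg_right (by norm_num) hη.le
    linarith
  · obtain ⟨i, k, hi, hik, hjk⟩ : ∃ i k : ℕ, 1 ≤ i ∧ (k = i ∨ k = i + 1) ∧ j = k + i :=
      ⟨j / 2, j - j / 2, by omega, by omega, by omega⟩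
    have hi' : (0 : ℝ) < i := by exact_mod_cast hi
    have hc : CB 1 ((Pop G η)^[i] u) := (hl_iter_CB2 hb hG hη hu h0 i hi).mono (by norm_num)
    have hD : ∀ x, ‖Dv ((Pop G η)^[i] u) x‖ ≤ (√(i * η))⁻¹ * B0 := fun x =>
      hl_sqrt_bound hi' hη (norm_nonneg _) hB (iter_reverse hb hG hη hu h0 i x)
    have h2 := hess_two hb hG hη hc hD k (by omega) y
    rw [← Function.iterate_add_apply, ← hjk] at h2
    refine h2.trans (le_trans ?_ (hl_num hb hη hB j i k hi hik hjk))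
    have hq1 : ((1 + η)⁻¹) ^ k ≤ 1 := by
      refine pow_le_one₀ (by positivity) ?_
      exact inv_le_one_of_one_le₀ (by linarith)
    have h3 : 0 ≤ ((√(k * η))⁻¹ + 2 * b * √η * (1 + √k)) * ((√(i * η))⁻¹ * B0) := by positivity
    calc ((1 + η)⁻¹) ^ k * ((√(k * η))⁻¹ + 2 * b * √η * (1 + √k)) * ((√(i * η))⁻¹ * B0)
        = ((1 + η)⁻¹) ^ k * (((√(k * η))⁻¹ + 2 * b * √η * (1 + √k)) * ((√(i * η))⁻¹ * B0)) := by
          ring
      _ ≤ _ := mul_le_of_le_one_left h3 hq1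

end Vale.Agent.P347
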