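import Vale.Agent.Lib.P347.RGf

/-!
P347: facts on the standard Gaussian law of `E d`.

Proofs. `nuG 0 = stdGaussian`: compare densities (or characteristic functions; or
`stdGaussian` as the image of the product of `gaussianReal 0 1`, `map_pi_eq_stdGaussian`). Then
`nuG_integrable`, `nuG_poinc`, `nuG_ibp` with `G = 0` (which is `Pert d 0`).
Rotation invariance: characteristic functions of measures on the product
(`Measure.ext_of_charFun` on `WithLp 2`, or `ext_of_charFunDual`), using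
`charFun_stdGaussian` and `|ρ s + κ t|^2 + |κ s - ρ t|^2 = |s|^2 + |t|^2`.
`gauss_ibp_mat`: `⟪M x, w x⟫ = Σ_i ⟪x, e_i⟫ ⟪M e_i, w x⟫` and `gauss_ibp` for `⟪M e_i, w x⟫`.
-/

open MeasureTheory ProbabilityTheory
open scoped RealInnerProductSpace

namespace Vale.Agent.P347

variable {d : ℕ} {ι : Type} [Fintype ι]

theorem pert_zero (d : ℕ) : Pert d 0 (fun _ : E d => (0 : ℝ)) where
  smooth := contDiff_const
  nonneg := by
    intro x v
    simp
  le := by
    intro x v
    simp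

private theorem gauss_isProb_nu (d : ℕ) : IsProbabilityMeasure (nuG (fun _ : E d => (0 : ℝ))) :=
  nuG_isProb (pert_zero d)

theorem nuG_zero (d : ℕ) : nuG (fun _ : E d => (0 : ℝ)) = stdGaussian (E d) := by
  have := gauss_isProb_nu d
  apply Measure.ext_of_charFun
  funext t
  rw [charFun_stdGaussian, charFun_apply]
  unfold nuG
  rw [integral_tilted]
  have hZ : ∫ x : E d, Real.exp (-(‖x‖ ^ 2 / 2 + 0)) = (Real.pi / (1 / 2)) ^ ((d : ℝ) / 2) := by
    have h := GaussianFourier.integral_rexp_neg_mul_sq_norm (V := E d) (b := 1 / 2) (by norm_num)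
    rw [finrank_euclideanSpace, Fintype.card_fin] at h
    rw [← h]
    congr 1
    funext x
    congr 1
    ring
  have hZpos : (0 : ℝ) < (Real.pi / (1 / 2)) ^ ((d : ℝ) / 2) := by positivity
  simp only [hZ]
  have hF := GaussianFourier.integral_cexp_neg_mul_sq_norm_add (V := E d) (b := (1 / 2 : ℂ))
    (by norm_num) Complex.I t
  rw [finrank_euclideanSpace, Fintype.card_fin] at hF
  have e1 : ∀ x : E d, (Real.exp (-(‖x‖ ^ 2 / 2 + 0)) / (Real.pi / (1 / 2)) ^ ((d : ℝ) / 2)) •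
      Complex.exp (⟪x, t⟫ * Complex.I) = (((Real.pi / (1 / 2)) ^ ((d : ℝ) / 2) : ℝ) : ℂ)⁻¹ *
      Complex.exp (-(1 / 2 : ℂ) * ‖x‖ ^ 2 + Complex.I * ⟪t, x⟫) := by
    intro x
    rw [Complex.real_smul, Complex.ofReal_div, div_eq_inv_mul, mul_assoc, Complex.ofReal_exp,
      ← Complex.exp_add, real_inner_comm]
    congr 2
    push_cast
    ring
  simp only [e1]
  rw [integral_const_mul, hF]
  have e2 : ((Real.pi : ℂ) / (1 / 2)) ^ ((d : ℂ) / 2)
      = (((Real.pi / (1 / 2)) ^ ((d : ℝ) / 2) : ℝ) : ℂ) := by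
    rw [Complex.ofReal_cpow (by positivity)]
    push_cast
    rfl
  rw [e2, ← mul_assoc, inv_mul_cancel₀ (by exact_mod_cast hZpos.ne'), one_mul, Complex.I_sq]
  congr 1
  ring

theorem gauss_integrable {F : Type} [NormedAddCommGroup F] [NormedSpace ℝ F]
    {u : E d → F} (hu : AEStronglyMeasurable u volume) (hp : PG u) :
    Integrable u (stdGaussian (E d)) := by
  rw [← nuG_zero]
  exact nuG_integrable (pert_zero d) hu hp

theorem gauss_poinc {u : E d → EuclideanSpace ℝ ι}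
    (hu : ContDiff ℝ 1 u) (hp : PG u) (hp' : PG (Dv u)) :
    (∫ x, ‖u x‖ ^ 2 ∂(stdGaussian (E d))) - ‖∫ x, u x ∂(stdGaussian (E d))‖ ^ 2 ≤
      ∫ x, ‖Dv u x‖ ^ 2 ∂(stdGaussian (E d)) := by
  rw [← nuG_zero]
  exact nuG_poinc (pert_zero d) hu hp hp'

theorem gauss_ibp {F : Type} [NormedAddCommGroup F] [NormedSpace ℝ F] [CompleteSpace F]
    {u : E d → F} (hu : ContDiff ℝ 1 u) (hp : PG u) (hp' : PG (fun x => fderiv ℝ u x)) (e : E d) :
    ∫ x, fderiv ℝ u x e ∂(stdGaussian (E d)) = ∫ x, ⟪x, e⟫ • u x ∂(stdGaussian (E d)) := by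
  rw [← nuG_zero]
  rw [nuG_ibp le_rfl (pert_zero d) hu hp hp' e]
  have hg : ∀ x : E d, gradient (fun _ : E d => (0 : ℝ)) x = 0 := by
    intro x
    unfold gradient
    simp
  simp only [hg, inner_zero_left, add_zero]

private theorem gauss_expand (x : E d) :
    x = ∑ i, x i • (EuclideanSpace.single i (1 : ℝ) : E d) := by
  ext j
  simp [Finset.sum_apply, Pi.single_apply]

theorem gauss_ibp_mat (M : E d →L[ℝ] E d) {w : E d → E d} (hw : ContDiff ℝ 1 w) (hp : PG w)
    (hp' : PG (fun x => fderiv ℝ w x)) :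
    ∫ x, ⟪M x, w x⟫ ∂(stdGaussian (E d)) =
      ∫ x, (∑ i, ⟪M (EuclideanSpace.single i 1), fderiv ℝ w x (EuclideanSpace.single i 1)⟫)
        ∂(stdGaussian (E d)) := by
  have hdw : Differentiable ℝ w := hw.differentiable (by simp)
  have hcw : Continuous (fun x => fderiv ℝ w x) := hw.continuous_fderiv (by simp)
  have hu : ∀ c : E d, ContDiff ℝ 1 (fun x => ⟪c, w x⟫) := fun c => contDiff_const.inner ℝ hw
  have hfd : ∀ (c x v : E d), fderiv ℝ (fun x => ⟪c, w x⟫) x v = ⟪c, fderiv ℝ w x v⟫ := by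
    intro c x v
    have h1 : HasFDerivAt (fun y => ⟪c, w y⟫) ((innerSL ℝ c).comp (fderiv ℝ w x)) x :=
      (innerSL ℝ c).hasFDerivAt.comp x (hdw x).hasFDerivAt
    rw [h1.fderiv]
    simp
  have hpu : ∀ c : E d, PG (fun x => ⟪c, w x⟫) := by
    intro c
    have h1 : PG (fun x => ‖c‖ * ‖w x‖) :=
      PG.mul (PG.of_bdd (C := ‖c‖) (fun _ => by simp)) hp.norm
    refine h1.mono fun x => ?_
    rw [Real.norm_of_nonneg (by positivity : 0 ≤ ‖c‖ * ‖w x‖)]
    exact norm_inner_le_norm _ _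
  have hpu' : ∀ c : E d, PG (fun x => fderiv ℝ (fun x => ⟪c, w x⟫) x) := by
    intro c
    have h1 : PG (fun x => ‖c‖ * ‖fderiv ℝ w x‖) :=
      PG.mul (PG.of_bdd (C := ‖c‖) (fun _ => by simp)) hp'.norm
    refine h1.mono fun x => ?_
    rw [Real.norm_of_nonneg (by positivity : 0 ≤ ‖c‖ * ‖fderiv ℝ w x‖)]
    refine ContinuousLinearMap.opNorm_le_bound _ (by positivity) fun v => ?_
    rw [hfd c x v]
    calc ‖⟪c, fderiv ℝ w x v⟫‖ ≤ ‖c‖ * ‖fderiv ℝ w x v‖ := norm_inner_le_norm _ _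
      _ ≤ ‖c‖ * (‖fderiv ℝ w x‖ * ‖v‖) := by
          gcongr
          exact (fderiv ℝ w x).le_opNorm v
      _ = ‖c‖ * ‖fderiv ℝ w x‖ * ‖v‖ := by ring
  have hpfe : ∀ (c e : E d), PG (fun x => ⟪c, fderiv ℝ w x e⟫) := by
    intro c e
    have h1 : PG (fun x => ‖c‖ * ‖e‖ * ‖fderiv ℝ w x‖) :=
      PG.mul (PG.of_bdd (C := ‖c‖ * ‖e‖) (fun _ => by simp)) hp'.norm
    refine h1.mono fun x => ?_
    rw [Real.norm_of_nonneg (by positivity : 0 ≤ ‖c‖ * ‖e‖ * ‖fderiv ℝ w x‖)]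
    calc ‖⟪c, fderiv ℝ w x e⟫‖ ≤ ‖c‖ * ‖fderiv ℝ w x e‖ := norm_inner_le_norm _ _
      _ ≤ ‖c‖ * (‖fderiv ℝ w x‖ * ‖e‖) := by
          gcongr
          exact (fderiv ℝ w x).le_opNorm e
      _ = ‖c‖ * ‖e‖ * ‖fderiv ℝ w x‖ := by ring
  have hex : ∀ x : E d, ⟪M x, w x⟫ = ∑ i, ⟪x, (EuclideanSpace.single i (1 : ℝ) : E d)⟫ •
      ⟪M (EuclideanSpace.single i 1), w x⟫ := by
    intro x
    have h1 : M x = ∑ i, x i • M (EuclideanSpace.single i 1) := by
      conv_lhs => rw [gauss_expand x]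
      rw [map_sum]
      simp only [map_smul]
    rw [h1, sum_inner]
    refine Finset.sum_congr rfl fun i _ => ?_
    rw [inner_smul_left, EuclideanSpace.inner_single_right]
    simp
  simp only [hex]
  rw [integral_finsetSum, integral_finsetSum]
  · refine Finset.sum_congr rfl fun i _ => ?_
    rw [← gauss_ibp (hu _) (hpu _) (hpu' _) (EuclideanSpace.single i 1)]
    simp only [hfd]
  · intro i _
    refine gauss_integrable ?_ (hpfe _ _)
    have hcc : Continuous (fun x : E d => ⟪M (EuclideanSpace.single i 1),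
        fderiv ℝ w x (EuclideanSpace.single i 1)⟫) :=
      Continuous.inner continuous_const (hcw.clm_apply continuous_const)
    exact hcc.aestronglyMeasurable
  · intro i _
    refine gauss_integrable ?_ (PG.smul (PG_inner _) (hpu _))
    have hcc : Continuous (fun x : E d => ⟪x, (EuclideanSpace.single i (1 : ℝ) : E d)⟫) :=
      Continuous.inner continuous_id continuous_const
    exact (hcc.smul (hu _).continuous).aestronglyMeasurable

theorem gauss_mean (d : ℕ) : ∫ x, x ∂(stdGaussian (E d)) = 0 := integral_id_stdGaussian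

theorem gauss_sq (d : ℕ) : ∫ x, ‖x‖ ^ 2 ∂(stdGaussian (E d)) = d := by
  have h := gauss_ibp_mat (ContinuousLinearMap.id ℝ (E d)) (w := fun x => x) contDiff_id PG_id
    (PG.of_bdd (C := 1) (fun x => by
      have h1 : fderiv ℝ (fun x : E d => x) x = ContinuousLinearMap.id ℝ (E d) := fderiv_fun_id
      rw [h1]
      exact ContinuousLinearMap.norm_id_le))
  have h1 : ∀ x : E d, fderiv ℝ (fun x : E d => x) x = ContinuousLinearMap.id ℝ (E d) :=
    fun x => fderiv_fun_id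
  simp only [h1, ContinuousLinearMap.id_apply, real_inner_self_eq_norm_sq] at h
  rw [h]
  simp

private theorem gauss_par {H : Type} [NormedAddCommGroup H] [InnerProductSpace ℝ H] (a b : H)
    {ρ κ : ℝ} (h : ρ ^ 2 + κ ^ 2 = 1) :
    ‖ρ • a + κ • b‖ ^ 2 + ‖κ • a - ρ • b‖ ^ 2 = ‖a‖ ^ 2 + ‖b‖ ^ 2 := by
  rw [norm_add_sq_real, norm_sub_sq_real]
  simp only [inner_smul_left, inner_smul_right, norm_smul, mul_pow, Real.norm_eq_abs, sq_abs,
    conj_trivial]
  have e : κ ^ 2 = 1 - ρ ^ 2 := by linarith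
  rw [e]
  ring

private theorem gauss_par_dual (A B : StrongDual ℝ (E d)) {ρ κ : ℝ} (h : ρ ^ 2 + κ ^ 2 = 1) :
    ‖ρ • A + κ • B‖ ^ 2 + ‖κ • A - ρ • B‖ ^ 2 = ‖A‖ ^ 2 + ‖B‖ ^ 2 := by
  have h1 := gauss_par ((InnerProductSpace.toDual ℝ (E d)).symm A)
    ((InnerProductSpace.toDual ℝ (E d)).symm B) h
  have e1 : ‖ρ • (InnerProductSpace.toDual ℝ (E d)).symm A
      + κ • (InnerProductSpace.toDual ℝ (E d)).symm B‖ = ‖ρ • A + κ • B‖ := by
    rw [← LinearIsometryEquiv.norm_map (InnerProductSpace.toDual ℝ (E d)) (ρ • _ + κ • _)]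
    congr 1
    rw [map_add, LinearIsometryEquiv.map_smulₛₗ, LinearIsometryEquiv.map_smulₛₗ]
    simp
  have e2 : ‖κ • (InnerProductSpace.toDual ℝ (E d)).symm A
      - ρ • (InnerProductSpace.toDual ℝ (E d)).symm B‖ = ‖κ • A - ρ • B‖ := by
    rw [← LinearIsometryEquiv.norm_map (InnerProductSpace.toDual ℝ (E d)) (κ • _ - ρ • _)]
    congr 1
    rw [map_sub, LinearIsometryEquiv.map_smulₛₗ, LinearIsometryEquiv.map_smulₛₗ]
    simp
  rw [e1, e2, LinearIsometryEquiv.norm_map, LinearIsometryEquiv.norm_map] at h1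
  exact h1

private noncomputable def gaussR (d : ℕ) (ρ κ : ℝ) : (E d × E d) →L[ℝ] (E d × E d) :=
  (ρ • ContinuousLinearMap.fst ℝ (E d) (E d) + κ • ContinuousLinearMap.snd ℝ (E d) (E d)).prod
    (κ • ContinuousLinearMap.fst ℝ (E d) (E d) - ρ • ContinuousLinearMap.snd ℝ (E d) (E d))

theorem gauss_rot {ρ κ : ℝ} (h : ρ ^ 2 + κ ^ 2 = 1) :
    ((stdGaussian (E d)).prod (stdGaussian (E d))).map
      (fun p => (ρ • p.1 + κ • p.2, κ • p.1 - ρ • p.2)) =
        (stdGaussian (E d)).prod (stdGaussian (E d)) := by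
  have e0 : (fun p : E d × E d => (ρ • p.1 + κ • p.2, κ • p.1 - ρ • p.2)) = ⇑(gaussR d ρ κ) := by
    funext p
    rfl
  rw [e0]
  have hfin : IsFiniteMeasure (((stdGaussian (E d)).prod (stdGaussian (E d))).map
      (gaussR d ρ κ)) := by
    infer_instance
  apply Measure.ext_of_charFunDual
  funext L
  rw [charFunDual_map, charFunDual_prod, charFunDual_prod, charFunDual_stdGaussian,
    charFunDual_stdGaussian, charFunDual_stdGaussian, charFunDual_stdGaussian]
  have e1 : (L.comp (gaussR d ρ κ)).comp (.inl ℝ (E d) (E d))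
      = ρ • (L.comp (.inl ℝ (E d) (E d))) + κ • (L.comp (.inr ℝ (E d) (E d))) := by
    ext v
    simp only [gaussR, ContinuousLinearMap.comp_apply, ContinuousLinearMap.inl_apply,
      ContinuousLinearMap.inr_apply, ContinuousLinearMap.prod_apply, add_apply,
      sub_apply, smul_apply, ContinuousLinearMap.coe_fst',
      ContinuousLinearMap.coe_snd', smul_zero, add_zero, sub_zero]
    rw [← map_smul, ← map_smul, ← map_add]
    congr 1
    ext <;> simp
  have e2 : (L.comp (gaussR d ρ κ)).comp (.inr ℝ (E d) (E d))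
      = κ • (L.comp (.inl ℝ (E d) (E d))) - ρ • (L.comp (.inr ℝ (E d) (E d))) := by
    ext v
    simp only [gaussR, ContinuousLinearMap.comp_apply, ContinuousLinearMap.inl_apply,
      ContinuousLinearMap.inr_apply, ContinuousLinearMap.prod_apply, add_apply,
      sub_apply, smul_apply, ContinuousLinearMap.coe_fst',
      ContinuousLinearMap.coe_snd', smul_zero, zero_add, zero_sub]
    rw [← map_smul, ← map_smul, ← map_sub]
    congr 1
    ext <;> simp
  rw [e1, e2, ← Complex.exp_add, ← Complex.exp_add]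
  congr 1
  have h3 := gauss_par_dual (L.comp (.inl ℝ (E d) (E d))) (L.comp (.inr ℝ (E d) (E d))) h
  have h4 : ((‖ρ • (L.comp (.inl ℝ (E d) (E d))) + κ • (L.comp (.inr ℝ (E d) (E d)))‖ : ℝ) : ℂ) ^ 2
      + ((‖κ • (L.comp (.inl ℝ (E d) (E d))) - ρ • (L.comp (.inr ℝ (E d) (E d)))‖ : ℝ) : ℂ) ^ 2
      = ((‖L.comp (.inl ℝ (E d) (E d))‖ : ℝ) : ℂ) ^ 2
      + ((‖L.comp (.inr ℝ (E d) (E d))‖ : ℝ) : ℂ) ^ 2 := by
    exact_mod_cast h3
  linear_combination (-1 / 2 : ℂ) * h4

theorem gauss_comb {ρ κ : ℝ} (h : ρ ^ 2 + κ ^ 2 = 1) :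
    ((stdGaussian (E d)).prod (stdGaussian (E d))).map
      (fun p => ρ • p.1 + κ • p.2) = stdGaussian (E d) := by
  have h1 := congrArg (fun μ => Measure.map Prod.fst μ) (gauss_rot (d := d) h)
  simp only at h1
  rw [Measure.map_map measurable_fst (by fun_prop), Measure.map_fst_prod, measure_univ,
    one_smul] at h1
  exact h1

end Vale.Agent.P347
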