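import Vale.Agent.Lib.P347.ChainA
import Vale.Agent.Lib.P347.Gauss

/-!
P347: invariance of the smoothed target.

Proof. `nuS G η` has density proportional to `∫ exp (-(|x|^2/2 + G x)) exp (-|x-y|^2/(2 η)) dx`,
and Fubini gives `inv_Rop` (both sides are, up to the same constant,
`∫∫ u x exp (-(|x|^2/2 + G x)) exp (-|x-y|^2/(2 η)) dx dy`).
`inv_Nop` is the definition of `nuS`. The moments: `E |x + √η z|^2 = E |x|^2 + η d`;
for a potential of the class `nuG_ibp` with `u x = x i`, `e = e_i`, summed over `i`, gives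
`E ⟨x, gradient V x⟩ = d` and `⟨x, gradient V x⟩ ≥ |x|^2`.
-/

open MeasureTheory ProbabilityTheory

namespace Vale.Agent.P347

variable {d : ℕ} {b : ℝ} {G : E d → ℝ} {η : ℝ}

/-- the target smoothed with variance `η` -/
noncomputable def nuS (G : E d → ℝ) (η : ℝ) : Measure (E d) :=
  ((nuG G).prod (stdGaussian (E d))).map (fun p => p.1 + √η • p.2)

private theorem iv_meas (η : ℝ) : Measurable (fun p : E d × E d => p.1 + √η • p.2) := by
  fun_prop

theorem nuS_isProb (hG : Pert d b G) : IsProbabilityMeasure (nuS G η) := by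
  have := nuG_isProb hG
  unfold nuS
  exact Measure.isProbabilityMeasure_map (iv_meas η).aemeasurable

/-- integral of a bounded measurable function against the smoothed target -/
private theorem iv_integral (hG : Pert d b G) {u : E d → ℝ} (hu : Measurable u)
    (bu : ∃ C, ∀ x, |u x| ≤ C) :
    ∫ y, u y ∂(nuS G η) = ∫ x, ∫ z, u (x + √η • z) ∂(stdGaussian (E d)) ∂(nuG G) := by
  have := nuG_isProb hG
  obtain ⟨C, hC⟩ := bu
  unfold nuS
  rw [integral_map (iv_meas η).aemeasurable hu.aestronglyMeasurable]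
  rw [integral_prod (fun p : E d × E d => u (p.1 + √η • p.2))]
  refine Integrable.mono' (integrable_const C)
    (hu.comp (iv_meas η)).aestronglyMeasurable (Filter.Eventually.of_forall fun p => ?_)
  rw [Real.norm_eq_abs]
  exact hC _

theorem inv_Nop (hG : Pert d b G) {u : E d → ℝ} (hu : Measurable u)
    (bu : ∃ C, ∀ x, |u x| ≤ C) : ∫ x, Nop η u x ∂(nuG G) = ∫ y, u y ∂(nuS G η) := by
  rw [iv_integral hG hu bu]
  rfl

/-- the constant of the Gaussian kernel -/
private noncomputable def ivk (d : ℕ) (η : ℝ) : ℝ :=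
  (∫ x : E d, Real.exp (-(‖x‖ ^ 2 / 2 + 0)))⁻¹ * |((√η) ^ d)⁻¹|

/-- the constant -/
private noncomputable def ivc (d : ℕ) (G : E d → ℝ) (η : ℝ) : ℝ :=
  (∫ x : E d, Real.exp (-(‖x‖ ^ 2 / 2 + G x)))⁻¹ * ivk d η

private theorem iv_nuG (G : E d → ℝ) (u : E d → ℝ) :
    ∫ x, u x ∂(nuG G) = (∫ x, Real.exp (-(‖x‖ ^ 2 / 2 + G x)))⁻¹ *
      ∫ x, Real.exp (-(‖x‖ ^ 2 / 2 + G x)) * u x := by
  have h := SC.integral_tilted (U := fun x : E d => ‖x‖ ^ 2 / 2 + G x) u
  exact h

private theorem iv_gauss (hη : 0 < η) (φ : E d → ℝ) (x : E d) :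
    ∫ z, φ (x + √η • z) ∂(stdGaussian (E d)) =
      ivk d η * ∫ y, Real.exp (-(‖x - y‖ ^ 2 / (2 * η))) * φ y := by
  unfold ivk
  rw [← nuG_zero, iv_nuG, mul_assoc]
  congr 1
  have hs : 0 < √η := Real.sqrt_pos.2 hη
  have h1 : ∀ z : E d, Real.exp (-(‖z‖ ^ 2 / 2 + 0)) * φ (x + √η • z) =
      (fun w : E d => Real.exp (-(‖w‖ ^ 2 / (2 * η))) * φ (x + w)) (√η • z) := by
    intro z
    simp only
    congr 3
    rw [norm_smul, mul_pow, Real.norm_eq_abs, sq_abs, Real.sq_sqrt hη.le, add_zero]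
    field_simp
  have h2 : ∫ z : E d, Real.exp (-(‖z‖ ^ 2 / 2 + 0)) * φ (x + √η • z) =
      ∫ z : E d, (fun w : E d => Real.exp (-(‖w‖ ^ 2 / (2 * η))) * φ (x + w)) (√η • z) :=
    integral_congr_ae (Filter.Eventually.of_forall h1)
  rw [h2, Measure.integral_comp_smul volume
    (fun w : E d => Real.exp (-(‖w‖ ^ 2 / (2 * η))) * φ (x + w)) (√η),
    finrank_euclideanSpace_fin, smul_eq_mul]
  congr 1
  rw [← integral_sub_right_eq_self _ x]
  apply integral_congr_ae
  refine Filter.Eventually.of_forall fun y => ?_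
  simp only
  rw [norm_sub_rev y x, add_sub_cancel]

private theorem iv_kernel_integrable (hη : 0 < η) :
    Integrable (fun w : E d => Real.exp (-(‖w‖ ^ 2 / (2 * η)))) volume := by
  have h := (pert_zero d).sc_nu.integrable_exp
  have hs : 0 < √η := Real.sqrt_pos.2 hη
  have h2 := h.comp_smul (inv_ne_zero hs.ne')
  refine h2.congr (Filter.Eventually.of_forall fun w => ?_)
  simp only
  congr 2
  rw [norm_smul, mul_pow, Real.norm_eq_abs, sq_abs, inv_pow, Real.sq_sqrt hη.le, add_zero]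
  field_simp

private theorem iv_joint (hG : Pert d b G) (hη : 0 < η) {h : E d × E d → ℝ} (hh : Measurable h)
    {C : ℝ} (hC : ∀ p, |h p| ≤ C) :
    ∫ x, ∫ z, h (x, x + √η • z) ∂(stdGaussian (E d)) ∂(nuG G) =
      ivc d G η * ∫ y, ∫ x, Real.exp (-(‖x‖ ^ 2 / 2 + G x + ‖x - y‖ ^ 2 / (2 * η))) * h (x, y) := by
  have h1 : ∀ x : E d, ∫ z, h (x, x + √η • z) ∂(stdGaussian (E d)) =
      ivk d η * ∫ y, Real.exp (-(‖x - y‖ ^ 2 / (2 * η))) * h (x, y) := fun x =>
    iv_gauss hη (fun y => h (x, y)) x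
  simp_rw [h1]
  rw [iv_nuG]
  unfold ivc
  rw [mul_assoc]
  congr 1
  have hint : Integrable (fun p : E d × E d =>
      Real.exp (-(‖p.1‖ ^ 2 / 2 + G p.1 + ‖p.1 - p.2‖ ^ 2 / (2 * η))) * h p)
      ((volume : Measure (E d)).prod volume) := by
    have i1 : Integrable (fun p : E d × E d =>
        Real.exp (-(‖p.1‖ ^ 2 / 2 + G p.1)) * Real.exp (-(‖p.2‖ ^ 2 / (2 * η))))
        ((volume : Measure (E d)).prod volume) :=
      hG.sc_nu.integrable_exp.mul_prod (iv_kernel_integrable hη)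
    have i2 := (measurePreserving_prod_neg_add (volume : Measure (E d))
      (volume : Measure (E d))).integrable_comp_of_integrable i1
    refine (i2.const_mul C).mono' ?_ (Filter.Eventually.of_forall fun p => ?_)
    · have hGm : Measurable G := hG.smooth.continuous.measurable
      apply Measurable.aestronglyMeasurable
      apply Measurable.mul _ hh
      fun_prop
    · simp only [Function.comp]
      rw [norm_mul, Real.norm_eq_abs, Real.norm_eq_abs, abs_of_pos (Real.exp_pos _), mul_comm]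
      have e1 : Real.exp (-(‖p.1‖ ^ 2 / 2 + G p.1)) *
          Real.exp (-(‖-p.1 + p.2‖ ^ 2 / (2 * η))) =
          Real.exp (-(‖p.1‖ ^ 2 / 2 + G p.1 + ‖p.1 - p.2‖ ^ 2 / (2 * η))) := by
        rw [← Real.exp_add]
        congr 1
        have : ‖-p.1 + p.2‖ = ‖p.1 - p.2‖ := by
          rw [← norm_neg]
          congr 1
          abel
        rw [this]
        ring
      rw [e1]
      exact mul_le_mul_of_nonneg_right (hC p) (Real.exp_pos _).le
  have h2 : ∫ y, ∫ x, Real.exp (-(‖x‖ ^ 2 / 2 + G x + ‖x - y‖ ^ 2 / (2 * η))) * h (x, y) =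
      ∫ x, ∫ y, Real.exp (-(‖x‖ ^ 2 / 2 + G x + ‖x - y‖ ^ 2 / (2 * η))) * h (x, y) :=
    (integral_integral_swap (f := fun x y : E d =>
      Real.exp (-(‖x‖ ^ 2 / 2 + G x + ‖x - y‖ ^ 2 / (2 * η))) * h (x, y)) hint).symm
  rw [h2, ← integral_const_mul]
  apply integral_congr_ae
  refine Filter.Eventually.of_forall fun x => ?_
  simp only
  have h3 : ∫ y, Real.exp (-(‖x‖ ^ 2 / 2 + G x + ‖x - y‖ ^ 2 / (2 * η))) * h (x, y) =
      Real.exp (-(‖x‖ ^ 2 / 2 + G x)) *
        ∫ y, Real.exp (-(‖x - y‖ ^ 2 / (2 * η))) * h (x, y) := by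
    rw [← integral_const_mul]
    apply integral_congr_ae
    refine Filter.Eventually.of_forall fun y => ?_
    simp only
    rw [← mul_assoc, ← Real.exp_add]
    congr 2
    ring
  rw [h3]
  ring

private theorem iv_PG_of_bdd {u : E d → ℝ} (bu : ∃ C, ∀ x, |u x| ≤ C) : PG u := by
  obtain ⟨C, hC⟩ := bu
  exact PG.of_bdd (C := C) (fun x => by rw [Real.norm_eq_abs]; exact hC x)

private theorem iv_Rop_meas (hb : 0 ≤ b) (hG : Pert d b G) (hη : 0 < η) {u : E d → ℝ}
    (hu : Measurable u) (bu : ∃ C, ∀ x, |u x| ≤ C) : Measurable (Rop G η u) :=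
  (Rop_contDiff hb hG hη hu.aestronglyMeasurable (iv_PG_of_bdd bu) 0).continuous.measurable

private theorem iv_Rop_bdd (hG : Pert d b G) (hη : 0 < η) {u : E d → ℝ} {C : ℝ}
    (hC : ∀ x, |u x| ≤ C) (y : E d) : |Rop G η u y| ≤ C := by
  have h := norm_Rop_le hG hη (u := u) (B := C) (fun x => by rw [Real.norm_eq_abs]; exact hC x) y
  rwa [Real.norm_eq_abs] at h

theorem inv_Rop (hb : 0 ≤ b) (hG : Pert d b G) (hη : 0 < η) {u : E d → ℝ} (hu : Measurable u)
    (bu : ∃ C, ∀ x, |u x| ≤ C) : ∫ y, Rop G η u y ∂(nuS G η) = ∫ x, u x ∂(nuG G) := by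
  have hR := iv_Rop_meas hb hG hη hu bu
  obtain ⟨C, hC⟩ := bu
  have hRC := iv_Rop_bdd hG hη hC
  rw [iv_integral hG hR ⟨C, hRC⟩]
  have e1 := iv_joint hG hη (h := fun p : E d × E d => Rop G η u p.2)
    (hR.comp measurable_snd) (C := C) (fun p => hRC p.2)
  have e2 := iv_joint hG hη (h := fun p : E d × E d => u p.1)
    (hu.comp measurable_fst) (C := C) (fun p => hC p.1)
  simp only at e1 e2
  rw [e1]
  have e3 : ∫ x, ∫ _z, u x ∂(stdGaussian (E d)) ∂(nuG G) = ∫ x, u x ∂(nuG G) := by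
    simp
  rw [← e3, e2]
  congr 1
  apply integral_congr_ae
  refine Filter.Eventually.of_forall fun y => ?_
  simp only
  rw [integral_mul_const]
  have hp := (hG.sc_RG hη y).integral_exp_pos
  have h := SC.integral_tilted (U := fun x : E d => ‖x‖ ^ 2 / 2 + G x + ‖x - y‖ ^ 2 / (2 * η)) u
  have h' : Rop G η u y = (∫ x, Real.exp (-(‖x‖ ^ 2 / 2 + G x + ‖x - y‖ ^ 2 / (2 * η))))⁻¹ *
      ∫ x, Real.exp (-(‖x‖ ^ 2 / 2 + G x + ‖x - y‖ ^ 2 / (2 * η))) * u x := h
  rw [h', ← mul_assoc, mul_inv_cancel₀ hp.ne', one_mul]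

private theorem iv_Nop_meas {u : E d → ℝ} (hu : Measurable u) : Measurable (Nop η u) :=
  measurable_Nop hu

private theorem iv_Nop_bdd {u : E d → ℝ} {C : ℝ} (hC : ∀ x, |u x| ≤ C) (x : E d) :
    |Nop η u x| ≤ C := by
  have h := norm_Nop_le (η := η) (u := u) (B := C)
    (fun x => by rw [Real.norm_eq_abs]; exact hC x) x
  rwa [Real.norm_eq_abs] at h

theorem inv_Pop (hb : 0 ≤ b) (hG : Pert d b G) (hη : 0 < η) {u : E d → ℝ} (hu : Measurable u)
    (bu : ∃ C, ∀ x, |u x| ≤ C) : ∫ y, Pop G η u y ∂(nuS G η) = ∫ y, u y ∂(nuS G η) := by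
  rw [← inv_Nop hG hu bu]
  obtain ⟨C, hC⟩ := bu
  exact inv_Rop hb hG hη (iv_Nop_meas hu) ⟨C, iv_Nop_bdd hC⟩

theorem inv_iter (hb : 0 ≤ b) (hG : Pert d b G) (hη : 0 < η) {u : E d → ℝ} (hu : Measurable u)
    (bu : ∃ C, ∀ x, |u x| ≤ C) (j : ℕ) :
    ∫ y, ((Pop G η)^[j] u) y ∂(nuS G η) = ∫ y, u y ∂(nuS G η) := by
  induction j with
  | zero => rfl
  | succ j ih =>
    rw [Function.iterate_succ', Function.comp_apply, ← ih]
    have hm := iter_meas_scalar hb hG hη hu bu j
    obtain ⟨C, hC⟩ := bu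
    refine inv_Pop hb hG hη hm ⟨C, fun x => ?_⟩
    have h := norm_iter_le hG hη (u := u) (B := C)
      (fun x => by rw [Real.norm_eq_abs]; exact hC x) j x
    rwa [Real.norm_eq_abs] at h

private theorem iv_sq_int (hG : Pert d b G) : Integrable (fun x : E d => ‖x‖ ^ 2) (nuG G) :=
  nuG_integrable hG (by fun_prop) (PG_id.norm.pow 2)

private theorem iv_id_int (hG : Pert d b G) : Integrable (fun x : E d => x) (nuG G) :=
  nuG_integrable hG (by fun_prop) PG_id

private theorem iv_gsq_int (d : ℕ) : Integrable (fun x : E d => ‖x‖ ^ 2) (stdGaussian (E d)) :=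
  gauss_integrable (by fun_prop) (PG_id.norm.pow 2)

private theorem iv_gid_int (d : ℕ) : Integrable (fun x : E d => x) (stdGaussian (E d)) :=
  gauss_integrable (by fun_prop) PG_id

theorem nuS_sq (hG : Pert d b G) (hη : 0 ≤ η) :
    Integrable (fun y => ‖y‖ ^ 2) (nuS G η) ∧
      ∫ y, ‖y‖ ^ 2 ∂(nuS G η) = (∫ x, ‖x‖ ^ 2 ∂(nuG G)) + η * d := by
  have := nuG_isProb hG
  have hexp : ∀ p : E d × E d, ‖p.1 + √η • p.2‖ ^ 2 =
      ‖p.1‖ ^ 2 + 2 * √η * inner ℝ p.1 p.2 + η * ‖p.2‖ ^ 2 := by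
    intro p
    rw [norm_add_sq_real, inner_smul_right, norm_smul, mul_pow, Real.norm_eq_abs, sq_abs,
      Real.sq_sqrt hη]
    ring
  have i1 : Integrable (fun p : E d × E d => ‖p.1‖ ^ 2) ((nuG G).prod (stdGaussian (E d))) :=
    (iv_sq_int hG).comp_fst _
  have i3 : Integrable (fun p : E d × E d => ‖p.2‖ ^ 2) ((nuG G).prod (stdGaussian (E d))) :=
    (iv_gsq_int d).comp_snd _
  have i2 : Integrable (fun p : E d × E d => inner ℝ p.1 p.2)
      ((nuG G).prod (stdGaussian (E d))) := by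
    have j := (iv_id_int hG).norm.mul_prod (iv_gid_int d).norm
    refine j.mono' (by fun_prop) (Filter.Eventually.of_forall fun p => ?_)
    exact norm_inner_le_norm _ _
  have hI : Integrable (fun p : E d × E d => ‖p.1 + √η • p.2‖ ^ 2)
      ((nuG G).prod (stdGaussian (E d))) := by
    simp_rw [hexp]
    exact (i1.add (i2.const_mul _)).add (i3.const_mul _)
  have hc : Continuous (fun y : E d => ‖y‖ ^ 2) := by fun_prop
  refine ⟨?_, ?_⟩
  · unfold nuS
    rw [integrable_map_measure hc.aestronglyMeasurable (iv_meas η).aemeasurable]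
    exact hI
  · unfold nuS
    rw [integral_map (iv_meas η).aemeasurable hc.aestronglyMeasurable]
    simp_rw [hexp]
    have i12 : Integrable (fun p : E d × E d => ‖p.1‖ ^ 2 + 2 * √η * inner ℝ p.1 p.2)
        ((nuG G).prod (stdGaussian (E d))) := i1.add (i2.const_mul _)
    rw [integral_add i12 (i3.const_mul _),
      integral_add i1 (i2.const_mul _), integral_const_mul, integral_const_mul]
    have e1 : ∫ p : E d × E d, ‖p.1‖ ^ 2 ∂((nuG G).prod (stdGaussian (E d))) =
        ∫ x, ‖x‖ ^ 2 ∂(nuG G) := by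
      rw [integral_fun_fst (f := fun x : E d => ‖x‖ ^ 2)]
      simp
    have e3 : ∫ p : E d × E d, ‖p.2‖ ^ 2 ∂((nuG G).prod (stdGaussian (E d))) = d := by
      rw [integral_fun_snd (f := fun x : E d => ‖x‖ ^ 2), gauss_sq]
      simp
    have e2 : ∫ p : E d × E d, inner ℝ p.1 p.2 ∂((nuG G).prod (stdGaussian (E d))) = 0 := by
      rw [integral_prod _ i2]
      have : ∀ x : E d, ∫ z, inner ℝ x z ∂(stdGaussian (E d)) = 0 := by
        intro x
        rw [integral_inner (iv_gid_int d), gauss_mean, inner_zero_right]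
      simp [this]
    rw [e1, e2, e3]
    ring

theorem Pot.second_moment {V : E d → ℝ} (hV : Pot d V) :
    ∫ x, ‖x‖ ^ 2 ∂(nuG (pertOf V)) ≤ d := by
  have hG := hV.pert
  have := nuG_isProb hG
  have hfd : ∀ (i : Fin d) (x : E d), fderiv ℝ (fun x : E d => x i) x =
      (EuclideanSpace.proj (𝕜 := ℝ) i : E d →L[ℝ] ℝ) := by
    intro i x
    exact (EuclideanSpace.proj (𝕜 := ℝ) i : E d →L[ℝ] ℝ).fderiv
  have key : ∀ i : Fin d, (1 : ℝ) = ∫ x, (inner ℝ x (EuclideanSpace.single i (1 : ℝ)) +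
      inner ℝ (gradient (pertOf V) x) (EuclideanSpace.single i (1 : ℝ))) * x i
        ∂(nuG (pertOf V)) := by
    intro i
    have h := nuG_ibp (by norm_num : (0 : ℝ) ≤ 1) hG (u := fun x : E d => x i)
      (EuclideanSpace.proj (𝕜 := ℝ) i : E d →L[ℝ] ℝ).contDiff (PG_id.apply i)
      (by
        simp_rw [hfd]
        exact PG.of_bdd (C := ‖(EuclideanSpace.proj (𝕜 := ℝ) i : E d →L[ℝ] ℝ)‖)
          (fun _ => le_rfl)) (EuclideanSpace.single i (1 : ℝ))
    simp_rw [hfd] at h
    have h2 : (EuclideanSpace.proj (𝕜 := ℝ) i : E d →L[ℝ] ℝ)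
        (EuclideanSpace.single i (1 : ℝ)) = 1 := by simp
    rw [h2] at h
    simp only [integral_const, probReal_univ, smul_eq_mul, mul_one] at h
    exact h
  have hgm : Continuous (gradient (pertOf V)) := hG.grad_contDiff.continuous
  have hint : ∀ i : Fin d, Integrable (fun x => (inner ℝ x (EuclideanSpace.single i (1 : ℝ)) +
      inner ℝ (gradient (pertOf V) x) (EuclideanSpace.single i (1 : ℝ))) * x i)
        (nuG (pertOf V)) := by
    intro i
    apply nuG_integrable hG
    · apply Continuous.aestronglyMeasurable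
      fun_prop
    · apply PG.mul _ (PG_id.apply i)
      apply PG.add (PG_inner _)
      have := (hG.PG_grad (by norm_num)).apply i
      refine this.mono fun x => ?_
      rw [EuclideanSpace.inner_single_right]
      simp
  have hsum : (d : ℝ) = ∫ x, (‖x‖ ^ 2 + inner ℝ (gradient (pertOf V) x) x)
      ∂(nuG (pertOf V)) := by
    have h1 : (d : ℝ) = ∑ _i : Fin d, (1 : ℝ) := by simp
    rw [h1]
    rw [Finset.sum_congr rfl (fun i _ => key i), ← integral_finsetSum _ (fun i _ => hint i)]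
    apply integral_congr_ae
    refine Filter.Eventually.of_forall fun x => ?_
    simp only
    rw [← real_inner_self_eq_norm_sq, PiLp.inner_apply, PiLp.inner_apply,
      ← Finset.sum_add_distrib]
    apply Finset.sum_congr rfl
    intro i _
    rw [EuclideanSpace.inner_single_right, EuclideanSpace.inner_single_right]
    simp
    ring
  rw [hsum]
  apply integral_mono (iv_sq_int hG)
  · apply nuG_integrable hG
    · apply Continuous.aestronglyMeasurable
      fun_prop
    · apply PG.add (PG_id.norm.pow 2)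
      have h1 : PG (fun x : E d => ‖gradient (pertOf V) x‖ * ‖x‖) :=
        (hG.PG_grad (by norm_num)).norm.mul PG_id.norm
      refine h1.mono fun x => ?_
      rw [norm_mul, norm_norm, norm_norm]
      exact norm_inner_le_norm _ _
  · intro x
    have h := hG.mono x 0
    have h0 : gradient (pertOf V) 0 = 0 := by
      rw [hV.gradient_pertOf, hV.grad_zero, sub_zero]
    rw [h0, sub_zero, sub_zero] at h
    simp only
    linarith

/-- the smoothed target converges to the target on Lipschitz functions -/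
theorem nuS_lip (hG : Pert d b G) (hη : 0 ≤ η) {f : E d → ℝ} {L : ℝ}
    (hL : ∀ x y, |f x - f y| ≤ L * ‖x - y‖) (bf : ∃ C, ∀ x, |f x| ≤ C) :
    |(∫ y, f y ∂(nuS G η)) - ∫ x, f x ∂(nuG G)| ≤ L * √η * √d := by
  have := nuG_isProb hG
  have hfc : Continuous f := by
    have hlip : LipschitzWith (Real.toNNReal |L|) f := by
      apply LipschitzWith.of_dist_le_mul
      intro x y
      rw [Real.dist_eq, dist_eq_norm, Real.coe_toNNReal _ (abs_nonneg L)]
      exact (hL x y).trans (mul_le_mul_of_nonneg_right (le_abs_self L) (norm_nonneg _))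
    exact hlip.continuous
  have hfm := hfc.measurable
  obtain ⟨C, hC⟩ := bf
  rw [iv_integral hG hfm ⟨C, hC⟩]
  have hP1 : Integrable (fun p : E d × E d => f (p.1 + √η • p.2))
      ((nuG G).prod (stdGaussian (E d))) := by
    refine Integrable.mono' (integrable_const C)
      (hfm.comp (iv_meas η)).aestronglyMeasurable (Filter.Eventually.of_forall fun p => ?_)
    rw [Real.norm_eq_abs]
    exact hC _
  have hP2 : Integrable (fun p : E d × E d => f p.1) ((nuG G).prod (stdGaussian (E d))) := by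
    refine Integrable.mono' (integrable_const C)
      (hfm.comp measurable_fst).aestronglyMeasurable (Filter.Eventually.of_forall fun p => ?_)
    rw [Real.norm_eq_abs]
    exact hC _
  have e1 : ∫ x, ∫ z, f (x + √η • z) ∂(stdGaussian (E d)) ∂(nuG G) =
      ∫ p, f (p.1 + √η • p.2) ∂((nuG G).prod (stdGaussian (E d))) :=
    (integral_prod _ hP1).symm
  have e2 : ∫ x, f x ∂(nuG G) = ∫ p : E d × E d, f p.1 ∂((nuG G).prod (stdGaussian (E d))) := by
    rw [integral_prod _ hP2]
    simp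
  rw [e1, e2, ← integral_sub hP1 hP2]
  have hz : Integrable (fun p : E d × E d => L * √η * ‖p.2‖)
      ((nuG G).prod (stdGaussian (E d))) :=
    ((iv_gid_int d).norm.comp_snd _).const_mul _
  have h3 : |∫ p : E d × E d, (f (p.1 + √η • p.2) - f p.1) ∂((nuG G).prod (stdGaussian (E d)))| ≤
      ∫ p : E d × E d, L * √η * ‖p.2‖ ∂((nuG G).prod (stdGaussian (E d))) := by
    rw [← Real.norm_eq_abs]
    refine norm_integral_le_of_norm_le hz (Filter.Eventually.of_forall fun p => ?_)
    rw [Real.norm_eq_abs]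
    have h := hL (p.1 + √η • p.2) p.1
    rw [add_sub_cancel_left, norm_smul, Real.norm_eq_abs, abs_of_nonneg (Real.sqrt_nonneg η)] at h
    linarith
  refine h3.trans ?_
  rw [integral_const_mul]
  have e4 : ∫ p : E d × E d, ‖p.2‖ ∂((nuG G).prod (stdGaussian (E d))) =
      ∫ z, ‖z‖ ∂(stdGaussian (E d)) := by
    rw [integral_fun_snd (f := fun x : E d => ‖x‖)]
    simp
  rw [e4]
  have h5 : ∫ z, ‖z‖ ∂(stdGaussian (E d)) ≤ √d := by
    apply Real.le_sqrt_of_sq_le
    have h6 : (∫ z, ‖z‖ ∂(stdGaussian (E d))) ^ 2 ≤ ∫ z, ‖z‖ ^ 2 ∂(stdGaussian (E d)) := by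
      have j1 := (iv_gid_int d).norm
      have j2 := iv_gsq_int d
      set m := ∫ z, ‖z‖ ∂(stdGaussian (E d)) with hm
      have h7 : 0 ≤ ∫ z, (‖z‖ - m) ^ 2 ∂(stdGaussian (E d)) :=
        integral_nonneg fun z => sq_nonneg _
      have e5 : ∀ z : E d, (‖z‖ - m) ^ 2 = ‖z‖ ^ 2 - 2 * m * ‖z‖ + m ^ 2 := by
        intro z
        ring
      simp_rw [e5] at h7
      have j12 : Integrable (fun z : E d => ‖z‖ ^ 2 - 2 * m * ‖z‖) (stdGaussian (E d)) :=
        j2.sub (j1.const_mul _)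
      rw [integral_add j12 (integrable_const _),
        integral_sub j2 (j1.const_mul _), integral_const_mul] at h7
      simp only [integral_const, probReal_univ, smul_eq_mul, one_mul] at h7
      rw [← hm] at h7
      nlinarith
    rwa [gauss_sq] at h6
  by_cases hL0 : 0 ≤ L
  · exact mul_le_mul_of_nonneg_left h5 (mul_nonneg hL0 (Real.sqrt_nonneg _))
  · have hL0' : L < 0 := not_le.1 hL0
    have hz0 : ∀ z : E d, ‖z‖ = 0 := by
      intro z
      have h := (abs_nonneg _).trans (hL z 0)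
      rw [sub_zero] at h
      have h2 := norm_nonneg z
      nlinarith
    have e6 : ∫ z, ‖z‖ ∂(stdGaussian (E d)) = 0 := by
      simp [hz0]
    have e7 : (d : ℝ) = 0 := by
      rw [← gauss_sq d]
      simp [hz0]
    rw [e6, e7]
    simp

end Vale.Agent.P347
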