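import Vale.Agent.Lib.P347.Calc

/-!
P347: the analytic objects. Definitions only.
-/

open MeasureTheory ProbabilityTheory
open scoped RealInnerProductSpace

namespace Vale.Agent.P347

/-- convex perturbation with Hessian between `0` and `b` -/
structure Pert (d : ℕ) (b : ℝ) (G : E d → ℝ) : Prop where
  smooth : ContDiff ℝ 2 G
  nonneg : ∀ x v : E d, 0 ≤ fderiv ℝ (fderiv ℝ G) x v v
  le : ∀ x v : E d, fderiv ℝ (fderiv ℝ G) x v v ≤ b * ‖v‖ ^ 2

/-- continuous, strongly midpoint convex with constant `α`, with quadratic lower growth -/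
structure SC (d : ℕ) (α : ℝ) (U : E d → ℝ) : Prop where
  cont : Continuous U
  mid : ∀ x y : E d, U ((1 / 2 : ℝ) • (x + y)) ≤ (U x + U y) / 2 - α / 8 * ‖x - y‖ ^ 2
  grow : ∃ c > 0, ∃ C : ℝ, ∀ x, c * ‖x‖ ^ 2 - C ≤ U x

variable {d : ℕ}

/-- the law with density proportional to `exp (-(|x|^2/2 + G))` -/
noncomputable def nuG (G : E d → ℝ) : Measure (E d) :=
  (volume : Measure (E d)).tilted (fun x => -(‖x‖ ^ 2 / 2 + G x))

/-- the restricted Gaussian law of `|x|^2/2 + G` with step `η`, centre `y` -/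
noncomputable def RG (G : E d → ℝ) (η : ℝ) (y : E d) : Measure (E d) :=
  (volume : Measure (E d)).tilted (fun x => -(‖x‖ ^ 2 / 2 + G x + ‖x - y‖ ^ 2 / (2 * η)))

/-- average over the restricted Gaussian law -/
noncomputable def Rop {F : Type} [NormedAddCommGroup F] [NormedSpace ℝ F]
    (G : E d → ℝ) (η : ℝ) (u : E d → F) (y : E d) : F := ∫ x, u x ∂(RG G η y)

/-- Gaussian smoothing with variance `η` -/
noncomputable def Nop {F : Type} [NormedAddCommGroup F] [NormedSpace ℝ F]
    (η : ℝ) (u : E d → F) (x : E d) : F := ∫ z, u (x + √η • z) ∂(stdGaussian (E d))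

/-- one step of the exact proximal chain acting on functions -/
noncomputable def Pop {F : Type} [NormedAddCommGroup F] [NormedSpace ℝ F]
    (G : E d → ℝ) (η : ℝ) (u : E d → F) : E d → F := Rop G η (Nop η u)

/-- minus the covariance of `w` and `gradient G` under the restricted Gaussian law -/
noncomputable def Phi {ι : Type} [Fintype ι] (G : E d → ℝ) (η : ℝ)
    (w : E d → EuclideanSpace ℝ ι) (y : E d) : EuclideanSpace ℝ (Fin d × ι) :=
  WithLp.toLp 2 (fun p => -((∫ x, w x p.2 * gradient G x p.1 ∂(RG G η y)) -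
    (∫ x, w x p.2 ∂(RG G η y)) * (∫ x, gradient G x p.1 ∂(RG G η y))))

/-- the generator of the Langevin diffusion of `|x|^2/2 + G` -/
noncomputable def Ls (G : E d → ℝ) (f : E d → ℝ) (x : E d) : ℝ :=
  (∑ i, Dv (gradient f) x (i, i)) - ⟪x + gradient G x, gradient f x⟫

/-- index set of the auxiliary noise vectors -/
abbrev Rest (K : ℕ) := Fin K ⊕ Option (Fin K)

/-- noise used by one step of the scheme: the main Gaussian vector and the auxiliary ones -/
abbrev Noise (d K : ℕ) := E d × (Rest K → E d)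

/-- the law of the noise -/
noncomputable def noiseLaw (d K : ℕ) : Measure (Noise d K) :=
  (stdGaussian (E d)).prod (Measure.pi fun _ : Rest K => stdGaussian (E d))

/-- nodes and weights -/
structure Nodes (K : ℕ) where
  rho : Fin K → ℝ
  J : Fin K → ℝ

/-- complementary correlation -/
noncomputable def Nodes.kap {K : ℕ} (N : Nodes K) (k : Fin K) : ℝ := √(1 - N.rho k ^ 2)

/-- admissible nodes with constant `C` and quadrature error `ε` -/
structure GoodNodes {K : ℕ} (N : Nodes K) (C ε : ℝ) : Prop where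
  one_le : 1 ≤ C
  pos : ∀ k, 0 < N.rho k
  lt : ∀ k, N.rho k < 1
  sum : ∑ k, N.J k = 1
  abs : ∑ k, |N.J k| / N.kap k ≤ C
  exact : ∀ (d : ℕ) (F : E d → E d) (a : ℝ), ContDiff ℝ 1 F → (∀ x, ‖fderiv ℝ F x‖ ≤ a) →
    ∀ w : E d → E d, Measurable w → (∃ B, ∀ x, ‖w x‖ ≤ B) →
      ∫ x, w x ∂(stdGaussian (E d)) = 0 →
      |(∑ k, N.J k * ∫ x, ∫ z, ⟪F (N.rho k • x + N.kap k • z) + (N.rho k / N.kap k) •
          fderiv ℝ F (N.rho k • x + N.kap k • z) (N.kap k • x - N.rho k • z), w x⟫
          ∂(stdGaussian (E d)) ∂(stdGaussian (E d))) - ∫ x, ⟪F x, w x⟫ ∂(stdGaussian (E d))|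
        ≤ ε * (a * √d) * √(∫ x, ‖w x‖ ^ 2 ∂(stdGaussian (E d)))

/-- the smoothed drift -/
noncomputable def SS {K : ℕ} (N : Nodes K) (F : E d → E d) (x : E d) (z : Fin K → E d) : E d :=
  ∑ k, N.J k • F (N.rho k • x + N.kap k • z k)

/-- the mean correction -/
noncomputable def bb {K : ℕ} (N : Nodes K) (F : E d → E d) (z : Option (Fin K) → E d) : E d :=
  F (z none - SS N F (z none) (fun k => z (some k))) - F (z none)

/-- the output of the scheme in unit scale -/
noncomputable def XX {K : ℕ} (N : Nodes K) (F : E d → E d) (ω : Noise d K) : E d :=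
  ω.1 - SS N F ω.1 (fun k => ω.2 (Sum.inl k)) - bb N F (fun o => ω.2 (Sum.inr o))

/-- the centre used at `y` -/
noncomputable def cen (V : E d → ℝ) (h : ℝ) (y : E d) : E d := y - h • gradient V y

/-- the local force in unit scale -/
noncomputable def Fy (V : E d → ℝ) (h : ℝ) (y ξ : E d) : E d :=
  √h • (gradient V (cen V h y + √h • ξ) - gradient V y)

/-- the local potential in unit scale -/
noncomputable def Gy (V : E d → ℝ) (h : ℝ) (y ξ : E d) : ℝ :=
  V (cen V h y + √h • ξ) + ‖cen V h y + √h • ξ - y‖ ^ 2 / (2 * h) - ‖ξ‖ ^ 2 / 2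

/-- one step of the algorithm before the forward noise -/
noncomputable def stepA {K : ℕ} (N : Nodes K) (V : E d → ℝ) (h : ℝ) (y : E d)
    (ω : Noise d K) : E d := cen V h y + √h • XX N (Fy V h y) ω

/-- the algorithm step acting on functions -/
noncomputable def Ahat {K : ℕ} (N : Nodes K) (V : E d → ℝ) (h : ℝ) (ψ : E d → ℝ) (y : E d) : ℝ :=
  ∫ ω, ψ (stepA N V h y ω) ∂(noiseLaw d K)

/-- algorithm step with step `h` followed by forward noise of variance `h'` -/
noncomputable def Phat {K : ℕ} (N : Nodes K) (V : E d → ℝ) (h h' : ℝ) (f : E d → ℝ) :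
    E d → ℝ := Ahat N V h (Nop h' f)

/-- the last step -/
noncomputable def Lst (V : E d → ℝ) (h : ℝ) (f : E d → ℝ) (y : E d) : ℝ :=
  ∫ z, f (cen V h y + √h • z) ∂(stdGaussian (E d))

/-- the perturbation associated with a potential -/
noncomputable def pertOf (V : E d → ℝ) (x : E d) : ℝ := V x - ‖x‖ ^ 2 / 2

end Vale.Agent.P347
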