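import Vale.Agent.Lib.P347.RMom

/-!
P347: averages over the restricted Gaussian law are smooth in the centre.

Proof: `Rop G η u y = N u y / N 1 y` with
`N u y = ∫ exp (-(|x|^2/2 + G x + |x - y|^2/(2 η))) • u x dx`, differentiate under the integral
sign (`hasFDerivAt_integral_of_dominated_of_fderiv_le`; for `y` in a ball of radius one around
`y₀` the integrand and its derivative are dominated by a Gaussian times a polynomial), the
derivative of `N u` in direction `e` is `η⁻¹ • N (⟪x - y, e⟫ • u)`, quotient rule.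
Smoothness of all orders: induction on `n` for all target spaces `F` at once, because the
derivative `y ↦ fderiv (Rop G η u) y` is a combination of `Rop` of the maps
`x ↦ (innerSL ℝ x).smulRight (u x)`, `x ↦ innerSL ℝ x` and `u`.
-/

open MeasureTheory ProbabilityTheory
open scoped RealInnerProductSpace

namespace Vale.Agent.P347

variable {d : ℕ} {b : ℝ} {G : E d → ℝ} {η : ℝ}

section aux

/-- the weight -/
private noncomputable def wt (G : E d → ℝ) (η : ℝ) (y x : E d) : ℝ :=
  Real.exp (-(‖x‖ ^ 2 / 2 + G x + ‖x - y‖ ^ 2 / (2 * η)))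

/-- the unnormalised average -/
private noncomputable def Nn {F : Type} [NormedAddCommGroup F] [NormedSpace ℝ F]
    (G : E d → ℝ) (η : ℝ) (u : E d → F) (y : E d) : F := ∫ x, wt G η y x • u x

/-- multiplication with the identity map -/
private noncomputable def TT {F : Type} [NormedAddCommGroup F] [NormedSpace ℝ F]
    (u : E d → F) (x : E d) : E d →L[ℝ] F := (innerSL ℝ x).smulRight (u x)

variable {F : Type} [NormedAddCommGroup F] [NormedSpace ℝ F]

private theorem TT_meas {u : E d → F} (hu : AEStronglyMeasurable u volume) :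
    AEStronglyMeasurable (TT u) volume := by
  have h1 : Continuous fun p : (E d →L[ℝ] ℝ) × F => p.1.smulRight p.2 :=
    (ContinuousLinearMap.smulRightL ℝ (E d) F).continuous₂
  have h2 : AEStronglyMeasurable (fun x : E d => innerSL ℝ x) volume :=
    (innerSL ℝ (E := E d)).continuous.aestronglyMeasurable
  exact h1.comp_aestronglyMeasurable (h2.prodMk hu)

private theorem norm_TT (u : E d → F) (x : E d) : ‖TT u x‖ = ‖x‖ * ‖u x‖ := by
  unfold TT
  rw [ContinuousLinearMap.norm_smulRight_apply, innerSL_apply_norm]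

private theorem TT_PG {u : E d → F} (hp : PG u) : PG (TT u) := by
  have h1 : PG (fun x : E d => ‖x‖ • u x) := PG_id.norm.smul hp
  refine h1.mono fun x => ?_
  rw [norm_TT, norm_smul, norm_norm]

private theorem wt_pos (G : E d → ℝ) (η : ℝ) (y x : E d) : 0 < wt G η y x := Real.exp_pos _

private theorem wt_le (G : E d → ℝ) (hη : 0 < η) (y x : E d) :
    wt G η y x ≤ Real.exp (-(‖x‖ ^ 2 / 2 + G x)) := by
  unfold wt
  apply Real.exp_le_exp.2
  have : 0 ≤ ‖x - y‖ ^ 2 / (2 * η) := by positivity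
  linarith

private theorem wt_hasFDerivAt (G : E d → ℝ) (η : ℝ) (y x : E d) :
    HasFDerivAt (fun z => wt G η z x) ((wt G η y x * η⁻¹) • innerSL ℝ (x - y)) y := by
  have h1 : HasFDerivAt (fun z : E d => x - z) (-(ContinuousLinearMap.id ℝ (E d))) y :=
    (hasFDerivAt_id y).const_sub x
  have h2 := (((h1.norm_sq.mul_const (2 * η)⁻¹).const_add (‖x‖ ^ 2 / 2 + G x)).neg).exp
  have h3 : (fun z => wt G η z x) = fun z =>
      Real.exp (-(‖x‖ ^ 2 / 2 + G x + ‖x - z‖ ^ 2 * (2 * η)⁻¹)) := by
    funext z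
    unfold wt
    rw [div_eq_mul_inv (‖x - z‖ ^ 2)]
  rw [h3]
  refine h2.congr_fderiv ?_
  ext e
  simp only [wt, smul_apply, neg_apply, Pi.neg_apply, ContinuousLinearMap.comp_apply,
    ContinuousLinearMap.id_apply, innerSL_apply_apply, inner_neg_right, smul_eq_mul, nsmul_eq_mul,
    mul_inv, div_eq_mul_inv]
  push_cast
  ring

private theorem wt_cont (hG : Pert d b G) (η : ℝ) (y : E d) : Continuous (wt G η y) := by
  unfold wt
  have := hG.smooth.continuous
  fun_prop

private theorem wt_integrable (hG : Pert d b G) (hη : 0 < η) (y : E d) {u : E d → F}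
    (hu : AEStronglyMeasurable u volume) (hp : PG u) :
    Integrable (fun x => wt G η y x • u x) volume :=
  (hG.sc_RG hη y).integrable_exp_smul hu hp

private theorem Nn_hasFDerivAt [CompleteSpace F] (hG : Pert d b G) (hη : 0 < η) {u : E d → F}
    (hu : AEStronglyMeasurable u volume) (hp : PG u) (y : E d) :
    HasFDerivAt (Nn G η u)
      (η⁻¹ • (Nn G η (TT u) y - (innerSL ℝ y).smulRight (Nn G η u y))) y := by
  have hTm := TT_meas hu
  have hTp := TT_PG hp
  have hi0 := wt_integrable hG hη y hu hp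
  have hi1 := wt_integrable hG hη y hTm hTp
  have key := hasFDerivAt_integral_of_dominated_of_fderiv_le (𝕜 := ℝ) (μ := (volume : Measure (E d)))
    (F := fun z x => wt G η z x • u x) (x₀ := y) (s := Metric.ball y 1)
    (F' := fun z x => ((wt G η z x * η⁻¹) • innerSL ℝ (x - z)).smulRight (u x))
    (bound := fun x => Real.exp (-(‖x‖ ^ 2 / 2 + G x)) • ((η⁻¹ * (‖x‖ + (‖y‖ + 1))) * ‖u x‖))
    (Metric.ball_mem_nhds y one_pos) ?_ hi0 ?_ ?_ ?_ ?_
  · refine key.congr_fderiv ?_
    have e1 : ∀ x, ((wt G η y x * η⁻¹) • innerSL ℝ (x - y)).smulRight (u x)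
        = η⁻¹ • (wt G η y x • TT u x - (innerSL ℝ y).smulRight (wt G η y x • u x)) := by
      intro x
      ext e
      simp only [TT, ContinuousLinearMap.smulRight_apply, smul_apply,
        sub_apply, map_sub, smul_eq_mul]
      module
    simp only [e1]
    rw [integral_smul, integral_sub hi1]
    · congr 2
      exact ((ContinuousLinearMap.smulRightL ℝ (E d) F (innerSL ℝ y)).integral_comp_comm hi0)
    · exact (ContinuousLinearMap.smulRightL ℝ (E d) F (innerSL ℝ y)).integrable_comp hi0
  · refine Filter.Eventually.of_forall fun z => ?_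
    exact ((wt_cont hG η z).aestronglyMeasurable).smul hu
  · have h1 : Continuous fun p : (E d →L[ℝ] ℝ) × F => p.1.smulRight p.2 :=
      (ContinuousLinearMap.smulRightL ℝ (E d) F).continuous₂
    have h2 : Continuous (fun x : E d => (wt G η y x * η⁻¹) • innerSL ℝ (x - y)) :=
      ((wt_cont hG η y).mul continuous_const).smul
        ((innerSL ℝ (E := E d)).continuous.comp (continuous_id.sub continuous_const))
    exact h1.comp_aestronglyMeasurable (h2.aestronglyMeasurable.prodMk hu)
  · refine Filter.Eventually.of_forall fun x z hz => ?_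
    rw [ContinuousLinearMap.norm_smulRight_apply, norm_smul, innerSL_apply_norm, norm_mul,
      Real.norm_of_nonneg (wt_pos G η z x).le, Real.norm_of_nonneg (inv_pos.2 hη).le, smul_eq_mul]
    have h1 : ‖x - z‖ ≤ ‖x‖ + (‖y‖ + 1) := by
      have h2 : ‖z‖ ≤ ‖y‖ + 1 := by
        have h3 : ‖z - y‖ < 1 := by simpa [dist_eq_norm] using hz
        have h4 : ‖z‖ ≤ ‖y‖ + ‖z - y‖ := by
          calc ‖z‖ = ‖y + (z - y)‖ := by congr 1; abel
            _ ≤ _ := norm_add_le _ _
        linarith
      exact (norm_sub_le x z).trans (by linarith)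
    have h5 := wt_le G hη z x
    have h6 := (wt_pos G η z x).le
    have h7 : 0 ≤ η⁻¹ := (inv_pos.2 hη).le
    calc wt G η z x * η⁻¹ * ‖x - z‖ * ‖u x‖
        = wt G η z x * (η⁻¹ * ‖x - z‖ * ‖u x‖) := by ring
      _ ≤ Real.exp (-(‖x‖ ^ 2 / 2 + G x)) * (η⁻¹ * (‖x‖ + (‖y‖ + 1)) * ‖u x‖) := by
          gcongr
  · refine hG.sc_nu.integrable_exp_smul ?_ ?_
    · have h1 : Continuous fun x : E d => η⁻¹ * (‖x‖ + (‖y‖ + 1)) := by fun_prop
      exact h1.aestronglyMeasurable.mul hu.norm
    · have h1 : PG (fun x : E d => η⁻¹ * (‖x‖ + (‖y‖ + 1))) :=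
        (PG.of_bdd (C := ‖η⁻¹‖) fun _ => le_rfl).mul
          (PG_id.norm.add (PG.of_bdd (C := ‖(‖y‖ + 1)‖) fun _ => le_rfl))
      exact h1.mul hp.norm
  · refine Filter.Eventually.of_forall fun x z _ => ?_
    exact (wt_hasFDerivAt G η z x).smul_const (u x)

private theorem Rop_eq (G : E d → ℝ) (η : ℝ) (u : E d → F) (y : E d) :
    Rop G η u y = (∫ x, wt G η y x)⁻¹ • Nn G η u y :=
  SC.integral_tilted (U := fun x => ‖x‖ ^ 2 / 2 + G x + ‖x - y‖ ^ 2 / (2 * η)) u

private theorem wt_one (G : E d → ℝ) (η : ℝ) (y : E d) :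
    ∫ x, wt G η y x = Nn G η (fun _ => (1 : ℝ)) y := by
  unfold Nn
  simp only [smul_eq_mul, mul_one]

private theorem Rop_hasFDerivAt [CompleteSpace F] (hG : Pert d b G) (hη : 0 < η) {u : E d → F}
    (hu : AEStronglyMeasurable u volume) (hp : PG u) (y : E d) :
    HasFDerivAt (Rop G η u)
      (η⁻¹ • (Rop G η (TT u) y - (Rop G η (TT fun _ => (1 : ℝ)) y).smulRight (Rop G η u y))) y := by
  have hone : PG (fun _ : E d => (1 : ℝ)) := PG.of_bdd (C := ‖(1 : ℝ)‖) fun _ => le_rfl
  have hn : Nn G η (fun _ => (1 : ℝ)) y ≠ 0 := by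
    rw [← wt_one]
    exact (hG.sc_RG hη y).integral_exp_pos.ne'
  have h1 := Nn_hasFDerivAt hG hη (aestronglyMeasurable_const (b := (1 : ℝ))) hone y
  have h2 := (hasDerivAt_inv hn).comp_hasFDerivAt y h1
  have h3 := h2.smul (Nn_hasFDerivAt hG hη hu hp y)
  have h4 : Rop G η u = (Inv.inv ∘ Nn G η fun _ => (1 : ℝ)) • Nn G η u := by
    funext z
    rw [Rop_eq, wt_one]
    rfl
  rw [h4]
  refine h3.congr_fderiv ?_
  rw [← h4, Rop_eq, Rop_eq, Rop_eq, wt_one]
  ext e
  simp only [Function.comp_apply, ContinuousLinearMap.smulRight_apply, smul_apply, add_apply,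
    sub_apply, smul_eq_mul]
  generalize (Nn G η (TT u) y) e = a
  generalize Nn G η u y = c
  generalize (Nn G η (TT fun _ => (1 : ℝ)) y) e = t
  generalize ((innerSL ℝ) y) e = s
  generalize Nn G η (fun _ => (1 : ℝ)) y = n at hn
  match_scalars <;> (field_simp; try ring)

end aux

theorem Rop_differentiableAt {F : Type} [NormedAddCommGroup F] [NormedSpace ℝ F] [CompleteSpace F]
    (hb : 0 ≤ b) (hG : Pert d b G) (hη : 0 < η) {u : E d → F}
    (hu : AEStronglyMeasurable u volume) (hp : PG u) (y : E d) :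
    DifferentiableAt ℝ (Rop G η u) y :=
  (Rop_hasFDerivAt hG hη hu hp y).differentiableAt

theorem Rop_fderiv {F : Type} [NormedAddCommGroup F] [NormedSpace ℝ F] [CompleteSpace F]
    (hb : 0 ≤ b) (hG : Pert d b G) (hη : 0 < η) {u : E d → F}
    (hu : AEStronglyMeasurable u volume) (hp : PG u) (y e : E d) :
    fderiv ℝ (Rop G η u) y e =
      η⁻¹ • (Rop G η (fun x => ⟪x, e⟫ • u x) y - Rop G η (fun x => ⟪x, e⟫) y • Rop G η u y) := by
  rw [(Rop_hasFDerivAt hG hη hu hp y).fderiv]
  have hone : PG (fun _ : E d => (1 : ℝ)) := PG.of_bdd (C := ‖(1 : ℝ)‖) fun _ => le_rfl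
  have h1 : (Rop G η (TT u) y) e = Rop G η (fun x => ⟪x, e⟫ • u x) y := by
    unfold Rop
    rw [ContinuousLinearMap.integral_apply (RG_integrable hG hη y (TT_meas hu) (TT_PG hp))]
    rfl
  have h2 : (Rop G η (TT fun _ => (1 : ℝ)) y) e = Rop G η (fun x => ⟪x, e⟫) y := by
    unfold Rop
    rw [ContinuousLinearMap.integral_apply (RG_integrable hG hη y
      (TT_meas aestronglyMeasurable_const) (TT_PG hone))]
    refine integral_congr_ae (Filter.Eventually.of_forall fun x => ?_)
    simp [TT]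
  rw [smul_apply, sub_apply, ContinuousLinearMap.smulRight_apply, h1, h2]

theorem Rop_contDiff {F : Type} [NormedAddCommGroup F] [NormedSpace ℝ F] [CompleteSpace F]
    (hb : 0 ≤ b) (hG : Pert d b G) (hη : 0 < η) {u : E d → F}
    (hu : AEStronglyMeasurable u volume) (hp : PG u) (n : ℕ) :
    ContDiff ℝ n (Rop G η u) := by
  have hone : PG (fun _ : E d => (1 : ℝ)) := PG.of_bdd (C := ‖(1 : ℝ)‖) fun _ => le_rfl
  have main : ∀ (n : ℕ) (F : Type) [NormedAddCommGroup F] [NormedSpace ℝ F] [CompleteSpace F]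
      (u : E d → F), AEStronglyMeasurable u volume → PG u → ContDiff ℝ n (Rop G η u) := by
    intro n
    induction n with
    | zero =>
      intro F _ _ _ u hu hp
      rw [Nat.cast_zero, contDiff_zero]
      exact continuous_iff_continuousAt.2 fun y =>
        (Rop_differentiableAt hb hG hη hu hp y).continuousAt
    | succ n ih =>
      intro F _ _ _ u hu hp
      rw [Nat.cast_succ, contDiff_succ_iff_fderiv]
      refine ⟨fun y => Rop_differentiableAt hb hG hη hu hp y,
        fun h => absurd h (by exact_mod_cast WithTop.coe_ne_top), ?_⟩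
      have h1 : fderiv ℝ (Rop G η u) = fun y => η⁻¹ • (Rop G η (TT u) y -
          (Rop G η (TT fun _ => (1 : ℝ)) y).smulRight (Rop G η u y)) := by
        funext y
        exact (Rop_hasFDerivAt hG hη hu hp y).fderiv
      rw [h1]
      refine ContDiff.const_smul _ ((ih _ _ (TT_meas hu) (TT_PG hp)).sub ?_)
      exact (ih _ _ (TT_meas aestronglyMeasurable_const) (TT_PG hone)).smulRight (ih _ _ hu hp)
  exact main n F u hu hp

end Vale.Agent.P347
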