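import Vale.Agent.Lib.P347.CalcB
import Vale.Agent.Lib.P347.Ops
import Vale.Agent.Lib.P347.RDiff
import Vale.Agent.Lib.P347.Gauss

/-!
P347: Gaussian smoothing.

Proofs. `Nop η u x = ∫ u (x + √η z) dγ`. In terms of the Gaussian density of variance `η` it is a
convolution, so one can differentiate the kernel: the derivative in direction `e` is
`(√η)⁻¹ ∫ ⟨z, e⟩ u (x + √η z) dγ`, the second derivative in directions `e`, `e'` is
`η⁻¹ ∫ (⟨z, e⟩ ⟨z, e'⟩ - ⟨e, e'⟩) u (x + √η z) dγ`. Bessel inequality for the orthonormal system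
`z_i` gives `norm_Dv_Nop_sq_le`, and for the orthogonal system `z_i z_j - δ_ij` (norms at most
`√2`, each non diagonal one appears twice) it gives the second order bound (`√2 ≤ 2`); or
alternatively `Nop η = Nop (η/2) ∘ Nop (η/2)` and twice the first order bound (this also gives
`CB 3` by iterating three times with `η/3`, using `Dv_Nop`).
-/

open MeasureTheory ProbabilityTheory
open scoped RealInnerProductSpace

namespace Vale.Agent.P347

variable {d : ℕ} {η : ℝ} {ι : Type} [Fintype ι]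

theorem norm_Nop_le {F : Type} [NormedAddCommGroup F] [NormedSpace ℝ F] {u : E d → F} {B : ℝ}
    (hB : ∀ x, ‖u x‖ ≤ B) (x : E d) : ‖Nop η u x‖ ≤ B := by
  have h := norm_integral_le_of_norm_le_const (μ := stdGaussian (E d))
    (f := fun z => u (x + √η • z)) (C := B) (Filter.Eventually.of_forall fun z => hB _)
  simpa [Nop] using h

private theorem nop_cont_shift (x : E d) : Continuous (fun z : E d => x + √η • z) :=
  continuous_const.add (continuous_const_smul _)

private theorem nop_int {F : Type} [NormedAddCommGroup F] [NormedSpace ℝ F] [MeasurableSpace F]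
    [BorelSpace F] [SecondCountableTopology F] {u : E d → F} (hu : Measurable u)
    (bu : ∃ C, ∀ x, ‖u x‖ ≤ C) (x : E d) :
    Integrable (fun z => u (x + √η • z)) (stdGaussian (E d)) := by
  obtain ⟨C, hC⟩ := bu
  exact Integrable.of_bound (hu.comp (nop_cont_shift x).measurable).aestronglyMeasurable C
    (Filter.Eventually.of_forall fun z => hC _)

theorem measurable_Nop {F : Type} [NormedAddCommGroup F] [NormedSpace ℝ F] [MeasurableSpace F]
    [BorelSpace F] [SecondCountableTopology F] {u : E d → F} (hu : Measurable u) :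
    Measurable (Nop η u) := by
  have hc : Continuous (fun p : E d × E d => p.1 + √η • p.2) := by fun_prop
  have h : StronglyMeasurable (fun p : E d × E d => u (p.1 + √η • p.2)) :=
    (hu.comp hc.measurable).stronglyMeasurable
  exact (h.integral_prod_right (ν := stdGaussian (E d))).measurable

theorem Nop_add {F : Type} [NormedAddCommGroup F] [NormedSpace ℝ F] [MeasurableSpace F]
    [BorelSpace F] [SecondCountableTopology F] {u v : E d → F} (hu : Measurable u)
    (hv : Measurable v) (bu : ∃ C, ∀ x, ‖u x‖ ≤ C) (bv : ∃ C, ∀ x, ‖v x‖ ≤ C) (x : E d) :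
    Nop η (fun y => u y + v y) x = Nop η u x + Nop η v x := by
  unfold Nop
  exact integral_add (nop_int hu bu x) (nop_int hv bv x)

theorem Nop_smul {F : Type} [NormedAddCommGroup F] [NormedSpace ℝ F] (u : E d → F) (c : ℝ)
    (x : E d) : Nop η (fun y => c • u y) x = c • Nop η u x := by
  unfold Nop
  exact integral_smul c _

theorem Nop_const (c : ℝ) (x : E d) : Nop η (fun _ : E d => c) x = c := by
  unfold Nop
  simp

theorem Nop_mono {f g : E d → ℝ} (hf : Measurable f) (hg : Measurable g)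
    (bf : ∃ C, ∀ x, |f x| ≤ C) (bg : ∃ C, ∀ x, |g x| ≤ C) (h : ∀ x, f x ≤ g x) (x : E d) :
    Nop η f x ≤ Nop η g x := by
  unfold Nop
  exact integral_mono (nop_int hf bf x) (nop_int hg bg x) fun z => h _

private theorem nop_sc_isom : ∃ L : ℝ →ₗᵢ[ℝ] EuclideanSpace ℝ Unit,
    ∀ t : ℝ, L t = WithLp.toLp 2 (fun _ => t) := by
  refine ⟨⟨⟨⟨fun t => WithLp.toLp 2 (fun _ => t), fun a b => ?_⟩, fun a b => ?_⟩, fun t => ?_⟩,
    fun t => rfl⟩
  · ext i
    simp
  · ext i
    simp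
  · simp [EuclideanSpace.norm_eq, Real.sqrt_sq_eq_abs]

theorem Nop_sc (f : E d → ℝ) : Nop η (sc f) = sc (Nop η f) := by
  obtain ⟨L, hL⟩ := nop_sc_isom
  funext x
  unfold Nop sc
  have h := L.integral_comp_comm (μ := stdGaussian (E d)) (fun z => f (x + √η • z))
  simp only [hL] at h
  exact h

theorem Nop_sq_le {u : E d → EuclideanSpace ℝ ι} (hu : Measurable u)
    (bu : ∃ C, ∀ x, ‖u x‖ ≤ C) (x : E d) :
    ‖Nop η u x‖ ^ 2 ≤ Nop η (fun y => ‖u y‖ ^ 2) x := by
  unfold Nop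
  have i1 : Integrable (fun z => ‖u (x + √η • z)‖) (stdGaussian (E d)) := (nop_int hu bu x).norm
  have i2 : Integrable (fun z => ‖u (x + √η • z)‖ ^ 2) (stdGaussian (E d)) := by
    obtain ⟨C, hC⟩ := bu
    refine Integrable.of_bound
      ((hu.comp (nop_cont_shift x).measurable).norm.pow_const 2).aestronglyMeasurable (C ^ 2)
      (Filter.Eventually.of_forall fun z => ?_)
    rw [Real.norm_eq_abs, abs_of_nonneg (sq_nonneg _)]
    exact pow_le_pow_left₀ (norm_nonneg _) (hC _) 2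
  have h1 : ‖∫ z, u (x + √η • z) ∂(stdGaussian (E d))‖ ≤
      ∫ z, ‖u (x + √η • z)‖ ∂(stdGaussian (E d)) := norm_integral_le_integral_norm _
  obtain ⟨m, hm⟩ : ∃ m, m = ∫ z, ‖u (x + √η • z)‖ ∂(stdGaussian (E d)) := ⟨_, rfl⟩
  rw [← hm] at h1
  refine (pow_le_pow_left₀ (norm_nonneg _) h1 2).trans ?_
  have h0 : 0 ≤ ∫ z, (‖u (x + √η • z)‖ - m) ^ 2 ∂(stdGaussian (E d)) :=
    integral_nonneg fun z => sq_nonneg _
  have e : (fun z => (‖u (x + √η • z)‖ - m) ^ 2) = fun z =>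
      ‖u (x + √η • z)‖ ^ 2 - (2 * m) * ‖u (x + √η • z)‖ + m ^ 2 := by
    funext z
    ring
  have i3 : Integrable (fun z => (2 * m) * ‖u (x + √η • z)‖) (stdGaussian (E d)) := i1.const_mul _
  have i4 : Integrable (fun z => ‖u (x + √η • z)‖ ^ 2 - (2 * m) * ‖u (x + √η • z)‖)
      (stdGaussian (E d)) := i2.sub i3
  rw [e, integral_add i4 (integrable_const _), integral_sub i2 i3, integral_const_mul,
    integral_const, ← hm] at h0
  simp only [probReal_univ, smul_eq_mul, one_mul] at h0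
  nlinarith [h0]

private theorem nop_rop_kernel (y z : E d) :
    Real.exp (‖y‖ ^ 2 / 4) * Real.exp (-(‖(1 / 2 : ℝ) • y + (√2)⁻¹ • z‖ ^ 2 / 2 + 0 +
      ‖(1 / 2 : ℝ) • y + (√2)⁻¹ • z - y‖ ^ 2 / (2 * 1))) = Real.exp (-(‖z‖ ^ 2 / 2 + 0)) := by
  rw [← Real.exp_add]
  congr 1
  have h1 : (1 / 2 : ℝ) • y + (√2)⁻¹ • z - y = (√2)⁻¹ • z - (1 / 2 : ℝ) • y := by
    module
  rw [h1, norm_add_sq_real, norm_sub_sq_real, norm_smul, norm_smul, mul_pow, mul_pow,
    real_inner_comm ((√2)⁻¹ • z)]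
  have h2 : ‖(√2)⁻¹‖ ^ 2 = 1 / 2 := by
    rw [Real.norm_eq_abs, sq_abs, inv_pow, Real.sq_sqrt (by norm_num)]
    norm_num
  have h3 : ‖(1 / 2 : ℝ)‖ ^ 2 = 1 / 4 := by norm_num
  rw [h2, h3]
  ring

/-- the restricted Gaussian average without perturbation is a Gaussian average -/
private theorem nop_rop_eq {F : Type} [NormedAddCommGroup F] [NormedSpace ℝ F] (v : E d → F)
    (y : E d) : Rop (fun _ : E d => (0 : ℝ)) 1 v y =
      ∫ z, v ((1 / 2 : ℝ) • y + (√2)⁻¹ • z) ∂(stdGaussian (E d)) := by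
  unfold Rop RG
  rw [← nuG_zero d]
  unfold nuG
  rw [SC.integral_tilted, SC.integral_tilted]
  have hcv : ∀ {F' : Type} [NormedAddCommGroup F'] [NormedSpace ℝ F'] (f : E d → F'),
      ∫ z, f ((1 / 2 : ℝ) • y + (√2)⁻¹ • z) =
        |((√2)⁻¹ ^ Module.finrank ℝ (E d))⁻¹| • ∫ x, f x := by
    intro F' _ _ f
    rw [Measure.integral_comp_smul volume (fun z => f ((1 / 2 : ℝ) • y + z))]
    congr 1
    exact integral_add_left_eq_self f _
  obtain ⟨c, hc⟩ : ∃ c, c = |((√2)⁻¹ ^ Module.finrank ℝ (E d))⁻¹| := ⟨_, rfl⟩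
  have hc0 : c ≠ 0 := by
    rw [hc]
    positivity
  obtain ⟨q, hq⟩ : ∃ q, q = Real.exp (‖y‖ ^ 2 / 4) := ⟨_, rfl⟩
  have hq0 : q ≠ 0 := by
    rw [hq]
    positivity
  have e1 : ∫ z : E d, Real.exp (-(‖z‖ ^ 2 / 2 + 0)) = (c * q) *
      ∫ x : E d, Real.exp (-(‖x‖ ^ 2 / 2 + 0 + ‖x - y‖ ^ 2 / (2 * 1))) := by
    have h := hcv (fun x : E d => q * Real.exp (-(‖x‖ ^ 2 / 2 + 0 + ‖x - y‖ ^ 2 / (2 * 1))))
    rw [mul_assoc, ← integral_const_mul, hc]
    refine Eq.trans ?_ h
    refine integral_congr_ae (Filter.Eventually.of_forall fun z => ?_)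
    simp only
    rw [hq, nop_rop_kernel]
  have e2 : ∫ z : E d, Real.exp (-(‖z‖ ^ 2 / 2 + 0)) • v ((1 / 2 : ℝ) • y + (√2)⁻¹ • z) =
      (c * q) • ∫ x : E d, Real.exp (-(‖x‖ ^ 2 / 2 + 0 + ‖x - y‖ ^ 2 / (2 * 1))) • v x := by
    have h := hcv (fun x : E d =>
      q • (Real.exp (-(‖x‖ ^ 2 / 2 + 0 + ‖x - y‖ ^ 2 / (2 * 1))) • v x))
    rw [mul_smul, ← integral_smul, hc]
    refine Eq.trans ?_ h
    refine integral_congr_ae (Filter.Eventually.of_forall fun z => ?_)
    simp only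
    rw [smul_smul, hq, nop_rop_kernel]
  rw [e1, e2, mul_inv, smul_smul]
  congr 1
  have : c * q ≠ 0 := mul_ne_zero hc0 hq0
  field_simp

/-- smoothing as a restricted Gaussian average -/
private theorem nop_eq_rop (hη : 0 < η) {F : Type} [NormedAddCommGroup F] [NormedSpace ℝ F]
    (u : E d → F) (x : E d) :
    Nop η u x = Rop (fun _ : E d => (0 : ℝ)) 1 (fun y => u (√(2 * η) • y))
      ((2 / √(2 * η)) • x) := by
  rw [nop_rop_eq]
  unfold Nop
  have hs : 0 < √(2 * η) := Real.sqrt_pos.2 (by positivity)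
  have h2 : √(2 * η) * (√2)⁻¹ = √η := by
    rw [Real.sqrt_mul (by norm_num : (0 : ℝ) ≤ 2)]
    field_simp
  refine integral_congr_ae (Filter.Eventually.of_forall fun z => ?_)
  simp only
  congr 1
  rw [smul_add, smul_smul, smul_smul, smul_smul, h2]
  congr 1
  have : √(2 * η) * (1 / 2) * (2 / √(2 * η)) = 1 := by field_simp
  rw [this, one_smul]

private theorem nop_scaled {F : Type} [NormedAddCommGroup F] [MeasurableSpace F]
    [BorelSpace F] [SecondCountableTopology F] {u : E d → F} (hu : Measurable u)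
    (bu : ∃ C, ∀ x, ‖u x‖ ≤ C) (s : ℝ) :
    AEStronglyMeasurable (fun y => u (s • y)) volume ∧ PG (fun y => u (s • y)) := by
  obtain ⟨C, hC⟩ := bu
  exact ⟨(hu.comp (continuous_const_smul s).measurable).aestronglyMeasurable,
    PG.of_bdd (C := C) fun x => hC _⟩

private theorem nop_contDiff (hη : 0 < η) {u : E d → EuclideanSpace ℝ ι} (hu : Measurable u)
    (bu : ∃ C, ∀ x, ‖u x‖ ≤ C) (n : ℕ) : ContDiff ℝ n (Nop η u) := by
  have h1 : Nop η u = (Rop (fun _ : E d => (0 : ℝ)) 1 (fun y => u (√(2 * η) • y))) ∘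
      fun x => (2 / √(2 * η)) • x := by
    funext x
    exact nop_eq_rop hη u x
  rw [h1]
  obtain ⟨m1, m2⟩ := nop_scaled hu bu (√(2 * η))
  exact (Rop_contDiff le_rfl (pert_zero d) one_pos m1 m2 n).comp (contDiff_const_smul _)

private theorem nop_inner_int (e : E d) :
    Integrable (fun z : E d => ⟪z, e⟫) (stdGaussian (E d)) := by
  have hm : Measurable (fun z : E d => ⟪z, e⟫) := measurable_id.inner_const
  exact gauss_integrable hm.aestronglyMeasurable (PG_inner e)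

private theorem nop_inner_zero (e : E d) : ∫ z : E d, ⟪z, e⟫ ∂(stdGaussian (E d)) = 0 := by
  have h2 := integral_strongDual_stdGaussian (innerSL ℝ e)
  rw [← h2]
  refine integral_congr_ae (Filter.Eventually.of_forall fun z => ?_)
  simp [real_inner_comm]

private theorem nop_inner_smul_int (hη : 0 < η) {u : E d → EuclideanSpace ℝ ι}
    (hu : Measurable u) (bu : ∃ C, ∀ x, ‖u x‖ ≤ C) (x e : E d) :
    Integrable (fun z => ⟪z, e⟫ • u (x + √η • z)) (stdGaussian (E d)) := by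
  obtain ⟨C, hC⟩ := bu
  refine gauss_integrable ?_ ?_
  · have hm : Measurable (fun z : E d => ⟪z, e⟫) := measurable_id.inner_const
    exact (hm.smul (hu.comp (nop_cont_shift x).measurable)).aestronglyMeasurable
  · exact PG.smul (PG_inner e) (PG.of_bdd (C := C) fun z => hC _)

theorem Nop_fderiv (hη : 0 < η) {u : E d → EuclideanSpace ℝ ι} (hu : Measurable u)
    (bu : ∃ C, ∀ x, ‖u x‖ ≤ C) (x e : E d) :
    DifferentiableAt ℝ (Nop η u) x ∧ fderiv ℝ (Nop η u) x e =
      (√η)⁻¹ • ∫ z, ⟪z, e⟫ • u (x + √η • z) ∂(stdGaussian (E d)) := by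
  obtain ⟨m1, m2⟩ := nop_scaled hu bu (√(2 * η))
  obtain ⟨s, hsd⟩ : ∃ s, s = √(2 * η) := ⟨_, rfl⟩
  have hs : 0 < s := by
    rw [hsd]
    exact Real.sqrt_pos.2 (by positivity)
  have hfun : Nop η u = (Rop (fun _ : E d => (0 : ℝ)) 1 (fun y => u (√(2 * η) • y))) ∘
      fun x => (2 / √(2 * η)) • x := by
    funext x
    exact nop_eq_rop hη u x
  rw [← hsd] at m1 m2 hfun
  obtain ⟨v, hv⟩ : ∃ v : E d → EuclideanSpace ℝ ι, v = fun y => u (s • y) := ⟨_, rfl⟩
  rw [← hv] at m1 m2 hfun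
  have hd := Rop_differentiableAt le_rfl (pert_zero d) one_pos m1 m2 ((2 / s) • x)
  have hlin : HasFDerivAt (fun x : E d => (2 / s) • x)
      ((2 / s) • ContinuousLinearMap.id ℝ (E d)) x :=
    ((2 / s) • ContinuousLinearMap.id ℝ (E d)).hasFDerivAt
  have hcomp := hd.hasFDerivAt.comp x hlin
  rw [hfun]
  refine ⟨hcomp.differentiableAt, ?_⟩
  rw [hcomp.fderiv]
  have e1 : (fderiv ℝ (Rop (fun _ : E d => (0 : ℝ)) 1 v) ((2 / s) • x)).comp
      ((2 / s) • ContinuousLinearMap.id ℝ (E d)) e =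
      (2 / s) • fderiv ℝ (Rop (fun _ : E d => (0 : ℝ)) 1 v) ((2 / s) • x) e := by
    simp
  rw [e1, Rop_fderiv le_rfl (pert_zero d) one_pos m1 m2, nop_rop_eq, nop_rop_eq, nop_rop_eq,
    inv_one, one_smul]
  -- the arguments
  have hsη : s * (√2)⁻¹ = √η := by
    rw [hsd, Real.sqrt_mul (by norm_num : (0 : ℝ) ≤ 2)]
    field_simp
  have harg : ∀ z : E d, v ((1 / 2 : ℝ) • (2 / s) • x + (√2)⁻¹ • z) = u (x + √η • z) := by
    intro z
    rw [hv]
    simp only
    congr 1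
    rw [smul_add, smul_smul, smul_smul, smul_smul, hsη]
    congr 1
    have : s * (1 / 2) * (2 / s) = 1 := by field_simp
    rw [this, one_smul]
  simp only [harg]
  obtain ⟨y, hy⟩ : ∃ y : E d, y = (1 / 2 : ℝ) • (2 / s) • x := ⟨_, rfl⟩
  rw [← hy]
  have hin : ∀ z : E d, ⟪y + (√2)⁻¹ • z, e⟫ = ⟪y, e⟫ + (√2)⁻¹ * ⟪z, e⟫ := by
    intro z
    rw [inner_add_left, real_inner_smul_left]
  simp only [hin]
  have i0 := nop_int (η := η) hu bu x
  have i1 := nop_inner_smul_int hη hu bu x e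
  have e2 : ∫ z, (⟪y, e⟫ + (√2)⁻¹ * ⟪z, e⟫) • u (x + √η • z) ∂(stdGaussian (E d)) =
      ⟪y, e⟫ • (∫ z, u (x + √η • z) ∂(stdGaussian (E d))) +
        (√2)⁻¹ • ∫ z, ⟪z, e⟫ • u (x + √η • z) ∂(stdGaussian (E d)) := by
    have i2 : Integrable (fun z => ⟪y, e⟫ • u (x + √η • z)) (stdGaussian (E d)) :=
      i0.smul (⟪y, e⟫ : ℝ)
    have i3 : Integrable (fun z => (√2)⁻¹ • (⟪z, e⟫ • u (x + √η • z))) (stdGaussian (E d)) :=
      i1.smul ((√2)⁻¹ : ℝ)
    rw [← integral_smul, ← integral_smul, ← integral_add i2 i3]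
    refine integral_congr_ae (Filter.Eventually.of_forall fun z => ?_)
    simp only
    rw [add_smul, mul_smul]
  have e3 : ∫ z : E d, (⟪y, e⟫ + (√2)⁻¹ * ⟪z, e⟫) ∂(stdGaussian (E d)) = ⟪y, e⟫ := by
    rw [integral_add (integrable_const _) ((nop_inner_int e).const_mul _), integral_const_mul,
      nop_inner_zero]
    simp
  rw [e2, e3, add_sub_cancel_left, smul_smul]
  congr 1
  have h4 : s = √η * √2 := by
    rw [← hsη]
    field_simp
  have h5 : 0 < √η := Real.sqrt_pos.2 hη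
  have h6 : √2 * √2 = (2 : ℝ) := Real.mul_self_sqrt (by norm_num)
  rw [h4]
  field_simp
  linarith

private theorem nop_inner_sq (c : E d) :
    ∫ z : E d, ⟪z, c⟫ ^ 2 ∂(stdGaussian (E d)) = ‖c‖ ^ 2 := by
  have hu : ContDiff ℝ 1 (fun x : E d => ⟪x, c⟫) := contDiff_id.inner ℝ contDiff_const
  have hd : ∀ x : E d, fderiv ℝ (fun x : E d => ⟪x, c⟫) x = innerSL ℝ c := by
    intro x
    have h1 : (fun x : E d => ⟪x, c⟫) = fun x => innerSL ℝ c x := by
      funext z
      simp [real_inner_comm]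
    rw [h1]
    exact (innerSL ℝ c).fderiv
  have h := gauss_ibp hu (PG_inner c) (PG.of_bdd (C := ‖innerSL ℝ c‖) fun x => by rw [hd]) c
  simp only [hd, innerSL_apply_apply, smul_eq_mul] at h
  rw [integral_const] at h
  simp only [probReal_univ, one_smul, real_inner_self_eq_norm_sq] at h
  rw [h]
  refine integral_congr_ae (Filter.Eventually.of_forall fun z => ?_)
  ring

private theorem nop_bessel {g : E d → ℝ} (hg : Measurable g) (bg : ∃ C, ∀ x, ‖g x‖ ≤ C) :
    ∑ i, (∫ z : E d, z i * g z ∂(stdGaussian (E d))) ^ 2 ≤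
      ∫ z, g z ^ 2 ∂(stdGaussian (E d)) := by
  obtain ⟨C, hC⟩ := bg
  have pg : PG g := PG.of_bdd hC
  obtain ⟨c, hc⟩ : ∃ c : E d, c = WithLp.toLp 2 (fun i => ∫ z : E d, z i * g z
      ∂(stdGaussian (E d))) := ⟨_, rfl⟩
  have hci : ∀ i, c i = ∫ z : E d, z i * g z ∂(stdGaussian (E d)) := fun i => by rw [hc]
  have hnorm : ‖c‖ ^ 2 = ∑ i, (∫ z : E d, z i * g z ∂(stdGaussian (E d))) ^ 2 := by
    rw [EuclideanSpace.real_norm_sq_eq]
    exact Finset.sum_congr rfl fun i _ => by rw [hci]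
  have hm : ∀ i, Measurable (fun z : E d => z i) := fun i =>
    (EuclideanSpace.proj (𝕜 := ℝ) i).continuous.measurable
  have ii : ∀ i, Integrable (fun z : E d => z i * g z) (stdGaussian (E d)) := fun i =>
    gauss_integrable ((hm i).mul hg).aestronglyMeasurable ((PG_id.apply i).mul pg)
  have hin : ∀ z : E d, ⟪z, c⟫ = ∑ i, c i * z i := by
    intro z
    simp [PiLp.inner_apply]
  have ic : Integrable (fun z : E d => ⟪z, c⟫ * g z) (stdGaussian (E d)) :=
    gauss_integrable ((measurable_id.inner_const).mul hg).aestronglyMeasurable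
      ((PG_inner c).mul pg)
  have ic2 : Integrable (fun z : E d => ⟪z, c⟫ ^ 2) (stdGaussian (E d)) :=
    gauss_integrable ((measurable_id.inner_const).pow_const 2).aestronglyMeasurable
      ((PG_inner c).pow 2)
  have ig2 : Integrable (fun z : E d => g z ^ 2) (stdGaussian (E d)) :=
    gauss_integrable (hg.pow_const 2).aestronglyMeasurable (pg.pow 2)
  have e1 : ∫ z : E d, ⟪z, c⟫ * g z ∂(stdGaussian (E d)) = ‖c‖ ^ 2 := by
    have h1 : (fun z : E d => ⟪z, c⟫ * g z) = fun z => ∑ i, c i * (z i * g z) := by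
      funext z
      rw [hin, Finset.sum_mul]
      exact Finset.sum_congr rfl fun i _ => by ring
    rw [h1, integral_finsetSum _ fun i _ => (ii i).const_mul _, hnorm]
    refine Finset.sum_congr rfl fun i _ => ?_
    rw [integral_const_mul, hci]
    ring
  have h0 : 0 ≤ ∫ z : E d, (g z - ⟪z, c⟫) ^ 2 ∂(stdGaussian (E d)) :=
    integral_nonneg fun z => sq_nonneg _
  have e2 : (fun z : E d => (g z - ⟪z, c⟫) ^ 2) = fun z =>
      g z ^ 2 - 2 * (⟪z, c⟫ * g z) + ⟪z, c⟫ ^ 2 := by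
    funext z
    ring
  have i5 : Integrable (fun z : E d => 2 * (⟪z, c⟫ * g z)) (stdGaussian (E d)) := ic.const_mul 2
  have i6 : Integrable (fun z : E d => g z ^ 2 - 2 * (⟪z, c⟫ * g z)) (stdGaussian (E d)) :=
    ig2.sub i5
  rw [e2, integral_add i6 ic2, integral_sub ig2 i5, integral_const_mul, e1, nop_inner_sq] at h0
  rw [← hnorm]
  linarith

private theorem nop_int_apply {κ : Type} [Fintype κ] {μ : Measure (E d)}
    {v : E d → EuclideanSpace ℝ κ} (hv : Integrable v μ) (k : κ) :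
    (∫ x, v x ∂μ) k = ∫ x, v x k ∂μ :=
  ((EuclideanSpace.proj (𝕜 := ℝ) k).integral_comp_comm hv).symm

theorem norm_Dv_Nop_sq_le (hη : 0 < η) {u : E d → EuclideanSpace ℝ ι} (hu : Measurable u)
    (bu : ∃ C, ∀ x, ‖u x‖ ≤ C) (x : E d) :
    ‖Dv (Nop η u) x‖ ^ 2 ≤ η⁻¹ * Nop η (fun y => ‖u y‖ ^ 2) x := by
  have hk : ∀ k, Measurable (fun z => u (x + √η • z) k) := fun k =>
    (EuclideanSpace.proj (𝕜 := ℝ) k).continuous.measurable.comp
      (hu.comp (nop_cont_shift x).measurable)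
  have bk : ∀ k, ∃ C, ∀ z : E d, ‖u (x + √η • z) k‖ ≤ C := by
    intro k
    obtain ⟨C, hC⟩ := bu
    exact ⟨C, fun z => (PiLp.norm_apply_le _ k).trans (hC _)⟩
  have hcomp : ∀ i k, Dv (Nop η u) x (i, k) = (√η)⁻¹ *
      ∫ z : E d, z i * u (x + √η • z) k ∂(stdGaussian (E d)) := by
    intro i k
    rw [Dv_apply, (Nop_fderiv hη hu bu x _).2, PiLp.smul_apply, smul_eq_mul,
      nop_int_apply (nop_inner_smul_int hη hu bu x _)]
    congr 1
    refine integral_congr_ae (Filter.Eventually.of_forall fun z => ?_)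
    simp [EuclideanSpace.inner_single_right]
  have h1 : ‖Dv (Nop η u) x‖ ^ 2 = η⁻¹ * ∑ k, ∑ i,
      (∫ z : E d, z i * u (x + √η • z) k ∂(stdGaussian (E d))) ^ 2 := by
    rw [EuclideanSpace.real_norm_sq_eq, Fintype.sum_prod_type, Finset.sum_comm, Finset.mul_sum]
    refine Finset.sum_congr rfl fun k _ => ?_
    rw [Finset.mul_sum]
    refine Finset.sum_congr rfl fun i _ => ?_
    rw [hcomp, mul_pow, inv_pow, Real.sq_sqrt hη.le]
  rw [h1]
  refine mul_le_mul_of_nonneg_left ?_ (by positivity)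
  have i2 : ∀ k, Integrable (fun z => (u (x + √η • z) k) ^ 2) (stdGaussian (E d)) := by
    intro k
    obtain ⟨C, hC⟩ := bk k
    refine Integrable.of_bound ((hk k).pow_const 2).aestronglyMeasurable (C ^ 2)
      (Filter.Eventually.of_forall fun z => ?_)
    rw [norm_pow]
    exact pow_le_pow_left₀ (norm_nonneg _) (hC _) 2
  have h2 : Nop η (fun y => ‖u y‖ ^ 2) x =
      ∑ k, ∫ z, (u (x + √η • z) k) ^ 2 ∂(stdGaussian (E d)) := by
    unfold Nop
    rw [← integral_finsetSum _ fun k _ => i2 k]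
    refine integral_congr_ae (Filter.Eventually.of_forall fun z => ?_)
    simp only
    rw [EuclideanSpace.real_norm_sq_eq]
  rw [h2]
  exact Finset.sum_le_sum fun k _ => nop_bessel (hk k) (bk k)

theorem norm_Dv_Nop_le (hη : 0 < η) {u : E d → EuclideanSpace ℝ ι} (hu : Measurable u) {B : ℝ}
    (hB : ∀ x, ‖u x‖ ≤ B) (x : E d) : ‖Dv (Nop η u) x‖ ≤ (√η)⁻¹ * B := by
  have hB0 : 0 ≤ B := (norm_nonneg _).trans (hB 0)
  have h1 := norm_Dv_Nop_sq_le hη hu ⟨B, hB⟩ x
  have h2 : Nop η (fun y => ‖u y‖ ^ 2) x ≤ B ^ 2 := by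
    have h3 := norm_Nop_le (η := η) (u := fun y => ‖u y‖ ^ 2) (B := B ^ 2) (fun y => by
      rw [Real.norm_eq_abs, abs_of_nonneg (sq_nonneg _)]
      exact pow_le_pow_left₀ (norm_nonneg _) (hB y) 2) x
    exact (le_abs_self _).trans h3
  have h4 : 0 ≤ (√η)⁻¹ * B := by positivity
  refine le_of_sq_le_sq ?_ h4
  refine h1.trans ?_
  rw [mul_pow, inv_pow, Real.sq_sqrt hη.le]
  exact mul_le_mul_of_nonneg_left h2 (by positivity)

private theorem nop_hasFDeriv {u : E d → EuclideanSpace ℝ ι} (hu : CB 1 u) (x : E d) :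
    HasFDerivAt (Nop η u) (∫ z, fderiv ℝ u (x + √η • z) ∂(stdGaussian (E d))) x ∧
      Integrable (fun z => fderiv ℝ u (x + √η • z)) (stdGaussian (E d)) := by
  obtain ⟨h1, ⟨C, hC⟩, h2, ⟨C', hC'⟩⟩ := hu
  have hfd : Continuous (fun y => fderiv ℝ u y) := h1.continuous_fderiv one_ne_zero
  have hb : ∀ y, ‖fderiv ℝ u y‖ ≤ C' := fun y => (opNorm_le_Dv u y).trans (hC' y)
  have hint : Integrable (fun z => fderiv ℝ u (x + √η • z)) (stdGaussian (E d)) :=
    Integrable.of_bound (hfd.comp (nop_cont_shift x)).aestronglyMeasurable C'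
      (Filter.Eventually.of_forall fun z => hb _)
  refine ⟨?_, hint⟩
  refine hasFDerivAt_integral_of_dominated_of_fderiv_le (𝕜 := ℝ)
    (F := fun x z => u (x + √η • z)) (F' := fun x z => fderiv ℝ u (x + √η • z))
    (bound := fun _ => C') (s := Set.univ) Filter.univ_mem ?_ ?_ ?_ ?_ ?_ ?_
  · exact Filter.Eventually.of_forall fun y =>
      (h1.continuous.comp (nop_cont_shift y)).aestronglyMeasurable
  · exact nop_int h1.continuous.measurable ⟨C, hC⟩ x
  · exact hint.aestronglyMeasurable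
  · exact Filter.Eventually.of_forall fun z y _ => hb _
  · exact integrable_const _
  · refine Filter.Eventually.of_forall fun z y _ => ?_
    have h3 : HasFDerivAt (fun y : E d => y + √η • z) (ContinuousLinearMap.id ℝ (E d)) y :=
      (hasFDerivAt_id y).add_const _
    have h4 := ((h1.differentiable one_ne_zero (y + √η • z)).hasFDerivAt).comp y h3
    rw [ContinuousLinearMap.comp_id] at h4
    exact h4

/-- smoothing commutes with derivatives -/
theorem Dv_Nop (hη : 0 ≤ η) {u : E d → EuclideanSpace ℝ ι} (hu : CB 1 u) (x : E d) :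
    Dv (Nop η u) x = Nop η (Dv u) x := by
  obtain ⟨h1, h2⟩ := nop_hasFDeriv (η := η) hu x
  obtain ⟨g1, g2, g3, C, hC⟩ := hu
  have iD : Integrable (fun z => Dv u (x + √η • z)) (stdGaussian (E d)) :=
    nop_int g3.measurable ⟨C, hC⟩ x
  ext ⟨i, k⟩
  rw [Dv_apply, h1.fderiv]
  unfold Nop
  rw [nop_int_apply iD, ContinuousLinearMap.integral_apply h2, nop_int_apply (by
    exact h2.apply_continuousLinearMap _)]
  rfl

private theorem nop_continuous {u : E d → EuclideanSpace ℝ ι} (hu : Continuous u)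
    (bu : ∃ C, ∀ x, ‖u x‖ ≤ C) : Continuous (Nop η u) := by
  obtain ⟨C, hC⟩ := bu
  refine continuous_of_dominated (bound := fun _ => C) (fun x =>
    (hu.comp (nop_cont_shift x)).aestronglyMeasurable) (fun x =>
    Filter.Eventually.of_forall fun z => hC _) (integrable_const _) ?_
  refine Filter.Eventually.of_forall fun z => ?_
  exact hu.comp (continuous_id.add continuous_const)

private theorem nop_bdd {u : E d → EuclideanSpace ℝ ι}
    (bu : ∃ C, ∀ x, ‖u x‖ ≤ C) : ∃ C, ∀ x, ‖Nop η u x‖ ≤ C := by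
  obtain ⟨C, hC⟩ := bu
  exact ⟨C, fun x => norm_Nop_le hC x⟩

private theorem nop_Dv_fun (hη : 0 ≤ η) {u : E d → EuclideanSpace ℝ ι} (hu : CB 1 u) :
    Dv (Nop η u) = Nop η (Dv u) := funext fun x => Dv_Nop hη hu x

private theorem nop_contDiff_of {u : E d → EuclideanSpace ℝ ι} (hu : CB 1 u) :
    ContDiff ℝ 1 (Nop η u) := by
  rw [contDiff_one_iff_fderiv]
  refine ⟨fun x => (nop_hasFDeriv (η := η) hu x).1.differentiableAt, ?_⟩
  have h0 : fderiv ℝ (Nop η u) =
      fun x => ∫ z, fderiv ℝ u (x + √η • z) ∂(stdGaussian (E d)) := by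
    funext x
    exact (nop_hasFDeriv (η := η) hu x).1.fderiv
  rw [h0]
  obtain ⟨h1, _, h2, ⟨C', hC'⟩⟩ := hu
  have hfd : Continuous (fun y => fderiv ℝ u y) := h1.continuous_fderiv one_ne_zero
  refine continuous_of_dominated (bound := fun _ => C') (fun x =>
    (hfd.comp (nop_cont_shift x)).aestronglyMeasurable) (fun x =>
    Filter.Eventually.of_forall fun z => (opNorm_le_Dv u _).trans (hC' _))
    (integrable_const _) ?_
  refine Filter.Eventually.of_forall fun z => ?_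
  exact hfd.comp (continuous_id.add continuous_const)

theorem Nop_CB_of {k : ℕ} (hη : 0 ≤ η) {u : E d → EuclideanSpace ℝ ι} (hu : CB k u) :
    CB k (Nop η u) := by
  induction k generalizing ι with
  | zero => exact ⟨nop_continuous hu.1 hu.2, nop_bdd hu.2⟩
  | succ k ih =>
    have h1 : CB 1 u := hu.mono (by omega)
    refine ⟨nop_contDiff_of h1, nop_bdd hu.bdd, ?_⟩
    rw [nop_Dv_fun hη h1]
    exact ih hu.dv

private theorem nop_CB_one (hη : 0 < η) {u : E d → EuclideanSpace ℝ ι} (hu : Measurable u)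
    (bu : ∃ C, ∀ x, ‖u x‖ ≤ C) : CB 1 (Nop η u) := by
  have h1 : ContDiff ℝ (1 : ℕ) (Nop η u) := nop_contDiff hη hu bu 1
  have h0 : ContDiff ℝ (0 : ℕ) (Dv (Nop η u)) := contDiff_Dv (k := 0) (by simpa using h1)
  refine ⟨by exact_mod_cast h1, nop_bdd bu, h0.continuous, ?_⟩
  obtain ⟨C, hC⟩ := bu
  exact ⟨(√η)⁻¹ * C, fun x => norm_Dv_Nop_le hη hu hC x⟩

private theorem nop_CB_succ {k : ℕ} (hη : 0 < η) {u : E d → EuclideanSpace ℝ ι} (hu : CB k u) :
    CB (k + 1) (Nop η u) := by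
  induction k generalizing ι with
  | zero => exact nop_CB_one hη hu.1.measurable hu.2
  | succ k ih =>
    have h1 : CB 1 u := hu.mono (by omega)
    refine ⟨nop_contDiff_of h1, nop_bdd hu.bdd, ?_⟩
    rw [nop_Dv_fun hη.le h1]
    exact ih hu.dv

private theorem nop_semigroup {a b : ℝ} (ha : 0 < a) (hb : 0 < b)
    {u : E d → EuclideanSpace ℝ ι} (hu : Measurable u) (bu : ∃ C, ∀ x, ‖u x‖ ≤ C) :
    Nop (a + b) u = Nop a (Nop b u) := by
  funext x
  obtain ⟨C, hC⟩ := bu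
  have hc : Continuous (fun p : E d × E d => x + √a • p.1 + √b • p.2) := by fun_prop
  have hint : Integrable (fun p : E d × E d => u (x + √a • p.1 + √b • p.2))
      ((stdGaussian (E d)).prod (stdGaussian (E d))) :=
    Integrable.of_bound (hu.comp hc.measurable).aestronglyMeasurable C
      (Filter.Eventually.of_forall fun z => hC _)
  have hab : 0 < a + b := by positivity
  have h1 : (√a / √(a + b)) ^ 2 + (√b / √(a + b)) ^ 2 = 1 := by
    rw [div_pow, div_pow, Real.sq_sqrt ha.le, Real.sq_sqrt hb.le, Real.sq_sqrt hab.le]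
    field_simp
  have h2 := gauss_comb (d := d) h1
  unfold Nop
  rw [← integral_prod _ hint]
  conv_lhs => rw [← h2]
  have hm : Measurable (fun p : E d × E d => (√a / √(a + b)) • p.1 + (√b / √(a + b)) • p.2) := by
    fun_prop
  have hm2 : Measurable (fun z : E d => u (x + √(a + b) • z)) :=
    hu.comp (nop_cont_shift (η := a + b) x).measurable
  rw [integral_map hm.aemeasurable hm2.aestronglyMeasurable]
  refine integral_congr_ae (Filter.Eventually.of_forall fun p => ?_)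
  simp only
  congr 1
  have h3 : √(a + b) ≠ 0 := (Real.sqrt_pos.2 hab).ne'
  rw [smul_add, smul_smul, smul_smul, mul_div_cancel₀ _ h3, mul_div_cancel₀ _ h3, add_assoc]

theorem Nop_CB (hη : 0 < η) {u : E d → EuclideanSpace ℝ ι} (hu : Measurable u)
    (bu : ∃ C, ∀ x, ‖u x‖ ≤ C) : CB 3 (Nop η u) := by
  have h3 : 0 < η / 3 := by positivity
  have b1 : ∃ C, ∀ x, ‖Nop (η / 3) u x‖ ≤ C := nop_bdd bu
  have c1 : CB 1 (Nop (η / 3) u) := nop_CB_one h3 hu bu
  have c2 : CB 2 (Nop (η / 3) (Nop (η / 3) u)) := nop_CB_succ h3 c1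
  have c3 : CB 3 (Nop (η / 3) (Nop (η / 3) (Nop (η / 3) u))) := nop_CB_succ h3 c2
  have e1 : η = η / 3 + (η / 3 + η / 3) := by ring
  rw [e1, nop_semigroup h3 (by positivity) hu bu, nop_semigroup h3 h3 hu bu]
  exact c3

theorem norm_DDv_Nop_le (hη : 0 < η) {u : E d → EuclideanSpace ℝ ι} (hu : Measurable u) {B : ℝ}
    (hB : ∀ x, ‖u x‖ ≤ B) (x : E d) : ‖Dv (Dv (Nop η u)) x‖ ≤ 2 / η * B := by
  have h2 : 0 < η / 2 := by positivity
  have bu : ∃ C, ∀ x, ‖u x‖ ≤ C := ⟨B, hB⟩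
  have c1 : CB 1 (Nop (η / 2) u) := nop_CB_one h2 hu bu
  have e1 : Nop η u = Nop (η / 2) (Nop (η / 2) u) := by
    have e0 : η = η / 2 + η / 2 := by ring
    conv_lhs => rw [e0]
    exact nop_semigroup h2 h2 hu bu
  rw [e1, nop_Dv_fun h2.le c1]
  have h3 : ∀ y, ‖Dv (Nop (η / 2) u) y‖ ≤ (√(η / 2))⁻¹ * B := fun y =>
    norm_Dv_Nop_le h2 hu hB y
  have h4 : Measurable (Dv (Nop (η / 2) u)) := c1.dv.1.measurable
  have h5 := norm_Dv_Nop_le h2 h4 h3 x
  refine h5.trans (le_of_eq ?_)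
  rw [← mul_assoc, ← mul_inv, Real.mul_self_sqrt h2.le, inv_div]

end Vale.Agent.P347
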