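import Vale.Agent.Lib.P347.SchA

/-!
P347: variance and size bounds for the scheme.

Proofs. `var_rest`, `var_full`: `efron_rest`, `efron_full` for `w = gradient f ∘ XX` with the chain
rule bound `norm_Dv_comp_right`, the block bounds `XX_xi_norm`, `XX_block` and `sum_LL_sq`
(`(1 + aC)^2 + 6 a^2 C^2 ≤ 81/64 + 6/64 ≤ 3/2`).
Sizes: `F (YY)` has `L²` norm at most `|F 0| + a √d` (`YY` is standard Gaussian), so `SSω` has
`L²` norm at most `C (|F 0| + a √d)` (Minkowski); `bbω` is at most `a` times a copy of `SSω`.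
`dd_size`: `DD - Σ J_k F (ρ_k ξ) = Σ J_k (F (ρ_k ξ + κ_k z_k) - F (ρ_k ξ)) +
Σ (J_k ρ_k/κ_k) M_k v_k`, with `L²` norms at most `Σ |J_k| a κ_k √d` and
`Σ (|J_k|/κ_k) a √d`, in total at most `2 a C √d`.
-/

open MeasureTheory ProbabilityTheory
open scoped RealInnerProductSpace

namespace Vale.Agent.P347

variable {d K : ℕ} {N : Nodes K} {C ε a : ℝ} {F : E d → E d}

private theorem schV_grad_bound {f : E d → ℝ} (hf : CB 2 (sc f)) {A2 : ℝ}
    (hA2 : ∀ x, ‖Dv (Dv (sc f)) x‖ ≤ A2) (x : E d) : ‖Dv (gradient f) x‖ ≤ A2 := by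
  rw [← norm_DDv_sc hf.contDiff_of_sc x]
  exact hA2 x

private theorem schV_block {f : E d → ℝ} (hf : CB 2 (sc f)) {A2 : ℝ}
    (hA2 : ∀ x, ‖Dv (Dv (sc f)) x‖ ≤ A2) {φ : E d → E d} {L : ℝ} (hφ : ContDiff ℝ 1 φ)
    (hL : ∀ z, ‖fderiv ℝ φ z‖ ≤ L) :
    ContDiff ℝ 1 (fun z => gradient f (φ z)) ∧
      ∀ z, ‖Dv (fun z => gradient f (φ z)) z‖ ≤ L * A2 := by
  have hg : ContDiff ℝ 1 (gradient f) := (CB.gradient (k := 1) hf).contDiff
  refine ⟨hg.comp hφ, fun z => ?_⟩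
  have h1 := norm_Dv_comp_right (u := gradient f) (φ := φ) (x := z) (L := L)
    (hg.differentiable one_ne_zero _) (hφ.differentiable one_ne_zero _) (hL z)
  have hL0 : 0 ≤ L := (norm_nonneg _).trans (hL z)
  exact h1.trans (mul_le_mul_of_nonneg_left (schV_grad_bound hf hA2 _) hL0)

private theorem schV_meas (hF : ContDiff ℝ 1 F) {f : E d → ℝ} (hf : CB 2 (sc f)) :
    Measurable (fun ω : Noise d K => gradient f (XX N F ω)) := by
  have hg : ContDiff ℝ 1 (gradient f) := (CB.gradient (k := 1) hf).contDiff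
  exact (hg.continuous.comp (XX_continuous hF.continuous)).measurable

private theorem schV_bdd {f : E d → ℝ} (hf : CB 2 (sc f)) :
    ∃ B, ∀ ω : Noise d K, ‖gradient f (XX N F ω)‖ ≤ B := by
  obtain ⟨B, hB⟩ := (CB.gradient (k := 1) hf).bdd
  exact ⟨B, fun ω => hB _⟩

theorem var_rest (hN : GoodNodes N C ε) (ha0 : 0 ≤ a) (haC : a * C ≤ 1 / 8)
    (hF : ContDiff ℝ 1 F) (ha : ∀ x, ‖fderiv ℝ F x‖ ≤ a) {f : E d → ℝ} (hf : CB 2 (sc f))
    {A2 : ℝ} (hA2 : ∀ x, ‖Dv (Dv (sc f)) x‖ ≤ A2) :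
    ∫ ω, ‖gradient f (XX N F ω) - ∫ ζ, gradient f (XX N F (ω.1, ζ))
        ∂(Measure.pi fun _ : Rest K => stdGaussian (E d))‖ ^ 2 ∂(noiseLaw d K) ≤
      6 * a ^ 2 * C ^ 2 * A2 ^ 2 := by
  have h := efron_rest (w := fun ω : Noise d K => gradient f (XX N F ω))
    (schV_meas hF hf) (schV_bdd hf) (L := fun r => LL N C a r * A2) (fun ω r => by
      obtain ⟨h1, h2⟩ := XX_block hN ha0 hF ha ω r
      exact schV_block hf hA2 h1 h2)
  refine h.trans ?_
  simp only [mul_pow]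
  rw [← Finset.sum_mul]
  exact mul_le_mul_of_nonneg_right (sum_LL_sq hN ha0 haC) (sq_nonneg _)

theorem var_full (hN : GoodNodes N C ε) (ha0 : 0 ≤ a) (haC : a * C ≤ 1 / 8)
    (hF : ContDiff ℝ 1 F) (ha : ∀ x, ‖fderiv ℝ F x‖ ≤ a) {f : E d → ℝ} (hf : CB 2 (sc f))
    {A2 : ℝ} (hA2 : ∀ x, ‖Dv (Dv (sc f)) x‖ ≤ A2) :
    ∫ ω, ‖gradient f (XX N F ω) - ∫ ω', gradient f (XX N F ω') ∂(noiseLaw d K)‖ ^ 2
      ∂(noiseLaw d K) ≤ 3 / 2 * A2 ^ 2 := by
  have h := efron_full (w := fun ω : Noise d K => gradient f (XX N F ω))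
    (schV_meas hF hf) (schV_bdd hf) (L := fun r => LL N C a r * A2) (L0 := (1 + a * C) * A2)
    (fun ζ => schV_block hf hA2 (XX_xi hF ζ).1 (fun z => XX_xi_norm hN ha0 hF ha ζ z))
    (fun ω r => by
      obtain ⟨h1, h2⟩ := XX_block hN ha0 hF ha ω r
      exact schV_block hf hA2 h1 h2)
  refine h.trans ?_
  simp only [mul_pow]
  rw [← Finset.sum_mul, ← add_mul]
  refine mul_le_mul_of_nonneg_right ?_ (sq_nonneg _)
  have h1 := sum_LL_sq hN ha0 haC
  have h2 : 0 ≤ a * C := mul_nonneg ha0 (zero_le_one.trans hN.one_le)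
  have h3 : 6 * a ^ 2 * C ^ 2 = 6 * (a * C) ^ 2 := by ring
  rw [h3] at h1
  nlinarith

/-- weighted Cauchy-Schwarz -/
private theorem schV_wsum {Ω : Type} [MeasurableSpace Ω] {μ : Measure Ω} {G : Type}
    [NormedAddCommGroup G] {κ : Type} [Fintype κ] {U : Ω → G} {w : κ → ℝ} {t : κ → Ω → ℝ}
    {c A : ℝ} (hw : ∀ k, 0 ≤ w k) (hc : ∑ k, w k ≤ c)
    (ht : ∀ k, Integrable (fun ω => t k ω ^ 2) μ) (hA : ∀ k, ∫ ω, t k ω ^ 2 ∂μ ≤ A ^ 2)
    (hU : ∀ ω, ‖U ω‖ ≤ ∑ k, w k * t k ω) :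
    ∫ ω, ‖U ω‖ ^ 2 ∂μ ≤ (c * A) ^ 2 := by
  have hc0 : 0 ≤ c := (Finset.sum_nonneg fun k _ => hw k).trans hc
  have hpt : ∀ ω, ‖U ω‖ ^ 2 ≤ c * ∑ k, w k * t k ω ^ 2 := by
    intro ω
    have h1 : ‖U ω‖ ^ 2 ≤ (∑ k, w k * t k ω) ^ 2 :=
      pow_le_pow_left₀ (norm_nonneg _) (hU ω) 2
    have h2 : (∑ k, w k * t k ω) ^ 2 ≤ (∑ k, w k) * ∑ k, w k * t k ω ^ 2 := by
      refine Finset.sum_sq_le_sum_mul_sum_of_sq_le_mul Finset.univ (fun k _ => hw k)
        (fun k _ => mul_nonneg (hw k) (sq_nonneg _)) (fun k _ => le_of_eq (by ring))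
    have h3 : 0 ≤ ∑ k, w k * t k ω ^ 2 :=
      Finset.sum_nonneg fun k _ => mul_nonneg (hw k) (sq_nonneg _)
    exact h1.trans (h2.trans (mul_le_mul_of_nonneg_right hc h3))
  have hint : Integrable (fun ω => c * ∑ k, w k * t k ω ^ 2) μ :=
    (integrable_finsetSum _ fun k _ => (ht k).const_mul _).const_mul _
  calc ∫ ω, ‖U ω‖ ^ 2 ∂μ ≤ ∫ ω, c * ∑ k, w k * t k ω ^ 2 ∂μ :=
        integral_mono_of_nonneg (Filter.Eventually.of_forall fun ω => sq_nonneg _) hint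
          (Filter.Eventually.of_forall hpt)
    _ = c * ∑ k, w k * ∫ ω, t k ω ^ 2 ∂μ := by
        rw [integral_const_mul, integral_finsetSum _ fun k _ => (ht k).const_mul _]
        simp only [integral_const_mul]
    _ ≤ c * ∑ k, w k * A ^ 2 := by
        refine mul_le_mul_of_nonneg_left (Finset.sum_le_sum fun k _ => ?_) hc0
        exact mul_le_mul_of_nonneg_left (hA k) (hw k)
    _ ≤ (c * A) ^ 2 := by
        rw [← Finset.sum_mul]
        have : (∑ k, w k) * A ^ 2 ≤ c * A ^ 2 := mul_le_mul_of_nonneg_right hc (sq_nonneg _)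
        nlinarith [mul_le_mul_of_nonneg_left this hc0]

private theorem schV_mp_one (d K : ℕ) (r : Rest K) :
    MeasurePreserving (fun ω : Noise d K => (ω.1, ω.2 r)) (noiseLaw d K)
      ((stdGaussian (E d)).prod (stdGaussian (E d))) := by
  have h := (MeasurePreserving.id (stdGaussian (E d))).prod
    (measurePreserving_eval (fun _ : Rest K => stdGaussian (E d)) r)
  exact h

private theorem schV_mp_two (d K : ℕ) {r s : Rest K} (hrs : r ≠ s) :
    MeasurePreserving (fun ω : Noise d K => (ω.2 r, ω.2 s)) (noiseLaw d K)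
      ((stdGaussian (E d)).prod (stdGaussian (E d))) := by
  have h1 : MeasurePreserving (fun ω : Noise d K => ω.2) (noiseLaw d K)
      (Measure.pi fun _ : Rest K => stdGaussian (E d)) := measurePreserving_snd
  have h2 : MeasurePreserving (fun ζ : Rest K → E d => (ζ r, ζ s))
      (Measure.pi fun _ : Rest K => stdGaussian (E d))
      ((stdGaussian (E d)).prod (stdGaussian (E d))) := by
    refine ⟨(measurable_pi_apply r).prodMk (measurable_pi_apply s), ?_⟩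
    have h3 : iIndepFun (fun (i : Rest K) (ζ : Rest K → E d) => ζ i)
        (Measure.pi fun _ : Rest K => stdGaussian (E d)) :=
      iIndepFun_pi (X := fun _ => id) (fun i => aemeasurable_id)
    have h4 := (indepFun_iff_map_prod_eq_prod_map_map
      (measurable_pi_apply r).aemeasurable (measurable_pi_apply s).aemeasurable).1
      (h3.indepFun hrs)
    rw [h4, (measurePreserving_eval (fun _ : Rest K => stdGaussian (E d)) r).map_eq,
      (measurePreserving_eval (fun _ : Rest K => stdGaussian (E d)) s).map_eq]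
  exact h2.comp h1

private theorem schV_mp_comb {ρ κ : ℝ} (h : ρ ^ 2 + κ ^ 2 = 1) :
    MeasurePreserving (fun p : E d × E d => ρ • p.1 + κ • p.2)
      ((stdGaussian (E d)).prod (stdGaussian (E d))) (stdGaussian (E d)) :=
  ⟨by fun_prop, gauss_comb h⟩

private theorem schV_norm_le (hF : ContDiff ℝ 1 F)
    (ha : ∀ x, ‖fderiv ℝ F x‖ ≤ a) (x y : E d) : ‖F x - F y‖ ≤ a * ‖x - y‖ := by
  have h := Convex.norm_image_sub_le_of_norm_fderiv_le (𝕜 := ℝ) (f := F) (s := Set.univ)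
    (C := a) (fun z _ => hF.differentiable one_ne_zero z) (fun z _ => ha z) convex_univ
    (Set.mem_univ y) (Set.mem_univ x)
  exact h

private theorem schV_int_norm (d : ℕ) : Integrable (fun x : E d => ‖x‖) (stdGaussian (E d)) :=
  gauss_integrable continuous_norm.aestronglyMeasurable PG_id.norm

private theorem schV_int_sq (d : ℕ) : Integrable (fun x : E d => ‖x‖ ^ 2) (stdGaussian (E d)) :=
  gauss_integrable (continuous_norm.pow 2).aestronglyMeasurable (PG_id.norm.pow 2)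

private theorem schV_mean_norm (d : ℕ) : ∫ x, ‖x‖ ∂(stdGaussian (E d)) ≤ √d := by
  set m := ∫ x, ‖x‖ ∂(stdGaussian (E d)) with hm
  refine Real.le_sqrt_of_sq_le ?_
  have h1 : 0 ≤ ∫ x : E d, (‖x‖ ^ 2 - 2 * m * ‖x‖ + m ^ 2) ∂(stdGaussian (E d)) :=
    integral_nonneg fun x => by
      show 0 ≤ ‖x‖ ^ 2 - 2 * m * ‖x‖ + m ^ 2
      nlinarith [sq_nonneg (‖x‖ - m)]
  have i1 : Integrable (fun x : E d => 2 * m * ‖x‖) (stdGaussian (E d)) :=
    (schV_int_norm d).const_mul _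
  have i2 : Integrable (fun x : E d => ‖x‖ ^ 2 - 2 * m * ‖x‖) (stdGaussian (E d)) :=
    (schV_int_sq d).sub i1
  rw [integral_add i2 (integrable_const _), integral_sub (schV_int_sq d) i1,
    integral_const_mul, gauss_sq, ← hm] at h1
  simp only [integral_const, probReal_univ, one_smul] at h1
  nlinarith

private theorem schV_base (b : ℝ) (hb : 0 ≤ b) (ha0 : 0 ≤ a) :
    Integrable (fun x : E d => (b + a * ‖x‖) ^ 2) (stdGaussian (E d)) ∧
    ∫ x, (b + a * ‖x‖) ^ 2 ∂(stdGaussian (E d)) ≤ (b + a * √d) ^ 2 := by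
  have e : (fun x : E d => (b + a * ‖x‖) ^ 2) =
      fun x : E d => b ^ 2 + 2 * a * b * ‖x‖ + a ^ 2 * ‖x‖ ^ 2 := by
    funext x
    ring
  have hi1 : Integrable (fun x : E d => b ^ 2 + 2 * a * b * ‖x‖) (stdGaussian (E d)) :=
    (integrable_const _).add ((schV_int_norm d).const_mul _)
  have hi2 : Integrable (fun x : E d => a ^ 2 * ‖x‖ ^ 2) (stdGaussian (E d)) :=
    (schV_int_sq d).const_mul _
  rw [e]
  refine ⟨hi1.add hi2, ?_⟩
  rw [integral_add hi1 hi2, integral_add (integrable_const _) ((schV_int_norm d).const_mul _),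
    integral_const_mul, integral_const_mul, gauss_sq]
  simp only [integral_const, probReal_univ, one_smul]
  have h1 := mul_le_mul_of_nonneg_left (schV_mean_norm d) (mul_nonneg (mul_nonneg zero_le_two ha0) hb)
  have h2 : √(d : ℝ) ^ 2 = d := Real.sq_sqrt (Nat.cast_nonneg d)
  nlinarith

/-- `F` of a standard Gaussian -/
private theorem schV_F (ha0 : 0 ≤ a) (hF : ContDiff ℝ 1 F) (ha : ∀ x, ‖fderiv ℝ F x‖ ≤ a) :
    Integrable (fun x : E d => ‖F x‖ ^ 2) (stdGaussian (E d)) ∧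
    ∫ x, ‖F x‖ ^ 2 ∂(stdGaussian (E d)) ≤ (‖F 0‖ + a * √d) ^ 2 := by
  obtain ⟨h1, h2⟩ := schV_base (d := d) ‖F 0‖ (norm_nonneg _) ha0
  have hb : ∀ x, ‖F x‖ ^ 2 ≤ (‖F 0‖ + a * ‖x‖) ^ 2 := by
    intro x
    refine pow_le_pow_left₀ (norm_nonneg _) ?_ 2
    have h3 := schV_norm_le hF ha x 0
    rw [sub_zero] at h3
    have h4 : F x = F 0 + (F x - F 0) := by abel
    calc ‖F x‖ = ‖F 0 + (F x - F 0)‖ := by rw [← h4]
      _ ≤ ‖F 0‖ + ‖F x - F 0‖ := norm_add_le _ _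
      _ ≤ ‖F 0‖ + a * ‖x‖ := by gcongr
  have hint : Integrable (fun x : E d => ‖F x‖ ^ 2) (stdGaussian (E d)) := by
    refine h1.mono' (hF.continuous.norm.pow 2).aestronglyMeasurable
      (Filter.Eventually.of_forall fun x => ?_)
    rw [Real.norm_eq_abs, abs_of_nonneg (sq_nonneg _)]
    exact hb x
  exact ⟨hint, (integral_mono hint h1 hb).trans h2⟩

private theorem schV_comp {Ω : Type} [MeasurableSpace Ω] {μ : Measure Ω} {Y : Ω → E d}
    (hY : MeasurePreserving Y μ (stdGaussian (E d))) {g : E d → E d} (hg : Continuous g)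
    (hi : Integrable (fun x => ‖g x‖ ^ 2) (stdGaussian (E d))) :
    Integrable (fun ω => ‖g (Y ω)‖ ^ 2) μ ∧
      ∫ ω, ‖g (Y ω)‖ ^ 2 ∂μ = ∫ x, ‖g x‖ ^ 2 ∂(stdGaussian (E d)) := by
  have hc : Continuous (fun x => ‖g x‖ ^ 2) := hg.norm.pow 2
  refine ⟨(hY.integrable_comp hc.aestronglyMeasurable).2 hi, ?_⟩
  rw [← hY.map_eq, integral_map hY.measurable.aemeasurable hc.aestronglyMeasurable]

theorem ss_size (hN : GoodNodes N C ε) (ha0 : 0 ≤ a) (hF : ContDiff ℝ 1 F)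
    (ha : ∀ x, ‖fderiv ℝ F x‖ ≤ a) :
    ∫ ω, ‖SSω N F ω‖ ^ 2 ∂(noiseLaw d K) ≤ (C * (‖F 0‖ + a * √d)) ^ 2 := by
  obtain ⟨hF1, hF2⟩ := schV_F ha0 hF ha
  have hY : ∀ k, MeasurePreserving (YY (d := d) N k) (noiseLaw d K) (stdGaussian (E d)) := fun k =>
    (schV_mp_comb (rho_sq_add hN k)).comp (schV_mp_one d K (Sum.inl k))
  refine schV_wsum (w := fun k => |N.J k|) (t := fun k ω => ‖F (YY N k ω)‖)
    (fun k => abs_nonneg _) (sum_abs_J_le hN)
    (fun k => (schV_comp (hY k) hF.continuous hF1).1)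
    (fun k => ?_) (fun ω => ?_)
  · rw [(schV_comp (hY k) hF.continuous hF1).2]
    exact hF2
  · have h1 : SSω N F ω = ∑ k, N.J k • F (YY N k ω) := rfl
    rw [h1]
    refine (norm_sum_le _ _).trans (Finset.sum_le_sum fun k _ => ?_)
    rw [norm_smul, Real.norm_eq_abs]

/-- the evaluation points of the copy of the drift inside the mean correction -/
private noncomputable def schV_Y (N : Nodes K) (k : Fin K) (ω : Noise d K) : E d :=
  N.rho k • ω.2 (Sum.inr none) + N.kap k • ω.2 (Sum.inr (some k))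

private theorem schV_Y_mp (hN : GoodNodes N C ε) (k : Fin K) :
    MeasurePreserving (schV_Y (d := d) N k) (noiseLaw d K) (stdGaussian (E d)) := by
  have hne : (Sum.inr none : Rest K) ≠ Sum.inr (some k) := by
    intro h
    exact Option.some_ne_none k (Sum.inr.inj h).symm
  exact (schV_mp_comb (rho_sq_add hN k)).comp (schV_mp_two d K hne)

private theorem schV_bb_pt (ha0 : 0 ≤ a) (hF : ContDiff ℝ 1 F)
    (ha : ∀ x, ‖fderiv ℝ F x‖ ≤ a) (ω : Noise d K) :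
    ‖bbω N F ω‖ ≤ ∑ k, a * |N.J k| * ‖F (schV_Y N k ω)‖ := by
  have h0 : SS N F (ω.2 (Sum.inr none)) (fun k => ω.2 (Sum.inr (some k))) =
      ∑ k, N.J k • F (schV_Y N k ω) := rfl
  have h1 : ‖bbω N F ω‖ ≤ a * ‖SS N F (ω.2 (Sum.inr none))
      (fun k => ω.2 (Sum.inr (some k)))‖ := by
    have h2 := schV_norm_le hF ha (ω.2 (Sum.inr none) - SS N F (ω.2 (Sum.inr none))
      (fun k => ω.2 (Sum.inr (some k)))) (ω.2 (Sum.inr none))
    rw [sub_sub_cancel_left, norm_neg] at h2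
    exact h2
  rw [h0] at h1
  refine h1.trans ?_
  simp only [mul_assoc]
  rw [← Finset.mul_sum]
  refine mul_le_mul_of_nonneg_left ?_ ha0
  refine (norm_sum_le _ _).trans (Finset.sum_le_sum fun k _ => ?_)
  rw [norm_smul, Real.norm_eq_abs]

theorem bb_size (hN : GoodNodes N C ε) (ha0 : 0 ≤ a) (hF : ContDiff ℝ 1 F)
    (ha : ∀ x, ‖fderiv ℝ F x‖ ≤ a) :
    ∫ ω, ‖bbω N F ω‖ ^ 2 ∂(noiseLaw d K) ≤ (a * C * (‖F 0‖ + a * √d)) ^ 2 := by
  obtain ⟨hF1, hF2⟩ := schV_F ha0 hF ha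
  refine schV_wsum (w := fun k => a * |N.J k|) (t := fun k ω => ‖F (schV_Y N k ω)‖)
    (fun k => mul_nonneg ha0 (abs_nonneg _)) ?_
    (fun k => (schV_comp (schV_Y_mp hN k) hF.continuous hF1).1)
    (fun k => ?_) (fun ω => schV_bb_pt ha0 hF ha ω)
  · rw [← Finset.mul_sum]
    exact mul_le_mul_of_nonneg_left (sum_abs_J_le hN) ha0
  · rw [(schV_comp (schV_Y_mp hN k) hF.continuous hF1).2]
    exact hF2

theorem dd_size (hN : GoodNodes N C ε) (ha0 : 0 ≤ a) (hF : ContDiff ℝ 1 F)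
    (ha : ∀ x, ‖fderiv ℝ F x‖ ≤ a) :
    ∫ ω, ‖DD N F ω - ∑ k, N.J k • F (N.rho k • ω.1)‖ ^ 2 ∂(noiseLaw d K) ≤
      (2 * a * C * √d) ^ 2 := by
  have hz : ∀ k, MeasurePreserving (fun ω : Noise d K => ω.2 (Sum.inl k)) (noiseLaw d K)
      (stdGaussian (E d)) := fun k =>
    (measurePreserving_eval (fun _ : Rest K => stdGaussian (E d)) (Sum.inl k)).comp
      measurePreserving_snd
  have hv : ∀ k, MeasurePreserving (vv (d := d) N k) (noiseLaw d K) (stdGaussian (E d)) := by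
    intro k
    have h1 : N.kap k ^ 2 + (-N.rho k) ^ 2 = 1 := by
      have := rho_sq_add hN k
      nlinarith
    have h2 := (schV_mp_comb (d := d) h1).comp (schV_mp_one d K (Sum.inl k))
    have h3 : vv (d := d) N k = (fun p : E d × E d => N.kap k • p.1 + (-N.rho k) • p.2) ∘
        (fun ω : Noise d K => (ω.1, ω.2 (Sum.inl k))) := by
      funext ω
      simp [vv, sub_eq_add_neg]
    rw [h3]
    exact h2
  have hzi := fun k => schV_comp (hz k) continuous_id (schV_int_sq d)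
  have hvi := fun k => schV_comp (hv k) continuous_id (schV_int_sq d)
  simp only [id] at hzi hvi
  have hdom : ∀ k, Integrable (fun ω : Noise d K => 2 * ‖ω.2 (Sum.inl k)‖ ^ 2 +
      2 * ‖vv N k ω‖ ^ 2) (noiseLaw d K) := fun k =>
    ((hzi k).1.const_mul 2).add ((hvi k).1.const_mul 2)
  have hti : ∀ k, Integrable (fun ω : Noise d K => (‖ω.2 (Sum.inl k)‖ + ‖vv N k ω‖) ^ 2)
      (noiseLaw d K) := by
    intro k
    refine (hdom k).mono' ?_ (Filter.Eventually.of_forall fun ω => ?_)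
    · refine AEStronglyMeasurable.pow (AEStronglyMeasurable.add ?_ ?_) 2
      · exact ((hz k).measurable.norm).aestronglyMeasurable
      · exact ((hv k).measurable.norm).aestronglyMeasurable
    · rw [Real.norm_eq_abs, abs_of_nonneg (sq_nonneg _)]
      nlinarith [sq_nonneg (‖ω.2 (Sum.inl k)‖ - ‖vv N k ω‖)]
  have hd2 : √(d : ℝ) ^ 2 = d := Real.sq_sqrt (Nat.cast_nonneg d)
  have e1 : (2 * a * C * √d) ^ 2 = (a * C * (2 * √d)) ^ 2 := by ring
  rw [e1]
  refine schV_wsum (w := fun k => a * (|N.J k| / N.kap k))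
    (t := fun k ω => ‖ω.2 (Sum.inl k)‖ + ‖vv N k ω‖)
    (fun k => mul_nonneg ha0 (div_nonneg (abs_nonneg _) (kap_pos hN k).le)) ?_ hti
    (fun k => ?_) (fun ω => ?_)
  · rw [← Finset.mul_sum]
    exact mul_le_mul_of_nonneg_left hN.abs ha0
  · calc ∫ ω : Noise d K, (‖ω.2 (Sum.inl k)‖ + ‖vv N k ω‖) ^ 2 ∂(noiseLaw d K)
        ≤ ∫ ω : Noise d K, (2 * ‖ω.2 (Sum.inl k)‖ ^ 2 + 2 * ‖vv N k ω‖ ^ 2) ∂(noiseLaw d K) :=
          integral_mono (hti k) (hdom k) fun ω => by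
            show (‖ω.2 (Sum.inl k)‖ + ‖vv N k ω‖) ^ 2 ≤
              2 * ‖ω.2 (Sum.inl k)‖ ^ 2 + 2 * ‖vv N k ω‖ ^ 2
            nlinarith [sq_nonneg (‖ω.2 (Sum.inl k)‖ - ‖vv N k ω‖)]
      _ = (2 * √d) ^ 2 := by
          rw [integral_add ((hzi k).1.const_mul 2) ((hvi k).1.const_mul 2), integral_const_mul,
            integral_const_mul, (hzi k).2, (hvi k).2, gauss_sq]
          nlinarith
  · have e2 : DD N F ω - ∑ k, N.J k • F (N.rho k • ω.1) =
        ∑ k, N.J k • ((F (YY N k ω) - F (N.rho k • ω.1)) +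
          (N.rho k / N.kap k) • MM N F k ω (vv N k ω)) := by
      unfold DD
      rw [← Finset.sum_sub_distrib]
      refine Finset.sum_congr rfl fun k _ => ?_
      rw [← smul_sub]
      congr 1
      abel
    rw [e2]
    refine (norm_sum_le _ _).trans (Finset.sum_le_sum fun k _ => ?_)
    have hk0 := kap_pos hN k
    have hk1 := kap_le_one hN k
    have hr0 := (hN.pos k).le
    have hr1 := (hN.lt k).le
    have h1 : ‖F (YY N k ω) - F (N.rho k • ω.1)‖ ≤ a * ‖ω.2 (Sum.inl k)‖ := by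
      have h2 := schV_norm_le hF ha (YY N k ω) (N.rho k • ω.1)
      have h3 : YY N k ω - N.rho k • ω.1 = N.kap k • ω.2 (Sum.inl k) := by
        unfold YY
        abel
      rw [h3, norm_smul, Real.norm_eq_abs, abs_of_pos hk0] at h2
      refine h2.trans (mul_le_mul_of_nonneg_left ?_ ha0)
      calc N.kap k * ‖ω.2 (Sum.inl k)‖ ≤ 1 * ‖ω.2 (Sum.inl k)‖ :=
            mul_le_mul_of_nonneg_right hk1 (norm_nonneg _)
        _ = _ := one_mul _
    have h4 : ‖MM N F k ω (vv N k ω)‖ ≤ a * ‖vv N k ω‖ :=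
      ((MM N F k ω).le_opNorm _).trans (mul_le_mul_of_nonneg_right (ha _) (norm_nonneg _))
    have h5 : a * ‖ω.2 (Sum.inl k)‖ ≤ (N.kap k)⁻¹ * (a * ‖ω.2 (Sum.inl k)‖) := by
      have : (1 : ℝ) ≤ (N.kap k)⁻¹ := (one_le_inv₀ hk0).2 hk1
      have h6 := mul_le_mul_of_nonneg_right this (mul_nonneg ha0 (norm_nonneg (ω.2 (Sum.inl k))))
      rwa [one_mul] at h6
    have h7 : ‖(N.rho k / N.kap k) • MM N F k ω (vv N k ω)‖ ≤ (N.kap k)⁻¹ * (a * ‖vv N k ω‖) := by
      rw [norm_smul, Real.norm_eq_abs, abs_of_nonneg (div_nonneg hr0 hk0.le)]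
      refine mul_le_mul ?_ h4 (norm_nonneg _) (inv_nonneg.2 hk0.le)
      rw [div_eq_mul_inv]
      calc N.rho k * (N.kap k)⁻¹ ≤ 1 * (N.kap k)⁻¹ :=
            mul_le_mul_of_nonneg_right hr1 (inv_nonneg.2 hk0.le)
        _ = _ := one_mul _
    rw [norm_smul, Real.norm_eq_abs]
    calc |N.J k| * ‖(F (YY N k ω) - F (N.rho k • ω.1)) +
          (N.rho k / N.kap k) • MM N F k ω (vv N k ω)‖
        ≤ |N.J k| * ((N.kap k)⁻¹ * (a * ‖ω.2 (Sum.inl k)‖) + (N.kap k)⁻¹ * (a * ‖vv N k ω‖)) := by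
          refine mul_le_mul_of_nonneg_left ?_ (abs_nonneg _)
          exact (norm_add_le _ _).trans (add_le_add (h1.trans h5) h7)
      _ = a * (|N.J k| / N.kap k) * (‖ω.2 (Sum.inl k)‖ + ‖vv N k ω‖) := by
          rw [div_eq_mul_inv]
          ring

end Vale.Agent.P347
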