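import Vale.Agent.Lib.P347.Scale
import Vale.Agent.Lib.P347.SchV
import Vale.Agent.Lib.P347.NOp

/-!
P347: measurability and second moment of the algorithm step.

Proof of `step_sq`. `stepA = c + √h ξ - √h (SSω + bbω)` with `F = Fy V h y`, `a = 2h`,
`m0 ≤ 4 h √h |y|`, `|c| ≤ (1-h)|y|` (`Pot.norm_cen_le`), `E |c + √h ξ|^2 = |c|^2 + h d`, and
`√h (SSω + bbω)` has `L²` norm `s ≤ √h C (1 + 2h) 2h (√d + 2√h |y|)` (`ss_size`, `bb_size`). So
`E |stepA|^2 ≤ |c|^2 + h d + 2 s √(|c|^2 + h d) + s^2`, and `C √h ≤ 1/30`, `h ≤ 1/1000` make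
everything but `|c|^2 + h d` at most `(h/2) |y|^2 + h d`.
(`s ≤ 2.01 C √h h (√d + 2√h|y|) ≤ 0.07 h (√d + 0.07 |y|)`.)
-/

open MeasureTheory ProbabilityTheory

namespace Vale.Agent.P347

variable {d K : ℕ} {V : E d → ℝ} {h C ε : ℝ} {N : Nodes K}

private theorem stepA_cont (hV : Pot d V) :
    Continuous (fun p : E d × Noise d K => stepA N V h p.1 p.2) := by
  have hg : Continuous (gradient V) := hV.grad_contDiff.continuous
  unfold stepA XX bb SS Fy cen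
  fun_prop

/-- joint measurability of the step in the state and the noise -/
theorem stepA_measurable (hV : Pot d V) :
    Measurable (fun p : E d × Noise d K => stepA N V h p.1 p.2) :=
  (stepA_cont hV).measurable

private theorem stepA_meas_noise (hV : Pot d V) (y : E d) :
    Measurable (fun ω : Noise d K => stepA N V h y ω) :=
  (stepA_measurable hV).comp (measurable_const.prodMk measurable_id)

theorem Ahat_measurable (hV : Pot d V) {ψ : E d → ℝ} (hψ : Measurable ψ) :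
    Measurable (Ahat N V h ψ) := by
  have := noise_isProb d K
  have h1 : Measurable (fun p : E d × Noise d K => ψ (stepA N V h p.1 p.2)) :=
    hψ.comp (stepA_measurable hV)
  exact (h1.stronglyMeasurable.integral_prod_right).measurable

/-! ### growth of functions of the noise -/

/-- at most linear growth in the noise -/
private def MLGr {F : Type} [Norm F] (u : Noise d K → F) : Prop :=
  ∃ C0 : ℝ, ∀ ω, ‖u ω‖ ≤ C0 * (1 + ‖ω.1‖ + ∑ r, ‖ω.2 r‖)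

private theorem one_le_w (ω : Noise d K) : 1 ≤ 1 + ‖ω.1‖ + ∑ r, ‖ω.2 r‖ := by
  have h1 := norm_nonneg ω.1
  have h2 : 0 ≤ ∑ r, ‖ω.2 r‖ := Finset.sum_nonneg fun r _ => norm_nonneg _
  linarith

private theorem MLGr_fst : MLGr (fun ω : Noise d K => ω.1) := by
  refine ⟨1, fun ω => ?_⟩
  have h2 : 0 ≤ ∑ r, ‖ω.2 r‖ := Finset.sum_nonneg fun r _ => norm_nonneg _
  linarith

private theorem MLGr_snd (r : Rest K) : MLGr (fun ω : Noise d K => ω.2 r) := by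
  refine ⟨1, fun ω => ?_⟩
  have h2 : ‖ω.2 r‖ ≤ ∑ r, ‖ω.2 r‖ :=
    Finset.single_le_sum (f := fun r => ‖ω.2 r‖) (fun r _ => norm_nonneg _) (Finset.mem_univ r)
  have h1 := norm_nonneg ω.1
  linarith

private theorem MLGr_add {u v : Noise d K → E d} (hu : MLGr u) (hv : MLGr v) :
    MLGr (fun ω => u ω + v ω) := by
  obtain ⟨A, hA⟩ := hu
  obtain ⟨B, hB⟩ := hv
  refine ⟨A + B, fun ω => ?_⟩
  have := norm_add_le (u ω) (v ω)
  linarith [hA ω, hB ω]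

private theorem MLGr_sub {u v : Noise d K → E d} (hu : MLGr u) (hv : MLGr v) :
    MLGr (fun ω => u ω - v ω) := by
  obtain ⟨A, hA⟩ := hu
  obtain ⟨B, hB⟩ := hv
  refine ⟨A + B, fun ω => ?_⟩
  have := norm_sub_le (u ω) (v ω)
  linarith [hA ω, hB ω]

private theorem MLGr_smul (c : ℝ) {u : Noise d K → E d} (hu : MLGr u) :
    MLGr (fun ω => c • u ω) := by
  obtain ⟨A, hA⟩ := hu
  refine ⟨|c| * A, fun ω => ?_⟩
  rw [norm_smul, Real.norm_eq_abs, mul_assoc]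
  exact mul_le_mul_of_nonneg_left (hA ω) (abs_nonneg c)

private theorem MLGr_sum {ι : Type} (s : Finset ι) {u : ι → Noise d K → E d}
    (hu : ∀ i, MLGr (u i)) : MLGr (fun ω => ∑ i ∈ s, u i ω) := by
  classical
  induction s using Finset.induction_on with
  | empty =>
    refine ⟨0, fun ω => ?_⟩
    simp
  | insert i s hi ih =>
    have h1 := MLGr_add (hu i) ih
    simpa only [Finset.sum_insert hi] using h1

private theorem MLGr_comp {F : E d → E d} {a : ℝ} (ha0 : 0 ≤ a) (hF : ∀ x, ‖F x‖ ≤ ‖F 0‖ + a * ‖x‖)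
    {u : Noise d K → E d} (hu : MLGr u) : MLGr (fun ω => F (u ω)) := by
  obtain ⟨A, hA⟩ := hu
  refine ⟨‖F 0‖ + a * A, fun ω => ?_⟩
  have h1 := hF (u ω)
  have h2 := mul_le_mul_of_nonneg_left (hA ω) ha0
  have h3 := mul_le_mul_of_nonneg_left (one_le_w ω) (norm_nonneg (F 0))
  nlinarith

private theorem MLGr_sq {u : Noise d K → E d} (hu : MLGr u) (hc : Continuous u) :
    Integrable (fun ω => ‖u ω‖ ^ 2) (noiseLaw d K) := by
  obtain ⟨A, hA⟩ := hu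
  refine noise_integrable (C := A ^ 2) (p := 2) ?_ fun ω => ?_
  · exact (hc.norm.pow 2).aestronglyMeasurable
  · rw [Real.norm_of_nonneg (sq_nonneg _), ← mul_pow]
    exact pow_le_pow_left₀ (norm_nonneg _) (hA ω) 2

private theorem SS_LGr {F : E d → E d} {a : ℝ} (ha0 : 0 ≤ a)
    (hF : ∀ x, ‖F x‖ ≤ ‖F 0‖ + a * ‖x‖) {x : Noise d K → E d} (hx : MLGr x)
    {z : Noise d K → Fin K → E d} (hz : ∀ k, MLGr (fun ω => z ω k)) :
    MLGr (fun ω => SS N F (x ω) (z ω)) := by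
  unfold SS
  refine MLGr_sum Finset.univ fun k => MLGr_smul _ (MLGr_comp ha0 hF ?_)
  exact MLGr_add (MLGr_smul _ hx) (MLGr_smul _ (hz k))

private theorem SSω_LGr {F : E d → E d} {a : ℝ} (ha0 : 0 ≤ a)
    (hF : ∀ x, ‖F x‖ ≤ ‖F 0‖ + a * ‖x‖) : MLGr (SSω N F : Noise d K → E d) :=
  SS_LGr ha0 hF MLGr_fst fun k => MLGr_snd (Sum.inl k)

private theorem bbω_LGr {F : E d → E d} {a : ℝ} (ha0 : 0 ≤ a)
    (hF : ∀ x, ‖F x‖ ≤ ‖F 0‖ + a * ‖x‖) : MLGr (bbω N F : Noise d K → E d) := by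
  refine MLGr_sub (MLGr_comp ha0 hF (MLGr_sub (MLGr_snd (Sum.inr none)) ?_))
    (MLGr_comp ha0 hF (MLGr_snd (Sum.inr none)))
  exact SS_LGr ha0 hF (MLGr_snd (Sum.inr none)) fun k => MLGr_snd (Sum.inr (some k))

/-! ### Gaussian moments -/

private theorem gauss_shift_sq (c : E d) (s : ℝ) :
    Integrable (fun z : E d => ‖c + s • z‖ ^ 2) (stdGaussian (E d)) ∧
      ∫ z, ‖c + s • z‖ ^ 2 ∂(stdGaussian (E d)) = ‖c‖ ^ 2 + s ^ 2 * d := by
  have hi1 : Integrable (fun z : E d => inner ℝ z ((2 * s) • c)) (stdGaussian (E d)) :=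
    gauss_integrable (by fun_prop) (PG_inner _)
  have hi2 : Integrable (fun z : E d => s ^ 2 * ‖z‖ ^ 2) (stdGaussian (E d)) := by
    refine (gauss_integrable (u := fun z : E d => ‖z‖ ^ 2) ?_ (PG_id.norm.pow 2)).const_mul _
    fun_prop
  have hid : Integrable (fun z : E d => z) (stdGaussian (E d)) :=
    gauss_integrable (by fun_prop) PG_id
  have : IsProbabilityMeasure (stdGaussian (E d)) := inferInstance
  have e : (fun z : E d => ‖c + s • z‖ ^ 2) =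
      fun z => (‖c‖ ^ 2 + inner ℝ z ((2 * s) • c)) + s ^ 2 * ‖z‖ ^ 2 := by
    funext z
    rw [norm_add_sq_real, norm_smul, mul_pow, Real.norm_eq_abs, sq_abs, inner_smul_right,
      inner_smul_right, real_inner_comm z c]
    ring
  have hc : Integrable (fun _ : E d => ‖c‖ ^ 2) (stdGaussian (E d)) := integrable_const _
  have hc1 : Integrable (fun z : E d => ‖c‖ ^ 2 + inner ℝ z ((2 * s) • c))
      (stdGaussian (E d)) := hc.add hi1
  refine ⟨?_, ?_⟩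
  · rw [e]
    exact hc1.add hi2
  · rw [e, integral_add hc1 hi2, integral_add hc hi1, integral_const_mul, gauss_sq]
    have h0 : ∫ z : E d, inner ℝ z ((2 * s) • c) ∂(stdGaussian (E d)) = 0 := by
      have h1 := integral_inner (𝕜 := ℝ) hid ((2 * s) • c)
      rw [gauss_mean, inner_zero_right] at h1
      rw [← h1]
      refine integral_congr_ae (Filter.Eventually.of_forall fun z => ?_)
      exact real_inner_comm _ _
    rw [h0]
    simp

private theorem noise_fst_sq (c : E d) (s : ℝ) :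
    Integrable (fun ω : Noise d K => ‖c + s • ω.1‖ ^ 2) (noiseLaw d K) ∧
      ∫ ω, ‖c + s • ω.1‖ ^ 2 ∂(noiseLaw d K) = ‖c‖ ^ 2 + s ^ 2 * d := by
  obtain ⟨h1, h2⟩ := gauss_shift_sq c s
  unfold noiseLaw
  refine ⟨h1.comp_fst _, ?_⟩
  rw [← h2, integral_fun_fst (fun z : E d => ‖c + s • z‖ ^ 2)]
  simp

private theorem mom_small {h C : ℝ} (hh : 0 < h) (hC : 1 ≤ C) (hCh : C ^ 2 * h ≤ 1 / 1000) :
    h ≤ 1 / 1000 := by
  have h1 : 1 * h ≤ C ^ 2 * h := mul_le_mul_of_nonneg_right (one_le_pow₀ hC) hh.le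
  linarith

private theorem mom_num1 {h C Y D F0 s : ℝ} (hh : 0 < h) (hs : s ^ 2 = h)
    (hCh : C ^ 2 * h ≤ 1 / 1000) (hF0 : 0 ≤ F0) (hF : F0 ≤ 4 * (h * s) * Y) :
    (C * (F0 + 2 * h * D)) ^ 2 ≤ (32 * h ^ 2 * Y ^ 2 + 8 * h * D ^ 2) / 1000 := by
  have hF2 : F0 ^ 2 ≤ (4 * (h * s) * Y) ^ 2 := pow_le_pow_left₀ hF0 hF 2
  have hF3 : F0 ^ 2 ≤ 16 * h ^ 3 * Y ^ 2 := by
    have : (4 * (h * s) * Y) ^ 2 = 16 * h ^ 2 * s ^ 2 * Y ^ 2 := by ring
    rw [this, hs] at hF2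
    linarith [hF2, show 16 * h ^ 2 * h * Y ^ 2 = 16 * h ^ 3 * Y ^ 2 by ring]
  have hG : (F0 + 2 * h * D) ^ 2 ≤ 32 * h ^ 3 * Y ^ 2 + 8 * h ^ 2 * D ^ 2 := by
    have h1 := sq_nonneg (F0 - 2 * h * D)
    have h2 : (F0 + 2 * h * D) ^ 2 = 2 * F0 ^ 2 + 8 * h ^ 2 * D ^ 2 - (F0 - 2 * h * D) ^ 2 := by
      ring
    linarith
  have e1 : (C * (F0 + 2 * h * D)) ^ 2 = C ^ 2 * (F0 + 2 * h * D) ^ 2 := by ring
  have e2 : C ^ 2 * (32 * h ^ 3 * Y ^ 2 + 8 * h ^ 2 * D ^ 2) =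
      (C ^ 2 * h) * (32 * h ^ 2 * Y ^ 2 + 8 * h * D ^ 2) := by ring
  have e3 : 0 ≤ 32 * h ^ 2 * Y ^ 2 + 8 * h * D ^ 2 := by positivity
  rw [e1]
  calc C ^ 2 * (F0 + 2 * h * D) ^ 2
      ≤ C ^ 2 * (32 * h ^ 3 * Y ^ 2 + 8 * h ^ 2 * D ^ 2) :=
        mul_le_mul_of_nonneg_left hG (sq_nonneg C)
    _ = (C ^ 2 * h) * (32 * h ^ 2 * Y ^ 2 + 8 * h * D ^ 2) := e2
    _ ≤ (1 / 1000) * (32 * h ^ 2 * Y ^ 2 + 8 * h * D ^ 2) :=
        mul_le_mul_of_nonneg_right hCh e3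
    _ = _ := by ring

private theorem mom_num2 {h Q I1 I2 : ℝ} (hh : 0 < h) (hh1 : h ≤ 1 / 1000) (hQ0 : 0 ≤ Q)
    (h1 : I1 ≤ Q) (h2 : I2 ≤ 4 * h ^ 2 * Q) : (h + 2) * (2 * (I1 + I2)) ≤ 5 * Q := by
  have h3 : I1 + I2 ≤ (1 + 4 * h ^ 2) * Q := by linarith
  have h5 : (h + 2) * (2 * (I1 + I2)) ≤ (h + 2) * (2 * ((1 + 4 * h ^ 2) * Q)) := by
    apply mul_le_mul_of_nonneg_left _ (by linarith)
    linarith
  have h6 : (h + 2) * (2 * ((1 + 4 * h ^ 2) * Q)) = (2 * (h + 2) * (1 + 4 * h ^ 2)) * Q := by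
    ring
  have h8 : h ^ 2 ≤ 1 / 1000 := by nlinarith
  have h9 : h * h ^ 2 ≤ 1 / 1000 * h ^ 2 := mul_le_mul_of_nonneg_right hh1 (sq_nonneg h)
  have h7 : 2 * (h + 2) * (1 + 4 * h ^ 2) ≤ 5 := by
    have : 2 * (h + 2) * (1 + 4 * h ^ 2) = 2 * h + 4 + 8 * (h * h ^ 2) + 16 * h ^ 2 := by ring
    linarith
  rw [h6] at h5
  exact h5.trans (mul_le_mul_of_nonneg_right h7 hQ0)

private theorem mom_num3 {h Y2 D2 c2 Q : ℝ} (hh : 0 < h) (hh1 : h ≤ 1 / 1000) (hY2 : 0 ≤ Y2)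
    (hD2 : 0 ≤ D2) (hc2 : c2 ≤ (1 - h) ^ 2 * Y2)
    (hS : Q ≤ (32 * h ^ 2 * Y2 + 8 * h * D2) / 1000) :
    (1 + h / 2) * (c2 + h * D2) + 5 * Q ≤ (1 - h) * Y2 + 3 * h * D2 := by
  have h8 : (1 + h / 2) * (c2 + h * D2) ≤ (1 + h / 2) * ((1 - h) ^ 2 * Y2 + h * D2) := by
    apply mul_le_mul_of_nonneg_left _ (by linarith)
    linarith
  have h9 : (1 + h / 2) * ((1 - h) ^ 2 * Y2 + h * D2) =
      (1 - 3 / 2 * h + h ^ 3 / 2) * Y2 + (h + h ^ 2 / 2) * D2 := by ring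
  have h10 : 5 * Q ≤ (16 / 100 * h ^ 2) * Y2 + (4 / 100 * h) * D2 := by
    linarith
  have e1 : h ^ 2 ≤ 1 / 1000 * h := by
    rw [sq]
    exact mul_le_mul_of_nonneg_right hh1 hh.le
  have e3 : h ^ 3 ≤ h ^ 2 := by
    have : h ^ 3 = h * h ^ 2 := by ring
    rw [this]
    have := mul_le_mul_of_nonneg_right hh1 (sq_nonneg h)
    linarith [sq_nonneg h]
  have h11 : (1 - 3 / 2 * h + h ^ 3 / 2 + 16 / 100 * h ^ 2) * Y2 ≤ (1 - h) * Y2 := by
    apply mul_le_mul_of_nonneg_right _ hY2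
    linarith
  have h12 : (h + h ^ 2 / 2 + 4 / 100 * h) * D2 ≤ 3 * h * D2 := by
    apply mul_le_mul_of_nonneg_right _ hD2
    linarith
  linarith

private theorem mom_num {h C Y c D F0 s I1 I2 : ℝ} (hh : 0 < h) (hs : s ^ 2 = h)
    (hC : 1 ≤ C) (hCh : C ^ 2 * h ≤ 1 / 1000) (hc0 : 0 ≤ c) (hc : c ≤ (1 - h) * Y)
    (hF0 : 0 ≤ F0) (hF : F0 ≤ 4 * (h * s) * Y)
    (h1 : I1 ≤ (C * (F0 + 2 * h * D)) ^ 2) (h2 : I2 ≤ (2 * h * C * (F0 + 2 * h * D)) ^ 2) :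
    (1 + h / 2) * (c ^ 2 + s ^ 2 * D ^ 2) + (1 + 2 / h) * (s ^ 2 * (2 * (I1 + I2))) ≤
      (1 - h) * Y ^ 2 + 3 * h * D ^ 2 := by
  have hh1 : h ≤ 1 / 1000 := mom_small hh hC hCh
  have hc2 : c ^ 2 ≤ (1 - h) ^ 2 * Y ^ 2 := by
    rw [← mul_pow]
    exact pow_le_pow_left₀ hc0 hc 2
  have hS := mom_num1 (D := D) hh hs hCh hF0 hF
  have h2' : I2 ≤ 4 * h ^ 2 * (C * (F0 + 2 * h * D)) ^ 2 := by
    have : (2 * h * C * (F0 + 2 * h * D)) ^ 2 = 4 * h ^ 2 * (C * (F0 + 2 * h * D)) ^ 2 := by ring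
    linarith
  have hfac : (1 + 2 / h) * (s ^ 2 * (2 * (I1 + I2))) = (h + 2) * (2 * (I1 + I2)) := by
    rw [hs]
    field_simp
  have h4 := mom_num2 hh hh1 (sq_nonneg _) h1 h2'
  have h5 := mom_num3 hh hh1 (sq_nonneg Y) (sq_nonneg D) hc2 hS
  rw [hfac, hs]
  linarith

theorem step_sq (hV : Pot d V) (hh : 0 < h) (hN : GoodNodes N C ε)
    (hCh : C ^ 2 * h ≤ 1 / 1000) (y : E d) :
    Integrable (fun ω => ‖stepA N V h y ω‖ ^ 2) (noiseLaw d K) ∧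
      ∫ ω, ‖stepA N V h y ω‖ ^ 2 ∂(noiseLaw d K) ≤ (1 - h) * ‖y‖ ^ 2 + 3 * h * d := by
  have := noise_isProb d K
  have hC := hN.one_le
  have hh1 : h ≤ 1 / 1000 := mom_small hh hC hCh
  have hpert := Gy_pert hV hh y
  have hgr := gradient_Gy hV hh y
  have hF : ContDiff ℝ 1 (Fy V h y) := hgr ▸ hpert.grad_contDiff
  have ha : ∀ x, ‖fderiv ℝ (Fy V h y) x‖ ≤ 2 * h := by
    intro x
    rw [← hgr]
    exact hpert.norm_fderiv_le (by linarith) x
  have ha0 : (0 : ℝ) ≤ 2 * h := by linarith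
  have hlin : ∀ x, ‖Fy V h y x‖ ≤ ‖Fy V h y 0‖ + 2 * h * ‖x‖ := by
    intro x
    have h1 := hpert.lip ha0 x 0
    rw [hgr, sub_zero] at h1
    have h2 := norm_add_le (Fy V h y x - Fy V h y 0) (Fy V h y 0)
    rw [sub_add_cancel] at h2
    linarith
  have hFc : Continuous (Fy V h y) := hF.continuous
  have hSSc : Continuous (SSω N (Fy V h y) : Noise d K → E d) := by
    unfold SSω SS
    fun_prop
  have hbbc : Continuous (bbω N (Fy V h y) : Noise d K → E d) := by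
    unfold bbω bb SS
    fun_prop
  have iSS := MLGr_sq (SSω_LGr (N := N) ha0 hlin) hSSc
  have ibb := MLGr_sq (bbω_LGr (N := N) ha0 hlin) hbbc
  obtain ⟨iX, eX⟩ := noise_fst_sq (K := K) (cen V h y) (√h)
  have hss := ss_size hN ha0 hF ha
  have hbb := bb_size hN ha0 hF ha
  -- pointwise bound
  have hpt : ∀ ω : Noise d K, ‖stepA N V h y ω‖ ^ 2 ≤
      (1 + h / 2) * ‖cen V h y + √h • ω.1‖ ^ 2 + (1 + 2 / h) * ((√h) ^ 2 *
        (2 * (‖SSω N (Fy V h y) ω‖ ^ 2 + ‖bbω N (Fy V h y) ω‖ ^ 2))) := by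
    intro ω
    have e : stepA N V h y ω = (cen V h y + √h • ω.1) -
        √h • (SSω N (Fy V h y) ω + bbω N (Fy V h y) ω) := by
      unfold stepA XX SSω bbω
      module
    have hW : ‖√h • (SSω N (Fy V h y) ω + bbω N (Fy V h y) ω)‖ ^ 2 ≤ (√h) ^ 2 *
        (2 * (‖SSω N (Fy V h y) ω‖ ^ 2 + ‖bbω N (Fy V h y) ω‖ ^ 2)) := by
      rw [norm_smul, mul_pow, Real.norm_eq_abs, sq_abs]
      apply mul_le_mul_of_nonneg_left _ (sq_nonneg _)
      have h1 := norm_add_le (SSω N (Fy V h y) ω) (bbω N (Fy V h y) ω)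
      have h2 := norm_nonneg (SSω N (Fy V h y) ω + bbω N (Fy V h y) ω)
      nlinarith [sq_nonneg (‖SSω N (Fy V h y) ω‖ - ‖bbω N (Fy V h y) ω‖)]
    rw [e]
    set X := cen V h y + √h • ω.1
    set W := √h • (SSω N (Fy V h y) ω + bbω N (Fy V h y) ω)
    have h1 : ‖X - W‖ ^ 2 ≤ (1 + h / 2) * ‖X‖ ^ 2 + (1 + 2 / h) * ‖W‖ ^ 2 := by
      have h2 := norm_sub_le X W
      have h3 := norm_nonneg (X - W)
      have h4 : ‖X - W‖ ^ 2 ≤ (‖X‖ + ‖W‖) ^ 2 := pow_le_pow_left₀ h3 h2 2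
      have h5 : (1 + h / 2) * ‖X‖ ^ 2 + (1 + 2 / h) * ‖W‖ ^ 2 - (‖X‖ + ‖W‖) ^ 2 =
          (h / 2) * (‖X‖ - (2 / h) * ‖W‖) ^ 2 := by
        field_simp
        ring
      have h6 : 0 ≤ (h / 2) * (‖X‖ - (2 / h) * ‖W‖) ^ 2 := by positivity
      linarith
    have h7 : (1 + 2 / h) * ‖W‖ ^ 2 ≤ (1 + 2 / h) * ((√h) ^ 2 *
        (2 * (‖SSω N (Fy V h y) ω‖ ^ 2 + ‖bbω N (Fy V h y) ω‖ ^ 2))) :=
      mul_le_mul_of_nonneg_left hW (by positivity)
    linarith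
  have iP1 : Integrable (fun ω : Noise d K => (1 + h / 2) * ‖cen V h y + √h • ω.1‖ ^ 2)
      (noiseLaw d K) := iX.const_mul _
  have iP2 : Integrable (fun ω : Noise d K => (1 + 2 / h) * ((√h) ^ 2 *
      (2 * (‖SSω N (Fy V h y) ω‖ ^ 2 + ‖bbω N (Fy V h y) ω‖ ^ 2)))) (noiseLaw d K) :=
    (((iSS.add ibb).const_mul _).const_mul _).const_mul _
  have iR : Integrable (fun ω : Noise d K => (1 + h / 2) * ‖cen V h y + √h • ω.1‖ ^ 2 +
      (1 + 2 / h) * ((√h) ^ 2 *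
        (2 * (‖SSω N (Fy V h y) ω‖ ^ 2 + ‖bbω N (Fy V h y) ω‖ ^ 2)))) (noiseLaw d K) :=
    iP1.add iP2
  have iS : Integrable (fun ω => ‖stepA N V h y ω‖ ^ 2) (noiseLaw d K) := by
    refine iR.mono ((stepA_meas_noise hV y).norm.pow_const 2).aestronglyMeasurable
      (Filter.Eventually.of_forall fun ω => ?_)
    rw [Real.norm_of_nonneg (sq_nonneg _)]
    exact (hpt ω).trans (le_abs_self _)
  refine ⟨iS, ?_⟩
  have hint := integral_mono iS iR hpt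
  rw [integral_add iP1 iP2, integral_const_mul, integral_const_mul, integral_const_mul,
    integral_const_mul, integral_add iSS ibb, eX] at hint
  refine hint.trans ?_
  have hsd : (√(d : ℝ)) ^ 2 = d := Real.sq_sqrt (Nat.cast_nonneg d)
  have hfin := mom_num (h := h) (C := C) (Y := ‖y‖) (c := ‖cen V h y‖) (D := √(d : ℝ))
    (F0 := ‖Fy V h y 0‖) (s := √h) hh (Real.sq_sqrt hh.le) hC hCh
    (norm_nonneg _) (hV.norm_cen_le hh.le (by linarith) y)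
    (norm_nonneg _) (Fy_zero_le hV hh y) hss hbb
  rw [hsd] at hfin
  exact hfin

/-- Lyapunov bound for the full step acting on bounded functions -/
theorem Phat_lyap (hV : Pot d V) (hh : 0 < h) (hN : GoodNodes N C ε)
    (hCh : C ^ 2 * h ≤ 1 / 1000) {h' : ℝ} (hh' : 0 ≤ h') (hh'' : h' ≤ h) {e : E d → ℝ}
    (he : Measurable e) (be : ∃ B, ∀ x, |e x| ≤ B) {A B : ℝ} (hB : 0 ≤ B)
    (hq : ∀ x, |e x| ≤ A + B * ‖x‖ ^ 2) (y : E d) :
    |Phat N V h h' e y| ≤ (A + 4 * h * d * B) + (1 - h) * B * ‖y‖ ^ 2 := by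
  have := noise_isProb d K
  have : IsProbabilityMeasure (stdGaussian (E d)) := inferInstance
  obtain ⟨iS, hS⟩ := step_sq hV hh hN hCh y
  have hNop : ∀ x, |Nop h' e x| ≤ (A + h' * d * B) + B * ‖x‖ ^ 2 := by
    intro x
    obtain ⟨i1, e1⟩ := gauss_shift_sq x (√h')
    have h1 : |Nop h' e x| ≤ ∫ z, |e (x + √h' • z)| ∂(stdGaussian (E d)) :=
      abs_integral_le_integral_abs
    have i2 : Integrable (fun z : E d => A + B * ‖x + √h' • z‖ ^ 2) (stdGaussian (E d)) :=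
      (integrable_const _).add (i1.const_mul _)
    have h2 : ∫ z, |e (x + √h' • z)| ∂(stdGaussian (E d)) ≤
        ∫ z, (A + B * ‖x + √h' • z‖ ^ 2) ∂(stdGaussian (E d)) := by
      apply integral_mono_of_nonneg (Filter.Eventually.of_forall fun z => abs_nonneg _) i2
      exact Filter.Eventually.of_forall fun z => hq _
    rw [integral_add (integrable_const _) (i1.const_mul _), integral_const_mul, e1,
      Real.sq_sqrt hh'] at h2
    simp only [integral_const, probReal_univ, one_smul] at h2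
    nlinarith
  obtain ⟨B0, hB0⟩ := be
  have mN : Measurable (Nop h' e) := measurable_Nop he
  have h1 : |Phat N V h h' e y| ≤ ∫ ω, |Nop h' e (stepA N V h y ω)| ∂(noiseLaw d K) :=
    abs_integral_le_integral_abs
  have i2 : Integrable (fun ω : Noise d K => (A + h' * d * B) + B * ‖stepA N V h y ω‖ ^ 2)
      (noiseLaw d K) := (integrable_const _).add (iS.const_mul _)
  have h2 : ∫ ω, |Nop h' e (stepA N V h y ω)| ∂(noiseLaw d K) ≤
      ∫ ω, ((A + h' * d * B) + B * ‖stepA N V h y ω‖ ^ 2) ∂(noiseLaw d K) := by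
    apply integral_mono_of_nonneg (Filter.Eventually.of_forall fun z => abs_nonneg _) i2
    exact Filter.Eventually.of_forall fun z => hNop _
  rw [integral_add (integrable_const _) (iS.const_mul _), integral_const_mul] at h2
  simp only [integral_const, probReal_univ, one_smul] at h2
  have h3 := mul_le_mul_of_nonneg_left hS hB
  have hd : (0 : ℝ) ≤ d := Nat.cast_nonneg d
  have h4 : h' * (d * B) ≤ h * (d * B) := mul_le_mul_of_nonneg_right hh'' (by positivity)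
  nlinarith

end Vale.Agent.P347
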