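import Vale.Agent.Lib.P347.LocalE
import Vale.Agent.Lib.P347.MomL
import Vale.Agent.Lib.P347.HessL
import Vale.Agent.Lib.P347.Invar

/-!
P347: the main chain.

Proof. Write `P = Pop (pertOf V) h`, `Q = Phat N V h h` and telescope
`Q^[n] f - P^[n] f = Σ_{m<n} Q^[n-1-m] ((Q - P) (P^[m] f))`. Here
`(Q - P) u = Ahat (Nop h u) - Rop (Nop h u)` is bounded by `local_err` with `ψ = Nop h u`
(`Nop_CB`), `u = P^[m] f`: for `m = 0` `α1 = h^(-1/2)`, `α2 = 2/h` (`norm_Dv_Nop_le`,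
`norm_DDv_Nop_le`); for `m ≥ 1`, `α1 = (m h)^(-1/2)` (`iter_reverse`, `Dv_Nop`),
`α2 = 3/(m h) + 7` (`hess_three` with `b = 1`). The factor
`√d + 2√h |y| ≤ √d (1 + √h) + (√h/√d) |y|^2 = A + B |y|^2`, and `Phat_lyap` iterated from `0` gives
`A + 4 d B ≤ 2 √d`. Sum over `m`: with `κ = 480 C² h³ * 2 √d`,
`κ (2 + 2/h + Σ_{1≤m<n} (2/√m + 3/(m h) + 7)) ≤ (κ/h) (7 + 3 log n + 11 h n)`.
The last term: `|P^[n] f 0 - ∫ P^[n] f dπ_h| ≤ Lip (P^[n] f) ∫ |y| dπ_h`, with
`Lip ≤ (1+h)^-(n-1) h^(-1/2)` (`iter_contraction` for `P f`, `iter_reverse` with `j = 1`),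
`∫ |y| ≤ √(d + h d) ≤ √(2 d)` and `inv_iter`.
(For `d = 0` everything is trivial, all functions being constant.)
-/

open MeasureTheory ProbabilityTheory

namespace Vale.Agent.P347

variable {d K : ℕ} {V : E d → ℝ} {h C ε : ℝ} {N : Nodes K}

theorem Phat_bdd (hV : Pot d V) {h' : ℝ} {f : E d → ℝ} {B : ℝ} (bf : ∀ x, |f x| ≤ B) (y : E d) :
    |Phat N V h h' f y| ≤ B := by
  have := noise_isProb d K
  unfold Phat Ahat
  have h1 := norm_integral_le_of_norm_le_const (μ := noiseLaw d K)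
    (f := fun ω => Nop h' f (stepA N V h y ω)) (C := B)
    (Filter.Eventually.of_forall fun ω => norm_Nop_le (fun x => by
      rw [Real.norm_eq_abs]; exact bf x) _)
  rw [Real.norm_eq_abs] at h1
  simpa using h1

theorem Phat_measurable (hV : Pot d V) {h' : ℝ} {f : E d → ℝ} (hf : Measurable f) :
    Measurable (Phat N V h h' f) :=
  Ahat_measurable hV (measurable_Nop hf)

private theorem tl_int {Ω : Type} [MeasurableSpace Ω] {μ : Measure Ω} [IsFiniteMeasure μ]
    {u : Ω → ℝ} (hu : Measurable u) {B : ℝ} (bu : ∀ x, |u x| ≤ B) : Integrable u μ :=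
  Integrable.of_bound hu.aestronglyMeasurable B (Filter.Eventually.of_forall fun x => by
    rw [Real.norm_eq_abs]; exact bu x)

private theorem tl_Nop_sub {h' : ℝ} {u v : E d → ℝ} (hu : Measurable u) (hv : Measurable v)
    {B B' : ℝ} (bu : ∀ x, |u x| ≤ B) (bv : ∀ x, |v x| ≤ B') :
    Nop h' (fun x => u x - v x) = fun x => Nop h' u x - Nop h' v x := by
  funext x
  unfold Nop
  have hm : Measurable (fun z : E d => x + √h' • z) := by fun_prop
  exact integral_sub (tl_int (hu.comp hm) fun z => bu _) (tl_int (hv.comp hm) fun z => bv _)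

private theorem tl_Nop_bdd {h' : ℝ} {u : E d → ℝ} {B : ℝ} (bu : ∀ x, |u x| ≤ B) (x : E d) :
    |Nop h' u x| ≤ B := by
  have := norm_Nop_le (η := h') (u := u) (B := B) (fun x => by
    rw [Real.norm_eq_abs]; exact bu x) x
  rwa [Real.norm_eq_abs] at this

private theorem tl_step_meas (hV : Pot d V) (y : E d) :
    Measurable (fun ω : Noise d K => stepA N V h y ω) :=
  (stepA_measurable hV).comp (measurable_const.prodMk measurable_id)

private theorem tl_Phat_sub (hV : Pot d V) {h' : ℝ} {u v : E d → ℝ} (hu : Measurable u)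
    (hv : Measurable v) {B B' : ℝ} (bu : ∀ x, |u x| ≤ B) (bv : ∀ x, |v x| ≤ B') (y : E d) :
    Phat N V h h' (fun x => u x - v x) y = Phat N V h h' u y - Phat N V h h' v y := by
  have := noise_isProb d K
  unfold Phat
  rw [tl_Nop_sub hu hv bu bv]
  unfold Ahat
  have hm := tl_step_meas (N := N) (h := h) hV y
  exact integral_sub (tl_int ((measurable_Nop hu).comp hm) fun z => tl_Nop_bdd bu _)
    (tl_int ((measurable_Nop hv).comp hm) fun z => tl_Nop_bdd bv _)

private theorem tl_sc_meas {f : E d → ℝ} (hf : Measurable f) : Measurable (sc f) := by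
  unfold sc
  fun_prop

/-- bounds for the derivatives of the smoothed iterates -/
private theorem tl_alpha (hV : Pot d V) (hh : 0 < h) (hh1 : h ≤ 1) {f : E d → ℝ}
    (hf : Measurable f) (bf : ∀ x, |f x| ≤ 1) (m : ℕ) (hm : 1 ≤ m) (x : E d) :
    ‖Dv (sc (Nop h ((Pop (pertOf V) h)^[m] f))) x‖ ≤ (√(m * h))⁻¹ ∧
      ‖Dv (Dv (sc (Nop h ((Pop (pertOf V) h)^[m] f)))) x‖ ≤ 3 / (m * h) + 7 := by
  have hG : Pert d 1 (pertOf V) := hV.pert
  have hsm : Measurable (sc f) := tl_sc_meas hf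
  have hsb : ∀ x, ‖sc f x‖ ≤ 1 := fun x => by rw [norm_sc]; exact bf x
  set w := (Pop (pertOf V) h)^[m] (sc f) with hw
  have e1 : sc (Nop h ((Pop (pertOf V) h)^[m] f)) = Nop h w := by
    rw [hw, iter_sc, Nop_sc]
  have hwCB : CB 2 w := by
    obtain ⟨m', rfl⟩ : ∃ m', m = m' + 1 := ⟨m - 1, by omega⟩
    rw [hw, Function.iterate_succ_apply]
    exact iter_CB le_rfl zero_le_one hG hh (Pop_CB zero_le_one hG hh hsm ⟨1, hsb⟩) m'
  have hw1 : CB 1 w := hwCB.mono (by norm_num)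
  have hDw1 : CB 1 (Dv w) := hwCB.dv
  have e2 : Dv (Nop h w) = Nop h (Dv w) := funext fun z => Dv_Nop hh.le hw1 z
  have e3 : Dv (Nop h (Dv w)) = Nop h (Dv (Dv w)) := funext fun z => Dv_Nop hh.le hDw1 z
  have hmr : (1 : ℝ) ≤ m := by exact_mod_cast hm
  have hmh : 0 < (m : ℝ) * h := by positivity
  rw [e1, e2, e3]
  constructor
  · refine norm_Nop_le (fun z => ?_) x
    have h3 := iter_reverse zero_le_one hG hh hsm hsb m z
    rw [← hw] at h3
    have h4 : ‖Dv w z‖ ^ 2 ≤ ((√(m * h))⁻¹) ^ 2 := by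
      rw [inv_pow, Real.sq_sqrt hmh.le, ← one_div, le_div_iff₀ hmh]
      linarith
    exact abs_le_of_sq_le_sq' h4 (by positivity) |>.2
  · refine norm_Nop_le (fun z => ?_) x
    have h3 := hess_three zero_le_one hG hh hh1 hsm hsb m hm z
    rw [← hw] at h3
    linarith

private theorem tl_alpha0 (hh : 0 < h) {f : E d → ℝ}
    (hf : Measurable f) (bf : ∀ x, |f x| ≤ 1) (x : E d) :
    ‖Dv (sc (Nop h f)) x‖ ≤ (√h)⁻¹ ∧ ‖Dv (Dv (sc (Nop h f))) x‖ ≤ 2 / h := by
  have hsm : Measurable (sc f) := tl_sc_meas hf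
  have hsb : ∀ x, ‖sc f x‖ ≤ 1 := fun x => by rw [norm_sc]; exact bf x
  rw [← Nop_sc]
  have h1 := norm_Dv_Nop_le hh hsm hsb x
  have h2 := norm_DDv_Nop_le hh hsm hsb x
  rw [mul_one] at h1 h2
  exact ⟨h1, h2⟩

/-- the coefficients of the sum -/
private noncomputable def tlc (h : ℝ) (m : ℕ) : ℝ :=
  if m = 0 then 2 + 2 / h else 2 * √h * (√(m * h))⁻¹ + (3 / (m * h) + 7)

private theorem tl_local (hV : Pot d V) (hh : 0 < h) (hN : GoodNodes N C ε) (hε : 0 ≤ ε)
    (hεh : ε ≤ 2 * h) (hCh : C ^ 2 * h ≤ 1 / 1000) (hh1 : h ≤ 1) {f : E d → ℝ} (hf : Measurable f)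
    (bf : ∀ x, |f x| ≤ 1) (m : ℕ) (y : E d) :
    |Phat N V h h ((Pop (pertOf V) h)^[m] f) y - Pop (pertOf V) h ((Pop (pertOf V) h)^[m] f) y| ≤
      480 * C ^ 2 * h ^ 3 * tlc h m * (√d * (1 + √h) + √h / √d * ‖y‖ ^ 2) := by
  have hG : Pert d 1 (pertOf V) := hV.pert
  have hC : 1 ≤ C := hN.one_le
  set u := (Pop (pertOf V) h)^[m] f with hu
  have hum : Measurable u := iter_meas_scalar zero_le_one hG hh hf ⟨1, bf⟩ m
  have hub : ∀ x, |u x| ≤ 1 := fun x => by
    have := norm_iter_le hG hh (u := f) (B := 1) (fun x => by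
      rw [Real.norm_eq_abs]; exact bf x) m x
    rwa [Real.norm_eq_abs] at this
  have hψ : CB 3 (sc (Nop h u)) := by
    rw [← Nop_sc]
    exact Nop_CB hh (tl_sc_meas hum) ⟨1, fun x => by rw [norm_sc]; exact hub x⟩
  have hk : ∃ α1 α2 : ℝ, (∀ x, ‖Dv (sc (Nop h u)) x‖ ≤ α1) ∧
      (∀ x, ‖Dv (Dv (sc (Nop h u))) x‖ ≤ α2) ∧ 2 * √h * α1 + α2 = tlc h m := by
    by_cases hm : m = 0
    · subst hm
      refine ⟨(√h)⁻¹, 2 / h, fun x => (tl_alpha0 hh hf bf x).1,
        fun x => (tl_alpha0 hh hf bf x).2, ?_⟩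
      unfold tlc
      rw [if_pos rfl, mul_assoc, mul_inv_cancel₀ (Real.sqrt_pos.mpr hh).ne', mul_one]
    · have hm' : 1 ≤ m := Nat.one_le_iff_ne_zero.mpr hm
      refine ⟨(√(m * h))⁻¹, 3 / (m * h) + 7, fun x => (tl_alpha hV hh hh1 hf bf m hm' x).1,
        fun x => (tl_alpha hV hh hh1 hf bf m hm' x).2, ?_⟩
      unfold tlc
      rw [if_neg hm]
  obtain ⟨α1, α2, h1, h2, h3⟩ := hk
  have hloc := local_err hV hh hN hε hεh hCh hψ h1 h2 y
  have hα : 0 ≤ 2 * √h * α1 + α2 := by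
    have a1 : 0 ≤ α1 := (norm_nonneg _).trans (h1 0)
    have a2 : 0 ≤ α2 := (norm_nonneg _).trans (h2 0)
    positivity
  have hAM : √d + 2 * √h * ‖y‖ ≤ √d * (1 + √h) + √h / √d * ‖y‖ ^ 2 := by
    rcases Nat.eq_zero_or_pos d with hd | hd
    · subst hd
      have : y = 0 := Subsingleton.elim _ _
      rw [this]
      simp
    · have hs : 0 < √(d : ℝ) := Real.sqrt_pos.mpr (by exact_mod_cast hd)
      have e : √d * (1 + √h) + √h / √d * ‖y‖ ^ 2 - (√d + 2 * √h * ‖y‖)
          = √h / √d * (√d - ‖y‖) ^ 2 := by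
        field_simp
        ring
      have : 0 ≤ √h / √d * (√d - ‖y‖) ^ 2 := by positivity
      linarith
  refine hloc.trans ?_
  rw [← h3]
  calc 480 * C ^ 2 * h ^ 3 * (√d + 2 * √h * ‖y‖) * (2 * √h * α1 + α2)
      = (480 * C ^ 2 * h ^ 3 * (2 * √h * α1 + α2)) * (√d + 2 * √h * ‖y‖) := by ring
    _ ≤ _ := mul_le_mul_of_nonneg_left hAM (by positivity)

private theorem tlc_nonneg (hh : 0 < h) (m : ℕ) : 0 ≤ tlc h m := by
  unfold tlc
  split_ifs <;> positivity

/-- the telescoped error, with its quadratic growth -/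
private theorem tl_tele (hV : Pot d V) (hh : 0 < h) (hN : GoodNodes N C ε) (hε : 0 ≤ ε)
    (hεh : ε ≤ 2 * h) (hCh : C ^ 2 * h ≤ 1 / 1000) (hh1 : h ≤ 1) {f : E d → ℝ} (hf : Measurable f)
    (bf : ∀ x, |f x| ≤ 1) (n : ℕ) :
    ∃ T : ℝ, 0 ≤ T ∧ ∀ y, |((Phat N V h h)^[n] f) y - ((Pop (pertOf V) h)^[n] f) y| ≤
      480 * C ^ 2 * h ^ 3 * (((∑ m ∈ Finset.range n, tlc h m) * (√d * (1 + √h))
        + ((∑ m ∈ Finset.range n, tlc h m) - T) * (4 * d * (√h / √d)))
        + T * (√h / √d) * ‖y‖ ^ 2) := by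
  have hG : Pert d 1 (pertOf V) := hV.pert
  induction n with
  | zero => exact ⟨0, le_rfl, fun y => by simp⟩
  | succ n ih =>
    obtain ⟨T, hT, ih⟩ := ih
    refine ⟨(1 - h) * T + tlc h n, ?_, fun y => ?_⟩
    · have h1 : 0 ≤ 1 - h := by linarith
      have h2 := tlc_nonneg hh n
      positivity
    · have hQm : Measurable ((Phat N V h h)^[n] f) := by
        clear ih
        induction n with
        | zero => exact hf
        | succ n ih =>
          rw [Function.iterate_succ_apply']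
          exact Phat_measurable hV ih
      have hQb : ∀ x, |((Phat N V h h)^[n] f) x| ≤ 1 := by
        clear ih hQm
        induction n with
        | zero => exact bf
        | succ n ih =>
          rw [Function.iterate_succ_apply']
          exact Phat_bdd hV ih
      have hPm : Measurable ((Pop (pertOf V) h)^[n] f) :=
        iter_meas_scalar zero_le_one hG hh hf ⟨1, bf⟩ n
      have hPb : ∀ x, |((Pop (pertOf V) h)^[n] f) x| ≤ 1 := fun x => by
        have := norm_iter_le hG hh (u := f) (B := 1) (fun x => by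
          rw [Real.norm_eq_abs]; exact bf x) n x
        rwa [Real.norm_eq_abs] at this
      have hloc := tl_local hV hh hN hε hεh hCh hh1 hf bf n y
      rw [Function.iterate_succ_apply', Function.iterate_succ_apply']
      set q := (Phat N V h h)^[n] f with hq
      set p := (Pop (pertOf V) h)^[n] f with hp
      have hsub := tl_Phat_sub (N := N) (h := h) (h' := h) hV hQm hPm hQb hPb y
      have hc0 : 0 ≤ 480 * C ^ 2 * h ^ 3 := by positivity
      have hly := Phat_lyap hV hh hN hCh (h' := h) hh.le le_rfl (hQm.sub hPm)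
        ⟨2, fun x => by
          have := abs_sub (q x) (p x)
          exact (abs_sub _ _).trans (by linarith [hQb x, hPb x])⟩
        (A := 480 * C ^ 2 * h ^ 3 * ((∑ m ∈ Finset.range n, tlc h m) * (√d * (1 + √h))
          + ((∑ m ∈ Finset.range n, tlc h m) - T) * (4 * d * (√h / √d))))
        (B := 480 * C ^ 2 * h ^ 3 * (T * (√h / √d))) (by positivity) (fun x => by
          refine (ih x).trans (le_of_eq ?_)
          ring) y
      have hly' : |Phat N V h h (fun x => q x - p x) y| ≤ _ := hly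
      rw [hsub] at hly'
      calc |Phat N V h h q y - Pop (pertOf V) h p y|
          = |(Phat N V h h q y - Phat N V h h p y) +
              (Phat N V h h p y - Pop (pertOf V) h p y)| := by congr 1; ring
        _ ≤ _ := abs_add_le _ _
        _ ≤ _ := add_le_add hly' hloc
        _ = _ := by
          rw [Finset.sum_range_succ]
          ring

private theorem tl_sum (hh : 0 < h) {n : ℕ} (hn : 1 ≤ n) :
    (∑ m ∈ Finset.range n, tlc h m) * h ≤ 7 + 3 * Real.log n + 11 * h * n - (2 - 2 * h) := by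
  obtain ⟨k, rfl⟩ : ∃ k, n = k + 1 := ⟨n - 1, by omega⟩
  rw [Finset.sum_range_succ', add_mul, Finset.sum_mul]
  have h0 : tlc h 0 * h = 2 * h + 2 := by
    unfold tlc
    rw [if_pos rfl]
    field_simp
  have h1 : ∀ m ∈ Finset.range k, tlc h (m + 1) * h ≤ 9 * h + 3 * ((m : ℝ) + 1)⁻¹ := by
    intro m _
    unfold tlc
    rw [if_neg (Nat.succ_ne_zero m)]
    have hm : (0 : ℝ) < (m : ℝ) + 1 := by positivity
    have e1 : √h * (√(((m + 1 : ℕ) : ℝ) * h))⁻¹ = (√((m : ℝ) + 1))⁻¹ := by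
      push_cast
      rw [Real.sqrt_mul hm.le, mul_inv, mul_comm (√((m : ℝ) + 1))⁻¹, ← mul_assoc,
        mul_inv_cancel₀ (Real.sqrt_pos.mpr hh).ne', one_mul]
    have e2 : (√((m : ℝ) + 1))⁻¹ ≤ 1 := by
      refine inv_le_one_of_one_le₀ ?_
      rw [Real.one_le_sqrt]
      have : (0 : ℝ) ≤ m := Nat.cast_nonneg m
      linarith
    have e3 : 3 / (((m + 1 : ℕ) : ℝ) * h) * h = 3 * ((m : ℝ) + 1)⁻¹ := by
      push_cast
      field_simp
    calc (2 * √h * (√(((m + 1 : ℕ) : ℝ) * h))⁻¹ + (3 / (((m + 1 : ℕ) : ℝ) * h) + 7)) * h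
        = 2 * (√h * (√(((m + 1 : ℕ) : ℝ) * h))⁻¹) * h
          + 3 / (((m + 1 : ℕ) : ℝ) * h) * h + 7 * h := by ring
      _ = 2 * (√((m : ℝ) + 1))⁻¹ * h + 3 * ((m : ℝ) + 1)⁻¹ + 7 * h := by rw [e1, e3]
      _ ≤ _ := by nlinarith
  have h2 := Finset.sum_le_sum h1
  rw [Finset.sum_add_distrib, Finset.sum_const, Finset.card_range, nsmul_eq_mul,
    ← Finset.mul_sum] at h2
  have h3 : ∑ m ∈ Finset.range k, ((m : ℝ) + 1)⁻¹ ≤ 1 + Real.log k := by
    have := harmonic_le_one_add_log k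
    unfold harmonic at this
    push_cast at this
    exact this
  have h4 : Real.log k ≤ Real.log ((k + 1 : ℕ) : ℝ) := by
    rcases Nat.eq_zero_or_pos k with hk | hk
    · subst hk
      simp
    · exact Real.log_le_log (by exact_mod_cast hk) (by push_cast; linarith)
  have hk0 : (0 : ℝ) ≤ k := Nat.cast_nonneg k
  have h5 : 0 ≤ h * (k : ℝ) := by positivity
  push_cast at h4 ⊢
  nlinarith

/-- distance of the value at the origin from the mean -/
private theorem tl_last (hV : Pot d V) (hh : 0 < h) (hh1 : h ≤ 1) {f : E d → ℝ}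
    (hf : Measurable f) (bf : ∀ x, |f x| ≤ 1) {n : ℕ} (hn : 1 ≤ n) :
    |((Pop (pertOf V) h)^[n] f) 0 - ∫ y, f y ∂(nuS (pertOf V) h)| ≤
      ((1 + h)⁻¹) ^ (n - 1) * (√h)⁻¹ * √(2 * d) := by
  have hG : Pert d 1 (pertOf V) := hV.pert
  have hpr := nuS_isProb (η := h) hG
  have hsm : Measurable (sc f) := tl_sc_meas hf
  have hsb : ∀ x, ‖sc f x‖ ≤ 1 := fun x => by rw [norm_sc]; exact bf x
  set p := (Pop (pertOf V) h)^[n] f with hp
  have hpm : Measurable p := iter_meas_scalar zero_le_one hG hh hf ⟨1, bf⟩ n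
  have hpb : ∀ x, |p x| ≤ 1 := fun x => by
    have := norm_iter_le hG hh (u := f) (B := 1) (fun x => by
      rw [Real.norm_eq_abs]; exact bf x) n x
    rwa [Real.norm_eq_abs] at this
  rw [← inv_iter zero_le_one hG hh hf ⟨1, bf⟩ n, ← hp]
  set L := ((1 + h)⁻¹) ^ (n - 1) * (√h)⁻¹ with hL
  have hL0 : 0 ≤ L := by positivity
  have hscp : sc p = (Pop (pertOf V) h)^[n] (sc f) := by rw [hp, iter_sc]
  have h1CB : CB 2 (Pop (pertOf V) h (sc f)) := Pop_CB zero_le_one hG hh hsm ⟨1, hsb⟩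
  have hsplit : (Pop (pertOf V) h)^[n] (sc f) =
      (Pop (pertOf V) h)^[n - 1] (Pop (pertOf V) h (sc f)) := by
    obtain ⟨m, rfl⟩ : ∃ m, n = m + 1 := ⟨n - 1, by omega⟩
    rw [Function.iterate_succ_apply]
    rfl
  have hDv : ∀ x, ‖Dv (sc p) x‖ ≤ L := by
    intro x
    rw [hscp, hsplit]
    refine iter_contraction zero_le_one hG hh (h1CB.mono (by norm_num)) (fun z => ?_) (n - 1) x
    have h3 := iter_reverse zero_le_one hG hh hsm hsb 1 z
    rw [Function.iterate_one, Nat.cast_one, one_mul] at h3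
    have h4 : ‖Dv (Pop (pertOf V) h (sc f)) z‖ ^ 2 ≤ ((√h)⁻¹) ^ 2 := by
      rw [inv_pow, Real.sq_sqrt hh.le, ← one_div, le_div_iff₀ hh]
      linarith
    exact abs_le_of_sq_le_sq' h4 (by positivity) |>.2
  have hdiff : Differentiable ℝ (sc p) := by
    rw [hscp, hsplit]
    have := iter_CB le_rfl zero_le_one hG hh h1CB (n - 1)
    exact (this.contDiff).differentiable (by norm_num)
  have hlip : ∀ y, |p 0 - p y| ≤ L * ‖y‖ := by
    intro y
    have h5 := lip_of_Dv hdiff hDv 0 y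
    rw [zero_sub, norm_neg] at h5
    refine le_trans ?_ h5
    have h6 := PiLp.norm_apply_le (sc p 0 - sc p y) ()
    rw [Real.norm_eq_abs] at h6
    exact h6
  obtain ⟨hi2, hs2⟩ := nuS_sq hG hh.le
  have hM : ∫ y, ‖y‖ ^ 2 ∂(nuS (pertOf V) h) ≤ 2 * d := by
    rw [hs2]
    have h7 := hV.second_moment
    have h8 : (0 : ℝ) ≤ d := Nat.cast_nonneg d
    nlinarith
  have hpi : Integrable p (nuS (pertOf V) h) := tl_int hpm hpb
  have e1 : p 0 - ∫ y, p y ∂(nuS (pertOf V) h) = ∫ y, (p 0 - p y) ∂(nuS (pertOf V) h) := by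
    rw [integral_sub (integrable_const _) hpi, integral_const]
    simp
  rw [e1]
  rcases Nat.eq_zero_or_pos d with hd | hd
  · subst hd
    have h9 : ∀ y : E 0, p 0 - p y = 0 := fun y => by
      rw [Subsingleton.elim y 0, sub_self]
    simp only [h9, integral_zero, abs_zero]
    positivity
  · have hdr : (0 : ℝ) < 2 * d := by positivity
    set t := √(2 * (d : ℝ)) with ht
    have ht0 : 0 < t := Real.sqrt_pos.mpr hdr
    have ht2 : t ^ 2 = 2 * d := Real.sq_sqrt hdr.le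
    have h10 : ∀ y : E d, |p 0 - p y| ≤ L * (t / 2 + (1 / (2 * t)) * ‖y‖ ^ 2) := by
      intro y
      refine (hlip y).trans (mul_le_mul_of_nonneg_left ?_ hL0)
      have e2 : t / 2 + 1 / (2 * t) * ‖y‖ ^ 2 - ‖y‖ = 1 / (2 * t) * (t - ‖y‖) ^ 2 := by
        field_simp
        ring
      have : 0 ≤ 1 / (2 * t) * (t - ‖y‖) ^ 2 := by positivity
      linarith
    have hint : Integrable (fun y : E d => L * (t / 2 + (1 / (2 * t)) * ‖y‖ ^ 2))
        (nuS (pertOf V) h) := ((integrable_const _).add (hi2.const_mul _)).const_mul _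
    calc |∫ y, (p 0 - p y) ∂(nuS (pertOf V) h)|
        ≤ ∫ y, |p 0 - p y| ∂(nuS (pertOf V) h) := abs_integral_le_integral_abs
      _ ≤ ∫ y, L * (t / 2 + (1 / (2 * t)) * ‖y‖ ^ 2) ∂(nuS (pertOf V) h) :=
          integral_mono ((integrable_const _).sub hpi).abs hint h10
      _ = L * (t / 2 + (1 / (2 * t)) * ∫ y, ‖y‖ ^ 2 ∂(nuS (pertOf V) h)) := by
          rw [integral_const_mul, integral_add (integrable_const _) (hi2.const_mul _),
            integral_const_mul, integral_const]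
          simp
      _ ≤ L * (t / 2 + (1 / (2 * t)) * (2 * d)) := by
          refine mul_le_mul_of_nonneg_left ?_ hL0
          have := mul_le_mul_of_nonneg_left hM (show (0 : ℝ) ≤ 1 / (2 * t) by positivity)
          linarith
      _ = L * t := by
          rw [← ht2]
          field_simp
          ring

theorem main_chain (hV : Pot d V) (hh : 0 < h) (hN : GoodNodes N C ε) (hε : 0 ≤ ε)
    (hεh : ε ≤ 2 * h) (hCh : C ^ 2 * h ≤ 1 / 1000) {f : E d → ℝ} (hf : Measurable f)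
    (bf : ∀ x, |f x| ≤ 1) {n : ℕ} (hn : 1 ≤ n) :
    |((Phat N V h h)^[n] f) 0 - ∫ y, f y ∂(nuS (pertOf V) h)| ≤
      960 * C ^ 2 * √d * h ^ 2 * (7 + 3 * Real.log n + 11 * h * n) +
        ((1 + h)⁻¹) ^ (n - 1) * (√h)⁻¹ * √(2 * d) := by
  have hC : 1 ≤ C := hN.one_le
  have hC2 : 1 ≤ C ^ 2 := one_le_pow₀ hC
  have hh0 : h ≤ 1 / 1000 := by nlinarith
  have hh1 : h ≤ 1 := by linarith
  obtain ⟨T, hT, htele⟩ := tl_tele hV hh hN hε hεh hCh hh1 hf bf n
  have h0 := htele 0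
  have h1 := tl_last hV hh hh1 hf bf hn
  have h2 := tl_sum hh hn
  set S := ∑ m ∈ Finset.range n, tlc h m with hS
  have hS0 : 0 ≤ S := Finset.sum_nonneg fun m _ => tlc_nonneg hh m
  have hsq : √h ≤ 1 / 5 := by
    rw [Real.sqrt_le_left (by norm_num)]
    linarith
  have hd4 : 4 * (d : ℝ) * (√h / √d) = 4 * √d * √h := by
    rcases Nat.eq_zero_or_pos d with hd | hd
    · subst hd
      simp
    · have hs : 0 < √(d : ℝ) := Real.sqrt_pos.mpr (by exact_mod_cast hd)
      have e : (d : ℝ) = √d * √d := (Real.mul_self_sqrt (Nat.cast_nonneg d)).symm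
      rw [div_eq_mul_inv]
      nth_rewrite 1 [e]
      field_simp
  have hsd : 0 ≤ √(d : ℝ) := Real.sqrt_nonneg _
  have hbr : S * (√d * (1 + √h)) + (S - T) * (4 * d * (√h / √d))
      + T * (√h / √d) * ‖(0 : E d)‖ ^ 2 ≤ S * (2 * √d) := by
    rw [hd4, norm_zero]
    have a1 : 0 ≤ T * (4 * √d * √h) := by positivity
    have a2 : S * √d * (5 * √h) ≤ S * √d * 1 :=
      mul_le_mul_of_nonneg_left (by linarith) (by positivity)
    nlinarith
  have hfin : 480 * C ^ 2 * h ^ 3 * (S * (2 * √d)) ≤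
      960 * C ^ 2 * √d * h ^ 2 * (7 + 3 * Real.log n + 11 * h * n) := by
    have a3 : S * h ≤ 7 + 3 * Real.log n + 11 * h * n := by linarith
    calc 480 * C ^ 2 * h ^ 3 * (S * (2 * √d)) = 960 * C ^ 2 * √d * h ^ 2 * (S * h) := by ring
      _ ≤ _ := mul_le_mul_of_nonneg_left a3 (by positivity)
  calc |((Phat N V h h)^[n] f) 0 - ∫ y, f y ∂(nuS (pertOf V) h)|
      = |(((Phat N V h h)^[n] f) 0 - ((Pop (pertOf V) h)^[n] f) 0) +
          (((Pop (pertOf V) h)^[n] f) 0 - ∫ y, f y ∂(nuS (pertOf V) h))| := by congr 1; ring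
    _ ≤ _ := abs_add_le _ _
    _ ≤ _ := add_le_add ((h0.trans (mul_le_mul_of_nonneg_left hbr (by positivity))).trans hfin) h1

end Vale.Agent.P347
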