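import Vale.Agent.Lib.P347.LocalE
import Vale.Agent.Lib.P347.Tele
import Vale.Agent.Lib.P347.TVG

/-!
P347: the cascade of decreasing steps and the last step.

Proof. Induction on `J`, for all `h`. `J = 0`: `∫ Rop h f d(nuS) = ∫ f dπ` (`inv_Rop`), `last_err`
and `∫ |y| d(nuS) ≤ √(d + h d)` (`nuS_sq`, `Pot.second_moment`): at most `4 h √d`.
Step: with `g = casc (h/2) J f`, `|g| ≤ 1`, `ψ = Nop (h/2) g`,
`∫ Rop h ψ d(nuS h) = ∫ ψ dπ = ∫ g d(nuS (h/2))` (`inv_Rop`, `inv_Nop`), and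
`|∫ (Ahat ψ - Rop h ψ) d(nuS h)|` is at most
`480 C² h³ √d (1 + 2√h √(1+h)) (2√h (h/2)^(-1/2) + 2/(h/2)) ≤ 6720 C² h² √d` by `local_err`,
`norm_Dv_Nop_le`, `norm_DDv_Nop_le`; `6720 + 9000/4 ≤ 9000`.
-/

open MeasureTheory ProbabilityTheory

namespace Vale.Agent.P347

/-- steps `h, h/2, ...` with forward noise `h/2, h/4, ...`, then the last step -/
noncomputable def casc {d K : ℕ} (N : Nodes K) (V : E d → ℝ) : ℝ → ℕ → (E d → ℝ) → E d → ℝ
  | h, 0, f => Lst V h f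
  | h, J + 1, f => Phat N V h (h / 2) (casc N V (h / 2) J f)

variable {d K : ℕ} {V : E d → ℝ} {C ε : ℝ} {N : Nodes K}

private theorem casc_cen_cont (hV : Pot d V) (h : ℝ) : Continuous (cen V h) := by
  have h1 : Continuous (gradient V) := hV.grad_contDiff.continuous
  unfold cen
  fun_prop

private theorem casc_Lst_meas (hV : Pot d V) {f : E d → ℝ} (hf : Measurable f) (h : ℝ) :
    Measurable (Lst V h f) := by
  have h1 := casc_cen_cont hV h
  have h2 : Continuous (fun p : E d × E d => cen V h p.1 + √h • p.2) := by fun_prop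
  have h3 : Measurable (fun p : E d × E d => f (cen V h p.1 + √h • p.2)) := hf.comp h2.measurable
  exact h3.stronglyMeasurable.integral_prod_right.measurable

theorem casc_bdd (hV : Pot d V) {f : E d → ℝ} {B : ℝ} (bf : ∀ x, |f x| ≤ B) (J : ℕ) (h : ℝ)
    (y : E d) : |casc N V h J f y| ≤ B := by
  induction J generalizing h y with
  | zero =>
    show |∫ z, f (cen V h y + √h • z) ∂(stdGaussian (E d))| ≤ B
    have h1 := norm_integral_le_of_norm_le_const (μ := stdGaussian (E d))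
      (f := fun z => f (cen V h y + √h • z)) (C := B)
      (Filter.Eventually.of_forall (fun z => bf _))
    simpa using h1
  | succ J ih => exact Phat_bdd hV (fun x => ih (h / 2) x) y

theorem casc_measurable (hV : Pot d V) {f : E d → ℝ} (hf : Measurable f) (J : ℕ) (h : ℝ) :
    Measurable (casc N V h J f) := by
  induction J generalizing h with
  | zero => exact casc_Lst_meas hV hf h
  | succ J ih => exact Phat_measurable hV (ih (h / 2))

/-- first moment of the smoothed target -/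
private theorem casc_moment (hV : Pot d V) {h : ℝ} (hh : 0 < h) (hh1 : h ≤ 1) :
    Integrable (fun y => ‖y‖) (nuS (pertOf V) h) ∧
      ∫ y, ‖y‖ ∂(nuS (pertOf V) h) ≤ 2 * √d := by
  have := nuS_isProb (η := h) hV.pert
  set μ := nuS (pertOf V) h with hμ
  obtain ⟨i2, e2⟩ := nuS_sq hV.pert hh.le
  have e3 := hV.second_moment
  have i1 : Integrable (fun y : E d => ‖y‖) μ := by
    refine Integrable.mono' ((integrable_const (1 : ℝ)).add i2)
      continuous_norm.aestronglyMeasurable (Filter.Eventually.of_forall (fun y => ?_))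
    show ‖‖y‖‖ ≤ 1 + ‖y‖ ^ 2
    rw [norm_norm]
    nlinarith [sq_nonneg (‖y‖ - 1), norm_nonneg y]
  refine ⟨i1, ?_⟩
  set m := ∫ y, ‖y‖ ∂μ with hm
  have hm0 : 0 ≤ m := integral_nonneg (fun y => norm_nonneg y)
  have h1 : 0 ≤ ∫ y, (‖y‖ ^ 2 - 2 * m * ‖y‖ + m ^ 2) ∂μ := by
    refine integral_nonneg (fun y => ?_)
    show 0 ≤ ‖y‖ ^ 2 - 2 * m * ‖y‖ + m ^ 2
    nlinarith [sq_nonneg (‖y‖ - m)]
  have j0 : Integrable (fun y : E d => 2 * m * ‖y‖) μ := i1.const_mul _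
  have j1 : Integrable (fun y : E d => ‖y‖ ^ 2 - 2 * m * ‖y‖) μ := i2.sub j0
  rw [integral_add j1 (integrable_const _), integral_sub i2 j0, integral_const_mul,
    integral_const, ← hm] at h1
  simp only [probReal_univ, smul_eq_mul, one_mul] at h1
  rw [e2] at h1
  have hd : (0 : ℝ) ≤ d := Nat.cast_nonneg d
  have h2 : m ^ 2 ≤ 4 * d := by nlinarith
  have h3 : m ≤ √(4 * d) := Real.le_sqrt_of_sq_le h2
  have h4 : √(4 * (d : ℝ)) = 2 * √d := by
    rw [Real.sqrt_mul (by norm_num)]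
    congr 1
    rw [show (4 : ℝ) = 2 ^ 2 by norm_num, Real.sqrt_sq (by norm_num)]
  rwa [h4] at h3

/-- comparison of integrals -/
private theorem casc_compare (hV : Pot d V) {h : ℝ} (hh : 0 < h) (hh1 : h ≤ 1) {A R : E d → ℝ}
    (hA : Measurable A) (hR : Measurable R) (bA : ∀ x, |A x| ≤ 1) (bR : ∀ x, |R x| ≤ 1)
    {a b : ℝ} (hb : 0 ≤ b) (hab : ∀ y, |A y - R y| ≤ a + b * ‖y‖) :
    |(∫ y, A y ∂(nuS (pertOf V) h)) - ∫ y, R y ∂(nuS (pertOf V) h)| ≤ a + b * (2 * √d) := by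
  have := nuS_isProb (η := h) hV.pert
  obtain ⟨i1, e1⟩ := casc_moment hV hh hh1
  set μ := nuS (pertOf V) h with hμ
  have iA : Integrable A μ := Integrable.of_bound hA.aestronglyMeasurable 1
    (Filter.Eventually.of_forall bA)
  have iR : Integrable R μ := Integrable.of_bound hR.aestronglyMeasurable 1
    (Filter.Eventually.of_forall bR)
  rw [← integral_sub iA iR]
  have j1 : Integrable (fun y : E d => a + b * ‖y‖) μ :=
    (integrable_const a).add (i1.const_mul b)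
  have h1 : ‖∫ y, (A y - R y) ∂μ‖ ≤ ∫ y, (a + b * ‖y‖) ∂μ :=
    norm_integral_le_of_norm_le j1 (Filter.Eventually.of_forall hab)
  rw [integral_add (integrable_const a) (i1.const_mul b), integral_const, integral_const_mul]
    at h1
  simp only [probReal_univ, smul_eq_mul, one_mul] at h1
  refine h1.trans ?_
  have h2 := mul_le_mul_of_nonneg_left e1 hb
  linarith

private theorem casc_Rop_meas (hV : Pot d V) {h : ℝ} (hh : 0 < h) {u : E d → ℝ}
    (hu : Measurable u) (bu : ∀ x, |u x| ≤ 1) : Measurable (Rop (pertOf V) h u) := by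
  have hp : PG u := PG.of_bdd (C := 1) bu
  exact (Rop_contDiff zero_le_one hV.pert hh hu.aestronglyMeasurable hp 0).continuous.measurable

private theorem casc_Rop_bdd (hV : Pot d V) {h : ℝ} (hh : 0 < h) {u : E d → ℝ}
    (bu : ∀ x, |u x| ≤ 1) (y : E d) : |Rop (pertOf V) h u y| ≤ 1 := by
  have h1 := norm_Rop_le (F := ℝ) (u := u) (B := 1) hV.pert hh
    (fun x => (Real.norm_eq_abs (u x)).le.trans (bu x)) y
  rwa [Real.norm_eq_abs] at h1

private theorem casc_sqrt_small {h : ℝ} (hh : 0 < h) (h1 : h ≤ 1 / 1000) :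
    √h ≤ 1 / 25 := by
  rw [Real.sqrt_le_left (by norm_num)]
  linarith

private theorem casc_h_small {h : ℝ} (hN : GoodNodes N C ε) (hh : 0 < h)
    (hCh : C ^ 2 * h ≤ 1 / 1000) : h ≤ 1 / 1000 := by
  have h1 : 1 ≤ C ^ 2 := one_le_pow₀ hN.one_le
  nlinarith

private theorem casc_zero (hV : Pot d V) {h : ℝ} (hh : 0 < h) (hh1 : h ≤ 1 / 1000) {f : E d → ℝ}
    (hf : Measurable f) (bf : ∀ x, |f x| ≤ 1) :
    |(∫ y, Lst V h f y ∂(nuS (pertOf V) h)) - ∫ x, f x ∂(gibbs V)| ≤ 4 * h * √d := by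
  have e1 : ∫ y, Rop (pertOf V) h f y ∂(nuS (pertOf V) h) = ∫ x, f x ∂(gibbs V) := by
    rw [gibbs_eq]
    exact inv_Rop zero_le_one hV.pert hh hf ⟨1, bf⟩
  rw [← e1]
  have h0 := casc_compare hV hh (by linarith) (casc_Lst_meas hV hf h)
    (casc_Rop_meas hV hh hf bf) (fun x => casc_bdd (N := (⟨fun _ => 0, fun _ => 0⟩ : Nodes 0))
      hV bf 0 h x) (casc_Rop_bdd hV hh bf) (a := 2 * h * √d) (b := 8 * (h * √h))
    (by positivity) (fun y => by
      have := last_err hV hh (by linarith) hf bf y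
      linarith)
  refine h0.trans ?_
  have h2 := casc_sqrt_small hh hh1
  have h3 : 0 ≤ √(d : ℝ) := Real.sqrt_nonneg _
  have h4 : 0 ≤ h * √(d : ℝ) := mul_nonneg hh.le h3
  have h5 : 8 * (h * √h) * (2 * √d) = (16 * √h) * (h * √(d : ℝ)) := by ring
  rw [h5]
  nlinarith

private theorem casc_step (hV : Pot d V) (hN : GoodNodes N C ε) (hε : 0 ≤ ε) {g : E d → ℝ}
    (hg : Measurable g) (bg : ∀ x, |g x| ≤ 1) {h : ℝ} (hh : 0 < h)
    (hεh : ε ≤ 2 * h) (hCh : C ^ 2 * h ≤ 1 / 1000) :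
    |(∫ y, Phat N V h (h / 2) g y ∂(nuS (pertOf V) h)) - ∫ y, g y ∂(nuS (pertOf V) (h / 2))| ≤
      6720 * C ^ 2 * h ^ 2 * √d := by
  have hh1 := casc_h_small hN hh hCh
  have hh2 : 0 < h / 2 := by positivity
  have hψm : Measurable (Nop (h / 2) g) := measurable_Nop hg
  have hψb : ∀ x, |Nop (h / 2) g x| ≤ 1 := by
    intro x
    have h1 := norm_Nop_le (F := ℝ) (η := h / 2) (u := g) (B := 1)
      (fun x => (Real.norm_eq_abs (g x)).le.trans (bg x)) x
    rwa [Real.norm_eq_abs] at h1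
  have e1 : ∫ y, Rop (pertOf V) h (Nop (h / 2) g) y ∂(nuS (pertOf V) h)
      = ∫ y, g y ∂(nuS (pertOf V) (h / 2)) := by
    rw [inv_Rop zero_le_one hV.pert hh hψm ⟨1, hψb⟩]
    exact inv_Nop hV.pert hg ⟨1, bg⟩
  rw [← e1]
  have hsm : Measurable (sc g) := by
    have hc : Continuous (fun r : ℝ => (WithLp.toLp 2 (fun _ : Unit => r) :
        EuclideanSpace ℝ Unit)) := by fun_prop
    exact hc.measurable.comp hg
  have hsb : ∀ x, ‖sc g x‖ ≤ 1 := fun x => by
    rw [norm_sc]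
    exact bg x
  have hCB : CB 3 (sc (Nop (h / 2) g)) := by
    rw [← Nop_sc]
    exact Nop_CB hh2 hsm ⟨1, hsb⟩
  have h1 : ∀ x, ‖Dv (sc (Nop (h / 2) g)) x‖ ≤ (√(h / 2))⁻¹ * 1 := by
    intro x
    rw [← Nop_sc]
    exact norm_Dv_Nop_le hh2 hsm hsb x
  have h2 : ∀ x, ‖Dv (Dv (sc (Nop (h / 2) g))) x‖ ≤ 2 / (h / 2) * 1 := by
    intro x
    rw [← Nop_sc]
    exact norm_DDv_Nop_le hh2 hsm hsb x
  have hC0 : 0 ≤ C ^ 2 := sq_nonneg C
  set S := 480 * C ^ 2 * h ^ 3 * (2 * √h * ((√(h / 2))⁻¹ * 1) + 2 / (h / 2) * 1) with hS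
  have hS0 : 0 ≤ S := by positivity
  have h3 := casc_compare hV hh (by linarith) (Phat_measurable (N := N) (h := h) (h' := h / 2) hV hg)
    (casc_Rop_meas hV hh hψm hψb) (Phat_bdd (N := N) (h := h) (h' := h / 2) hV bg)
    (casc_Rop_bdd hV hh hψb)
    (a := S * √d) (b := S * (2 * √h)) (by positivity) (fun y => by
      have h4 := local_err hV hh hN hε hεh hCh hCB h1 h2 y
      show |Ahat N V h (Nop (h / 2) g) y - Rop (pertOf V) h (Nop (h / 2) g) y| ≤ _
      refine h4.trans (le_of_eq ?_)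
      rw [hS]
      ring)
  refine h3.trans ?_
  have h5 := casc_sqrt_small hh hh1
  have hsd : 0 ≤ √(d : ℝ) := Real.sqrt_nonneg _
  have hsh : 0 < √h := Real.sqrt_pos.2 hh
  -- the constant
  have h6 : √h * (√(h / 2))⁻¹ ≤ 2 := by
    have h7 : √(h / 2) * 2 ≥ √h := by
      have h8 : √h = √(h / 2) * √2 := by
        rw [← Real.sqrt_mul hh2.le]
        congr 1
        ring
      have h9 : √2 ≤ (2 : ℝ) := by
        rw [Real.sqrt_le_left (by norm_num)]
        norm_num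
      have h10 := mul_le_mul_of_nonneg_left h9 (Real.sqrt_nonneg (h / 2))
      linarith
    have h11 : 0 < √(h / 2) := Real.sqrt_pos.2 hh2
    rw [← div_eq_mul_inv, div_le_iff₀ h11]
    linarith
  have h12 : h * (2 * √h * ((√(h / 2))⁻¹ * 1) + 2 / (h / 2) * 1) ≤ 5 := by
    have h13 : h * (2 / (h / 2) * 1) = 4 := by
      field_simp
      norm_num
    have h14 : h * (2 * √h * ((√(h / 2))⁻¹ * 1)) = 2 * h * (√h * (√(h / 2))⁻¹) := by ring
    rw [mul_add, h13, h14]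
    have h15 := mul_le_mul_of_nonneg_left h6 (by positivity : (0 : ℝ) ≤ 2 * h)
    linarith
  have hSle : S ≤ 2400 * C ^ 2 * h ^ 2 := by
    have h16 : S = 480 * C ^ 2 * h ^ 2 *
        (h * (2 * √h * ((√(h / 2))⁻¹ * 1) + 2 / (h / 2) * 1)) := by
      rw [hS]
      ring
    rw [h16]
    have h17 := mul_le_mul_of_nonneg_left h12 (by positivity : (0 : ℝ) ≤ 480 * C ^ 2 * h ^ 2)
    linarith
  have h18 : S * √d + S * (2 * √h) * (2 * √d) = S * ((1 + 4 * √h) * √d) := by ring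
  rw [h18]
  have h19 : (1 + 4 * √h) * √(d : ℝ) ≤ 2 * √d :=
    mul_le_mul_of_nonneg_right (by linarith) hsd
  have h20 : 0 ≤ (1 + 4 * √h) * √(d : ℝ) := by positivity
  calc S * ((1 + 4 * √h) * √d) ≤ (2400 * C ^ 2 * h ^ 2) * (2 * √d) :=
        mul_le_mul hSle h19 h20 (by positivity)
    _ = 4800 * (C ^ 2 * h ^ 2 * √d) := by ring
    _ ≤ 6720 * (C ^ 2 * h ^ 2 * √d) :=
        mul_le_mul_of_nonneg_right (by norm_num) (by positivity)
    _ = 6720 * C ^ 2 * h ^ 2 * √d := by ring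

theorem casc_err (hV : Pot d V) (hN : GoodNodes N C ε) (hε : 0 ≤ ε) {f : E d → ℝ}
    (hf : Measurable f) (bf : ∀ x, |f x| ≤ 1) (J : ℕ) (h : ℝ) (hh : 0 < h)
    (hεh : ε ≤ 2 * (h / 2 ^ J)) (hCh : C ^ 2 * h ≤ 1 / 1000) :
    |(∫ y, casc N V h J f y ∂(nuS (pertOf V) h)) - ∫ x, f x ∂(gibbs V)| ≤
      9000 * C ^ 2 * h ^ 2 * √d + 4 * (h / 2 ^ J) * √d := by
  induction J generalizing h with
  | zero =>
    have h1 := casc_zero hV hh (casc_h_small hN hh hCh) hf bf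
    have h2 : 0 ≤ 9000 * C ^ 2 * h ^ 2 * √(d : ℝ) := by positivity
    rw [pow_zero, div_one]
    have h3 : |(∫ y, casc N V h 0 f y ∂(nuS (pertOf V) h)) - ∫ x, f x ∂(gibbs V)|
        ≤ 4 * h * √d := h1
    linarith
  | succ J ih =>
    have hh2 : 0 < h / 2 := by positivity
    have e1 : h / 2 ^ (J + 1) = h / 2 / 2 ^ J := by
      rw [pow_succ]
      field_simp
    have h1 := ih (h / 2) hh2 (by rw [← e1]; exact hεh) (by
      have : 0 ≤ C ^ 2 * h := by positivity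
      linarith)
    have hle : h / 2 ^ (J + 1) ≤ h := div_le_self hh.le (one_le_pow₀ (by norm_num))
    have h2 := casc_step hV hN hε (casc_measurable (N := N) hV hf J (h / 2))
      (casc_bdd (N := N) hV bf J (h / 2)) hh (by linarith) hCh
    have h3 : |(∫ y, casc N V h (J + 1) f y ∂(nuS (pertOf V) h)) - ∫ x, f x ∂(gibbs V)| ≤
        |(∫ y, Phat N V h (h / 2) (casc N V (h / 2) J f) y ∂(nuS (pertOf V) h))
          - ∫ y, casc N V (h / 2) J f y ∂(nuS (pertOf V) (h / 2))|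
        + |(∫ y, casc N V (h / 2) J f y ∂(nuS (pertOf V) (h / 2))) - ∫ x, f x ∂(gibbs V)| :=
      abs_sub_le _ _ _
    refine h3.trans ((add_le_add h2 h1).trans ?_)
    rw [e1]
    have h4 : 0 ≤ C ^ 2 * h ^ 2 * √(d : ℝ) := by positivity
    have h5 : 6720 * C ^ 2 * h ^ 2 * √d + (9000 * C ^ 2 * (h / 2) ^ 2 * √d
        + 4 * (h / 2 / 2 ^ J) * √d) = 8970 * (C ^ 2 * h ^ 2 * √d) + 4 * (h / 2 / 2 ^ J) * √d := by
      ring
    have h6 : 9000 * C ^ 2 * h ^ 2 * √d + 4 * (h / 2 / 2 ^ J) * √d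
        = 9000 * (C ^ 2 * h ^ 2 * √d) + 4 * (h / 2 / 2 ^ J) * √d := by ring
    rw [h5, h6]
    linarith

end Vale.Agent.P347
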