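import Vale.Agent.Lib.P347.RBb
import Vale.Agent.Lib.P347.NOp

/-!
P347: the exact proximal chain, first order bounds.

Proofs. `Pop G η u = Rop G η (Nop η u)`. Pointwise contraction `Pop_grad_sq`: `norm_Dv_Rop_sq_le'`
for `Nop η u` and `Dv_Nop`, `Nop_sq_le`. Reverse inequality `Pop_reverse`: `norm_Dv_Rop_sq_le` for
`Nop η u` and `Nop_sq_le`. `iter_reverse`: telescoping,
`Pop^l |u|^2 - |Pop^l u|^2 = Σ_{i<l} Pop^i (Pop |Pop^(l-1-i) u|^2 - |Pop^(l-i) u|^2)
≥ Σ_{i<l} Pop^i (η |Dv Pop^(l-i) u|^2) ≥ l η |Dv Pop^l u|^2` where the last step is the iterated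
pointwise contraction `|Dv Pop^i v|^2 ≤ Pop^i |Dv v|^2`.
-/

open MeasureTheory ProbabilityTheory
open scoped RealInnerProductSpace

namespace Vale.Agent.P347

variable {d : ℕ} {b : ℝ} {G : E d → ℝ} {η : ℝ} {ι : Type} [Fintype ι]

private theorem chainA_Rop_sc (g : E d → ℝ) (y : E d) : Rop G η (sc g) y = sc (Rop G η g) y := by
  let e : ℝ ≃L[ℝ] EuclideanSpace ℝ Unit :=
    (ContinuousLinearEquiv.funUnique Unit ℝ ℝ).symm.trans (EuclideanSpace.equiv Unit ℝ).symm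
  have h1 : ∀ t : ℝ, e t = WithLp.toLp 2 (fun _ : Unit => t) := fun t => rfl
  have h2 := e.integral_comp_comm (μ := RG G η y) g
  unfold Rop sc
  simp only [h1] at h2
  exact h2

private theorem chainA_meas_sc {f : E d → ℝ} (hf : Measurable f) : Measurable (sc f) := by
  let e : ℝ ≃L[ℝ] EuclideanSpace ℝ Unit :=
    (ContinuousLinearEquiv.funUnique Unit ℝ ℝ).symm.trans (EuclideanSpace.equiv Unit ℝ).symm
  exact e.continuous.measurable.comp hf

private theorem chainA_meas_of_sc {f : E d → ℝ} (hf : Measurable (sc f)) : Measurable f := by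
  let e : ℝ ≃L[ℝ] EuclideanSpace ℝ Unit :=
    (ContinuousLinearEquiv.funUnique Unit ℝ ℝ).symm.trans (EuclideanSpace.equiv Unit ℝ).symm
  have h1 : f = fun x => e.symm (sc f x) := by
    funext x
    exact (e.symm_apply_apply (f x)).symm
  rw [h1]
  exact e.symm.continuous.measurable.comp hf

private theorem chainA_int {F : Type} [NormedAddCommGroup F] [NormedSpace ℝ F] [MeasurableSpace F]
    [BorelSpace F] [SecondCountableTopology F] (hG : Pert d b G) (hη : 0 < η) (y : E d)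
    {u : E d → F} (hu : Measurable u) {C : ℝ} (hC : ∀ x, ‖u x‖ ≤ C) :
    Integrable u (RG G η y) :=
  RG_integrable hG hη y hu.aestronglyMeasurable (PG.of_bdd hC)

private theorem chainA_sq_bd {F : Type} [NormedAddCommGroup F] {v : F} {C : ℝ} (h : ‖v‖ ≤ C) :
    ‖(‖v‖ ^ 2 : ℝ)‖ ≤ C ^ 2 := by
  rw [Real.norm_eq_abs, abs_of_nonneg (by positivity)]
  exact pow_le_pow_left₀ (norm_nonneg _) h 2

private theorem chainA_Pop_add {F : Type} [NormedAddCommGroup F] [NormedSpace ℝ F]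
    [MeasurableSpace F] [BorelSpace F] [SecondCountableTopology F] (hG : Pert d b G) (hη : 0 < η)
    {u v : E d → F} (hu : Measurable u) (hv : Measurable v) (bu : ∃ C, ∀ x, ‖u x‖ ≤ C)
    (bv : ∃ C, ∀ x, ‖v x‖ ≤ C) (y : E d) :
    Pop G η (fun x => u x + v x) y = Pop G η u y + Pop G η v y := by
  obtain ⟨C, hC⟩ := bu
  obtain ⟨D, hD⟩ := bv
  unfold Pop Rop
  rw [← integral_add (chainA_int hG hη y (measurable_Nop hu) (fun x => norm_Nop_le hC x))
    (chainA_int hG hη y (measurable_Nop hv) (fun x => norm_Nop_le hD x))]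
  congr 1
  funext x
  exact Nop_add hu hv ⟨C, hC⟩ ⟨D, hD⟩ x

private theorem chainA_Pop_smul {F : Type} [NormedAddCommGroup F] [NormedSpace ℝ F]
    (u : E d → F) (c : ℝ) (y : E d) :
    Pop G η (fun x => c • u x) y = c • Pop G η u y := by
  unfold Pop Rop
  rw [← integral_smul]
  congr 1
  funext x
  exact Nop_smul u c x

theorem norm_Rop_le {F : Type} [NormedAddCommGroup F] [NormedSpace ℝ F] (hG : Pert d b G)
    (hη : 0 < η) {u : E d → F} {B : ℝ}
    (hB : ∀ x, ‖u x‖ ≤ B) (y : E d) : ‖Rop G η u y‖ ≤ B := by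
  have := RG_isProb hG hη y
  unfold Rop
  have h := norm_integral_le_of_norm_le_const (μ := RG G η y) (C := B)
    (Filter.Eventually.of_forall hB)
  simpa using h

theorem norm_Pop_le {F : Type} [NormedAddCommGroup F] [NormedSpace ℝ F] (hG : Pert d b G)
    (hη : 0 < η) {u : E d → F} {B : ℝ}
    (hB : ∀ x, ‖u x‖ ≤ B) (y : E d) : ‖Pop G η u y‖ ≤ B := by
  exact norm_Rop_le hG hη (fun x => norm_Nop_le hB x) y

theorem norm_iter_le {F : Type} [NormedAddCommGroup F] [NormedSpace ℝ F] (hG : Pert d b G)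
    (hη : 0 < η) {u : E d → F} {B : ℝ}
    (hB : ∀ x, ‖u x‖ ≤ B) (j : ℕ) (y : E d) : ‖((Pop G η)^[j] u) y‖ ≤ B := by
  induction j generalizing y with
  | zero => exact hB y
  | succ j ih =>
    rw [Function.iterate_succ_apply']
    exact norm_Pop_le hG hη (fun x => ih x) y

theorem Pop_CB (hb : 0 ≤ b) (hG : Pert d b G) (hη : 0 < η) {u : E d → EuclideanSpace ℝ ι}
    (hu : Measurable u) (bu : ∃ C, ∀ x, ‖u x‖ ≤ C) : CB 2 (Pop G η u) := by
  obtain ⟨C, hC⟩ := bu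
  exact Rop_CB hb hG hη (measurable_Nop hu) (fun x => norm_Nop_le hC x)

theorem iter_CB {k : ℕ} (hk : k ≤ 2) (hb : 0 ≤ b) (hG : Pert d b G) (hη : 0 < η)
    {u : E d → EuclideanSpace ℝ ι} (hu : CB k u) (j : ℕ) : CB k ((Pop G η)^[j] u) := by
  induction j with
  | zero => exact hu
  | succ j ih =>
    rw [Function.iterate_succ_apply']
    exact (Pop_CB hb hG hη ih.contDiff.continuous.measurable ih.bdd).mono hk

theorem iter_meas (hb : 0 ≤ b) (hG : Pert d b G) (hη : 0 < η)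
    {u : E d → EuclideanSpace ℝ ι} (hu : Measurable u) (bu : ∃ C, ∀ x, ‖u x‖ ≤ C) (j : ℕ) :
    Measurable ((Pop G η)^[j] u) := by
  obtain ⟨C, hC⟩ := bu
  induction j with
  | zero => exact hu
  | succ j ih =>
    rw [Function.iterate_succ_apply']
    exact (Pop_CB hb hG hη ih ⟨C, fun x => norm_iter_le hG hη hC j x⟩).contDiff.continuous.measurable

theorem Pop_sc (f : E d → ℝ) : Pop G η (sc f) = sc (Pop G η f) := by
  unfold Pop
  rw [Nop_sc]
  funext y
  exact chainA_Rop_sc _ y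

theorem iter_sc (f : E d → ℝ) (j : ℕ) : (Pop G η)^[j] (sc f) = sc ((Pop G η)^[j] f) := by
  induction j with
  | zero => rfl
  | succ j ih =>
    rw [Function.iterate_succ_apply', Function.iterate_succ_apply', ih, Pop_sc]

theorem iter_meas_scalar (hb : 0 ≤ b) (hG : Pert d b G) (hη : 0 < η)
    {f : E d → ℝ} (hf : Measurable f) (bf : ∃ C, ∀ x, |f x| ≤ C) (j : ℕ) :
    Measurable ((Pop G η)^[j] f) := by
  have h := iter_meas (j := j) hb hG hη (chainA_meas_sc hf) (by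
    obtain ⟨C, hC⟩ := bf
    exact ⟨C, fun x => by rw [norm_sc]; exact hC x⟩)
  rw [iter_sc] at h
  exact chainA_meas_of_sc h

theorem Pop_add (hb : 0 ≤ b) (hG : Pert d b G) (hη : 0 < η) {u v : E d → EuclideanSpace ℝ ι}
    (hu : Measurable u) (hv : Measurable v) (bu : ∃ C, ∀ x, ‖u x‖ ≤ C)
    (bv : ∃ C, ∀ x, ‖v x‖ ≤ C) (y : E d) :
    Pop G η (fun x => u x + v x) y = Pop G η u y + Pop G η v y := by
  exact chainA_Pop_add hG hη hu hv bu bv y

theorem Pop_smul (u : E d → EuclideanSpace ℝ ι) (c : ℝ) (y : E d) :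
    Pop G η (fun x => c • u x) y = c • Pop G η u y := by
  exact chainA_Pop_smul u c y

theorem Pop_mono (hb : 0 ≤ b) (hG : Pert d b G) (hη : 0 < η) {f g : E d → ℝ}
    (hf : Measurable f) (hg : Measurable g)
    (bf : ∃ C, ∀ x, |f x| ≤ C) (bg : ∃ C, ∀ x, |g x| ≤ C) (h : ∀ x, f x ≤ g x) (y : E d) :
    Pop G η f y ≤ Pop G η g y := by
  have := RG_isProb hG hη y
  obtain ⟨C, hC⟩ := bf
  obtain ⟨D, hD⟩ := bg
  unfold Pop Rop
  exact integral_mono (chainA_int hG hη y (measurable_Nop hf) (fun x => norm_Nop_le hC x))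
    (chainA_int hG hη y (measurable_Nop hg) (fun x => norm_Nop_le hD x))
    (fun x => Nop_mono hf hg ⟨C, hC⟩ ⟨D, hD⟩ h x)

theorem Pop_reverse (hb : 0 ≤ b) (hG : Pert d b G) (hη : 0 < η) {u : E d → EuclideanSpace ℝ ι}
    (hu : Measurable u) (bu : ∃ C, ∀ x, ‖u x‖ ≤ C) (y : E d) :
    η * ‖Dv (Pop G η u) y‖ ^ 2 ≤ Pop G η (fun x => ‖u x‖ ^ 2) y - ‖Pop G η u y‖ ^ 2 := by
  have := RG_isProb hG hη y
  obtain ⟨C, hC⟩ := bu
  have hNm : Measurable (Nop η u) := measurable_Nop hu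
  have hNb : ∀ x, ‖Nop η u x‖ ≤ C := fun x => norm_Nop_le hC x
  have h1 := norm_Dv_Rop_sq_le hb hG hη hNm (PG.of_bdd hNb) y
  have h2 : η * ‖Dv (Rop G η (Nop η u)) y‖ ^ 2 ≤
      (∫ x, ‖Nop η u x‖ ^ 2 ∂(RG G η y)) - ‖Rop G η (Nop η u) y‖ ^ 2 := by
    have h3 := mul_le_mul_of_nonneg_left h1 hη.le
    rwa [← mul_assoc, mul_inv_cancel₀ hη.ne', one_mul] at h3
  have h4 : (∫ x, ‖Nop η u x‖ ^ 2 ∂(RG G η y)) ≤ Pop G η (fun x => ‖u x‖ ^ 2) y := by
    unfold Pop Rop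
    exact integral_mono (chainA_int hG hη y (hNm.norm.pow_const 2)
      (fun x => chainA_sq_bd (hNb x)))
      (chainA_int hG hη y (measurable_Nop (hu.norm.pow_const 2))
        (fun x => norm_Nop_le (fun z => chainA_sq_bd (hC z)) x))
      (fun x => Nop_sq_le hu ⟨C, hC⟩ x)
  have h5 : Pop G η u = Rop G η (Nop η u) := rfl
  rw [h5]
  linarith

theorem Pop_sq_le (hb : 0 ≤ b) (hG : Pert d b G) (hη : 0 < η) {u : E d → EuclideanSpace ℝ ι}
    (hu : Measurable u) (bu : ∃ C, ∀ x, ‖u x‖ ≤ C) (y : E d) :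
    ‖Pop G η u y‖ ^ 2 ≤ Pop G η (fun x => ‖u x‖ ^ 2) y := by
  have h1 := Pop_reverse hb hG hη hu bu y
  have h2 : 0 ≤ η * ‖Dv (Pop G η u) y‖ ^ 2 := by positivity
  linarith

theorem Pop_grad_sq (hb : 0 ≤ b) (hG : Pert d b G) (hη : 0 < η) {u : E d → EuclideanSpace ℝ ι}
    (hu : CB 1 u) (y : E d) :
    ‖Dv (Pop G η u) y‖ ^ 2 ≤ ((1 + η)⁻¹) ^ 2 * Pop G η (fun x => ‖Dv u x‖ ^ 2) y := by
  have := RG_isProb hG hη y
  have hN : CB 1 (Nop η u) := Nop_CB_of hη.le hu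
  obtain ⟨C, hC⟩ := hN.bdd
  obtain ⟨D, hD⟩ := hN.dv.bdd
  obtain ⟨D', hD'⟩ := hu.dv.bdd
  have hDm : Measurable (Dv u) := hu.dv.contDiff.continuous.measurable
  have hNm : Measurable (Dv (Nop η u)) := hN.dv.contDiff.continuous.measurable
  have h1 := norm_Dv_Rop_sq_le' hb hG hη (by exact_mod_cast hN.contDiff) (PG.of_bdd hC)
    (PG.of_bdd hD) y
  refine h1.trans (mul_le_mul_of_nonneg_left ?_ (by positivity))
  unfold Pop Rop
  refine integral_mono (chainA_int hG hη y (hNm.norm.pow_const 2)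
    (fun x => chainA_sq_bd (hD x)))
    (chainA_int hG hη y (measurable_Nop (hDm.norm.pow_const 2))
      (fun x => norm_Nop_le (fun z => chainA_sq_bd (hD' z)) x)) (fun x => ?_)
  have h2 := Nop_sq_le (η := η) hDm ⟨D', hD'⟩ x
  simp only [Dv_Nop hη.le hu]
  exact h2

theorem iter_contraction (hb : 0 ≤ b) (hG : Pert d b G) (hη : 0 < η)
    {u : E d → EuclideanSpace ℝ ι} (hu : CB 1 u) {B : ℝ} (hB : ∀ x, ‖Dv u x‖ ≤ B) (j : ℕ)
    (y : E d) : ‖Dv ((Pop G η)^[j] u) y‖ ≤ ((1 + η)⁻¹) ^ j * B := by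
  induction j generalizing y with
  | zero => simpa using hB y
  | succ j ih =>
    rw [Function.iterate_succ_apply']
    have hB0 : 0 ≤ B := (norm_nonneg _).trans (hB y)
    have hq : 0 ≤ (1 + η)⁻¹ := by positivity
    have hc : CB 1 ((Pop G η)^[j] u) := iter_CB (by norm_num) hb hG hη hu j
    have h1 := Pop_grad_sq hb hG hη hc y
    have h2 : Pop G η (fun x => ‖Dv ((Pop G η)^[j] u) x‖ ^ 2) y ≤ (((1 + η)⁻¹) ^ j * B) ^ 2 :=
      (le_abs_self _).trans (norm_Pop_le hG hη (fun x => chainA_sq_bd (ih x)) y)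
    have h3 : ‖Dv (Pop G η ((Pop G η)^[j] u)) y‖ ^ 2 ≤ (((1 + η)⁻¹) ^ (j + 1) * B) ^ 2 := by
      refine h1.trans ((mul_le_mul_of_nonneg_left h2 (by positivity)).trans (le_of_eq ?_))
      ring
    exact le_of_sq_le_sq h3 (by positivity)

private theorem chainA_iter_rev (hb : 0 ≤ b) (hG : Pert d b G) (hη : 0 < η)
    {u : E d → EuclideanSpace ℝ ι} (hu : Measurable u) {B : ℝ} (hB : ∀ x, ‖u x‖ ≤ B) (j : ℕ)
    (y : E d) : j * η * ‖Dv ((Pop G η)^[j] u) y‖ ^ 2 ≤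
      (Pop G η)^[j] (fun x => ‖u x‖ ^ 2) y - ‖(Pop G η)^[j] u y‖ ^ 2 := by
  induction j generalizing y with
  | zero => simp
  | succ j ih =>
    rw [Function.iterate_succ_apply', Function.iterate_succ_apply']
    set v := (Pop G η)^[j] u with hv
    set g := (Pop G η)^[j] (fun x => ‖u x‖ ^ 2) with hg
    have hvm : Measurable v := iter_meas hb hG hη hu ⟨B, hB⟩ j
    have hvb : ∀ x, ‖v x‖ ≤ B := fun x => norm_iter_le hG hη hB j x
    have hgb : ∀ x, ‖g x‖ ≤ B ^ 2 :=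
      fun x => norm_iter_le hG hη (fun x => chainA_sq_bd (hB x)) j x
    have hgm : Measurable g := iter_meas_scalar hb hG hη (hu.norm.pow_const 2)
      ⟨B ^ 2, fun x => chainA_sq_bd (hB x)⟩ j
    have h0 := Pop_reverse hb hG hη hvm ⟨B, hvb⟩ y
    rcases Nat.eq_zero_or_pos j with hj | hj
    · have h1 : Pop G η (fun x => ‖v x‖ ^ 2) y ≤ Pop G η g y := by
        refine Pop_mono hb hG hη (hvm.norm.pow_const 2) hgm
          ⟨B ^ 2, fun x => chainA_sq_bd (hvb x)⟩ ⟨B ^ 2, hgb⟩ (fun x => ?_) y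
        have h2 := ih x
        have h3 : 0 ≤ (j : ℝ) * η * ‖Dv v x‖ ^ 2 := by positivity
        linarith
      subst hj
      push_cast
      linarith
    · obtain ⟨i, rfl⟩ : ∃ i, j = i + 1 := ⟨j - 1, by omega⟩
      have hcb : CB 1 v := by
        rw [hv, Function.iterate_succ_apply']
        exact (Pop_CB hb hG hη (iter_meas hb hG hη hu ⟨B, hB⟩ i)
          ⟨B, fun x => norm_iter_le hG hη hB i x⟩).mono (by norm_num)
      have hDm : Measurable (Dv v) := hcb.dv.contDiff.continuous.measurable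
      obtain ⟨D, hD⟩ := hcb.dv.bdd
      set c : ℝ := ((i + 1 : ℕ) : ℝ) * η with hc
      have hc0 : 0 ≤ c := by positivity
      have m1 : Measurable (fun x => c • ‖Dv v x‖ ^ 2) := (hDm.norm.pow_const 2).const_smul c
      have b1 : ∀ x, ‖c • ‖Dv v x‖ ^ 2‖ ≤ c * D ^ 2 := by
        intro x
        rw [norm_smul, Real.norm_eq_abs, abs_of_nonneg hc0]
        exact mul_le_mul_of_nonneg_left (chainA_sq_bd (hD x)) hc0
      have m2 : Measurable (fun x => ‖v x‖ ^ 2) := hvm.norm.pow_const 2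
      have b2 : ∀ x, ‖(‖v x‖ ^ 2 : ℝ)‖ ≤ B ^ 2 := fun x => chainA_sq_bd (hvb x)
      have h1 : Pop G η (fun x => c • ‖Dv v x‖ ^ 2 + ‖v x‖ ^ 2) y ≤ Pop G η g y := by
        refine Pop_mono hb hG hη (m1.add m2) hgm
          ⟨c * D ^ 2 + B ^ 2, fun x => (norm_add_le _ _).trans (add_le_add (b1 x) (b2 x))⟩
          ⟨B ^ 2, hgb⟩ (fun x => ?_) y
        have h2 := ih x
        change c • ‖Dv v x‖ ^ 2 + ‖v x‖ ^ 2 ≤ g x
        rw [smul_eq_mul]
        linarith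
      rw [chainA_Pop_add hG hη m1 m2 ⟨_, b1⟩ ⟨_, b2⟩ y, chainA_Pop_smul, smul_eq_mul] at h1
      have h3 := Pop_grad_sq hb hG hη hcb y
      have h4 : ‖Dv (Pop G η v) y‖ ^ 2 ≤ Pop G η (fun x => ‖Dv v x‖ ^ 2) y := by
        have h5 : 0 ≤ Pop G η (fun x => ‖Dv v x‖ ^ 2) y := by
          have h6 : Pop G η (fun _ : E d => (0 : ℝ)) y ≤ Pop G η (fun x => ‖Dv v x‖ ^ 2) y :=
            Pop_mono hb hG hη measurable_const (hDm.norm.pow_const 2) ⟨0, fun x => by simp⟩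
              ⟨D ^ 2, fun x => chainA_sq_bd (hD x)⟩ (fun x => by positivity) y
          have h7 : Pop G η (fun _ : E d => (0 : ℝ)) y = 0 := by
            have h8 : ‖Pop G η (fun _ : E d => (0 : ℝ)) y‖ ≤ 0 :=
              norm_Pop_le hG hη (fun x => by simp) y
            exact norm_le_zero_iff.1 h8
          linarith
        have h9 : ((1 + η)⁻¹) ^ 2 ≤ 1 := by
          have : (1 + η)⁻¹ ≤ 1 := inv_le_one_of_one_le₀ (by linarith)
          exact pow_le_one₀ (by positivity) this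
        exact h3.trans (mul_le_of_le_one_left h5 h9)
      have h10 : c * ‖Dv (Pop G η v) y‖ ^ 2 ≤ c * Pop G η (fun x => ‖Dv v x‖ ^ 2) y :=
        mul_le_mul_of_nonneg_left h4 hc0
      have h11 : (((i + 1 + 1 : ℕ) : ℝ)) * η * ‖Dv (Pop G η v) y‖ ^ 2 =
          c * ‖Dv (Pop G η v) y‖ ^ 2 + η * ‖Dv (Pop G η v) y‖ ^ 2 := by
        rw [hc]
        push_cast
        ring
      rw [h11]
      linarith

theorem iter_reverse (hb : 0 ≤ b) (hG : Pert d b G) (hη : 0 < η)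
    {u : E d → EuclideanSpace ℝ ι} (hu : Measurable u) {B : ℝ} (hB : ∀ x, ‖u x‖ ≤ B) (j : ℕ)
    (y : E d) : j * η * ‖Dv ((Pop G η)^[j] u) y‖ ^ 2 ≤ B ^ 2 := by
  have key := chainA_iter_rev hb hG hη hu hB j y
  have h1 : (Pop G η)^[j] (fun x => ‖u x‖ ^ 2) y ≤ B ^ 2 :=
    (le_abs_self _).trans (norm_iter_le hG hη (fun x => chainA_sq_bd (hB x)) j y)
  have h2 : 0 ≤ ‖(Pop G η)^[j] u y‖ ^ 2 := by positivity
  linarith

end Vale.Agent.P347
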