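import Vale.Agent.Lib.P347.ChainA

/-!
P347: commutation of the chain with derivatives.

Proof. One step: `Dv_Rop_eq` for `Nop η u` and `Dv_Nop`. The iterated formula: induction on `j`
(`Pop^[j+1] u = Pop (Pop^[j] u)`), using additivity and homogeneity of `Pop` on bounded
measurable maps (`Pop_add`, `Pop_smul`), the maps `Phi G η w` being bounded and continuous
(`Phi_CB`).
-/

open MeasureTheory ProbabilityTheory

namespace Vale.Agent.P347

variable {d : ℕ} {b : ℝ} {G : E d → ℝ} {η : ℝ} {ι : Type} [Fintype ι]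

theorem comm_one (hb : 0 ≤ b) (hG : Pert d b G) (hη : 0 < η)
    {u : E d → EuclideanSpace ℝ ι} (hu : CB 1 u) (y : E d) :
    (1 + η) • Dv (Pop G η u) y = Pop G η (Dv u) y + Phi G η (Nop η u) y := by
  have h1 : CB 1 (Nop η u) := Nop_CB_of hη.le hu
  obtain ⟨C, hC⟩ := h1.bdd
  obtain ⟨B, hB⟩ := h1.dv.bdd
  have h2 := Dv_Rop_eq hb hG hη (u := Nop η u) (by exact_mod_cast h1.contDiff) (PG.of_bdd hC)
    (PG.of_bdd hB) y
  have h3 : Dv (Nop η u) = Nop η (Dv u) := funext fun x => Dv_Nop hη.le hu x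
  rw [h3] at h2
  exact h2

private theorem chb_Pop_sum (hb : 0 ≤ b) (hG : Pert d b G) (hη : 0 < η) {κ : Type}
    (s : Finset κ) (v : κ → E d → EuclideanSpace ℝ ι) (hm : ∀ k, Measurable (v k))
    (hbd : ∀ k, ∃ C, ∀ x, ‖v k x‖ ≤ C) (y : E d) :
    Measurable (fun x => ∑ k ∈ s, v k x) ∧ (∃ C, ∀ x, ‖∑ k ∈ s, v k x‖ ≤ C) ∧
    Pop G η (fun x => ∑ k ∈ s, v k x) y = ∑ k ∈ s, Pop G η (v k) y := by
  classical
  induction s using Finset.induction_on with
  | empty =>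
    refine ⟨by simp only [Finset.sum_empty]; exact measurable_const, ⟨0, fun x => by simp⟩, ?_⟩
    have h1 := Pop_smul (G := G) (η := η) (fun _ : E d => (0 : EuclideanSpace ℝ ι)) 0 y
    simp only [Finset.sum_empty]
    simpa using h1
  | insert a s ha ih =>
    obtain ⟨h1, ⟨C, hC⟩, h3⟩ := ih
    obtain ⟨C', hC'⟩ := hbd a
    simp only [Finset.sum_insert ha]
    refine ⟨(hm a).add h1, ⟨C' + C, fun x => (norm_add_le _ _).trans (add_le_add (hC' x) (hC x))⟩,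
      ?_⟩
    rw [Pop_add hb hG hη (hm a) h1 ⟨C', hC'⟩ ⟨C, hC⟩ y, h3]

theorem comm_iter (hb : 0 ≤ b) (hG : Pert d b G) (hη : 0 < η)
    {u : E d → EuclideanSpace ℝ ι} (hu : CB 1 u) (j : ℕ) (y : E d) :
    Dv ((Pop G η)^[j] u) y = ((1 + η)⁻¹) ^ j • ((Pop G η)^[j] (Dv u)) y +
      ∑ l ∈ Finset.range j, ((1 + η)⁻¹) ^ (l + 1) •
        ((Pop G η)^[l] (Phi G η (Nop η ((Pop G η)^[j - 1 - l] u)))) y := by
  induction j generalizing y with
  | zero => simp
  | succ j ih =>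
    have hη1 : (1 + η) ≠ 0 := by positivity
    -- regularity
    have hit : ∀ n, CB 1 ((Pop G η)^[n] u) := fun n => iter_CB (by norm_num) hb hG hη hu n
    have hD : ∀ n, CB 0 ((Pop G η)^[n] (Dv u)) := fun n => iter_CB (by norm_num) hb hG hη hu.dv n
    have hPhi : ∀ n m, CB 1 ((Pop G η)^[n] (Phi G η (Nop η ((Pop G η)^[m] u)))) := fun n m =>
      iter_CB (by norm_num) hb hG hη (Phi_CB hb hG hη (Nop_CB_of hη.le (hit m))) n
    have h1 := comm_one hb hG hη (hit j) y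
    have h2 : Dv ((Pop G η)^[j] u) = fun y => ((1 + η)⁻¹) ^ j • ((Pop G η)^[j] (Dv u)) y +
      ∑ l ∈ Finset.range j, ((1 + η)⁻¹) ^ (l + 1) •
        ((Pop G η)^[l] (Phi G η (Nop η ((Pop G η)^[j - 1 - l] u)))) y := funext ih
    have hm1 : Measurable (fun y => ((1 + η)⁻¹) ^ j • ((Pop G η)^[j] (Dv u)) y) :=
      ((hD j).1.const_smul (((1 + η)⁻¹) ^ j)).measurable
    have hb1 : ∃ C, ∀ y, ‖((1 + η)⁻¹) ^ j • ((Pop G η)^[j] (Dv u)) y‖ ≤ C := by
      obtain ⟨C, hC⟩ := (hD j).bdd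
      refine ⟨‖((1 + η)⁻¹) ^ j‖ * C, fun y => ?_⟩
      rw [norm_smul]
      exact mul_le_mul_of_nonneg_left (hC y) (norm_nonneg _)
    have hm2 : ∀ l : ℕ, Measurable (fun y => ((1 + η)⁻¹) ^ (l + 1) •
        ((Pop G η)^[l] (Phi G η (Nop η ((Pop G η)^[j - 1 - l] u)))) y) := fun l =>
      ((hPhi l (j - 1 - l)).1.continuous.const_smul (((1 + η)⁻¹) ^ (l + 1))).measurable
    have hb2 : ∀ l : ℕ, ∃ C, ∀ y, ‖((1 + η)⁻¹) ^ (l + 1) •
        ((Pop G η)^[l] (Phi G η (Nop η ((Pop G η)^[j - 1 - l] u)))) y‖ ≤ C := by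
      intro l
      obtain ⟨C, hC⟩ := (hPhi l (j - 1 - l)).bdd
      refine ⟨‖((1 + η)⁻¹) ^ (l + 1)‖ * C, fun y => ?_⟩
      rw [norm_smul]
      exact mul_le_mul_of_nonneg_left (hC y) (norm_nonneg _)
    obtain ⟨h3, h4, h5⟩ := chb_Pop_sum hb hG hη (Finset.range j) (fun (l : ℕ) y =>
      ((1 + η)⁻¹) ^ (l + 1) •
        ((Pop G η)^[l] (Phi G η (Nop η ((Pop G η)^[j - 1 - l] u)))) y) hm2 hb2 y
    rw [h2, Pop_add hb hG hη hm1 h3 hb1 h4 y, h5, Pop_smul] at h1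
    have h6 : Dv ((Pop G η)^[j + 1] u) y = (1 + η)⁻¹ • ((1 + η) • Dv (Pop G η ((Pop G η)^[j] u)) y) := by
      rw [smul_smul, inv_mul_cancel₀ hη1, one_smul, Function.iterate_succ_apply']
    rw [h6, h1, smul_add, smul_add, smul_smul, Finset.smul_sum, Finset.sum_range_succ', add_assoc]
    congr 1
    · rw [Function.iterate_succ_apply', pow_succ']
    · congr 1
      · refine Finset.sum_congr rfl fun l _ => ?_
        have e1 : j + 1 - 1 - (l + 1) = j - 1 - l := by omega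
        rw [Pop_smul, smul_smul, e1, Function.iterate_succ_apply', pow_succ' _ (l + 1)]
      · simp

end Vale.Agent.P347
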