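import Vale.Agent.Lib.P347.SCm

/-!
P347: facts on convex perturbations and on the class of potentials.
-/

open MeasureTheory ProbabilityTheory
open scoped RealInnerProductSpace

namespace Vale.Agent.P347

variable {d : ℕ} {b : ℝ} {G : E d → ℝ}

theorem Conv.inner_grad (f : E d → ℝ) (x v : E d) : ⟪gradient f x, v⟫ = fderiv ℝ f x v := by
  unfold gradient
  exact InnerProductSpace.toDual_symm_apply

theorem Conv.grad_apply (f : E d → ℝ) (x : E d) (i : Fin d) :
    gradient f x i = fderiv ℝ f x (EuclideanSpace.single i 1) := by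
  rw [← Conv.inner_grad, EuclideanSpace.inner_single_right]
  simp

theorem Conv.grad_contDiff {f : E d → ℝ} (h : ContDiff ℝ 2 f) : ContDiff ℝ 1 (gradient f) := by
  rw [contDiff_euclidean]
  intro i
  have h1 : ContDiff ℝ 1 (fderiv ℝ f) := h.fderiv_right (m := 1) (by norm_num)
  have h2 : (fun x => gradient f x i) = fun x => fderiv ℝ f x (EuclideanSpace.single i 1) := by
    funext x
    exact Conv.grad_apply f x i
  rw [h2]
  exact h1.clm_apply contDiff_const

theorem Conv.differentiable_grad {f : E d → ℝ} (h : ContDiff ℝ 2 f) :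
    Differentiable ℝ (gradient f) :=
  (Conv.grad_contDiff h).differentiable (by norm_num)

theorem Conv.fderiv_grad {f : E d → ℝ} (h : ContDiff ℝ 2 f) (x v w : E d) :
    ⟪fderiv ℝ (gradient f) x v, w⟫ = fderiv ℝ (fderiv ℝ f) x v w := by
  have h1 : HasFDerivAt (gradient f) (fderiv ℝ (gradient f) x) x :=
    (Conv.differentiable_grad h x).hasFDerivAt
  have h2 : HasFDerivAt (fun y => ⟪gradient f y, w⟫)
      ((innerSL ℝ w).comp (fderiv ℝ (gradient f) x)) x := by
    have h3 := (innerSL ℝ w).hasFDerivAt.comp x h1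
    refine h3.congr_of_eventuallyEq ?_
    apply Filter.Eventually.of_forall
    intro y
    simp
  have h4 : Differentiable ℝ (fderiv ℝ f) :=
    (h.fderiv_right (m := 1) (by norm_num)).differentiable (by norm_num)
  have h5 : HasFDerivAt (fun y => fderiv ℝ f y w) ((fderiv ℝ (fderiv ℝ f) x).flip w) x := by
    have h6 := (h4 x).hasFDerivAt.clm_apply (hasFDerivAt_const w x)
    simpa using h6
  have h7 : (fun y => ⟪gradient f y, w⟫) = fun y => fderiv ℝ f y w := by
    funext y
    exact Conv.inner_grad f y w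
  rw [h7] at h2
  have h8 := h2.unique h5
  have h9 := congrArg (fun L => L v) h8
  simp only [ContinuousLinearMap.comp_apply, innerSL_apply_apply, ContinuousLinearMap.flip_apply] at h9
  rw [real_inner_comm]
  exact h9

theorem Conv.symm2 {f : E d → ℝ} (h : ContDiff ℝ 2 f) (x v w : E d) :
    fderiv ℝ (fderiv ℝ f) x v w = fderiv ℝ (fderiv ℝ f) x w v := by
  have h1 : IsSymmSndFDerivAt ℝ f x := (h.contDiffAt).isSymmSndFDerivAt (by simp)
  exact h1 v w

/-- operator norm of a symmetric map between `0` and `c` -/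
theorem Conv.opNorm_le (A : E d →L[ℝ] E d) {c : ℝ} (hc : 0 ≤ c)
    (hs : ∀ v w, ⟪A v, w⟫ = ⟪v, A w⟫) (h0 : ∀ v, 0 ≤ ⟪A v, v⟫) (h1 : ∀ v, ⟪A v, v⟫ ≤ c * ‖v‖ ^ 2) :
    ‖A‖ ≤ c := by
  have key : ∀ v w : E d, ‖v‖ = ‖w‖ → ⟪A v, w⟫ ≤ c * ‖v‖ ^ 2 := by
    intro v w hvw
    have e1 := h1 (v + w)
    have e2 := h0 (v - w)
    have e3 : ⟪A (v + w), v + w⟫ = ⟪A v, v⟫ + 2 * ⟪A v, w⟫ + ⟪A w, w⟫ := by
      rw [map_add, inner_add_left, inner_add_right, inner_add_right, hs w v,
        real_inner_comm (A v) w]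
      ring
    have e4 : ⟪A (v - w), v - w⟫ = ⟪A v, v⟫ - 2 * ⟪A v, w⟫ + ⟪A w, w⟫ := by
      rw [map_sub, inner_sub_left, inner_sub_right, inner_sub_right, hs w v,
        real_inner_comm (A v) w]
      ring
    have e5 : ‖v + w‖ ^ 2 ≤ 4 * ‖v‖ ^ 2 := by
      have := norm_add_le v w
      rw [← hvw] at this
      have h2 := norm_nonneg (v + w)
      nlinarith
    have e6 : c * ‖v + w‖ ^ 2 ≤ c * (4 * ‖v‖ ^ 2) := mul_le_mul_of_nonneg_left e5 hc
    nlinarith
  apply ContinuousLinearMap.opNorm_le_bound _ hc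
  intro v
  by_cases hA : A v = 0
  · rw [hA, norm_zero]
    positivity
  · have hA' : 0 < ‖A v‖ := norm_pos_iff.2 hA
    have h2 := key v ((‖v‖ / ‖A v‖) • A v) (by
      rw [norm_smul, norm_div, norm_norm, norm_norm]
      field_simp)
    rw [inner_smul_right, real_inner_self_eq_norm_sq] at h2
    have h3 : ‖v‖ / ‖A v‖ * ‖A v‖ ^ 2 = ‖v‖ * ‖A v‖ := by
      field_simp
    rw [h3] at h2
    rcases (norm_nonneg v).eq_or_lt with hv | hv
    · have : v = 0 := norm_eq_zero.1 hv.symm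
      rw [this, map_zero] at hA
      exact absurd rfl hA
    · nlinarith

theorem Pert.grad_contDiff (h : Pert d b G) : ContDiff ℝ 1 (gradient G) :=
  Conv.grad_contDiff h.smooth

theorem Pert.fderiv_grad (h : Pert d b G) (x v w : E d) :
    ⟪fderiv ℝ (gradient G) x v, w⟫ = fderiv ℝ (fderiv ℝ G) x v w :=
  Conv.fderiv_grad h.smooth x v w

theorem Pert.symm (h : Pert d b G) (x v w : E d) :
    ⟪fderiv ℝ (gradient G) x v, w⟫ = ⟪v, fderiv ℝ (gradient G) x w⟫ := by
  rw [real_inner_comm (fderiv ℝ (gradient G) x w) v, h.fderiv_grad, h.fderiv_grad,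
    Conv.symm2 h.smooth]

theorem Pert.norm_fderiv_le (hb : 0 ≤ b) (h : Pert d b G) (x : E d) :
    ‖fderiv ℝ (gradient G) x‖ ≤ b := by
  apply Conv.opNorm_le _ hb
  · intro v w
    exact h.symm x v w
  · intro v
    rw [h.fderiv_grad]
    exact h.nonneg x v
  · intro v
    rw [h.fderiv_grad]
    exact h.le x v

theorem Pert.norm_Dv_le (hb : 0 ≤ b) (h : Pert d b G) (x : E d) :
    ‖Dv (gradient G) x‖ ≤ b * √d :=
  norm_Dv_le_of_opNorm hb (h.norm_fderiv_le hb x)

theorem Pert.lip (hb : 0 ≤ b) (h : Pert d b G) (x y : E d) :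
    ‖gradient G x - gradient G y‖ ≤ b * ‖x - y‖ := by
  have h1 : Differentiable ℝ (gradient G) := Conv.differentiable_grad h.smooth
  exact Convex.norm_image_sub_le_of_norm_fderiv_le (𝕜 := ℝ) (s := Set.univ)
    (fun z _ => h1 z) (fun z _ => h.norm_fderiv_le hb z) convex_univ (Set.mem_univ y)
    (Set.mem_univ x)

theorem Conv.hasDerivAt_line {f : E d → ℝ} (h : ContDiff ℝ 2 f) (y v : E d) (t : ℝ) :
    HasDerivAt (fun s : ℝ => f (y + s • v)) ⟪gradient f (y + t • v), v⟫ t := by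
  have h1 : HasFDerivAt f (fderiv ℝ f (y + t • v)) (y + t • v) :=
    ((h.differentiable (by norm_num)) _).hasFDerivAt
  have h2 : HasDerivAt (fun s : ℝ => y + s • v) v t := by
    have h3 := ((hasDerivAt_id t).smul_const v).const_add y
    simpa using h3
  have h4 := h1.comp_hasDerivAt t h2
  rw [Conv.inner_grad]
  exact h4

theorem Conv.hasDerivAt_grad_line {f : E d → ℝ} (h : ContDiff ℝ 2 f) (y v : E d) (t : ℝ) :
    HasDerivAt (fun s : ℝ => ⟪gradient f (y + s • v), v⟫)
      (fderiv ℝ (fderiv ℝ f) (y + t • v) v v) t := by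
  have h1 : HasFDerivAt (gradient f) (fderiv ℝ (gradient f) (y + t • v)) (y + t • v) :=
    ((Conv.differentiable_grad h) _).hasFDerivAt
  have h2 : HasDerivAt (fun s : ℝ => y + s • v) v t := by
    have h3 := ((hasDerivAt_id t).smul_const v).const_add y
    simpa using h3
  have h4 := h1.comp_hasDerivAt t h2
  have h5 := (innerSL ℝ v).hasFDerivAt.comp_hasDerivAt t h4
  have h6 : (fun s : ℝ => ⟪gradient f (y + s • v), v⟫)
      = (fun s : ℝ => (innerSL ℝ v) (gradient f (y + s • v))) := by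
    funext s
    simp
  rw [h6, ← Conv.fderiv_grad h, real_inner_comm]
  exact h5

theorem Pert.mono (h : Pert d b G) (x y : E d) :
    0 ≤ ⟪gradient G x - gradient G y, x - y⟫ := by
  have h1 : Monotone (fun s : ℝ => ⟪gradient G (y + s • (x - y)), x - y⟫) := by
    apply monotone_of_deriv_nonneg
    · intro t
      exact (Conv.hasDerivAt_grad_line h.smooth y (x - y) t).differentiableAt
    · intro t
      rw [(Conv.hasDerivAt_grad_line h.smooth y (x - y) t).deriv]
      exact h.nonneg _ _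
  have h2 := h1 (zero_le_one' ℝ)
  simp only [zero_smul, add_zero, one_smul, add_sub_cancel] at h2
  rw [inner_sub_left]
  linarith

theorem Pert.lower (h : Pert d b G) (x y : E d) :
    G y + ⟪gradient G y, x - y⟫ ≤ G x := by
  obtain ⟨c, hc, hc2⟩ := exists_hasDerivAt_eq_slope (fun s : ℝ => G (y + s • (x - y)))
    (fun s : ℝ => ⟪gradient G (y + s • (x - y)), x - y⟫) (zero_lt_one' ℝ)
    (by
      apply Continuous.continuousOn
      have := h.smooth.continuous
      fun_prop)
    (fun t _ => Conv.hasDerivAt_line h.smooth y (x - y) t)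
  simp only [zero_smul, add_zero, one_smul, add_sub_cancel, sub_zero, div_one] at hc2
  have h2 := h.mono (y + c • (x - y)) y
  rw [add_sub_cancel_left, inner_smul_right, inner_sub_left] at h2
  have h3 := nonneg_of_mul_nonneg_right h2 hc.1
  linarith

theorem Conv.contDiff_sq (c : ℝ) : ContDiff ℝ 2 (fun x : E d => c * ‖x‖ ^ 2) :=
  contDiff_const.mul (contDiff_norm_sq ℝ)

theorem Conv.fderiv_sq (c : ℝ) :
    fderiv ℝ (fun x : E d => c * ‖x‖ ^ 2) = fun x => (2 * c) • innerSL ℝ x := by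
  funext x
  have h1 : HasFDerivAt (fun x : E d => c * ‖x‖ ^ 2) (c • (2 • innerSL ℝ x)) x :=
    (hasStrictFDerivAt_norm_sq x).hasFDerivAt.const_mul c
  rw [h1.fderiv]
  ext v
  simp
  ring

theorem Conv.fderiv2_sq (c : ℝ) (x v w : E d) :
    fderiv ℝ (fderiv ℝ (fun x : E d => c * ‖x‖ ^ 2)) x v w = 2 * c * ⟪v, w⟫ := by
  rw [Conv.fderiv_sq]
  have h1 : HasFDerivAt (fun x : E d => (2 * c) • innerSL ℝ x)
      ((2 * c) • (innerSL ℝ : E d →L[ℝ] E d →L[ℝ] ℝ)) x :=
    ((innerSL ℝ : E d →L[ℝ] E d →L[ℝ] ℝ).hasFDerivAt).const_smul (2 * c)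
  rw [h1.fderiv]
  show (2 * c) * (innerSL ℝ v w) = 2 * c * ⟪v, w⟫
  rw [innerSL_apply_apply]

theorem Conv.gradient_sq (c : ℝ) (x : E d) :
    gradient (fun x : E d => c * ‖x‖ ^ 2) x = (2 * c) • x := by
  apply ext_inner_right ℝ
  intro v
  rw [Conv.inner_grad, Conv.fderiv_sq, inner_smul_left]
  simp

theorem Conv.fderiv_sub_fun {f g : E d → ℝ} (hf : ContDiff ℝ 2 f) (hg : ContDiff ℝ 2 g) :
    fderiv ℝ (fun x => f x - g x) = fun x => fderiv ℝ f x - fderiv ℝ g x := by
  funext x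
  exact fderiv_fun_sub ((hf.differentiable (by norm_num)) x)
    ((hg.differentiable (by norm_num)) x)

theorem Conv.fderiv2_sub {f g : E d → ℝ} (hf : ContDiff ℝ 2 f) (hg : ContDiff ℝ 2 g)
    (x v w : E d) :
    fderiv ℝ (fderiv ℝ (fun x => f x - g x)) x v w
      = fderiv ℝ (fderiv ℝ f) x v w - fderiv ℝ (fderiv ℝ g) x v w := by
  have h4 : Differentiable ℝ (fderiv ℝ f) :=
    (hf.fderiv_right (m := 1) (by norm_num)).differentiable (by norm_num)
  have h5 : Differentiable ℝ (fderiv ℝ g) :=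
    (hg.fderiv_right (m := 1) (by norm_num)).differentiable (by norm_num)
  rw [Conv.fderiv_sub_fun hf hg, fderiv_fun_sub (h4 x) (h5 x)]
  rfl

theorem Conv.gradient_sub {f g : E d → ℝ} (hf : ContDiff ℝ 2 f) (hg : ContDiff ℝ 2 g)
    (x : E d) : gradient (fun x => f x - g x) x = gradient f x - gradient g x := by
  apply ext_inner_right ℝ
  intro v
  rw [inner_sub_left, Conv.inner_grad, Conv.inner_grad, Conv.inner_grad,
    Conv.fderiv_sub_fun hf hg]
  rfl

theorem Pert.upper (h : Pert d b G) (x y : E d) :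
    G x ≤ G y + ⟪gradient G y, x - y⟫ + b / 2 * ‖x - y‖ ^ 2 := by
  have hc := Conv.contDiff_sq (d := d) (b / 2)
  have h1 : Pert d b (fun x => b / 2 * ‖x‖ ^ 2 - G x) :=
    { smooth := hc.sub h.smooth
      nonneg := by
        intro x v
        rw [Conv.fderiv2_sub hc h.smooth, Conv.fderiv2_sq, real_inner_self_eq_norm_sq]
        have := h.le x v
        linarith
      le := by
        intro x v
        rw [Conv.fderiv2_sub hc h.smooth, Conv.fderiv2_sq, real_inner_self_eq_norm_sq]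
        have := h.nonneg x v
        linarith }
  have h2 := h1.lower x y
  rw [Conv.gradient_sub hc h.smooth, Conv.gradient_sq, inner_sub_left, inner_smul_left] at h2
  simp only [conj_trivial] at h2
  have h3 : ‖x - y‖ ^ 2 = ‖x‖ ^ 2 - 2 * ⟪y, x - y⟫ - ‖y‖ ^ 2 := by
    have e1 := norm_sub_sq_real x y
    rw [inner_sub_right, real_inner_self_eq_norm_sq, real_inner_comm]
    rw [e1]
    ring
  rw [h3]
  linarith

theorem Pert.PG_grad (hb : 0 ≤ b) (h : Pert d b G) : PG (gradient G) := by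
  refine ⟨‖gradient G 0‖ + b, 1, fun x => ?_⟩
  have h1 := h.lip hb x 0
  rw [sub_zero] at h1
  have h2 : ‖gradient G x‖ ≤ ‖gradient G x - gradient G 0‖ + ‖gradient G 0‖ := by
    have := norm_add_le (gradient G x - gradient G 0) (gradient G 0)
    rwa [sub_add_cancel] at this
  have h3 := norm_nonneg (gradient G 0)
  have h4 := norm_nonneg x
  rw [pow_one]
  nlinarith

theorem Pert.PG_val (hb : 0 ≤ b) (h : Pert d b G) : PG G := by
  refine ⟨|G 0| + ‖gradient G 0‖ + b / 2, 2, fun x => ?_⟩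
  have h1 := h.lower x 0
  have h2 := h.upper x 0
  rw [sub_zero] at h1 h2
  have h3 := abs_real_inner_le_norm (gradient G 0) x
  have h4 := norm_nonneg (gradient G 0)
  have h5 := norm_nonneg x
  have h6 := abs_nonneg (G 0)
  have h7 := neg_abs_le (G 0)
  have h8 := le_abs_self (G 0)
  have h9 := abs_le.1 h3
  rw [Real.norm_eq_abs, abs_le]
  have h10 : 0 ≤ ‖gradient G 0‖ * ‖x‖ := mul_nonneg h4 h5
  have h11 : 0 ≤ |G 0| * ‖x‖ := mul_nonneg h6 h5
  have h12 : 0 ≤ |G 0| * ‖x‖ ^ 2 := by positivity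
  have h13 : 0 ≤ ‖gradient G 0‖ * ‖x‖ ^ 2 := by positivity
  have h14 : 0 ≤ b * ‖x‖ ^ 2 := by positivity
  have h15 : 0 ≤ b * ‖x‖ := by positivity
  have h16 : (|G 0| + ‖gradient G 0‖ + b / 2) * (1 + ‖x‖) ^ 2
      = |G 0| + ‖gradient G 0‖ + b / 2 + 2 * (|G 0| * ‖x‖) + 2 * (‖gradient G 0‖ * ‖x‖)
        + b * ‖x‖ + |G 0| * ‖x‖ ^ 2 + ‖gradient G 0‖ * ‖x‖ ^ 2 + b * ‖x‖ ^ 2 / 2 := by
    ring
  rw [h16]
  constructor
  · linarith [h9.1]
  · linarith [h9.2]

theorem Conv.parallelogram (x y : E d) :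
    ‖(1 / 2 : ℝ) • (x + y)‖ ^ 2 = (‖x‖ ^ 2 + ‖y‖ ^ 2) / 2 - ‖x - y‖ ^ 2 / 4 := by
  rw [norm_smul, mul_pow, norm_add_sq_real, norm_sub_sq_real]
  norm_num
  ring

theorem Pert.mid (h : Pert d b G) (x y : E d) :
    G ((1 / 2 : ℝ) • (x + y)) ≤ (G x + G y) / 2 := by
  have h1 := h.lower x ((1 / 2 : ℝ) • (x + y))
  have h2 := h.lower y ((1 / 2 : ℝ) • (x + y))
  have e1 : x - (1 / 2 : ℝ) • (x + y) = (1 / 2 : ℝ) • (x - y) := by
    module
  have e2 : y - (1 / 2 : ℝ) • (x + y) = -((1 / 2 : ℝ) • (x - y)) := by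
    module
  rw [e1] at h1
  rw [e2, inner_neg_right] at h2
  linarith

theorem Pert.growth (h : Pert d b G) (x : E d) :
    1 / 4 * ‖x‖ ^ 2 - (‖gradient G 0‖ ^ 2 + |G 0|) ≤ ‖x‖ ^ 2 / 2 + G x := by
  have h1 := h.lower x 0
  rw [sub_zero] at h1
  have h3 := (abs_le.1 (abs_real_inner_le_norm (gradient G 0) x)).1
  have h7 := neg_abs_le (G 0)
  nlinarith [sq_nonneg (‖x‖ / 2 - ‖gradient G 0‖)]

/-- the potential of `nuG` -/
theorem Pert.sc_nu (h : Pert d b G) : SC d 1 (fun x => ‖x‖ ^ 2 / 2 + G x) where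
  cont := by
    have := h.smooth.continuous
    fun_prop
  mid := by
    intro x y
    have h1 := h.mid x y
    have h2 := Conv.parallelogram x y
    rw [h2]
    linarith
  grow := ⟨1 / 4, by norm_num, ‖gradient G 0‖ ^ 2 + |G 0|, fun x => h.growth x⟩

/-- the potential of `RG` -/
theorem Pert.sc_RG (h : Pert d b G) {η : ℝ} (hη : 0 < η) (y : E d) :
    SC d (1 + 1 / η) (fun x => ‖x‖ ^ 2 / 2 + G x + ‖x - y‖ ^ 2 / (2 * η)) where
  cont := by
    have := h.smooth.continuous
    fun_prop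
  mid := by
    intro x z
    have h1 := h.mid x z
    have h2 := Conv.parallelogram x z
    have h3 := Conv.parallelogram (x - y) (z - y)
    have e1 : (1 / 2 : ℝ) • (x - y + (z - y)) = (1 / 2 : ℝ) • (x + z) - y := by
      module
    have e2 : x - y - (z - y) = x - z := by abel
    rw [e1, e2] at h3
    rw [h2, h3]
    have e3 : ((‖x - y‖ ^ 2 + ‖z - y‖ ^ 2) / 2 - ‖x - z‖ ^ 2 / 4) / (2 * η)
        = (‖x - y‖ ^ 2 / (2 * η) + ‖z - y‖ ^ 2 / (2 * η)) / 2 - (1 / η) / 8 * ‖x - z‖ ^ 2 := by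
      field_simp
      ring
    rw [e3]
    linarith
  grow := by
    refine ⟨1 / 4, by norm_num, ‖gradient G 0‖ ^ 2 + |G 0|, fun x => ?_⟩
    have h1 := h.growth x
    have h2 : 0 ≤ ‖x - y‖ ^ 2 / (2 * η) := by positivity
    linarith

/-- adding strong convexity: `|x|^2/2 + s G` with a perturbation of Hessian between `0` and `b` -/
theorem Pert.smul (h : Pert d b G) {s : ℝ} (hs : 0 ≤ s) (hs1 : s ≤ 1) :
    Pert d b (fun x => s * G x) := by
  have e1 : fderiv ℝ (fun x => s * G x) = fun x => s • fderiv ℝ G x := by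
    funext x
    exact fderiv_const_mul ((h.smooth.differentiable (by norm_num)) x) s
  have h4 : Differentiable ℝ (fderiv ℝ G) :=
    (h.smooth.fderiv_right (m := 1) (by norm_num)).differentiable (by norm_num)
  have e2 : ∀ x v w : E d, fderiv ℝ (fderiv ℝ (fun x => s * G x)) x v w
      = s * fderiv ℝ (fderiv ℝ G) x v w := by
    intro x v w
    rw [e1, fderiv_fun_const_smul (h4 x)]
    rfl
  refine ⟨contDiff_const.mul h.smooth, fun x v => ?_, fun x v => ?_⟩
  · rw [e2]
    exact mul_nonneg hs (h.nonneg x v)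
  · rw [e2]
    have h1 := h.nonneg x v
    have h2 := h.le x v
    nlinarith

theorem Conv.pertOf_eq (V : E d → ℝ) : pertOf V = fun x => V x - 1 / 2 * ‖x‖ ^ 2 := by
  funext x
  unfold pertOf
  ring

theorem Pot.pert {V : E d → ℝ} (h : Pot d V) : Pert d 1 (pertOf V) := by
  have hc := Conv.contDiff_sq (d := d) (1 / 2)
  rw [Conv.pertOf_eq]
  refine ⟨h.smooth.sub hc, fun x v => ?_, fun x v => ?_⟩
  · rw [Conv.fderiv2_sub h.smooth hc, Conv.fderiv2_sq, real_inner_self_eq_norm_sq]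
    have := h.lower x v
    linarith
  · rw [Conv.fderiv2_sub h.smooth hc, Conv.fderiv2_sq, real_inner_self_eq_norm_sq]
    have := h.upper x v
    linarith

theorem Pot.gradient_pertOf {V : E d → ℝ} (h : Pot d V) (x : E d) :
    gradient (pertOf V) x = gradient V x - x := by
  have hc := Conv.contDiff_sq (d := d) (1 / 2)
  rw [Conv.pertOf_eq, Conv.gradient_sub h.smooth hc, Conv.gradient_sq]
  norm_num

theorem gibbs_eq (V : E d → ℝ) : gibbs V = nuG (pertOf V) := by
  unfold gibbs nuG pertOf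
  congr 1
  funext x
  ring

/-- the potential itself, as a convex function with Hessian between `0` and `2` -/
theorem Pot.pert2 {V : E d → ℝ} (h : Pot d V) : Pert d 2 V where
  smooth := h.smooth
  nonneg := fun x v => le_trans (sq_nonneg _) (h.lower x v)
  le := h.upper

theorem Pot.grad_contDiff {V : E d → ℝ} (h : Pot d V) : ContDiff ℝ 1 (gradient V) :=
  h.pert2.grad_contDiff

theorem Pot.lip {V : E d → ℝ} (h : Pot d V) (x y : E d) :
    ‖gradient V x - gradient V y‖ ≤ 2 * ‖x - y‖ :=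
  h.pert2.lip (by norm_num) x y

theorem Pot.norm_grad_le {V : E d → ℝ} (h : Pot d V) (x : E d) :
    ‖gradient V x‖ ≤ 2 * ‖x‖ := by
  have h1 := h.lip x 0
  rwa [h.grad_zero, sub_zero, sub_zero] at h1

theorem Pot.norm_fderiv_le {V : E d → ℝ} (h : Pot d V) (x : E d) :
    ‖fderiv ℝ (gradient V) x‖ ≤ 2 :=
  h.pert2.norm_fderiv_le (by norm_num) x

/-- one gradient step contracts towards the origin -/
theorem Pot.norm_cen_le {V : E d → ℝ} (h : Pot d V) {η : ℝ} (h0 : 0 ≤ η) (h1 : η ≤ 1 / 4)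
    (y : E d) : ‖cen V η y‖ ≤ (1 - η) * ‖y‖ := by
  have hd : Differentiable ℝ (gradient V) := Conv.differentiable_grad h.smooth
  have hcd : ∀ z, HasFDerivAt (cen V η)
      (ContinuousLinearMap.id ℝ (E d) - η • fderiv ℝ (gradient V) z) z := by
    intro z
    exact (hasFDerivAt_id z).sub ((hd z).hasFDerivAt.const_smul η)
  have hn : ∀ z, ‖fderiv ℝ (cen V η) z‖ ≤ 1 - η := by
    intro z
    rw [(hcd z).fderiv]
    apply Conv.opNorm_le _ (by linarith)
    · intro v w
      simp only [_root_.sub_apply, ContinuousLinearMap.id_apply,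
        _root_.smul_apply, inner_sub_left, inner_sub_right, inner_smul_left,
        inner_smul_right, conj_trivial]
      rw [h.pert2.symm z v w]
    · intro v
      simp only [_root_.sub_apply, ContinuousLinearMap.id_apply,
        _root_.smul_apply, inner_sub_left, inner_smul_left, conj_trivial]
      rw [h.pert2.fderiv_grad z v v, real_inner_self_eq_norm_sq]
      have := h.upper z v
      have h3 := sq_nonneg ‖v‖
      nlinarith
    · intro v
      simp only [_root_.sub_apply, ContinuousLinearMap.id_apply,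
        _root_.smul_apply, inner_sub_left, inner_smul_left, conj_trivial]
      rw [h.pert2.fderiv_grad z v v, real_inner_self_eq_norm_sq]
      have := h.lower z v
      nlinarith
  have h2 := Convex.norm_image_sub_le_of_norm_fderiv_le (𝕜 := ℝ) (s := Set.univ)
    (fun z _ => (hcd z).differentiableAt) (fun z _ => hn z) convex_univ (Set.mem_univ 0)
    (Set.mem_univ y)
  have h3 : cen V η 0 = 0 := by
    unfold cen
    rw [h.grad_zero]
    simp
  rwa [h3, sub_zero, sub_zero] at h2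

end Vale.Agent.P347
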