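import Vale.Agent.Lib.P347.Ops

/-!
P347: measurable computations with a bounded number of oracle queries.

`Cpt d q Ω τ f`: the map `f`, which depends on the oracle `o` and on a point of `Ω`, can be
computed with `q` adaptive queries.

Proof of `toAlgo`: by induction on `q`, for general `Ω` in place of `Seed`: there are query
functions `query n : Ω × (Fin n → Ans d) → E d` and an output map, measurable, such that the
history recursion gives `f o ω`. Step: the first query is `x ω`, the later ones are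
`query' (n+1) (ω, a) = query n ((ω, a 0), Fin.tail a)`, and
`hist' (n+1) = Fin.cons (o (x ω)) (hist n)` by `Fin.cons_snoc_eq_snoc_cons`.
The closure properties: induction on the number of queries of the first computation.
-/

open MeasureTheory

namespace Vale.Agent.P347

/-- computable with `q` adaptive queries -/
def Cpt (d : ℕ) : ℕ → (Ω τ : Type) → [MeasurableSpace Ω] → [MeasurableSpace τ] →
    ((E d → Ans d) → Ω → τ) → Prop
  | 0, Ω, τ, _, _, f => ∃ g : Ω → τ, Measurable g ∧ ∀ o ω, f o ω = g ω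
  | q + 1, Ω, τ, _, _, f => ∃ (x : Ω → E d) (f' : (E d → Ans d) → Ω × Ans d → τ),
      Measurable x ∧ Cpt d q (Ω × Ans d) τ f' ∧ ∀ o ω, f o ω = f' o (ω, o (x ω))

variable {d p q : ℕ} {Ω Ω' τ σ : Type} [MeasurableSpace Ω] [MeasurableSpace Ω']
  [MeasurableSpace τ] [MeasurableSpace σ]

/-- the history for general query functions -/
private noncomputable def histG {d : ℕ} {Ω : Type} (query : (n : ℕ) → Ω × (Fin n → Ans d) → E d)
    (o : E d → Ans d) (s : Ω) : (n : ℕ) → Fin n → Ans d
  | 0 => Fin.elim0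
  | n + 1 => Fin.snoc (α := fun _ => Ans d) (histG query o s n) (o (query n (s, histG query o s n)))

private noncomputable def queryS {d : ℕ} {Ω : Type} (x : Ω → E d)
    (query' : (n : ℕ) → (Ω × Ans d) × (Fin n → Ans d) → E d) :
    (n : ℕ) → Ω × (Fin n → Ans d) → E d
  | 0 => fun p => x p.1
  | n + 1 => fun p => query' n ((p.1, p.2 0), Fin.tail p.2)

private theorem histG_succ {d : ℕ} {Ω : Type} (x : Ω → E d)
    (query' : (n : ℕ) → (Ω × Ans d) × (Fin n → Ans d) → E d) (o : E d → Ans d) (s : Ω) (n : ℕ) :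
    histG (queryS x query') o s (n + 1) =
      Fin.cons (α := fun _ => Ans d) (o (x s)) (histG query' o (s, o (x s)) n) := by
  induction n with
  | zero =>
    funext i
    fin_cases i
    rfl
  | succ n ih =>
    rw [histG, ih]
    have e : queryS x query' (n + 1) (s, Fin.cons (α := fun _ => Ans d) (o (x s))
        (histG query' o (s, o (x s)) n)) =
        query' n ((s, o (x s)), histG query' o (s, o (x s)) n) := by
      simp only [queryS, Fin.cons_zero, Fin.tail_cons]
    rw [e, ← Fin.cons_snoc_eq_snoc_cons]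
    rfl

private theorem measurable_tailA (n : ℕ) :
    Measurable (fun a : Fin (n + 1) → Ans d => (Fin.tail a : Fin n → Ans d)) :=
  measurable_pi_lambda _ fun i => measurable_pi_apply i.succ

private theorem Cpt.gen : ∀ (q : ℕ) (Ω : Type) [MeasurableSpace Ω]
    {f : (E d → Ans d) → Ω → τ} (_ : Cpt d q Ω τ f),
    ∃ (query : (n : ℕ) → Ω × (Fin n → Ans d) → E d) (out : Ω × (Fin q → Ans d) → τ),
      (∀ n, Measurable (query n)) ∧ Measurable out ∧
        ∀ o ω, out (ω, histG query o ω q) = f o ω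
  | 0, Ω, _, f, h => by
    obtain ⟨g, hg, e⟩ := h
    exact ⟨fun _ _ => 0, fun p => g p.1, fun _ => measurable_const, hg.comp measurable_fst,
      fun o ω => (e o ω).symm⟩
  | q + 1, Ω, _, f, h => by
    obtain ⟨x, f', hx, hf', e⟩ := h
    obtain ⟨query', out', hq', ho', e'⟩ := Cpt.gen q (Ω × Ans d) hf'
    refine ⟨queryS x query', fun p => out' ((p.1, p.2 0), Fin.tail p.2), ?_, ?_, ?_⟩
    · intro n
      cases n with
      | zero => exact hx.comp measurable_fst
      | succ n =>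
        exact (hq' n).comp ((measurable_fst.prodMk
          ((measurable_pi_apply 0).comp measurable_snd)).prodMk
            ((measurable_tailA n).comp measurable_snd))
    · exact ho'.comp ((measurable_fst.prodMk
          ((measurable_pi_apply 0).comp measurable_snd)).prodMk
            ((measurable_tailA q).comp measurable_snd))
    · intro o ω
      rw [e o ω, ← e' o (ω, o (x ω)), histG_succ]
      simp only [Fin.cons_zero, Fin.tail_cons]

theorem Cpt.toAlgo {f : (E d → Ans d) → Seed → E d} (h : Cpt d q Seed (E d) f) :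
    ∃ A : Algo d q, ∀ o s, A.out (s, A.hist o s q) = f o s := by
  obtain ⟨query, out, hq, ho, e⟩ := Cpt.gen q Seed h
  refine ⟨⟨query, hq, out, ho⟩, fun o s => ?_⟩
  have hh : ∀ n, Algo.hist (⟨query, hq, out, ho⟩ : Algo d q) o s n = histG query o s n := by
    intro n
    induction n with
    | zero => rfl
    | succ n ih => rw [Algo.hist, histG, ih]
  rw [hh]
  exact e o s

theorem Cpt.pure {g : Ω → τ} (hg : Measurable g) : Cpt d 0 Ω τ (fun _ ω => g ω) :=
  ⟨g, hg, fun _ _ => rfl⟩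

theorem Cpt.query {x : Ω → E d} (hx : Measurable x) :
    Cpt d 1 Ω (Ans d) (fun o ω => o (x ω)) :=
  ⟨x, fun _ p => p.2, hx, ⟨fun p => p.2, measurable_snd, fun _ _ => rfl⟩, fun _ _ => rfl⟩

private theorem Cpt.comap_aux : ∀ (q : ℕ) {Ω Ω' : Type} [MeasurableSpace Ω] [MeasurableSpace Ω']
    {f : (E d → Ans d) → Ω → τ} (_ : Cpt d q Ω τ f) {m : Ω' → Ω}
    (_ : Measurable m), Cpt d q Ω' τ (fun o ω => f o (m ω))
  | 0, Ω, Ω', _, _, f, hf, m, hm => by
    obtain ⟨g, hg, e⟩ := hf
    exact ⟨fun ω => g (m ω), hg.comp hm, fun o ω => e o (m ω)⟩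
  | q + 1, Ω, Ω', _, _, f, hf, m, hm => by
    obtain ⟨x, f', hx, hf', e⟩ := hf
    exact ⟨fun ω => x (m ω), fun o r => f' o (m r.1, r.2), hx.comp hm,
      Cpt.comap_aux q hf' ((hm.comp measurable_fst).prodMk measurable_snd),
      fun o ω => e o (m ω)⟩

theorem Cpt.comap {f : (E d → Ans d) → Ω → τ} (hf : Cpt d q Ω τ f) {m : Ω' → Ω}
    (hm : Measurable m) : Cpt d q Ω' τ (fun o ω => f o (m ω)) :=
  Cpt.comap_aux q hf hm

private theorem Cpt.map_aux : ∀ (q : ℕ) {Ω : Type} [MeasurableSpace Ω]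
    {f : (E d → Ans d) → Ω → τ} (_ : Cpt d q Ω τ f) {m : τ → σ}
    (_ : Measurable m), Cpt d q Ω σ (fun o ω => m (f o ω))
  | 0, Ω, _, f, hf, m, hm => by
    obtain ⟨g, hg, e⟩ := hf
    exact ⟨fun ω => m (g ω), hm.comp hg, fun o ω => by simp only [e o ω]⟩
  | q + 1, Ω, _, f, hf, m, hm => by
    obtain ⟨x, f', hx, hf', e⟩ := hf
    exact ⟨x, fun o r => m (f' o r), hx, Cpt.map_aux q hf' hm, fun o ω => by simp only [e o ω]⟩

theorem Cpt.map {f : (E d → Ans d) → Ω → τ} (hf : Cpt d q Ω τ f) {m : τ → σ}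
    (hm : Measurable m) : Cpt d q Ω σ (fun o ω => m (f o ω)) :=
  Cpt.map_aux q hf hm

private theorem Cpt.comp_aux : ∀ (p : ℕ) {Ω : Type} [MeasurableSpace Ω]
    {f : (E d → Ans d) → Ω → τ} (_ : Cpt d p Ω τ f)
    {g : (E d → Ans d) → Ω × τ → σ} (_ : Cpt d q (Ω × τ) σ g),
    Cpt d (p + q) Ω σ (fun o ω => g o (ω, f o ω))
  | 0, Ω, _, f, hf, g, hg => by
    obtain ⟨g0, hg0, e⟩ := hf
    have h1 : (fun o ω => g o (ω, f o ω)) = fun o ω => g o (ω, g0 ω) := by
      funext o ω
      rw [e o ω]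
    rw [h1, Nat.zero_add]
    exact hg.comap (measurable_id.prodMk hg0)
  | p + 1, Ω, _, f, hf, g, hg => by
    obtain ⟨x, f', hx, hf', e⟩ := hf
    have h1 : p + 1 + q = (p + q) + 1 := by omega
    rw [h1]
    refine ⟨x, fun o r => g o (r.1, f' o r), hx, ?_, fun o ω => by simp only [e o ω]⟩
    exact Cpt.comp_aux p hf' (g := fun o s => g o (s.1.1, s.2))
      (hg.comap ((measurable_fst.comp measurable_fst).prodMk measurable_snd))

theorem Cpt.comp {f : (E d → Ans d) → Ω → τ} (hf : Cpt d p Ω τ f)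
    {g : (E d → Ans d) → Ω × τ → σ} (hg : Cpt d q (Ω × τ) σ g) :
    Cpt d (p + q) Ω σ (fun o ω => g o (ω, f o ω)) :=
  Cpt.comp_aux p hf hg

private theorem Cpt.aux_left : ∀ (q : ℕ) {Ω : Type} [MeasurableSpace Ω]
    {g : (E d → Ans d) → Ω → σ} (_ : Cpt d q Ω σ g) {t : Ω → τ}
    (_ : Measurable t), Cpt d q Ω (τ × σ) (fun o ω => (t ω, g o ω))
  | 0, Ω, _, g, hg, t, ht => by
    obtain ⟨g0, hg0, e⟩ := hg
    exact ⟨fun ω => (t ω, g0 ω), ht.prodMk hg0, fun o ω => by simp only [e o ω]⟩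
  | q + 1, Ω, _, g, hg, t, ht => by
    obtain ⟨x, g', hx, hg', e⟩ := hg
    exact ⟨x, fun o r => (t r.1, g' o r), hx, Cpt.aux_left q hg' (ht.comp measurable_fst),
      fun o ω => by simp only [e o ω]⟩

theorem Cpt.pair {f : (E d → Ans d) → Ω → τ} (hf : Cpt d p Ω τ f)
    {g : (E d → Ans d) → Ω → σ} (hg : Cpt d q Ω σ g) :
    Cpt d (p + q) Ω (τ × σ) (fun o ω => (f o ω, g o ω)) :=
  hf.comp (g := fun o r => (r.2, g o r.1))
    (Cpt.aux_left q (hg.comap measurable_fst) measurable_snd)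

private theorem Cpt.succ {f : (E d → Ans d) → Ω → τ} (hf : Cpt d p Ω τ f) :
    Cpt d (p + 1) Ω τ f :=
  ⟨fun _ => 0, fun o r => f o r.1, measurable_const, hf.comap measurable_fst, fun _ _ => rfl⟩

theorem Cpt.mono {f : (E d → Ans d) → Ω → τ} (hf : Cpt d p Ω τ f) (hpq : p ≤ q) :
    Cpt d q Ω τ f := by
  induction q, hpq using Nat.le_induction with
  | base => exact hf
  | succ q _ ih => exact ih.succ

theorem Cpt.sum {K : ℕ} {f : Fin K → (E d → Ans d) → Ω → E d}
    (hf : ∀ k, Cpt d 1 Ω (E d) (f k)) : Cpt d K Ω (E d) (fun o ω => ∑ k, f k o ω) := by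
  induction K with
  | zero =>
    exact ⟨fun _ => 0, measurable_const, fun o ω => by simp⟩
  | succ K ih =>
    have h1 := ((hf 0).pair (ih fun k => hf k.succ)).map
      (m := fun r : E d × E d => r.1 + r.2) (measurable_fst.add measurable_snd)
    have h2 : (fun (o : E d → Ans d) (ω : Ω) => ∑ k, f k o ω) =
        fun o ω => f 0 o ω + ∑ k : Fin K, f k.succ o ω := by
      funext o ω
      rw [Fin.sum_univ_succ]
    rw [h2]
    rw [Nat.add_comm 1 K] at h1
    exact h1

end Vale.Agent.P347
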