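import Mathlib

/-!
P347: the query model. Definitions only.
-/

open MeasureTheory ProbabilityTheory Filter Topology

namespace Vale.Agent.P347

/-- Euclidean space of dimension `d`. -/
abbrev E (d : ℕ) := EuclideanSpace ℝ (Fin d)

/-- The class of potentials: twice continuously differentiable, normalised at the origin, with
Hessian between the identity and twice the identity everywhere: the second derivative at `0` of
`t ↦ V (x + t v)`, which is the Hessian quadratic form of `V` at `x` in the direction `v`, is
between `|v|^2` and `2 |v|^2`. -/
structure Potential (d : ℕ) (V : E d → ℝ) : Prop where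
  smooth : ContDiff ℝ 2 V
  val_zero : V 0 = 0
  grad_zero : gradient V 0 = 0
  lower : ∀ x v : E d, ‖v‖ ^ 2 ≤ iteratedDeriv 2 (fun t : ℝ => V (x + t • v)) 0
  upper : ∀ x v : E d, iteratedDeriv 2 (fun t : ℝ => V (x + t • v)) 0 ≤ 2 * ‖v‖ ^ 2

/-- The Gibbs law with density proportional to `exp (-V)`. -/
noncomputable def gibbs {d : ℕ} (V : E d → ℝ) : Measure (E d) :=
  (volume : Measure (E d)).tilted (fun x => -V x)

/-- An answer of the exact first order oracle: a value and a gradient. -/
abbrev Ans (d : ℕ) := ℝ × E d

/-- The exact first order oracle of `V`. -/
noncomputable def oracle {d : ℕ} (V : E d → ℝ) (x : E d) : Ans d := (V x, gradient V x)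

/-- The seeds: a sequence of independent random reals, uniform on `[0, 1]`. -/
abbrev Seed := ℕ → unitInterval

/-- The law of the seeds. -/
noncomputable def seedLaw : Measure Seed :=
  Measure.infinitePi (fun _ : ℕ => (volume : Measure unitInterval))

/-- A randomised adaptive algorithm making at most `q` queries in dimension `d`: the `n`-th
query point is a measurable function of the seeds and of the first `n` answers, and the output
is a measurable function of the seeds and of the `q` answers. -/
structure Algo (d q : ℕ) where
  query : (n : ℕ) → Seed × (Fin n → Ans d) → E d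
  query_meas : ∀ n, Measurable (query n)
  out : Seed × (Fin q → Ans d) → E d
  out_meas : Measurable out

/-- The first `n` answers obtained by the algorithm run on the oracle `o` with seeds `s`. -/
noncomputable def Algo.hist {d q : ℕ} (A : Algo d q) (o : E d → Ans d) (s : Seed) :
    (n : ℕ) → Fin n → Ans d
  | 0 => Fin.elim0
  | n + 1 => Fin.snoc (α := fun _ => Ans d) (A.hist o s n) (o (A.query n (s, A.hist o s n)))

/-- The law of the output of the algorithm on the potential `V`. -/
noncomputable def Algo.law {d q : ℕ} (A : Algo d q) (V : E d → ℝ) : Measure (E d) :=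
  seedLaw.map (fun s => A.out (s, A.hist (oracle V) s q))

/-- The algorithm samples every Gibbs law of the class within total variation `1 / 10`. -/
def Algo.Samples {d q : ℕ} (A : Algo d q) : Prop :=
  ∀ V : E d → ℝ, Potential d V → ∀ B : Set (E d), MeasurableSet B →
    |(A.law V).real B - (gibbs V).real B| ≤ 1 / 10

/-- The query complexity. -/
noncomputable def Q (d : ℕ) : ℕ := sInf {q : ℕ | ∃ A : Algo d q, A.Samples}

/-- The dimension exponent. -/
noncomputable def gammaStar : EReal :=
  limsup (fun d : ℕ => ((Real.log (Q d) / Real.log d : ℝ) : EReal)) atTop

end Vale.Agent.P347
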