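import Vale.Agent.Lib.P347.Defs

/-!
P347: tensorization of the variance (Efron-Stein inequality).

Proofs. Two blocks: with `A x = ∫ w (x, y) dν y` one has
`∫ |w|^2 - |∫ w|^2 = ∫ (∫ |w|^2 dν - |A|^2) dμ + (∫ |A|^2 dμ - |∫ A dμ|^2)` and the last bracket is
at most `∫ (∫ |w (x, y)|^2 dμ x - |∫ w (x, y) dμ x|^2) dν y` by convexity of the variance
(`∫ |A - ∫ A|^2 dμ`, `A - ∫ A dμ = ∫ (w (x,y) - ∫ w (x', y) dμ x') dν y`, Jensen).
Finite products: induction on the index type (for instance `Fintype.induction_empty_option` or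
reindex to `Fin n` and use `measurePreserving_piFinSuccAbove`).
-/

open MeasureTheory ProbabilityTheory

namespace Vale.Agent.P347

open scoped RealInnerProductSpace in
private theorem tens_var_eq {X : Type} [MeasurableSpace X] {ι : Type} [Fintype ι]
    {μ : Measure X} [IsProbabilityMeasure μ] {f : X → EuclideanSpace ℝ ι} (hf : Measurable f)
    {C : ℝ} (hC : ∀ x, ‖f x‖ ≤ C) :
    (∫ x, ‖f x‖ ^ 2 ∂μ) - ‖∫ x, f x ∂μ‖ ^ 2 = ∫ x, ‖f x - ∫ x', f x' ∂μ‖ ^ 2 ∂μ := by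
  set m := ∫ x', f x' ∂μ with hm
  have hfi : Integrable f μ :=
    Integrable.of_bound hf.aestronglyMeasurable C (Filter.Eventually.of_forall hC)
  have hf2 : Integrable (fun x => ‖f x‖ ^ 2) μ := by
    refine Integrable.of_bound (hf.norm.pow_const 2).aestronglyMeasurable (C ^ 2)
      (Filter.Eventually.of_forall fun x => ?_)
    rw [Real.norm_of_nonneg (by positivity)]
    exact pow_le_pow_left₀ (norm_nonneg _) (hC x) 2
  have hin : Integrable (fun x => ⟪m, f x⟫) μ := hfi.const_inner m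
  have h1 : ∀ x, ‖f x - m‖ ^ 2 = ‖f x‖ ^ 2 - 2 * ⟪m, f x⟫ + ‖m‖ ^ 2 := fun x => by
    rw [norm_sub_sq_real, real_inner_comm]
  simp_rw [h1]
  have h2 : ∫ x, (‖f x‖ ^ 2 - 2 * ⟪m, f x⟫ + ‖m‖ ^ 2) ∂μ =
      (∫ x, ‖f x‖ ^ 2 ∂μ) - 2 * ⟪m, m⟫ + ‖m‖ ^ 2 := by
    have h3 : Integrable (fun x => ‖f x‖ ^ 2 - 2 * ⟪m, f x⟫) μ := hf2.sub (hin.const_mul 2)
    rw [integral_add h3 (integrable_const _),
      integral_sub hf2 (hin.const_mul 2), integral_const_mul, integral_inner hfi,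
      integral_const]
    simp [hm]
  rw [h2, real_inner_self_eq_norm_sq]
  ring

private theorem tens_jensen {X : Type} [MeasurableSpace X] {ι : Type} [Fintype ι]
    {μ : Measure X} [IsProbabilityMeasure μ] {f : X → EuclideanSpace ℝ ι} (hf : Measurable f)
    {C : ℝ} (hC : ∀ x, ‖f x‖ ≤ C) :
    ‖∫ x, f x ∂μ‖ ^ 2 ≤ ∫ x, ‖f x‖ ^ 2 ∂μ := by
  have h := tens_var_eq (μ := μ) hf hC
  have h0 : 0 ≤ ∫ x, ‖f x - ∫ x', f x' ∂μ‖ ^ 2 ∂μ := integral_nonneg fun x => by positivity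
  linarith

private theorem tens_bdd {X : Type} [MeasurableSpace X] {ι : Type} [Fintype ι]
    {μ : Measure X} [IsProbabilityMeasure μ] {f : X → EuclideanSpace ℝ ι}
    {C : ℝ} (hC : ∀ x, ‖f x‖ ≤ C) : ‖∫ x, f x ∂μ‖ ≤ C := by
  have := norm_integral_le_of_norm_le_const (μ := μ) (f := f) (C := C)
    (Filter.Eventually.of_forall hC)
  simpa using this

private theorem tens_int {X : Type} [MeasurableSpace X] {ι : Type} [Fintype ι]
    {μ : Measure X} [IsProbabilityMeasure μ] {f : X → EuclideanSpace ℝ ι} (hf : Measurable f)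
    {C : ℝ} (hC : ∀ x, ‖f x‖ ≤ C) : Integrable f μ :=
  Integrable.of_bound hf.aestronglyMeasurable C (Filter.Eventually.of_forall hC)

private theorem tens_int_sq {X : Type} [MeasurableSpace X] {ι : Type} [Fintype ι]
    {μ : Measure X} [IsProbabilityMeasure μ] {f : X → EuclideanSpace ℝ ι} (hf : Measurable f)
    {C : ℝ} (hC : ∀ x, ‖f x‖ ≤ C) : Integrable (fun x => ‖f x‖ ^ 2) μ := by
  refine Integrable.of_bound (hf.norm.pow_const 2).aestronglyMeasurable (C ^ 2)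
    (Filter.Eventually.of_forall fun x => ?_)
  rw [Real.norm_of_nonneg (by positivity)]
  exact pow_le_pow_left₀ (norm_nonneg _) (hC x) 2

private theorem tens_meas {X Y : Type} [MeasurableSpace X] [MeasurableSpace Y] {ι : Type}
    [Fintype ι] {ν : Measure Y} [IsProbabilityMeasure ν]
    {w : X × Y → EuclideanSpace ℝ ι} (hw : Measurable w) :
    Measurable (fun x => ∫ y, w (x, y) ∂ν) :=
  (hw.stronglyMeasurable.integral_prod_right').measurable

private theorem tens_meas_sq {X Y : Type} [MeasurableSpace X] [MeasurableSpace Y] {ι : Type}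
    [Fintype ι] {ν : Measure Y} [IsProbabilityMeasure ν]
    {w : X × Y → EuclideanSpace ℝ ι} (hw : Measurable w) :
    Measurable (fun x => ∫ y, ‖w (x, y)‖ ^ 2 ∂ν) :=
  ((hw.norm.pow_const 2).stronglyMeasurable.integral_prod_right').measurable

theorem var_prod_le {X Y : Type} [MeasurableSpace X] [MeasurableSpace Y] {ι : Type} [Fintype ι]
    {μ : Measure X} {ν : Measure Y} [IsProbabilityMeasure μ] [IsProbabilityMeasure ν]
    {w : X × Y → EuclideanSpace ℝ ι} (hw : Measurable w) (bw : ∃ C, ∀ p, ‖w p‖ ≤ C) :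
    (∫ p, ‖w p‖ ^ 2 ∂(μ.prod ν)) - ‖∫ p, w p ∂(μ.prod ν)‖ ^ 2 ≤
      (∫ x, ((∫ y, ‖w (x, y)‖ ^ 2 ∂ν) - ‖∫ y, w (x, y) ∂ν‖ ^ 2) ∂μ) +
        ∫ y, ((∫ x, ‖w (x, y)‖ ^ 2 ∂μ) - ‖∫ x, w (x, y) ∂μ‖ ^ 2) ∂ν := by
  obtain ⟨C, hC⟩ := bw
  have hws : Measurable (fun p : Y × X => w (p.2, p.1)) :=
    hw.comp (measurable_snd.prodMk measurable_fst)
  have hA : Measurable (fun x => ∫ y, w (x, y) ∂ν) := tens_meas hw
  have hB : Measurable (fun y => ∫ x, w (x, y) ∂μ) := tens_meas (ν := μ) hws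
  have hAC : ∀ x, ‖∫ y, w (x, y) ∂ν‖ ≤ C := fun x => tens_bdd (μ := ν) fun y => hC (x, y)
  have hBC : ∀ y, ‖∫ x, w (x, y) ∂μ‖ ≤ C := fun y => tens_bdd (μ := μ) fun x => hC (x, y)
  have hwx : ∀ x, Measurable (fun y => w (x, y)) := fun x => hw.comp measurable_prodMk_left
  have hwy : ∀ y, Measurable (fun x => w (x, y)) := fun y => hw.comp measurable_prodMk_right
  have e1 : ∫ p, ‖w p‖ ^ 2 ∂(μ.prod ν) = ∫ x, ∫ y, ‖w (x, y)‖ ^ 2 ∂ν ∂μ :=
    integral_prod _ (tens_int_sq hw hC)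
  have e2 : ∫ p, w p ∂(μ.prod ν) = ∫ x, ∫ y, w (x, y) ∂ν ∂μ :=
    integral_prod _ (tens_int hw hC)
  have i1 : Integrable (fun x => ∫ y, ‖w (x, y)‖ ^ 2 ∂ν) μ :=
    (tens_int_sq (μ := μ.prod ν) hw hC).integral_prod_left
  have i2 : Integrable (fun x => ‖∫ y, w (x, y) ∂ν‖ ^ 2) μ := tens_int_sq hA hAC
  have e3 : (∫ x, ((∫ y, ‖w (x, y)‖ ^ 2 ∂ν) - ‖∫ y, w (x, y) ∂ν‖ ^ 2) ∂μ) =
      (∫ x, ∫ y, ‖w (x, y)‖ ^ 2 ∂ν ∂μ) - ∫ x, ‖∫ y, w (x, y) ∂ν‖ ^ 2 ∂μ :=
    integral_sub i1 i2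
  -- the centred function
  have hg : Measurable (fun p : X × Y => w p - ∫ x, w (x, p.2) ∂μ) :=
    hw.sub (hB.comp measurable_snd)
  have hgC : ∀ p : X × Y, ‖w p - ∫ x, w (x, p.2) ∂μ‖ ≤ C + C := fun p =>
    (norm_sub_le _ _).trans (add_le_add (hC p) (hBC p.2))
  have e4 : ∀ x, (∫ y, w (x, y) ∂ν) - ∫ x', ∫ y, w (x', y) ∂ν ∂μ =
      ∫ y, (w (x, y) - ∫ x', w (x', y) ∂μ) ∂ν := by
    intro x
    rw [integral_sub (tens_int (hwx x) fun y => hC (x, y)) (tens_int hB hBC)]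
    congr 1
    exact integral_integral_swap (tens_int (μ := μ.prod ν) hw hC)
  have e5 : (∫ x, ‖∫ y, w (x, y) ∂ν‖ ^ 2 ∂μ) - ‖∫ x, ∫ y, w (x, y) ∂ν ∂μ‖ ^ 2 ≤
      ∫ x, ∫ y, ‖w (x, y) - ∫ x', w (x', y) ∂μ‖ ^ 2 ∂ν ∂μ := by
    rw [tens_var_eq hA hAC]
    refine integral_mono_of_nonneg (Filter.Eventually.of_forall fun x => by positivity)
      (tens_int_sq (μ := μ.prod ν) hg hgC).integral_prod_left
      (Filter.Eventually.of_forall fun x => ?_)
    simp only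
    rw [e4 x]
    exact tens_jensen (hg.comp (measurable_prodMk_left (x := x))) fun y => hgC (x, y)
  have e6 : ∫ x, ∫ y, ‖w (x, y) - ∫ x', w (x', y) ∂μ‖ ^ 2 ∂ν ∂μ =
      ∫ y, ∫ x, ‖w (x, y) - ∫ x', w (x', y) ∂μ‖ ^ 2 ∂μ ∂ν :=
    integral_integral_swap (tens_int_sq (μ := μ.prod ν) hg hgC)
  have e7 : ∫ y, ∫ x, ‖w (x, y) - ∫ x', w (x', y) ∂μ‖ ^ 2 ∂μ ∂ν =
      ∫ y, ((∫ x, ‖w (x, y)‖ ^ 2 ∂μ) - ‖∫ x, w (x, y) ∂μ‖ ^ 2) ∂ν := by
    refine integral_congr_ae (Filter.Eventually.of_forall fun y => ?_)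
    exact (tens_var_eq (hwy y) fun x => hC (x, y)).symm
  rw [e1, e2, e3]
  linarith [e5.trans_eq (e6.trans e7)]

private theorem tens_fin {Z : Type} [MeasurableSpace Z]
    {ι : Type} [Fintype ι] {μ : Measure Z} [IsProbabilityMeasure μ] : ∀ (n : ℕ)
    {w : (Fin n → Z) → EuclideanSpace ℝ ι} (_ : Measurable w) {C : ℝ} (_ : ∀ p, ‖w p‖ ≤ C),
    (∫ p, ‖w p‖ ^ 2 ∂(Measure.pi fun _ : Fin n => μ)) -
        ‖∫ p, w p ∂(Measure.pi fun _ : Fin n => μ)‖ ^ 2 ≤
      ∑ r, ∫ p, ((∫ z, ‖w (Function.update p r z)‖ ^ 2 ∂μ) -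
        ‖∫ z, w (Function.update p r z) ∂μ‖ ^ 2) ∂(Measure.pi fun _ : Fin n => μ)
  | 0, w, hw, C, hC => by
    rw [Finset.univ_eq_empty, Finset.sum_empty]
    have h : ∀ p : Fin 0 → Z, w p = w (fun i => i.elim0) := fun p =>
      congrArg w (Subsingleton.elim _ _)
    simp_rw [h]
    simp
  | n + 1, w, hw, C, hC => by
    have mp := measurePreserving_piFinSuccAbove (fun _ : Fin (n + 1) => μ) 0
    set e := MeasurableEquiv.piFinSuccAbove (fun _ : Fin (n + 1) => Z) 0 with he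
    have mps := mp.symm
    have hsymm : ∀ q : Z × (Fin n → Z), e.symm q = Fin.cons q.1 q.2 := fun q => by
      rw [he]
      simp only [MeasurableEquiv.piFinSuccAbove, MeasurableEquiv.coe_mk, MeasurableEquiv.symm_mk,
        Fin.insertNthEquiv_zero]
      rfl
    have tr : ∀ {F : Type} [NormedAddCommGroup F] [NormedSpace ℝ F] (g : (Fin (n + 1) → Z) → F),
        ∫ p, g p ∂(Measure.pi fun _ : Fin (n + 1) => μ) =
          ∫ q : Z × (Fin n → Z), g (Fin.cons q.1 q.2)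
            ∂(μ.prod (Measure.pi fun _ : Fin n => μ)) := by
      intro F _ _ g
      rw [← mps.integral_comp' (g := g)]
      simp_rw [hsymm]
    have hcm : Measurable (fun q : Z × (Fin n → Z) => (Fin.cons q.1 q.2 : Fin (n + 1) → Z)) := by
      have h1 : (e.symm : Z × (Fin n → Z) → (Fin (n + 1) → Z)) =
          fun q => Fin.cons q.1 q.2 := funext hsymm
      rw [← h1]
      exact e.symm.measurable
    have hW : Measurable (fun q : Z × (Fin n → Z) =>
        w (Fin.cons q.1 q.2 : Fin (n + 1) → Z)) := hw.comp hcm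
    have hWz : ∀ z : Z, Measurable (fun p : Fin n → Z => w (Fin.cons z p : Fin (n + 1) → Z)) :=
      fun z => hW.comp (measurable_prodMk_left (x := z))
    have key := var_prod_le (μ := μ) (ν := Measure.pi fun _ : Fin n => μ) hW
      ⟨C, fun q => hC _⟩
    have hupm : ∀ r : Fin (n + 1), Measurable (fun x : (Fin (n + 1) → Z) × Z =>
        w (Function.update x.1 r x.2)) := fun r => hw.comp (measurable_update' (a := r))
    have hV : ∀ r : Fin (n + 1), Measurable (fun p : Fin (n + 1) → Z =>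
        (∫ z, ‖w (Function.update p r z)‖ ^ 2 ∂μ) -
          ‖∫ z, w (Function.update p r z) ∂μ‖ ^ 2) := fun r =>
      (tens_meas_sq (hupm r)).sub ((tens_meas (hupm r)).norm.pow_const 2)
    have hVn : ∀ (r : Fin (n + 1)) (p : Fin (n + 1) → Z),
        0 ≤ (∫ z, ‖w (Function.update p r z)‖ ^ 2 ∂μ) -
          ‖∫ z, w (Function.update p r z) ∂μ‖ ^ 2 := fun r p =>
      sub_nonneg.2 (tens_jensen (hw.comp (measurable_update p (a := r))) fun z => hC _)
    have hVC : ∀ (r : Fin (n + 1)) (p : Fin (n + 1) → Z),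
        ‖(∫ z, ‖w (Function.update p r z)‖ ^ 2 ∂μ) -
          ‖∫ z, w (Function.update p r z) ∂μ‖ ^ 2‖ ≤ C ^ 2 := by
      intro r p
      rw [Real.norm_of_nonneg (hVn r p)]
      have h1 : ∫ z, ‖w (Function.update p r z)‖ ^ 2 ∂μ ≤ ∫ _z : Z, C ^ 2 ∂μ :=
        integral_mono (tens_int_sq (hw.comp (measurable_update p (a := r))) fun z => hC _)
          (integrable_const _) fun z => pow_le_pow_left₀ (norm_nonneg _) (hC _) 2
      have h2 : 0 ≤ ‖∫ z, w (Function.update p r z) ∂μ‖ ^ 2 := by positivity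
      rw [integral_const] at h1
      simp only [probReal_univ, one_smul] at h1
      linarith
    have hVI : ∀ r : Fin (n + 1), Integrable (fun q : Z × (Fin n → Z) =>
        (∫ z, ‖w (Function.update (Fin.cons q.1 q.2 : Fin (n + 1) → Z) r z)‖ ^ 2 ∂μ) -
          ‖∫ z, w (Function.update (Fin.cons q.1 q.2 : Fin (n + 1) → Z) r z) ∂μ‖ ^ 2)
        (μ.prod (Measure.pi fun _ : Fin n => μ)) := fun r =>
      Integrable.of_bound ((hV r).comp hcm).aestronglyMeasurable (C ^ 2)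
        (Filter.Eventually.of_forall fun q => hVC r _)
    rw [Fin.sum_univ_succ, tr (fun p => ‖w p‖ ^ 2), tr w]
    have t0 : ∫ p, ((∫ z, ‖w (Function.update p 0 z)‖ ^ 2 ∂μ) -
        ‖∫ z, w (Function.update p 0 z) ∂μ‖ ^ 2) ∂(Measure.pi fun _ : Fin (n + 1) => μ) =
        ∫ p : Fin n → Z, ((∫ z, ‖w (Fin.cons z p)‖ ^ 2 ∂μ) -
          ‖∫ z, w (Fin.cons z p) ∂μ‖ ^ 2) ∂(Measure.pi fun _ : Fin n => μ) := by
      rw [tr]
      simp_rw [Fin.update_cons_zero]
      rw [integral_fun_snd (μ := μ) (ν := Measure.pi fun _ : Fin n => μ)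
        (fun p : Fin n → Z => (∫ z, ‖w (Fin.cons z p)‖ ^ 2 ∂μ) -
          ‖∫ z, w (Fin.cons z p) ∂μ‖ ^ 2)]
      simp
    have t1 : ∀ r : Fin n, ∫ p, ((∫ z, ‖w (Function.update p r.succ z)‖ ^ 2 ∂μ) -
        ‖∫ z, w (Function.update p r.succ z) ∂μ‖ ^ 2) ∂(Measure.pi fun _ : Fin (n + 1) => μ) =
        ∫ y, ∫ p : Fin n → Z, ((∫ z, ‖w (Fin.cons y (Function.update p r z))‖ ^ 2 ∂μ) -
          ‖∫ z, w (Fin.cons y (Function.update p r z)) ∂μ‖ ^ 2)
            ∂(Measure.pi fun _ : Fin n => μ) ∂μ := by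
      intro r
      rw [tr, integral_prod _ (hVI r.succ)]
      simp_rw [Fin.cons_update]
    have i1 : ∀ r : Fin n, Integrable (fun y => ∫ p : Fin n → Z,
        ((∫ z, ‖w (Fin.cons y (Function.update p r z))‖ ^ 2 ∂μ) -
          ‖∫ z, w (Fin.cons y (Function.update p r z)) ∂μ‖ ^ 2)
            ∂(Measure.pi fun _ : Fin n => μ)) μ := by
      intro r
      have := (hVI r.succ).integral_prod_left
      simpa only [Fin.cons_update] using this
    have hWI : Integrable (fun q : Z × (Fin n → Z) => ‖w (Fin.cons q.1 q.2)‖ ^ 2)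
        (μ.prod (Measure.pi fun _ : Fin n => μ)) := tens_int_sq hW fun q => hC _
    have i2 : Integrable (fun y => (∫ p : Fin n → Z, ‖w (Fin.cons y p)‖ ^ 2
        ∂(Measure.pi fun _ : Fin n => μ)) -
          ‖∫ p : Fin n → Z, w (Fin.cons y p) ∂(Measure.pi fun _ : Fin n => μ)‖ ^ 2) μ :=
      (hWI.integral_prod_left).sub (tens_int_sq (tens_meas hW)
        fun y => tens_bdd (μ := Measure.pi fun _ : Fin n => μ) fun p => hC _)
    have k1 : ∫ y, ((∫ p : Fin n → Z, ‖w (Fin.cons y p)‖ ^ 2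
        ∂(Measure.pi fun _ : Fin n => μ)) -
          ‖∫ p : Fin n → Z, w (Fin.cons y p) ∂(Measure.pi fun _ : Fin n => μ)‖ ^ 2) ∂μ ≤
        ∑ r : Fin n, ∫ p, ((∫ z, ‖w (Function.update p r.succ z)‖ ^ 2 ∂μ) -
        ‖∫ z, w (Function.update p r.succ z) ∂μ‖ ^ 2)
          ∂(Measure.pi fun _ : Fin (n + 1) => μ) := by
      simp_rw [t1]
      rw [← integral_finsetSum _ fun r _ => i1 r]
      exact integral_mono i2 (integrable_finsetSum _ fun r _ => i1 r) fun y =>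
        tens_fin n (hWz y) fun p => hC _
    rw [t0]
    linarith [key, k1]

theorem var_pi_le {R : Type} [Fintype R] [DecidableEq R] {Z : Type} [MeasurableSpace Z]
    {ι : Type} [Fintype ι] {μ : Measure Z} [IsProbabilityMeasure μ]
    {w : (R → Z) → EuclideanSpace ℝ ι} (hw : Measurable w) (bw : ∃ C, ∀ p, ‖w p‖ ≤ C) :
    (∫ p, ‖w p‖ ^ 2 ∂(Measure.pi fun _ : R => μ)) -
        ‖∫ p, w p ∂(Measure.pi fun _ : R => μ)‖ ^ 2 ≤
      ∑ r, ∫ p, ((∫ z, ‖w (Function.update p r z)‖ ^ 2 ∂μ) -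
        ‖∫ z, w (Function.update p r z) ∂μ‖ ^ 2) ∂(Measure.pi fun _ : R => μ) := by
  obtain ⟨C, hC⟩ := bw
  set g : R ≃ Fin (Fintype.card R) := Fintype.equivFin R with hg
  have mp := measurePreserving_piCongrLeft (fun _ : Fin (Fintype.card R) => μ) g
  have mps := mp.symm
  set e := MeasurableEquiv.piCongrLeft (fun _ : Fin (Fintype.card R) => Z) g with he
  have hsymm : ∀ (q : Fin (Fintype.card R) → Z), e.symm q = fun r => q (g r) := fun q => rfl
  have tr : ∀ {F : Type} [NormedAddCommGroup F] [NormedSpace ℝ F] (f : (R → Z) → F),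
      ∫ p, f p ∂(Measure.pi fun _ : R => μ) =
        ∫ q : Fin (Fintype.card R) → Z, f (fun r => q (g r))
          ∂(Measure.pi fun _ : Fin (Fintype.card R) => μ) := by
    intro F _ _ f
    rw [← mps.integral_comp' (g := f)]
    simp_rw [hsymm]
  have hcm : Measurable (fun (q : Fin (Fintype.card R) → Z) => (fun r => q (g r) : R → Z)) :=
    e.symm.measurable
  have key := tens_fin (μ := μ) (Fintype.card R) (hw.comp hcm) fun q => hC _
  have hup : ∀ (q : Fin (Fintype.card R) → Z) (s : R) (z : Z),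
      (fun r => Function.update q (g s) z (g r)) = Function.update (fun r => q (g r)) s z := by
    intro q s z
    funext r
    by_cases h : r = s
    · subst h
      simp
    · rw [Function.update_of_ne h, Function.update_of_ne (fun h' => h (g.injective h'))]
  rw [tr (fun p => ‖w p‖ ^ 2), tr w]
  refine key.trans_eq ?_
  rw [← Equiv.sum_comp g]
  refine Finset.sum_congr rfl fun s _ => ?_
  rw [tr]
  refine integral_congr_ae (Filter.Eventually.of_forall fun q => ?_)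
  simp only [Function.comp_apply]
  simp_rw [hup]

end Vale.Agent.P347
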