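import Vale.Agent.Lib.P347.Gauss
import Vale.Agent.Lib.P347.Tens

/-!
P347: variance bounds for functions of the noise with block gradient bounds.

Proofs. For fixed `ω.1` apply `var_pi_le` and in each block `gauss_poinc` (a bounded `C^1` map
with bounded `Dv`). The full version: `var_prod_le` and `gauss_poinc` in the first block.
Use `∫ |w - ∫ w|^2 = ∫ |w|^2 - |∫ w|^2`.
-/

open MeasureTheory ProbabilityTheory

namespace Vale.Agent.P347

variable {d K : ℕ} {ι : Type} [Fintype ι]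

/-- the noise is a probability law and polynomials of the norms are integrable -/
theorem noise_isProb (d K : ℕ) : IsProbabilityMeasure (noiseLaw d K) := by
  unfold noiseLaw
  infer_instance

/-- variance identity for bounded maps -/
theorem var_id {X : Type} [MeasurableSpace X] {μ : Measure X} [IsProbabilityMeasure μ]
    {u : X → EuclideanSpace ℝ ι} (hu : Measurable u) (bu : ∃ C, ∀ x, ‖u x‖ ≤ C) :
    ∫ x, ‖u x - ∫ y, u y ∂μ‖ ^ 2 ∂μ = (∫ x, ‖u x‖ ^ 2 ∂μ) - ‖∫ x, u x ∂μ‖ ^ 2 := by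
  obtain ⟨C, hC⟩ := bu
  have hui : Integrable u μ := Integrable.of_bound hu.aestronglyMeasurable C (ae_of_all _ hC)
  have hui2 : Integrable (fun x => ‖u x‖ ^ 2) μ := by
    refine Integrable.of_bound (hu.norm.pow_const 2).aestronglyMeasurable (C ^ 2)
      (ae_of_all _ fun x => ?_)
    rw [Real.norm_eq_abs, abs_of_nonneg (by positivity)]
    exact pow_le_pow_left₀ (norm_nonneg _) (hC x) 2
  set m := ∫ y, u y ∂μ with hm
  have h1 : ∀ x, ‖u x - m‖ ^ 2 = ‖u x‖ ^ 2 - 2 * inner ℝ m (u x) + ‖m‖ ^ 2 := by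
    intro x
    rw [norm_sub_sq_real, real_inner_comm]
  simp_rw [h1]
  have hin : Integrable (fun x => inner ℝ m (u x)) μ := hui.const_inner m
  rw [integral_add, integral_sub hui2 (hin.const_mul 2), integral_const_mul, integral_inner hui m,
    ← hm]
  · simp only [integral_const, probReal_univ, one_smul, real_inner_self_eq_norm_sq]
    ring
  · exact hui2.sub (hin.const_mul 2)
  · exact integrable_const _

/-- one block -/
theorem block_le {u : E d → EuclideanSpace ℝ ι} {L : ℝ}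
    (hu : ContDiff ℝ 1 u) (bu : ∃ C, ∀ x, ‖u x‖ ≤ C) (h : ∀ z, ‖Dv u z‖ ≤ L) :
    (∫ x, ‖u x‖ ^ 2 ∂(stdGaussian (E d))) - ‖∫ x, u x ∂(stdGaussian (E d))‖ ^ 2 ≤ L ^ 2 := by
  have hL : 0 ≤ L := le_trans (norm_nonneg _) (h 0)
  have hp : PG u := by
    obtain ⟨C, hC⟩ := bu
    exact ⟨C, 0, fun x => by simpa using hC x⟩
  have hp' : PG (Dv u) := ⟨L, 0, fun x => by simpa using h x⟩
  refine (gauss_poinc hu hp hp').trans ?_
  calc ∫ x, ‖Dv u x‖ ^ 2 ∂(stdGaussian (E d)) ≤ ∫ _x : E d, L ^ 2 ∂(stdGaussian (E d)) := by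
        refine integral_mono_of_nonneg (ae_of_all _ fun x => by positivity) (integrable_const _)
          (ae_of_all _ fun x => ?_)
        exact pow_le_pow_left₀ (norm_nonneg _) (h x) 2
    _ = L ^ 2 := by simp

theorem rest_le {u : (Rest K → E d) → EuclideanSpace ℝ ι} (hu : Measurable u)
    (bu : ∃ C, ∀ ω, ‖u ω‖ ≤ C) {L : Rest K → ℝ}
    (h : ∀ (ζ : Rest K → E d) (r : Rest K),
      ContDiff ℝ 1 (fun z => u (Function.update ζ r z)) ∧
      ∀ z, ‖Dv (fun z => u (Function.update ζ r z)) z‖ ≤ L r) :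
    (∫ p, ‖u p‖ ^ 2 ∂(Measure.pi fun _ : Rest K => stdGaussian (E d))) -
        ‖∫ p, u p ∂(Measure.pi fun _ : Rest K => stdGaussian (E d))‖ ^ 2 ≤ ∑ r, L r ^ 2 := by
  refine (var_pi_le hu bu).trans (Finset.sum_le_sum fun r _ => ?_)
  have hb : ∀ p : Rest K → E d,
      (∫ z, ‖u (Function.update p r z)‖ ^ 2 ∂(stdGaussian (E d))) -
        ‖∫ z, u (Function.update p r z) ∂(stdGaussian (E d))‖ ^ 2 ≤ L r ^ 2 := fun p =>
    block_le (h p r).1 (by obtain ⟨C, hC⟩ := bu; exact ⟨C, fun x => hC _⟩) (h p r).2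
  have hb0 : ∀ p : Rest K → E d, 0 ≤
      (∫ z, ‖u (Function.update p r z)‖ ^ 2 ∂(stdGaussian (E d))) -
        ‖∫ z, u (Function.update p r z) ∂(stdGaussian (E d))‖ ^ 2 := by
    intro p
    have := var_id (μ := stdGaussian (E d)) (u := fun z => u (Function.update p r z))
      (hu.comp (measurable_update p)) (by obtain ⟨C, hC⟩ := bu; exact ⟨C, fun x => hC _⟩)
    rw [← this]
    exact integral_nonneg fun x => by positivity
  calc _ ≤ ∫ _p : Rest K → E d, L r ^ 2 ∂(Measure.pi fun _ : Rest K => stdGaussian (E d)) := by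
        refine integral_mono_of_nonneg (ae_of_all _ hb0) (integrable_const _) (ae_of_all _ hb)
    _ = L r ^ 2 := by simp

theorem efron_rest {w : Noise d K → EuclideanSpace ℝ ι} (hw : Measurable w)
    (bw : ∃ C, ∀ ω, ‖w ω‖ ≤ C) {L : Rest K → ℝ}
    (h : ∀ (ω : Noise d K) (r : Rest K),
      ContDiff ℝ 1 (fun z => w (ω.1, Function.update ω.2 r z)) ∧
      ∀ z, ‖Dv (fun z => w (ω.1, Function.update ω.2 r z)) z‖ ≤ L r) :
    ∫ ω, ‖w ω - ∫ ζ, w (ω.1, ζ) ∂(Measure.pi fun _ : Rest K => stdGaussian (E d))‖ ^ 2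
      ∂(noiseLaw d K) ≤ ∑ r, L r ^ 2 := by
  obtain ⟨C, hC⟩ := bw
  have hwx : ∀ x : E d, Measurable (fun ζ : Rest K → E d => w (x, ζ)) := fun x =>
    hw.comp measurable_prodMk_left
  have hmeas : Measurable (fun x : E d =>
      ∫ ζ, w (x, ζ) ∂(Measure.pi fun _ : Rest K => stdGaussian (E d))) :=
    (hw.stronglyMeasurable.integral_prod_right').measurable
  have hmb : ∀ x : E d,
      ‖∫ ζ, w (x, ζ) ∂(Measure.pi fun _ : Rest K => stdGaussian (E d))‖ ≤ C := by
    intro x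
    refine (norm_integral_le_of_norm_le_const (C := C) (ae_of_all _ fun ζ => hC (x, ζ))).trans ?_
    simp
  have hint : Integrable (fun ω : Noise d K => ‖w ω - ∫ ζ, w (ω.1, ζ)
      ∂(Measure.pi fun _ : Rest K => stdGaussian (E d))‖ ^ 2)
      ((stdGaussian (E d)).prod (Measure.pi fun _ : Rest K => stdGaussian (E d))) := by
    refine Integrable.of_bound
      (((hw.sub (hmeas.comp measurable_fst)).norm.pow_const 2).aestronglyMeasurable)
      ((C + C) ^ 2) (ae_of_all _ fun ω => ?_)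
    rw [Real.norm_eq_abs, abs_of_nonneg (by positivity)]
    exact pow_le_pow_left₀ (norm_nonneg _) ((norm_sub_le _ _).trans (add_le_add (hC ω) (hmb ω.1))) 2
  unfold noiseLaw
  rw [integral_prod _ hint]
  calc _ ≤ ∫ _x : E d, ∑ r, L r ^ 2 ∂(stdGaussian (E d)) := by
        refine integral_mono_of_nonneg (ae_of_all _ fun x => integral_nonneg fun ζ => by positivity)
          (integrable_const _) (ae_of_all _ fun x => ?_)
        simp only
        rw [var_id (hwx x) ⟨C, fun ζ => hC (x, ζ)⟩]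
        exact rest_le (hwx x) ⟨C, fun ζ => hC (x, ζ)⟩ (fun ζ r => h (x, ζ) r)
    _ = _ := by simp

theorem efron_full {w : Noise d K → EuclideanSpace ℝ ι} (hw : Measurable w)
    (bw : ∃ C, ∀ ω, ‖w ω‖ ≤ C) {L : Rest K → ℝ} {L0 : ℝ}
    (h0 : ∀ ζ : Rest K → E d, ContDiff ℝ 1 (fun x => w (x, ζ)) ∧
      ∀ x, ‖Dv (fun x => w (x, ζ)) x‖ ≤ L0)
    (h : ∀ (ω : Noise d K) (r : Rest K),
      ContDiff ℝ 1 (fun z => w (ω.1, Function.update ω.2 r z)) ∧
      ∀ z, ‖Dv (fun z => w (ω.1, Function.update ω.2 r z)) z‖ ≤ L r) :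
    ∫ ω, ‖w ω - ∫ ω', w ω' ∂(noiseLaw d K)‖ ^ 2 ∂(noiseLaw d K) ≤ L0 ^ 2 + ∑ r, L r ^ 2 := by
  have hP := noise_isProb d K
  obtain ⟨C, hC⟩ := bw
  have hwx : ∀ x : E d, Measurable (fun ζ : Rest K → E d => w (x, ζ)) := fun x =>
    hw.comp measurable_prodMk_left
  have hwz : ∀ ζ : Rest K → E d, Measurable (fun x : E d => w (x, ζ)) := fun ζ =>
    hw.comp measurable_prodMk_right
  rw [var_id hw ⟨C, hC⟩]
  unfold noiseLaw
  refine (var_prod_le hw ⟨C, hC⟩).trans ?_
  rw [add_comm (L0 ^ 2)]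
  refine add_le_add ?_ ?_
  · calc _ ≤ ∫ _x : E d, ∑ r, L r ^ 2 ∂(stdGaussian (E d)) := by
          refine integral_mono_of_nonneg (ae_of_all _ fun x => ?_)
            (integrable_const _) (ae_of_all _ fun x => ?_)
          · simp only [Pi.zero_apply]
            rw [← var_id (hwx x) ⟨C, fun ζ => hC (x, ζ)⟩]
            exact integral_nonneg fun ζ => by positivity
          · exact rest_le (hwx x) ⟨C, fun ζ => hC (x, ζ)⟩ (fun ζ r => h (x, ζ) r)
      _ = _ := by simp
  · calc _ ≤ ∫ _ζ : Rest K → E d, L0 ^ 2 ∂(Measure.pi fun _ : Rest K => stdGaussian (E d)) := by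
          refine integral_mono_of_nonneg (ae_of_all _ fun ζ => ?_)
            (integrable_const _) (ae_of_all _ fun ζ => ?_)
          · simp only [Pi.zero_apply]
            rw [← var_id (hwz ζ) ⟨C, fun x => hC (x, ζ)⟩]
            exact integral_nonneg fun x => by positivity
          · exact block_le (h0 ζ).1 ⟨C, fun x => hC (x, ζ)⟩ (h0 ζ).2
      _ = _ := by simp

theorem gauss_memLp (d q : ℕ) : MemLp (fun x : E d => ‖x‖) (q : ENNReal) (stdGaussian (E d)) :=
  (IsGaussian.memLp_id (stdGaussian (E d)) (q : ENNReal) (by simp)).norm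

theorem noise_memLp_fst (d K q : ℕ) :
    MemLp (fun ω : Noise d K => ‖ω.1‖) (q : ENNReal) (noiseLaw d K) :=
  (gauss_memLp d q).comp_measurePreserving
    (f := (Prod.fst : E d × (Rest K → E d) → E d)) measurePreserving_fst

theorem noise_memLp_snd (d K q : ℕ) (r : Rest K) :
    MemLp (fun ω : Noise d K => ‖ω.2 r‖) (q : ENNReal) (noiseLaw d K) := by
  have h1 : MemLp (fun ζ : Rest K → E d => ‖ζ r‖) (q : ENNReal)
      (Measure.pi fun _ : Rest K => stdGaussian (E d)) :=
    (gauss_memLp d q).comp_measurePreserving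
      (measurePreserving_eval (fun _ : Rest K => stdGaussian (E d)) r)
  exact h1.comp_measurePreserving
    (f := (Prod.snd : E d × (Rest K → E d) → (Rest K → E d))) measurePreserving_snd

theorem noise_memLp (d K q : ℕ) :
    MemLp (fun ω : Noise d K => 1 + ‖ω.1‖ + ∑ r, ‖ω.2 r‖) (q : ENNReal) (noiseLaw d K) := by
  have hP := noise_isProb d K
  refine MemLp.add (MemLp.add (memLp_const 1) (noise_memLp_fst d K q)) ?_
  exact memLp_finsetSum _ fun r _ => noise_memLp_snd d K q r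

/-- polynomials of the norms are integrable -/
theorem noise_integrable {F : Type} [NormedAddCommGroup F] {u : Noise d K → F}
    (hu : AEStronglyMeasurable u (noiseLaw d K)) {C : ℝ} {p : ℕ}
    (h : ∀ ω, ‖u ω‖ ≤ C * (1 + ‖ω.1‖ + ∑ r, ‖ω.2 r‖) ^ p) : Integrable u (noiseLaw d K) := by
  have hP := noise_isProb d K
  have h4 : Integrable (fun ω : Noise d K => ‖1 + ‖ω.1‖ + ∑ r, ‖ω.2 r‖‖ ^ p) (noiseLaw d K) :=
    (noise_memLp d K p).integrable_norm_pow'
  refine (h4.const_mul C).mono' hu (ae_of_all _ fun ω => ?_)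
  refine (h ω).trans (le_of_eq ?_)
  rw [Real.norm_eq_abs, abs_of_nonneg (by positivity)]

end Vale.Agent.P347
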