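import Vale.Agent.Lib.P347.ChainA
import Vale.Agent.Lib.P347.Gauss

/-!
P347: expansion of one step of the chain as `η → 0`.

Proof. `Pop G η f y = E (Nop η f) x`, `x` of law `RG G η y`. Gaussian step: `Nop η f = f +
(η/2) tr D²f + O (K η^(5/4))` (Taylor, `gauss_mean`, `gauss_ibp_mat`). Then Taylor for `f` at `y`
under `RG G η y`, with the moments of `RG_moment`, the first order term by `RG_mean`, the second
order term by `RG_ibp`, and the modulus of continuity of the Hessian for `tr D²f`.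
-/

open MeasureTheory ProbabilityTheory
open scoped RealInnerProductSpace

namespace Vale.Agent.P347

namespace ExpandL

variable {d : ℕ} {b : ℝ} {G : E d → ℝ} {η : ℝ}

/-- hypotheses on the test function -/
structure Tst (f : E d → ℝ) (η B1 B2 K : ℝ) : Prop where
  smooth : ContDiff ℝ 2 f
  bdd : ∃ C, ∀ x, |f x| ≤ C
  g1 : ∀ x, ‖gradient f x‖ ≤ B1
  g2 : ∀ x, ‖fderiv ℝ (gradient f) x‖ ≤ B2
  g3 : ∀ x y, ‖fderiv ℝ (gradient f) x - fderiv ℝ (gradient f) y‖ ≤ K * (√‖x - y‖ + √η)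
  K0 : 0 ≤ K

/-- the trace of the Hessian -/
noncomputable def tr (f : E d → ℝ) (x : E d) : ℝ := ∑ i, Dv (gradient f) x (i, i)

theorem tr_eq (f : E d → ℝ) (x : E d) :
    tr f x = ∑ i, ⟪fderiv ℝ (gradient f) x (EuclideanSpace.single i 1),
      EuclideanSpace.single i 1⟫ := by
  unfold tr
  refine Finset.sum_congr rfl fun i _ => ?_
  rw [Dv_apply, EuclideanSpace.inner_single_right]
  simp

theorem opNorm_sub_le (u : E d → E d) (x y : E d) :
    ‖fderiv ℝ u x - fderiv ℝ u y‖ ≤ ‖Dv u x - Dv u y‖ := by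
  have h1 := opNorm_le_Dv (fun z => (fderiv ℝ u x - fderiv ℝ u y) z) (0 : E d)
  have h2 : fderiv ℝ (fun z => (fderiv ℝ u x - fderiv ℝ u y) z) (0 : E d) =
      fderiv ℝ u x - fderiv ℝ u y := (fderiv ℝ u x - fderiv ℝ u y).fderiv
  rw [h2] at h1
  have h3 : Dv (fun z => (fderiv ℝ u x - fderiv ℝ u y) z) (0 : E d) = Dv u x - Dv u y := by
    ext p
    unfold Dv
    rw [h2]
    rfl
  rwa [h3] at h1

theorem tst_of {f : E d → ℝ} {B1 B2 K : ℝ} (hf : CB 2 (sc f))
    (h1 : ∀ x, ‖Dv (sc f) x‖ ≤ B1) (h2 : ∀ x, ‖Dv (Dv (sc f)) x‖ ≤ B2)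
    (h3 : ∀ x y, ‖Dv (Dv (sc f)) x - Dv (Dv (sc f)) y‖ ≤ K * (√‖x - y‖ + √η)) (hK : 0 ≤ K) :
    Tst f η B1 B2 K where
  smooth := by exact_mod_cast hf.contDiff_of_sc
  bdd := by
    obtain ⟨C, hC⟩ := hf.bdd
    exact ⟨C, fun x => by rw [← norm_sc]; exact hC x⟩
  g1 x := by rw [← norm_Dv_sc]; exact h1 x
  g2 x := by
    refine (opNorm_le_Dv _ _).trans ?_
    rw [← norm_DDv_sc (by exact_mod_cast hf.contDiff_of_sc)]
    exact h2 x
  g3 x y := by
    refine (opNorm_sub_le _ _ _).trans ?_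
    rw [norm_DDv_sc_sub (by exact_mod_cast hf.contDiff_of_sc)]
    exact h3 x y
  K0 := hK

theorem taylor {f : E d → ℝ} {B1 B2 K : ℝ} (h : Tst f η B1 B2 K) (y v : E d) :
    |f (y + v) - f y - ⟪gradient f y, v⟫ - 1 / 2 * ⟪fderiv ℝ (gradient f) y v, v⟫| ≤
      K * (√‖v‖ + √η) * ‖v‖ ^ 2 := by
  obtain ⟨R, hR⟩ : ∃ R, R = K * (√‖v‖ + √η) * ‖v‖ ^ 2 := ⟨_, rfl⟩
  have hK := h.K0
  have hR0 : 0 ≤ R := by rw [hR]; positivity
  obtain ⟨q, hq⟩ : ∃ q, q = ⟪fderiv ℝ (gradient f) y v, v⟫ := ⟨_, rfl⟩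
  -- first derivative
  have hd1 : ∀ t : ℝ, HasDerivAt (fun s : ℝ => ⟪gradient f (y + s • v), v⟫ - s * q)
      (⟪fderiv ℝ (gradient f) (y + t • v) v, v⟫ - q) t := by
    intro t
    have h1 := Conv.hasDerivAt_grad_line h.smooth y v t
    rw [← Conv.fderiv_grad h.smooth] at h1
    have h2 : HasDerivAt (fun s : ℝ => s * q) q t := by
      simpa using (hasDerivAt_id t).mul_const q
    exact h1.sub h2
  have hb1 : ∀ t ∈ Set.Ico (0 : ℝ) 1, ‖⟪fderiv ℝ (gradient f) (y + t • v) v, v⟫ - q‖ ≤ R := by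
    intro t ht
    have e1 : ⟪fderiv ℝ (gradient f) (y + t • v) v, v⟫ - q =
        ⟪(fderiv ℝ (gradient f) (y + t • v) - fderiv ℝ (gradient f) y) v, v⟫ := by
      rw [hq, sub_apply, inner_sub_left]
    rw [e1]
    have e2 : ‖fderiv ℝ (gradient f) (y + t • v) - fderiv ℝ (gradient f) y‖ ≤
        K * (√‖v‖ + √η) := by
      refine (h.g3 _ _).trans ?_
      have e3 : ‖y + t • v - y‖ ≤ ‖v‖ := by
        rw [add_sub_cancel_left, norm_smul, Real.norm_of_nonneg ht.1]
        have := norm_nonneg v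
        nlinarith [ht.2]
      have e4 := Real.sqrt_le_sqrt e3
      exact mul_le_mul_of_nonneg_left (by linarith) hK
    calc ‖⟪(fderiv ℝ (gradient f) (y + t • v) - fderiv ℝ (gradient f) y) v, v⟫‖ ≤
        ‖(fderiv ℝ (gradient f) (y + t • v) - fderiv ℝ (gradient f) y) v‖ * ‖v‖ :=
          norm_inner_le_norm _ _
      _ ≤ (K * (√‖v‖ + √η) * ‖v‖) * ‖v‖ := by
          apply mul_le_mul_of_nonneg_right _ (norm_nonneg _)
          exact (ContinuousLinearMap.le_opNorm _ _).trans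
            (mul_le_mul_of_nonneg_right e2 (norm_nonneg _))
      _ = R := by rw [hR]; ring
  have hg1 : ∀ t ∈ Set.Icc (0 : ℝ) 1,
      ‖(⟪gradient f (y + t • v), v⟫ - t * q) - ⟪gradient f y, v⟫‖ ≤ R := by
    intro t ht
    have h1 := norm_image_sub_le_of_norm_deriv_le_segment'
      (f := fun s : ℝ => ⟪gradient f (y + s • v), v⟫ - s * q)
      (fun s _ => (hd1 s).hasDerivWithinAt) hb1 t ht
    simp only [zero_smul, add_zero, zero_mul, sub_zero] at h1
    refine h1.trans ?_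
    nlinarith [ht.2, ht.1]
  -- second
  have hd2 : ∀ t : ℝ, HasDerivAt (fun s : ℝ => f (y + s • v) - s * ⟪gradient f y, v⟫ - 1 / 2 * s ^ 2 * q)
      ((⟪gradient f (y + t • v), v⟫ - t * q) - ⟪gradient f y, v⟫) t := by
    intro t
    have h1 := Conv.hasDerivAt_line h.smooth y v t
    have h2 : HasDerivAt (fun s : ℝ => s * ⟪gradient f y, v⟫) ⟪gradient f y, v⟫ t := by
      simpa using (hasDerivAt_id t).mul_const ⟪gradient f y, v⟫
    have h3 : HasDerivAt (fun s : ℝ => 1 / 2 * s ^ 2 * q) (t * q) t := by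
      have h4 := ((hasDerivAt_pow 2 t).const_mul (1 / 2 : ℝ)).mul_const q
      refine h4.congr_deriv ?_
      show 1 / 2 * (((2 : ℕ) : ℝ) * t ^ 1) * q = t * q
      push_cast
      ring
    refine ((h1.sub h2).sub h3).congr_deriv ?_
    ring
  have h5 := norm_image_sub_le_of_norm_deriv_le_segment_01'
    (f := fun s : ℝ => f (y + s • v) - s * ⟪gradient f y, v⟫ - 1 / 2 * s ^ 2 * q)
    (fun s _ => (hd2 s).hasDerivWithinAt) (fun s hs => hg1 s ⟨hs.1, hs.2.le⟩)
  simp only [one_smul, zero_smul, add_zero, one_mul, zero_mul, sub_zero, one_pow, ne_eq,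
    OfNat.ofNat_ne_zero, not_false_eq_true, zero_pow, mul_zero, mul_one] at h5
  rw [Real.norm_eq_abs] at h5
  rw [← hR, ← hq]
  convert h5 using 2
  ring

theorem sqrt_le_aux {t : ℝ} (ht : 0 ≤ t) (hη : 0 < η) : √t ≤ √(√η) * (1 + t ^ 2 / η) := by
  obtain ⟨a, ha⟩ : ∃ a, a = √(√η) := ⟨_, rfl⟩
  obtain ⟨r, hr⟩ : ∃ r, r = √t := ⟨_, rfl⟩
  have ha0 : 0 < a := by rw [ha]; positivity
  have hr0 : 0 ≤ r := by rw [hr]; positivity
  have ha4 : η = a ^ 4 := by
    have h1 : a ^ 2 = √η := by rw [ha]; exact Real.sq_sqrt (Real.sqrt_nonneg _)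
    have h2 : (a ^ 2) ^ 2 = η := by rw [h1]; exact Real.sq_sqrt hη.le
    rw [← h2]; ring
  have hr2 : t = r ^ 2 := by rw [hr]; exact (Real.sq_sqrt ht).symm
  rw [← ha, ← hr, ha4, hr2]
  have h3 : a * (1 + (r ^ 2) ^ 2 / a ^ 4) = a + r ^ 4 / a ^ 3 := by
    field_simp
  rw [h3]
  rcases le_total r a with h | h
  · have : 0 ≤ r ^ 4 / a ^ 3 := by positivity
    linarith
  · have h4 : r ≤ r ^ 4 / a ^ 3 := by
      rw [le_div_iff₀ (by positivity)]
      have : a ^ 3 ≤ r ^ 3 := pow_le_pow_left₀ ha0.le h 3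
      calc r * a ^ 3 ≤ r * r ^ 3 := mul_le_mul_of_nonneg_left this hr0
        _ = r ^ 4 := by ring
    linarith

theorem sqrt_le_a (hη : 0 < η) (hη1 : η ≤ 1) : √η ≤ √(√η) := by
  apply Real.sqrt_le_sqrt
  rw [Real.le_sqrt hη.le hη.le]
  nlinarith

theorem eta_le_a (hη : 0 < η) (hη1 : η ≤ 1) : η ≤ √(√η) := by
  refine le_trans ?_ (sqrt_le_a hη hη1)
  rw [Real.le_sqrt hη.le hη.le]
  nlinarith

theorem rem_le {K t : ℝ} (hK : 0 ≤ K) (ht : 0 ≤ t) (hη : 0 < η) (hη1 : η ≤ 1) :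
    K * (√t + √η) * t ^ 2 ≤ K * √(√η) * (2 * t ^ 2 + t ^ 4 / η) := by
  have h1 := sqrt_le_aux ht hη
  have h2 := sqrt_le_a hη hη1
  have h3 : (√t + √η) * t ^ 2 ≤ √(√η) * (2 * t ^ 2 + t ^ 4 / η) := by
    have h4 : (√t + √η) * t ^ 2 ≤ (√(√η) * (1 + t ^ 2 / η) + √(√η)) * t ^ 2 :=
      mul_le_mul_of_nonneg_right (by linarith) (by positivity)
    refine h4.trans_eq ?_
    field_simp
    ring
  rw [mul_assoc, mul_assoc]
  exact mul_le_mul_of_nonneg_left h3 hK

theorem tr_contDiff {f : E d → ℝ} {B1 B2 K : ℝ} (h : Tst f η B1 B2 K) :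
    Continuous (tr f) := by
  have h1 : ContDiff ℝ 1 (gradient f) := Conv.grad_contDiff h.smooth
  have h2 : Continuous (fderiv ℝ (gradient f)) := h1.continuous_fderiv (by norm_num)
  have h3 : tr f = fun x => ∑ i, ⟪fderiv ℝ (gradient f) x (EuclideanSpace.single i 1),
      (EuclideanSpace.single i 1 : E d)⟫ := by
    funext x; exact tr_eq f x
  rw [h3]
  refine continuous_finsetSum _ fun i _ => ?_
  exact (h2.clm_apply continuous_const).inner continuous_const

theorem tr_sub_le {f : E d → ℝ} {B1 B2 K : ℝ} (h : Tst f η B1 B2 K) (x y : E d) :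
    |tr f x - tr f y| ≤ d * (K * (√‖x - y‖ + √η)) := by
  rw [tr_eq, tr_eq, ← Finset.sum_sub_distrib]
  refine (Finset.abs_sum_le_sum_abs _ _).trans ?_
  have h1 : ∀ i ∈ (Finset.univ : Finset (Fin d)),
      |⟪fderiv ℝ (gradient f) x (EuclideanSpace.single i 1), (EuclideanSpace.single i 1 : E d)⟫ -
        ⟪fderiv ℝ (gradient f) y (EuclideanSpace.single i 1), (EuclideanSpace.single i 1 : E d)⟫| ≤
      K * (√‖x - y‖ + √η) := by
    intro i _
    rw [← inner_sub_left, ← sub_apply]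
    have h2 : ‖(EuclideanSpace.single i (1 : ℝ) : E d)‖ = 1 := by simp
    refine (abs_real_inner_le_norm _ _).trans ?_
    rw [h2, mul_one]
    refine (ContinuousLinearMap.le_opNorm _ _).trans ?_
    rw [h2, mul_one]
    exact h.g3 x y
  refine (Finset.sum_le_sum h1).trans_eq ?_
  simp

theorem tr_bdd {f : E d → ℝ} {B1 B2 K : ℝ} (h : Tst f η B1 B2 K) (x : E d) :
    |tr f x| ≤ d * B2 := by
  rw [tr_eq]
  refine (Finset.abs_sum_le_sum_abs _ _).trans ?_
  have h1 : ∀ i ∈ (Finset.univ : Finset (Fin d)),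
      |⟪fderiv ℝ (gradient f) x (EuclideanSpace.single i 1), (EuclideanSpace.single i 1 : E d)⟫| ≤
      B2 := by
    intro i _
    have h2 : ‖(EuclideanSpace.single i (1 : ℝ) : E d)‖ = 1 := by simp
    refine (abs_real_inner_le_norm _ _).trans ?_
    rw [h2, mul_one]
    refine (ContinuousLinearMap.le_opNorm _ _).trans ?_
    rw [h2, mul_one]
    exact h.g2 x
  refine (Finset.sum_le_sum h1).trans_eq ?_
  simp

theorem PGc (c : ℝ) : PG (fun _ : E d => c) := PG.of_bdd (C := ‖c‖) fun _ => le_rfl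

theorem PGcE {F : Type} [NormedAddCommGroup F] (c : F) : PG (fun _ : E d => c) :=
  PG.of_bdd (C := ‖c‖) fun _ => le_rfl

theorem PG_clm (A : E d →L[ℝ] E d) : PG (fun x : E d => A x) := by
  refine ((PGc ‖A‖).mul (PG_id (d := d)).norm).mono fun x => ?_
  rw [norm_mul, norm_norm, norm_norm]
  exact A.le_opNorm x

theorem PG_in {u v : E d → E d} (hu : PG u) (hv : PG v) : PG (fun x => ⟪u x, v x⟫) := by
  refine (hu.norm.mul hv.norm).mono fun x => ?_
  rw [norm_mul, norm_norm, norm_norm]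
  exact norm_inner_le_norm _ _

theorem gauss_quad (A : E d →L[ℝ] E d) : ∫ z, ⟪A z, z⟫ ∂(stdGaussian (E d)) =
    ∑ i, ⟪A (EuclideanSpace.single i 1), EuclideanSpace.single i 1⟫ := by
  have h1 : ∀ x : E d, fderiv ℝ (fun x : E d => x) x = ContinuousLinearMap.id ℝ (E d) :=
    fun x => fderiv_fun_id
  have h := gauss_ibp_mat A (w := fun x => x) contDiff_id PG_id (by
    simp only [h1]
    exact PGcE _)
  rw [h]
  simp only [h1, ContinuousLinearMap.id_apply]
  simp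

/-- the Gaussian step -/
theorem gauss_step (d : ℕ) : ∃ Cg : ℝ, 0 ≤ Cg ∧ ∀ {η : ℝ}, 0 < η → η ≤ 1 →
    ∀ {f : E d → ℝ} {B1 B2 K : ℝ}, Tst f η B1 B2 K → ∀ x : E d,
      |Nop η f x - f x - η / 2 * tr f x| ≤ Cg * K * (η * √(√η)) := by
  refine ⟨∫ z : E d, (2 * ‖z‖ ^ 2 + ‖z‖ ^ 4) ∂(stdGaussian (E d)),
    integral_nonneg fun z => by positivity, ?_⟩
  intro η hη hη1 f B1 B2 K h x
  have hfc : Continuous f := h.smooth.continuous
  have hPGf : PG f := by
    obtain ⟨C, hC⟩ := h.bdd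
    exact PG.of_bdd (C := C) hC
  have hη' : √η * √η = η := Real.mul_self_sqrt hη.le
  have iz : Integrable (fun z : E d => z) (stdGaussian (E d)) :=
    gauss_integrable (continuous_id.aestronglyMeasurable) PG_id
  have i1 : Integrable (fun z : E d => f (x + √η • z)) (stdGaussian (E d)) := by
    obtain ⟨C, hC⟩ := h.bdd
    exact gauss_integrable (Continuous.aestronglyMeasurable (by fun_prop))
      (PG.of_bdd (C := C) fun z => hC _)
  have i2 : Integrable (fun z : E d => ⟪gradient f x, z⟫) (stdGaussian (E d)) :=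
    gauss_integrable (Continuous.aestronglyMeasurable (by fun_prop)) (PG_in (PGcE _) PG_id)
  have i3 : Integrable (fun z : E d => ⟪fderiv ℝ (gradient f) x z, z⟫) (stdGaussian (E d)) :=
    gauss_integrable (Continuous.aestronglyMeasurable (by fun_prop)) (PG_in (PG_clm _) PG_id)
  have i4 : Integrable (fun z : E d => 2 * ‖z‖ ^ 2 + ‖z‖ ^ 4) (stdGaussian (E d)) :=
    gauss_integrable (Continuous.aestronglyMeasurable (by fun_prop))
      (((PGc 2).mul (PG_id.norm.pow 2)).add (PG_id.norm.pow 4))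
  have hprob : IsProbabilityMeasure (stdGaussian (E d)) := inferInstance
  have e1 : Nop η f x - f x - η / 2 * tr f x = ∫ z, (f (x + √η • z) - f x -
      √η * ⟪gradient f x, z⟫ - η / 2 * ⟪fderiv ℝ (gradient f) x z, z⟫) ∂(stdGaussian (E d)) := by
    have ic : Integrable (fun _ : E d => f x) (stdGaussian (E d)) := integrable_const _
    have j1 : Integrable (fun z : E d => f (x + √η • z) - f x) (stdGaussian (E d)) := i1.sub ic
    have j2 : Integrable (fun z : E d => √η * ⟪gradient f x, z⟫) (stdGaussian (E d)) :=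
      i2.const_mul _
    have j3 : Integrable (fun z : E d => f (x + √η • z) - f x - √η * ⟪gradient f x, z⟫)
      (stdGaussian (E d)) := j1.sub j2
    have j4 : Integrable (fun z : E d => η / 2 * ⟪fderiv ℝ (gradient f) x z, z⟫)
      (stdGaussian (E d)) := i3.const_mul _
    rw [integral_sub j3 j4, integral_sub j1 j2, integral_sub i1 ic, integral_const_mul,
      integral_const_mul, gauss_quad, ← tr_eq]
    have e2 : ∫ z, ⟪gradient f x, z⟫ ∂(stdGaussian (E d)) = 0 := by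
      rw [integral_inner iz, gauss_mean, inner_zero_right]
    rw [e2]
    simp [Nop]
  rw [e1]
  have hpt : ∀ z : E d, ‖f (x + √η • z) - f x -
      √η * ⟪gradient f x, z⟫ - η / 2 * ⟪fderiv ℝ (gradient f) x z, z⟫‖ ≤
      (K * (η * √(√η))) * (2 * ‖z‖ ^ 2 + ‖z‖ ^ 4) := by
    intro z
    have h1 := taylor h x (√η • z)
    rw [map_smul, inner_smul_right, inner_smul_left, inner_smul_right] at h1
    have e3 : f (x + √η • z) - f x - √η * ⟪gradient f x, z⟫ - 1 / 2 *
        ((starRingEnd ℝ) √η * (√η * ⟪fderiv ℝ (gradient f) x z, z⟫)) =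
        f (x + √η • z) - f x -
          √η * ⟪gradient f x, z⟫ - η / 2 * ⟪fderiv ℝ (gradient f) x z, z⟫ := by
      simp only [conj_trivial]
      rw [← mul_assoc √η √η, hη']
      ring
    rw [e3] at h1
    rw [Real.norm_eq_abs]
    refine h1.trans ((rem_le h.K0 (norm_nonneg _) hη hη1).trans_eq ?_)
    have e4 : ‖√η • z‖ ^ 2 = η * ‖z‖ ^ 2 := by
      rw [norm_smul, mul_pow, Real.norm_of_nonneg (Real.sqrt_nonneg _), Real.sq_sqrt hη.le]
    have e5 : ‖√η • z‖ ^ 4 = η ^ 2 * ‖z‖ ^ 4 := by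
      calc ‖√η • z‖ ^ 4 = (‖√η • z‖ ^ 2) ^ 2 := by ring
        _ = η ^ 2 * ‖z‖ ^ 4 := by rw [e4]; ring
    rw [e4, e5]
    field_simp
  calc |∫ z, (f (x + √η • z) - f x -
      √η * ⟪gradient f x, z⟫ - η / 2 * ⟪fderiv ℝ (gradient f) x z, z⟫) ∂(stdGaussian (E d))| ≤
      ∫ z, (K * (η * √(√η))) * (2 * ‖z‖ ^ 2 + ‖z‖ ^ 4) ∂(stdGaussian (E d)) :=
        norm_integral_le_of_norm_le (i4.const_mul _) (Filter.Eventually.of_forall hpt)
    _ = _ := by rw [integral_const_mul]; ring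

theorem M_le (hb : 0 ≤ b) (hG : Pert d b G) (y : E d) :
    ‖y + gradient G y‖ ≤ (1 + b + ‖gradient G 0‖) * (1 + ‖y‖) := by
  have h1 := hG.lip hb y 0
  rw [sub_zero] at h1
  have h2 : ‖gradient G y‖ ≤ ‖gradient G 0‖ + b * ‖y‖ := by
    have h3 := norm_add_le (gradient G y - gradient G 0) (gradient G 0)
    rw [sub_add_cancel] at h3
    linarith
  have h4 := norm_add_le y (gradient G y)
  have h5 := norm_nonneg y
  have h6 := norm_nonneg (gradient G 0)
  nlinarith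

theorem int_pow (hG : Pert d b G) (hη : 0 < η) (y : E d) (p : ℕ) :
    Integrable (fun x => ‖x - y‖ ^ p) (RG G η y) :=
  RG_integrable hG hη y (Continuous.aestronglyMeasurable (by fun_prop))
    ((PG_id.sub (PGcE y)).norm.pow p)

theorem int_nrm (hG : Pert d b G) (hη : 0 < η) (y : E d) :
    Integrable (fun x => ‖x - y‖) (RG G η y) := by
  simpa using int_pow hG hη y 1

theorem mom_aux (hb : 0 ≤ b) (hG : Pert d b G) (hη : 0 < η) (hη1 : η ≤ 1) (y : E d) (p : ℕ)
    (hp : p ≤ 2) :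
    ∫ x, ‖x - y‖ ^ (2 * p) ∂(RG G η y) ≤
      η ^ p * (((1 + b + ‖gradient G 0‖) + √(d + 4)) * (1 + ‖y‖)) ^ (2 * p) := by
  refine (RG_moment hb hG hη y p).trans ?_
  have h0 : η ≤ √η := by
    rw [Real.le_sqrt hη.le hη.le]; nlinarith
  have h1 : √(η * (d + 2 * p)) ≤ √η * √(d + 4) := by
    rw [Real.sqrt_mul hη.le]
    apply mul_le_mul_of_nonneg_left _ (Real.sqrt_nonneg _)
    apply Real.sqrt_le_sqrt
    have : (p : ℝ) ≤ 2 := by exact_mod_cast hp
    linarith
  have h2 : √((d : ℝ) + 4) ≤ √(d + 4) * (1 + ‖y‖) :=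
    le_mul_of_one_le_right (Real.sqrt_nonneg _) (by linarith [norm_nonneg y])
  have h3 : η * ‖y + gradient G y‖ ≤ √η * ((1 + b + ‖gradient G 0‖) * (1 + ‖y‖)) :=
    mul_le_mul h0 (M_le hb hG y) (norm_nonneg _) (Real.sqrt_nonneg _)
  have h4 : η * ‖y + gradient G y‖ + √(η * (d + 2 * p)) ≤
      √η * (((1 + b + ‖gradient G 0‖) + √(d + 4)) * (1 + ‖y‖)) := by
    have h5 : √η * √((d : ℝ) + 4) ≤ √η * (√(d + 4) * (1 + ‖y‖)) :=
      mul_le_mul_of_nonneg_left h2 (Real.sqrt_nonneg _)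
    have h6 : √η * (((1 + b + ‖gradient G 0‖) + √((d : ℝ) + 4)) * (1 + ‖y‖)) =
        √η * ((1 + b + ‖gradient G 0‖) * (1 + ‖y‖)) + √η * (√((d : ℝ) + 4) * (1 + ‖y‖)) := by
      ring
    rw [h6]
    linarith
  refine (pow_le_pow_left₀ (by positivity) h4 _).trans_eq ?_
  rw [mul_pow, pow_mul (√η), Real.sq_sqrt hη.le]

/-- the moment bounds at `y` with constant `m` -/
structure Mom (b : ℝ) (G : E d → ℝ) (η : ℝ) (y : E d) (m : ℝ) : Prop where
  one_le : 1 ≤ m
  M_le : ‖y + gradient G y‖ ≤ m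
  two : ∫ x, ‖x - y‖ ^ 2 ∂(RG G η y) ≤ η * m ^ 2
  four : ∫ x, ‖x - y‖ ^ 4 ∂(RG G η y) ≤ η ^ 2 * m ^ 4

theorem mom_exists (hb : 0 ≤ b) (hG : Pert d b G) : ∃ c : ℝ, 1 ≤ c ∧ ∀ {η : ℝ}, 0 < η → η ≤ 1 →
    ∀ y : E d, Mom b G η y (c * (1 + ‖y‖)) := by
  refine ⟨(1 + b + ‖gradient G 0‖) + √(d + 4), ?_, ?_⟩
  · have h1 := norm_nonneg (gradient G 0)
    have h2 := Real.sqrt_nonneg ((d : ℝ) + 4)
    linarith
  · intro η hη hη1 y
    have h1 := norm_nonneg (gradient G 0)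
    have h2 := Real.sqrt_nonneg ((d : ℝ) + 4)
    have h3 := norm_nonneg y
    refine ⟨by nlinarith, ?_, ?_, ?_⟩
    · refine (M_le hb hG y).trans ?_
      nlinarith
    · have := mom_aux hb hG hη hη1 y 1 (by norm_num)
      simpa using this
    · exact mom_aux hb hG hη hη1 y 2 le_rfl

theorem mom_one (hG : Pert d b G) (hη : 0 < η) {y : E d} {m : ℝ} (hm : Mom b G η y m) :
    ∫ x, ‖x - y‖ ∂(RG G η y) ≤ √η * m ^ 2 := by
  have hprob := RG_isProb hG hη y
  have hs : 0 < √η := Real.sqrt_pos.2 hη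
  have hs2 : √η ^ 2 = η := Real.sq_sqrt hη.le
  have i2 := int_pow hG hη y 2
  have h1 : ∫ x, ‖x - y‖ ∂(RG G η y) ≤ ∫ x, (√η / 2 + 1 / (2 * √η) * ‖x - y‖ ^ 2) ∂(RG G η y) := by
    refine integral_mono (int_nrm hG hη y) ((integrable_const _).add (i2.const_mul _)) fun x => ?_
    have h2 : √η / 2 + 1 / (2 * √η) * ‖x - y‖ ^ 2 - ‖x - y‖ =
        (√η - ‖x - y‖) ^ 2 / (2 * √η) := by
      field_simp
      ring
    have h3 : 0 ≤ (√η - ‖x - y‖) ^ 2 / (2 * √η) := by positivity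
    show ‖x - y‖ ≤ √η / 2 + 1 / (2 * √η) * ‖x - y‖ ^ 2
    linarith
  refine h1.trans ?_
  rw [integral_add (integrable_const _) (i2.const_mul _), integral_const_mul]
  simp only [integral_const, probReal_univ, one_smul]
  have h4 : 1 / (2 * √η) * ∫ x, ‖x - y‖ ^ 2 ∂(RG G η y) ≤ 1 / (2 * √η) * (η * m ^ 2) :=
    mul_le_mul_of_nonneg_left hm.two (by positivity)
  have h5 : 1 / (2 * √η) * (η * m ^ 2) = √η / 2 * m ^ 2 := by
    have h7 : 1 / (2 * √η) * (η * m ^ 2) = (η / √η) / 2 * m ^ 2 := by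
      field_simp
    rw [h7, Real.div_sqrt]
  have h6 : 1 ≤ m ^ 2 := one_le_pow₀ hm.one_le
  rw [h5] at h4
  nlinarith

theorem mom_half (hG : Pert d b G) (hη : 0 < η) {y : E d} {m : ℝ} (hm : Mom b G η y m) :
    ∫ x, √‖x - y‖ ∂(RG G η y) ≤ √(√η) * (1 + m ^ 2) := by
  have hprob := RG_isProb hG hη y
  have i2 := int_pow hG hη y 2
  have h1 : ∫ x, √‖x - y‖ ∂(RG G η y) ≤
      ∫ x, (√(√η) + √(√η) / η * ‖x - y‖ ^ 2) ∂(RG G η y) := by
    refine integral_mono_of_nonneg (Filter.Eventually.of_forall fun x => Real.sqrt_nonneg _)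
      ((integrable_const _).add (i2.const_mul _)) (Filter.Eventually.of_forall fun x => ?_)
    refine (sqrt_le_aux (norm_nonneg (x - y)) hη).trans_eq ?_
    ring
  refine h1.trans ?_
  rw [integral_add (integrable_const _) (i2.const_mul _), integral_const_mul]
  simp only [integral_const, probReal_univ, one_smul]
  have h4 : √(√η) / η * ∫ x, ‖x - y‖ ^ 2 ∂(RG G η y) ≤ √(√η) / η * (η * m ^ 2) :=
    mul_le_mul_of_nonneg_left hm.two (by positivity)
  have h5 : √(√η) / η * (η * m ^ 2) = √(√η) * m ^ 2 := by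
    field_simp
  rw [h5] at h4
  linarith

theorem first_order (hb : 0 ≤ b) (hG : Pert d b G) (hη : 0 < η) {y : E d} {m : ℝ}
    (hm : Mom b G η y m) (e : E d) :
    |(∫ x, ⟪e, x - y⟫ ∂(RG G η y)) + η * ⟪y + gradient G y, e⟫| ≤
      η * ((1 + b) * ‖e‖ * (√η * m ^ 2)) := by
  have hprob := RG_isProb hG hη y
  have hgc : Continuous (gradient G) := (hG.grad_contDiff).continuous
  have i1 : Integrable (fun x => ⟪x - y, e⟫) (RG G η y) :=
    RG_integrable hG hη y (Continuous.aestronglyMeasurable (by fun_prop))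
      (PG_in (PG_id.sub (PGcE y)) (PGcE e))
  have i2 : Integrable (fun x => ⟪(x - y) + (gradient G x - gradient G y), e⟫) (RG G η y) :=
    RG_integrable hG hη y (Continuous.aestronglyMeasurable (by fun_prop))
      (PG_in ((PG_id.sub (PGcE y)).add ((hG.PG_grad hb).sub (PGcE _))) (PGcE e))
  have h1 := RG_mean hb hG hη y e
  have e1 : (fun x : E d => ⟪x, e⟫ + ⟪gradient G x, e⟫ + ⟪x - y, e⟫ / η) = fun x =>
      (⟪y + gradient G y, e⟫ + ⟪(x - y) + (gradient G x - gradient G y), e⟫) +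
        η⁻¹ * ⟪x - y, e⟫ := by
    funext x
    have e2 : ⟪x, e⟫ + ⟪gradient G x, e⟫ =
        ⟪y + gradient G y, e⟫ + ⟪(x - y) + (gradient G x - gradient G y), e⟫ := by
      rw [← inner_add_left, ← inner_add_left]
      congr 1
      abel
    rw [e2]
    ring
  have j1 : Integrable (fun x => ⟪y + gradient G y, e⟫ +
      ⟪(x - y) + (gradient G x - gradient G y), e⟫) (RG G η y) := (integrable_const _).add i2
  rw [e1, integral_add j1 (i1.const_mul _), integral_add (integrable_const _) i2,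
    integral_const_mul] at h1
  simp only [integral_const, probReal_univ, one_smul] at h1
  have e3 : ∫ x, ⟪e, x - y⟫ ∂(RG G η y) = ∫ x, ⟪x - y, e⟫ ∂(RG G η y) := by
    congr 1
    funext x
    exact real_inner_comm _ _
  rw [e3]
  have h2 : (∫ x, ⟪x - y, e⟫ ∂(RG G η y)) + η * ⟪y + gradient G y, e⟫ =
      -(η * ∫ x, ⟪(x - y) + (gradient G x - gradient G y), e⟫ ∂(RG G η y)) := by
    have h3 : η * (⟪y + gradient G y, e⟫ +
      (∫ x, ⟪(x - y) + (gradient G x - gradient G y), e⟫ ∂(RG G η y)) +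
        η⁻¹ * ∫ x, ⟪x - y, e⟫ ∂(RG G η y)) = 0 := by rw [h1, mul_zero]
    have h4 : η * (η⁻¹ * ∫ x, ⟪x - y, e⟫ ∂(RG G η y)) = ∫ x, ⟪x - y, e⟫ ∂(RG G η y) := by
      field_simp
    linarith
  rw [h2, abs_neg, abs_mul, abs_of_pos hη]
  apply mul_le_mul_of_nonneg_left _ hη.le
  have h5 : ∀ x, ‖⟪(x - y) + (gradient G x - gradient G y), e⟫‖ ≤
      ((1 + b) * ‖e‖) * ‖x - y‖ := by
    intro x
    refine (norm_inner_le_norm _ _).trans ?_
    have h6 := hG.lip hb x y
    have h7 := norm_add_le (x - y) (gradient G x - gradient G y)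
    calc ‖x - y + (gradient G x - gradient G y)‖ * ‖e‖ ≤ ((1 + b) * ‖x - y‖) * ‖e‖ :=
          mul_le_mul_of_nonneg_right (by linarith) (norm_nonneg _)
      _ = _ := by ring
  have h8 := norm_integral_le_of_norm_le ((int_nrm hG hη y).const_mul ((1 + b) * ‖e‖))
    (Filter.Eventually.of_forall h5)
  rw [integral_const_mul, Real.norm_eq_abs] at h8
  refine h8.trans ?_
  exact mul_le_mul_of_nonneg_left (mom_one hG hη hm) (by positivity)

theorem second_order (hb : 0 ≤ b) (hG : Pert d b G) (hη : 0 < η) (hη1 : η ≤ 1) {y : E d} {m : ℝ}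
    (hm : Mom b G η y m) (A : E d →L[ℝ] E d) :
    |(∫ x, ⟪A (x - y), x - y⟫ ∂(RG G η y)) -
      η * ∑ i, ⟪A (EuclideanSpace.single i 1), EuclideanSpace.single i 1⟫| ≤
      η * (‖A‖ * ((2 + b) * (√η * m ^ 3))) := by
  classical
  have hprob := RG_isProb hG hη y
  have hgc : Continuous (gradient G) := (hG.grad_contDiff).continuous
  obtain ⟨B, hB⟩ : ∃ B, B = EuclideanSpace.basisFun (Fin d) ℝ := ⟨_, rfl⟩
  have hBi : ∀ i, B i = EuclideanSpace.single i 1 := fun i => by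
    rw [hB, EuclideanSpace.basisFun_apply]
  have hPw : PG (fun x : E d => x - y) := PG_id.sub (PGcE y)
  have hPA : PG (fun x : E d => A (x - y)) := by
    have h1 : (fun x : E d => A (x - y)) = fun x => A x - A y := by
      funext x; rw [map_sub]
    rw [h1]
    exact (PG_clm A).sub (PGcE _)
  have hfd : ∀ (e x : E d), HasFDerivAt (fun x : E d => ⟪A (x - y), e⟫)
      ((innerSL ℝ e).comp A) x := by
    intro e x
    have h1 : (fun x : E d => ⟪A (x - y), e⟫) = fun x =>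
        ((innerSL ℝ e).comp A) x - ⟪e, A y⟫ := by
      funext x
      simp only [ContinuousLinearMap.comp_apply, innerSL_apply_apply, map_sub, inner_sub_left]
      rw [real_inner_comm e (A x), real_inner_comm e (A y)]
    rw [h1]
    exact ((innerSL ℝ e).comp A).hasFDerivAt.sub_const _
  have hi : ∀ i, ⟪A (B i), B i⟫ =
      ∫ x, (⟪x, B i⟫ + ⟪gradient G x, B i⟫ + ⟪x - y, B i⟫ / η) * ⟪A (x - y), B i⟫ ∂(RG G η y) := by
    intro i
    have h := RG_ibp hb hG hη y (u := fun x => ⟪A (x - y), B i⟫)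
      ((A.contDiff.comp (contDiff_id.sub contDiff_const)).inner ℝ contDiff_const)
      (PG_in hPA (PGcE _)) (by
        have h2 : (fun x => fderiv ℝ (fun x : E d => ⟪A (x - y), B i⟫) x) =
            fun _ => (innerSL ℝ (B i)).comp A := by
          funext x; exact (hfd (B i) x).fderiv
        rw [h2]
        exact PGcE _) (B i)
    simp only [smul_eq_mul] at h
    rw [← h]
    have h3 : (fun x => fderiv ℝ (fun x : E d => ⟪A (x - y), B i⟫) x (B i)) =
        fun _ => ⟪A (B i), B i⟫ := by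
      funext x
      rw [(hfd (B i) x).fderiv]
      simp only [ContinuousLinearMap.comp_apply, innerSL_apply_apply]
      exact real_inner_comm _ _
    rw [h3]
    simp
  have hint : ∀ i, Integrable (fun x => (⟪x, B i⟫ + ⟪gradient G x, B i⟫ + ⟪x - y, B i⟫ / η) *
      ⟪A (x - y), B i⟫) (RG G η y) := by
    intro i
    refine RG_integrable hG hη y (Continuous.aestronglyMeasurable (by fun_prop)) ?_
    refine PG.mul ?_ (PG_in hPA (PGcE _))
    refine ((PG_inner (B i)).add (PG_in (hG.PG_grad hb) (PGcE _))).add ?_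
    have := (PG_in hPw (PGcE (B i))).mul (PGc (d := d) η⁻¹)
    simpa [div_eq_mul_inv] using this
  have hsum : ∑ i, ⟪A (B i), B i⟫ = ∫ x, (⟪x + gradient G x, A (x - y)⟫ +
      η⁻¹ * ⟪A (x - y), x - y⟫) ∂(RG G η y) := by
    rw [Finset.sum_congr rfl fun i _ => hi i, ← integral_finsetSum _ (fun i _ => hint i)]
    congr 1
    funext x
    have hpar : ∀ v w : E d, ∑ i, ⟪v, B i⟫ * ⟪w, B i⟫ = ⟪v, w⟫ := by
      intro v w
      rw [← B.sum_inner_mul_inner v w]
      exact Finset.sum_congr rfl fun i _ => by rw [real_inner_comm w (B i)]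
    rw [real_inner_comm (x - y) (A (x - y)), ← hpar (x - y) (A (x - y)),
      ← hpar (x + gradient G x) (A (x - y)), Finset.mul_sum, ← Finset.sum_add_distrib]
    exact Finset.sum_congr rfl fun i _ => by rw [inner_add_left]; ring
  have i1 : Integrable (fun x => ⟪x + gradient G x, A (x - y)⟫) (RG G η y) :=
    RG_integrable hG hη y (Continuous.aestronglyMeasurable (by fun_prop))
      (PG_in (PG_id.add (hG.PG_grad hb)) hPA)
  have i2 : Integrable (fun x => ⟪A (x - y), x - y⟫) (RG G η y) :=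
    RG_integrable hG hη y (Continuous.aestronglyMeasurable (by fun_prop)) (PG_in hPA hPw)
  rw [integral_add i1 (i2.const_mul _), integral_const_mul] at hsum
  simp only [hBi] at hsum
  have h2 : (∫ x, ⟪A (x - y), x - y⟫ ∂(RG G η y)) -
      η * ∑ i, ⟪A (EuclideanSpace.single i 1), EuclideanSpace.single i 1⟫ =
      -(η * ∫ x, ⟪x + gradient G x, A (x - y)⟫ ∂(RG G η y)) := by
    rw [hsum, mul_add, ← mul_assoc η η⁻¹, mul_inv_cancel₀ hη.ne']
    ring
  rw [h2, abs_neg, abs_mul, abs_of_pos hη]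
  apply mul_le_mul_of_nonneg_left _ hη.le
  have h5 : ∀ x, ‖⟪x + gradient G x, A (x - y)⟫‖ ≤
      ‖A‖ * (m * ‖x - y‖ + (1 + b) * ‖x - y‖ ^ 2) := by
    intro x
    refine (norm_inner_le_norm _ _).trans ?_
    have h6 := hG.lip hb x y
    have h7 : ‖x + gradient G x‖ ≤ m + (1 + b) * ‖x - y‖ := by
      have e1 : x + gradient G x = (y + gradient G y) + ((x - y) + (gradient G x - gradient G y)) := by
        abel
      rw [e1]
      have h8 := norm_add_le (y + gradient G y) ((x - y) + (gradient G x - gradient G y))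
      have h9 := norm_add_le (x - y) (gradient G x - gradient G y)
      have h10 := hm.M_le
      linarith
    have h11 : ‖A (x - y)‖ ≤ ‖A‖ * ‖x - y‖ := A.le_opNorm _
    calc ‖x + gradient G x‖ * ‖A (x - y)‖ ≤ (m + (1 + b) * ‖x - y‖) * (‖A‖ * ‖x - y‖) :=
          mul_le_mul h7 h11 (norm_nonneg _) (by
            have := hm.one_le
            positivity)
      _ = _ := by ring
  have i3 := int_nrm hG hη y
  have i4 := int_pow hG hη y 2
  have h8 := norm_integral_le_of_norm_le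
    (((i3.const_mul m).add (i4.const_mul (1 + b))).const_mul ‖A‖)
    (Filter.Eventually.of_forall h5)
  have h9 : ∫ x, ‖A‖ * (m * ‖x - y‖ + (1 + b) * ‖x - y‖ ^ 2) ∂(RG G η y) =
      ‖A‖ * (m * (∫ x, ‖x - y‖ ∂(RG G η y)) + (1 + b) * ∫ x, ‖x - y‖ ^ 2 ∂(RG G η y)) := by
    rw [integral_const_mul, integral_add (i3.const_mul m) (i4.const_mul (1 + b)),
      integral_const_mul, integral_const_mul]
  have h8' : ‖∫ x, ⟪x + gradient G x, A (x - y)⟫ ∂(RG G η y)‖ ≤
      ‖A‖ * (m * (∫ x, ‖x - y‖ ∂(RG G η y)) + (1 + b) * ∫ x, ‖x - y‖ ^ 2 ∂(RG G η y)) := by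
    rw [← h9]; exact h8
  rw [Real.norm_eq_abs] at h8'
  refine h8'.trans ?_
  apply mul_le_mul_of_nonneg_left _ (norm_nonneg _)
  have h12 := mom_one hG hη hm
  have h13 := hm.two
  have hm1 := hm.one_le
  have h14 : η ≤ √η := by
    rw [Real.le_sqrt hη.le hη.le]; nlinarith
  have h15 : m * (∫ x, ‖x - y‖ ∂(RG G η y)) ≤ m * (√η * m ^ 2) :=
    mul_le_mul_of_nonneg_left h12 (by linarith)
  have h16 : (1 + b) * (∫ x, ‖x - y‖ ^ 2 ∂(RG G η y)) ≤ (1 + b) * (√η * m ^ 3) := by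
    apply mul_le_mul_of_nonneg_left _ (by linarith)
    refine h13.trans ?_
    have h17 : m ^ 2 ≤ m ^ 3 := pow_le_pow_right₀ hm1 (by norm_num)
    exact mul_le_mul h14 h17 (by positivity) (Real.sqrt_nonneg _)
  nlinarith

theorem main_step (hb : 0 ≤ b) (hG : Pert d b G) (hη : 0 < η) (hη1 : η ≤ 1) {Cg : ℝ}
    (hCg : 0 ≤ Cg) {f : E d → ℝ} {B1 B2 K : ℝ} (h : Tst f η B1 B2 K)
    (hN : ∀ x : E d, |Nop η f x - f x - η / 2 * tr f x| ≤ Cg * K * (η * √(√η)))
    {y : E d} {m : ℝ} (hm : Mom b G η y m) :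
    |Pop G η f y - f y - η * Ls G f y| ≤
      (Cg + 4 + 2 * b + 2 * d) * m ^ 4 * (B1 + B2 + K) * (η * √(√η)) := by
  have hprob := RG_isProb hG hη y
  obtain ⟨Cf, hCf⟩ := h.bdd
  have hfc : Continuous f := h.smooth.continuous
  have hK := h.K0
  have hB1 : 0 ≤ B1 := (norm_nonneg _).trans (h.g1 0)
  have hB2 : 0 ≤ B2 := (norm_nonneg _).trans (h.g2 0)
  have hm1 := hm.one_le
  obtain ⟨a, ha⟩ : ∃ a, a = √(√η) := ⟨_, rfl⟩
  have ha0 : 0 < a := by rw [ha]; positivity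
  have hsa : √η ≤ a := by rw [ha]; exact sqrt_le_a hη hη1
  rw [← ha] at hN ⊢
  have htc : Continuous (tr f) := tr_contDiff h
  -- integrabilities
  have iN : Integrable (Nop η f) (RG G η y) :=
    RG_integrable hG hη y (measurable_Nop hfc.measurable).aestronglyMeasurable
      (PG.of_bdd (C := Cf) fun x => norm_Nop_le (fun z => hCf z) x)
  have iF : Integrable f (RG G η y) :=
    RG_integrable hG hη y hfc.aestronglyMeasurable (PG.of_bdd (C := Cf) hCf)
  have iT : Integrable (tr f) (RG G η y) :=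
    RG_integrable hG hη y htc.aestronglyMeasurable (PG.of_bdd (C := d * B2) (tr_bdd h))
  have hPw : PG (fun x : E d => x - y) := PG_id.sub (PGcE y)
  obtain ⟨A, hA⟩ : ∃ A, A = fderiv ℝ (gradient f) y := ⟨_, rfl⟩
  have hPA : PG (fun x : E d => A (x - y)) := by
    have h1 : (fun x : E d => A (x - y)) = fun x => A x - A y := by
      funext x; rw [map_sub]
    rw [h1]
    exact (PG_clm A).sub (PGcE _)
  have i1 : Integrable (fun x => ⟪gradient f y, x - y⟫) (RG G η y) :=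
    RG_integrable hG hη y (Continuous.aestronglyMeasurable (by fun_prop)) (PG_in (PGcE _) hPw)
  have i2 : Integrable (fun x => ⟪A (x - y), x - y⟫) (RG G η y) :=
    RG_integrable hG hη y (Continuous.aestronglyMeasurable (by fun_prop)) (PG_in hPA hPw)
  have i3 := int_pow hG hη y 2
  have i4 := int_pow hG hη y 4
  -- step 1: replace Nop
  have hE1 : |Pop G η f y - (∫ x, f x ∂(RG G η y)) - η / 2 * ∫ x, tr f x ∂(RG G η y)| ≤
      Cg * K * (η * a) := by
    have j1 : Integrable (fun x => Nop η f x - f x) (RG G η y) := iN.sub iF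
    have e1 : Pop G η f y - (∫ x, f x ∂(RG G η y)) - η / 2 * ∫ x, tr f x ∂(RG G η y) =
        ∫ x, (Nop η f x - f x - η / 2 * tr f x) ∂(RG G η y) := by
      rw [integral_sub j1 (iT.const_mul _), integral_sub iN iF, integral_const_mul]
      rfl
    rw [e1]
    have hN' : ∀ x, ‖Nop η f x - f x - η / 2 * tr f x‖ ≤ Cg * K * (η * a) := fun x => by
      rw [Real.norm_eq_abs]; exact hN x
    have h1 := norm_integral_le_of_norm_le (μ := RG G η y) (integrable_const (Cg * K * (η * a)))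
      (Filter.Eventually.of_forall hN')
    simpa using h1
  -- step 2: Taylor for f
  have hE2 : |(∫ x, f x ∂(RG G η y)) - f y - (∫ x, ⟪gradient f y, x - y⟫ ∂(RG G η y)) -
      1 / 2 * ∫ x, ⟪A (x - y), x - y⟫ ∂(RG G η y)| ≤ K * (η * a) * (3 * m ^ 4) := by
    have j0 : Integrable (fun _ : E d => f y) (RG G η y) := integrable_const _
    have j1 : Integrable (fun x => f x - f y) (RG G η y) := iF.sub j0
    have j2 : Integrable (fun x => f x - f y - ⟪gradient f y, x - y⟫) (RG G η y) := j1.sub i1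
    have e1 : (∫ x, f x ∂(RG G η y)) - f y - (∫ x, ⟪gradient f y, x - y⟫ ∂(RG G η y)) -
        1 / 2 * ∫ x, ⟪A (x - y), x - y⟫ ∂(RG G η y) =
        ∫ x, (f x - f y - ⟪gradient f y, x - y⟫ - 1 / 2 * ⟪A (x - y), x - y⟫) ∂(RG G η y) := by
      rw [integral_sub j2 (i2.const_mul _), integral_sub j1 i1, integral_sub iF j0,
        integral_const_mul]
      simp
    rw [e1]
    have hpt : ∀ x, ‖f x - f y - ⟪gradient f y, x - y⟫ - 1 / 2 * ⟪A (x - y), x - y⟫‖ ≤
        K * a * (2 * ‖x - y‖ ^ 2 + η⁻¹ * ‖x - y‖ ^ 4) := by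
      intro x
      have h1 := taylor h y (x - y)
      rw [add_sub_cancel, ← hA] at h1
      rw [Real.norm_eq_abs]
      refine h1.trans ((rem_le h.K0 (norm_nonneg _) hη hη1).trans_eq ?_)
      rw [← ha]
      ring
    have h1 := norm_integral_le_of_norm_le
      (((i3.const_mul 2).add (i4.const_mul η⁻¹)).const_mul (K * a))
      (Filter.Eventually.of_forall hpt)
    have e2 : ∫ x, K * a * (2 * ‖x - y‖ ^ 2 + η⁻¹ * ‖x - y‖ ^ 4) ∂(RG G η y) =
        K * a * (2 * (∫ x, ‖x - y‖ ^ 2 ∂(RG G η y)) + η⁻¹ * ∫ x, ‖x - y‖ ^ 4 ∂(RG G η y)) := by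
      rw [integral_const_mul, integral_add (i3.const_mul 2) (i4.const_mul η⁻¹),
        integral_const_mul, integral_const_mul]
    have h2 : ‖∫ x, (f x - f y - ⟪gradient f y, x - y⟫ - 1 / 2 * ⟪A (x - y), x - y⟫)
        ∂(RG G η y)‖ ≤ K * a *
        (2 * (∫ x, ‖x - y‖ ^ 2 ∂(RG G η y)) + η⁻¹ * ∫ x, ‖x - y‖ ^ 4 ∂(RG G η y)) := by
      rw [← e2]; exact h1
    rw [Real.norm_eq_abs] at h2
    refine h2.trans ?_
    have h3 : η⁻¹ * ∫ x, ‖x - y‖ ^ 4 ∂(RG G η y) ≤ η * m ^ 4 := by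
      have h4 := mul_le_mul_of_nonneg_left hm.four (inv_pos.2 hη).le
      refine h4.trans_eq ?_
      field_simp
    have h5 : m ^ 2 ≤ m ^ 4 := pow_le_pow_right₀ hm1 (by norm_num)
    have h6 : ∫ x, ‖x - y‖ ^ 2 ∂(RG G η y) ≤ η * m ^ 4 :=
      hm.two.trans (mul_le_mul_of_nonneg_left h5 hη.le)
    calc K * a * (2 * (∫ x, ‖x - y‖ ^ 2 ∂(RG G η y)) + η⁻¹ * ∫ x, ‖x - y‖ ^ 4 ∂(RG G η y)) ≤
        K * a * (3 * (η * m ^ 4)) :=
          mul_le_mul_of_nonneg_left (by linarith) (by positivity)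
      _ = _ := by ring
  -- step 3: Laplacian
  have hE3 : |(∫ x, tr f x ∂(RG G η y)) - tr f y| ≤ d * K * a * (3 * m ^ 4) := by
    have j0 : Integrable (fun _ : E d => tr f y) (RG G η y) := integrable_const _
    have e1 : (∫ x, tr f x ∂(RG G η y)) - tr f y = ∫ x, (tr f x - tr f y) ∂(RG G η y) := by
      rw [integral_sub iT j0]
      simp
    rw [e1]
    have is : Integrable (fun x => √‖x - y‖) (RG G η y) := by
      refine (int_nrm hG hη y).const_mul 1 |>.add (integrable_const 1) |>.mono'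
        (Continuous.aestronglyMeasurable (by fun_prop)) (Filter.Eventually.of_forall fun x => ?_)
      rw [Real.norm_of_nonneg (Real.sqrt_nonneg _)]
      show √‖x - y‖ ≤ 1 * ‖x - y‖ + 1
      have h1 := norm_nonneg (x - y)
      rw [Real.sqrt_le_left (by linarith)]
      nlinarith
    have hpt : ∀ x, ‖tr f x - tr f y‖ ≤ (d * K) * (√‖x - y‖ + a) := by
      intro x
      rw [Real.norm_eq_abs]
      refine (tr_sub_le h x y).trans ?_
      rw [← mul_assoc]
      exact mul_le_mul_of_nonneg_left (by linarith) (by positivity)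
    have h1 := norm_integral_le_of_norm_le
      ((is.add (integrable_const a)).const_mul (d * K))
      (Filter.Eventually.of_forall hpt)
    have e2 : ∫ x, (d * K) * (√‖x - y‖ + a) ∂(RG G η y) =
        (d * K) * ((∫ x, √‖x - y‖ ∂(RG G η y)) + a) := by
      rw [integral_const_mul, integral_add is (integrable_const a)]
      simp
    have h2 : ‖∫ x, (tr f x - tr f y) ∂(RG G η y)‖ ≤
        (d * K) * ((∫ x, √‖x - y‖ ∂(RG G η y)) + a) := by
      rw [← e2]; exact h1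
    rw [Real.norm_eq_abs] at h2
    refine h2.trans ?_
    have h3 := mom_half hG hη hm
    rw [← ha] at h3
    have h5 : m ^ 2 ≤ m ^ 4 := pow_le_pow_right₀ hm1 (by norm_num)
    have h6 : 1 ≤ m ^ 4 := one_le_pow₀ hm1
    calc (d * K) * ((∫ x, √‖x - y‖ ∂(RG G η y)) + a) ≤ (d * K) * (a * (3 * m ^ 4)) := by
          apply mul_le_mul_of_nonneg_left _ (by positivity)
          nlinarith
      _ = _ := by ring
  -- step 4: first and second order terms
  have hE4 := first_order hb hG hη hm (gradient f y)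
  have hE5 := second_order hb hG hη hη1 hm A
  have htry : ∑ i, ⟪A (EuclideanSpace.single i 1), (EuclideanSpace.single i 1 : E d)⟫ = tr f y := by
    rw [hA, tr_eq]
  rw [htry] at hE5
  have hLs : Ls G f y = tr f y - ⟪y + gradient G y, gradient f y⟫ := rfl
  rw [hLs]
  have hE4' : |(∫ x, ⟪gradient f y, x - y⟫ ∂(RG G η y)) + η * ⟪y + gradient G y, gradient f y⟫| ≤
      (1 + b) * B1 * m ^ 4 * (η * a) := by
    refine hE4.trans ?_
    have h1 := h.g1 y
    have h5 : m ^ 2 ≤ m ^ 4 := pow_le_pow_right₀ hm1 (by norm_num)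
    have h7 : √η * m ^ 2 ≤ a * m ^ 4 := mul_le_mul hsa h5 (by positivity) ha0.le
    calc η * ((1 + b) * ‖gradient f y‖ * (√η * m ^ 2)) ≤ η * ((1 + b) * B1 * (a * m ^ 4)) := by
          apply mul_le_mul_of_nonneg_left _ hη.le
          apply mul_le_mul _ h7 (by positivity) (by positivity)
          exact mul_le_mul_of_nonneg_left h1 (by positivity)
      _ = _ := by ring
  have hE5' : |(∫ x, ⟪A (x - y), x - y⟫ ∂(RG G η y)) - η * tr f y| ≤
      (2 + b) * B2 * m ^ 4 * (η * a) := by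
    refine hE5.trans ?_
    have h1 : ‖A‖ ≤ B2 := by rw [hA]; exact h.g2 y
    have h5 : m ^ 3 ≤ m ^ 4 := pow_le_pow_right₀ hm1 (by norm_num)
    have h7 : √η * m ^ 3 ≤ a * m ^ 4 := mul_le_mul hsa h5 (by positivity) ha0.le
    calc η * (‖A‖ * ((2 + b) * (√η * m ^ 3))) ≤ η * (B2 * ((2 + b) * (a * m ^ 4))) := by
          apply mul_le_mul_of_nonneg_left _ hη.le
          apply mul_le_mul h1 _ (by positivity) hB2
          exact mul_le_mul_of_nonneg_left h7 (by positivity)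
      _ = _ := by ring
  have e0 : Pop G η f y - f y - η * (tr f y - ⟪y + gradient G y, gradient f y⟫) =
      (Pop G η f y - (∫ x, f x ∂(RG G η y)) - η / 2 * ∫ x, tr f x ∂(RG G η y)) +
      ((∫ x, f x ∂(RG G η y)) - f y - (∫ x, ⟪gradient f y, x - y⟫ ∂(RG G η y)) -
        1 / 2 * ∫ x, ⟪A (x - y), x - y⟫ ∂(RG G η y)) +
      η / 2 * ((∫ x, tr f x ∂(RG G η y)) - tr f y) +
      ((∫ x, ⟪gradient f y, x - y⟫ ∂(RG G η y)) + η * ⟪y + gradient G y, gradient f y⟫) +
      1 / 2 * ((∫ x, ⟪A (x - y), x - y⟫ ∂(RG G η y)) - η * tr f y) := by ring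
  rw [e0]
  have hE3' : |η / 2 * ((∫ x, tr f x ∂(RG G η y)) - tr f y)| ≤
      η / 2 * (d * K * a * (3 * m ^ 4)) := by
    rw [abs_mul, abs_of_pos (by positivity : (0 : ℝ) < η / 2)]
    exact mul_le_mul_of_nonneg_left hE3 (by positivity)
  have hE5'' : |1 / 2 * ((∫ x, ⟪A (x - y), x - y⟫ ∂(RG G η y)) - η * tr f y)| ≤
      1 / 2 * ((2 + b) * B2 * m ^ 4 * (η * a)) := by
    rw [abs_mul, abs_of_pos (by norm_num : (0 : ℝ) < 1 / 2)]
    exact mul_le_mul_of_nonneg_left hE5' (by norm_num)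
  refine (abs_add_le _ _).trans ((add_le_add ((abs_add_le _ _).trans (add_le_add
    ((abs_add_le _ _).trans (add_le_add ((abs_add_le _ _).trans (add_le_add hE1 hE2)) hE3'))
    hE4')) hE5'').trans ?_)
  have h6 : 1 ≤ m ^ 4 := one_le_pow₀ hm1
  obtain ⟨w, hw⟩ : ∃ w, w = m ^ 4 := ⟨_, rfl⟩
  obtain ⟨t, ht⟩ : ∃ t, t = η * a := ⟨_, rfl⟩
  have ht0 : 0 ≤ t := by rw [ht]; positivity
  rw [← hw] at h6 ⊢
  have e3 : η / 2 * (d * K * a * (3 * w)) = 3 / 2 * (d * K * w) * t := by rw [ht]; ring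
  rw [e3, ← ht]
  have hd0 : (0 : ℝ) ≤ d := Nat.cast_nonneg d
  have hsum : Cg * K + K * (3 * w) + 3 / 2 * (d * K * w) + (1 + b) * B1 * w +
      1 / 2 * ((2 + b) * B2 * w) ≤ (Cg + 4 + 2 * b + 2 * d) * w * (B1 + B2 + K) := by
    have a1 : Cg * K ≤ Cg * w * K := by
      have : Cg * K * 1 ≤ Cg * K * w := mul_le_mul_of_nonneg_left h6 (by positivity)
      linarith
    have p1 : 0 ≤ Cg * w * B1 := by positivity
    have p2 : 0 ≤ Cg * w * B2 := by positivity
    have p3 : 0 ≤ w * B1 := by positivity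
    have p4 : 0 ≤ w * B2 := by positivity
    have p5 : 0 ≤ w * K := by positivity
    have p6 : 0 ≤ b * w * B1 := by positivity
    have p7 : 0 ≤ b * w * B2 := by positivity
    have p8 : 0 ≤ b * w * K := by positivity
    have p9 : 0 ≤ d * w * B1 := by positivity
    have p10 : 0 ≤ d * w * B2 := by positivity
    have p11 : 0 ≤ d * w * K := by positivity
    nlinarith
  have hfin := mul_le_mul_of_nonneg_right hsum ht0
  linarith

end ExpandL

theorem expand {d : ℕ} {b : ℝ} {G : E d → ℝ} (hb : 0 ≤ b) (hG : Pert d b G) :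
    ∃ C : ℝ, ∀ η : ℝ, 0 < η → η ≤ 1 → ∀ f : E d → ℝ, CB 2 (sc f) → ∀ B1 B2 K : ℝ,
      (∀ x, ‖Dv (sc f) x‖ ≤ B1) → (∀ x, ‖Dv (Dv (sc f)) x‖ ≤ B2) →
      (∀ x y, ‖Dv (Dv (sc f)) x - Dv (Dv (sc f)) y‖ ≤ K * (√‖x - y‖ + √η)) → 0 ≤ K →
      ∀ y, |Pop G η f y - f y - η * Ls G f y| ≤
        C * (1 + ‖y‖) ^ 4 * (B1 + B2 + K) * (η * √(√η)) := by
  obtain ⟨Cg, hCg, hN⟩ := ExpandL.gauss_step d
  obtain ⟨c, hc, hM⟩ := ExpandL.mom_exists hb hG
  refine ⟨(Cg + 4 + 2 * b + 2 * d) * c ^ 4, ?_⟩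
  intro η hη hη1 f hf B1 B2 K h1 h2 h3 hK y
  have h := ExpandL.tst_of hf h1 h2 h3 hK
  refine (ExpandL.main_step hb hG hη hη1 hCg h (hN hη hη1 h) (hM hη hη1 y)).trans_eq ?_
  ring

end Vale.Agent.P347
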