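import Vale.Agent.Lib.P347.Ops

/-!
P347: graded quadrature for derivatives with a singularity at the right end.

Proof. Fix distinct points `t_1 .. t_r` in `(0,1)` (for instance `t_j = j/(r+1)`) and weights
`w_j` with `Σ w_j t_j^m = 1/(m+1)` for `m < r` (Vandermonde,
`Matrix.det_vandermonde_ne_zero_iff`). For `g` of class `C^(r+1)` on a cell `[c, c + δ]`,
`|Σ_j δ w_j g' (c + δ t_j) - (g (c+δ) - g c)| ≤ C_r δ^(r+1) sup |g^(r+1)|` (Taylor
polynomial of degree `r` of `g` at an interior point of the cell, the rule being exact for it).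
Blocks `[1 - 2^-i, 1 - 2^-(i+1)]`, `i < I`, each cut into `M` equal cells of length
`δ = 2^-(i+1)/M`, where `1 - ρ ≥ 2^-(i+1)`: the error is at most
`M C_r δ^(r+1) B 2^((i+1)(r+1/2)) ≤ C_r B M^-r 2^(-(i+1)/2)`, summable in `i`. Last
interval `[1 - 2^-I, 1]`: one node at its midpoint, weight `2^-I`; both `2^-I |φ'|` there and
`|φ 1 - φ (1 - 2^-I)| ≤ ∫ B (1-ρ)^(-1/2)` are at most `2 B 2^(-I/2)` (mean value inequality on
the subintervals, or `φ + 2 B √(1-ρ)` is monotone). `Σ |J|/κ`: `κ ≥ √(1-ρ)`, geometric sum. The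
number of nodes is `r M I + 1`.
-/

namespace Vale.Agent.P347

theorem quad_weights (r : ℕ) : ∃ w : Fin r → ℝ, ∀ m : ℕ, m < r →
    ∑ j : Fin r, w j * ((((j : ℕ) : ℝ) + 1) / (r + 1)) ^ m = 1 / ((m : ℝ) + 1) := by
  let t : Fin r → ℝ := fun j => (((j : ℕ) : ℝ) + 1) / (r + 1)
  have ht : Function.Injective t := by
    intro i j hij
    have h : ((r : ℝ) + 1) ≠ 0 := by positivity
    have h2 : (((i : ℕ) : ℝ) + 1) / (r + 1) = (((j : ℕ) : ℝ) + 1) / (r + 1) := hij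
    rw [div_left_inj' h] at h2
    have h3 : ((i : ℕ) : ℝ) = ((j : ℕ) : ℝ) := by linarith
    exact Fin.ext (by exact_mod_cast h3)
  have hdet : (Matrix.vandermonde t).det ≠ 0 := Matrix.det_vandermonde_ne_zero_iff.2 ht
  have hu : IsUnit (Matrix.vandermonde t).det := isUnit_iff_ne_zero.2 hdet
  let b : Fin r → ℝ := fun m => 1 / (((m : ℕ) : ℝ) + 1)
  refine ⟨Matrix.vecMul b (Matrix.vandermonde t)⁻¹, fun m hm => ?_⟩
  have h : Matrix.vecMul (Matrix.vecMul b (Matrix.vandermonde t)⁻¹) (Matrix.vandermonde t) = b := by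
    rw [Matrix.vecMul_vecMul, Matrix.nonsing_inv_mul _ hu, Matrix.vecMul_one]
  exact congrFun h ⟨m, hm⟩

theorem quad_mvt {f f' : ℝ → ℝ} {c δ S x y : ℝ}
    (hf : ∀ x ∈ Set.Ioo c (c + δ), HasDerivAt f (f' x) x)
    (hb : ∀ x ∈ Set.Ioo c (c + δ), |f' x| ≤ S) (hx : x ∈ Set.Ioo c (c + δ))
    (hy : y ∈ Set.Ioo c (c + δ)) : |f x - f y| ≤ S * δ := by
  have h := (convex_Ioo c (c + δ)).norm_image_sub_le_of_norm_hasDerivWithin_le
    (fun z hz => (hf z hz).hasDerivWithinAt) hb hy hx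
  have hS : 0 ≤ S := (abs_nonneg _).trans (hb x hx)
  refine h.trans (mul_le_mul_of_nonneg_left ?_ hS)
  rw [Real.norm_eq_abs, abs_le]
  constructor <;> linarith [hx.1, hx.2, hy.1, hy.2]

theorem quad_taylor (k : ℕ) : ∀ (G : ℕ → ℝ → ℝ) (c δ S : ℝ), 0 < δ →
    (∀ m ≤ k, ∀ x ∈ Set.Ioo c (c + δ), HasDerivAt (G m) (G (m + 1) x) x) →
    (∀ x ∈ Set.Ioo c (c + δ), |G (k + 1) x| ≤ S) →
    ∃ a : ℕ → ℝ, ∀ x ∈ Set.Ioo c (c + δ),
      |G 0 x - ∑ m ∈ Finset.range (k + 1), a m * (x - c) ^ m| ≤ S * δ ^ (k + 1) ∧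
      |G 1 x - ∑ m ∈ Finset.range (k + 1), a m * ((m : ℝ) * (x - c) ^ (m - 1))| ≤ S * δ ^ k := by
  induction k with
  | zero =>
    intro G c δ S hδ hG hb
    have hy : c + δ / 2 ∈ Set.Ioo c (c + δ) := ⟨by linarith, by linarith⟩
    refine ⟨fun _ => G 0 (c + δ / 2), fun x hx => ⟨?_, ?_⟩⟩
    · simp only [zero_add, Finset.sum_range_one, pow_zero, mul_one, pow_one]
      exact quad_mvt (hG 0 le_rfl) hb hx hy
    · simp only [zero_add, Finset.sum_range_one, Nat.cast_zero, zero_mul, mul_zero, sub_zero,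
        pow_zero, mul_one]
      exact hb x hx
  | succ k ih =>
    intro G c δ S hδ hG hb
    obtain ⟨a, ha⟩ := ih (fun m => G (m + 1)) c δ S hδ
      (fun m hm x hx => hG (m + 1) (by omega) x hx) hb
    have hy : c + δ / 2 ∈ Set.Ioo c (c + δ) := ⟨by linarith, by linarith⟩
    let Q : ℝ → ℝ := fun x => ∑ m ∈ Finset.range (k + 1), a m / ((m : ℝ) + 1) * (x - c) ^ (m + 1)
    have hQ : ∀ x, HasDerivAt Q (∑ m ∈ Finset.range (k + 1), a m * (x - c) ^ m) x := by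
      intro x
      refine HasDerivAt.fun_sum fun m _ => ?_
      have h1 : HasDerivAt (fun x : ℝ => (x - c) ^ (m + 1)) (((m : ℝ) + 1) * (x - c) ^ m) x := by
        have h := ((hasDerivAt_id' x).sub_const c).fun_pow (m + 1)
        refine h.congr_deriv ?_
        push_cast
        rw [mul_one]
      have h2 := h1.const_mul (a m / ((m : ℝ) + 1))
      refine h2.congr_deriv ?_
      have : ((m : ℝ) + 1) ≠ 0 := by positivity
      field_simp
    let A0 : ℝ := G 0 (c + δ / 2) - Q (c + δ / 2)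
    let a' : ℕ → ℝ := fun m => Nat.casesOn m A0 (fun m => a m / ((m : ℝ) + 1))
    have ha0 : a' 0 = A0 := rfl
    have ha1 : ∀ m, a' (m + 1) = a m / ((m : ℝ) + 1) := fun _ => rfl
    have hs : ∀ x, ∑ m ∈ Finset.range (k + 1 + 1), a' m * (x - c) ^ m = Q x + A0 := by
      intro x
      rw [Finset.sum_range_succ', ha0, pow_zero, mul_one]
    have hs' : ∀ x, ∑ m ∈ Finset.range (k + 1 + 1), a' m * ((m : ℝ) * (x - c) ^ (m - 1))
        = ∑ m ∈ Finset.range (k + 1), a m * (x - c) ^ m := by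
      intro x
      rw [Finset.sum_range_succ']
      simp only [Nat.cast_zero, zero_mul, mul_zero, add_zero]
      refine Finset.sum_congr rfl fun m _ => ?_
      have : ((m : ℝ) + 1) ≠ 0 := by positivity
      rw [Nat.add_sub_cancel, ha1]
      push_cast
      field_simp
    refine ⟨a', fun x hx => ⟨?_, ?_⟩⟩
    · rw [hs]
      have h := quad_mvt (f := fun x => G 0 x - Q x)
        (f' := fun x => G 1 x - ∑ m ∈ Finset.range (k + 1), a m * (x - c) ^ m)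
        (fun z hz => (hG 0 (Nat.zero_le _) z hz).sub (hQ z)) (fun z hz => (ha z hz).1) hx hy
      have e : G 0 x - (Q x + A0) = G 0 x - Q x - (G 0 (c + δ / 2) - Q (c + δ / 2)) := by
        simp only [A0]
        ring
      rw [e, pow_succ δ (k + 1), ← mul_assoc]
      exact h
    · rw [hs']
      exact (ha x hx).1

theorem quad_cell {r : ℕ} (w t : Fin r → ℝ) (ht0 : ∀ j, 0 < t j) (ht1 : ∀ j, t j < 1)
    (hw : ∀ m : ℕ, m < r → ∑ j : Fin r, w j * t j ^ m = 1 / ((m : ℝ) + 1))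
    (G : ℕ → ℝ → ℝ) (c δ S : ℝ) (hδ : 0 < δ)
    (hG : ∀ m ≤ r, ∀ x ∈ Set.Ioo c (c + δ), HasDerivAt (G m) (G (m + 1) x) x)
    (hb : ∀ x ∈ Set.Ioo c (c + δ), |G (r + 1) x| ≤ S)
    (hc : ContinuousOn (G 0) (Set.Icc c (c + δ))) :
    |(∑ j, δ * w j * G 1 (c + δ * t j)) - (G 0 (c + δ) - G 0 c)|
      ≤ ((∑ j, |w j|) + 2) * (S * δ ^ (r + 1)) := by
  obtain ⟨a, ha⟩ := quad_taylor r G c δ S hδ hG hb
  let P : ℝ → ℝ := fun x => ∑ m ∈ Finset.range (r + 1), a m * (x - c) ^ m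
  let P1 : ℝ → ℝ := fun x => ∑ m ∈ Finset.range (r + 1), a m * ((m : ℝ) * (x - c) ^ (m - 1))
  have hPend : P (c + δ) - P c = ∑ m ∈ Finset.range r, a (m + 1) * δ ^ (m + 1) := by
    have h1 : P (c + δ) = ∑ m ∈ Finset.range r, a (m + 1) * δ ^ (m + 1) + a 0 := by
      simp only [P]
      rw [Finset.sum_range_succ', add_sub_cancel_left, pow_zero, mul_one]
    have h2 : P c = a 0 := by
      simp only [P]
      rw [Finset.sum_range_succ', sub_self, pow_zero, mul_one]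
      rw [Finset.sum_eq_zero, zero_add]
      intro m _
      rw [zero_pow (Nat.succ_ne_zero m), mul_zero]
    rw [h1, h2]
    ring
  have hP1 : ∑ j, δ * w j * P1 (c + δ * t j) = P (c + δ) - P c := by
    rw [hPend]
    have h1 : ∀ j, δ * w j * P1 (c + δ * t j)
        = ∑ m ∈ Finset.range r, a (m + 1) * δ ^ (m + 1) * ((m : ℝ) + 1) * (w j * t j ^ m) := by
      intro j
      simp only [P1]
      rw [Finset.sum_range_succ', mul_add, Finset.mul_sum]
      simp only [Nat.cast_zero, zero_mul, mul_zero, add_zero, Nat.add_sub_cancel,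
        add_sub_cancel_left, Nat.cast_add, Nat.cast_one]
      refine Finset.sum_congr rfl fun m _ => ?_
      rw [mul_pow]
      ring
    rw [Finset.sum_congr rfl fun j _ => h1 j, Finset.sum_comm]
    refine Finset.sum_congr rfl fun m hm => ?_
    rw [← Finset.mul_sum, hw m (Finset.mem_range.1 hm)]
    have : ((m : ℝ) + 1) ≠ 0 := by positivity
    field_simp
  have hmem : ∀ j, c + δ * t j ∈ Set.Ioo c (c + δ) := by
    intro j
    have h1 := mul_pos hδ (ht0 j)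
    have h2 := mul_lt_mul_of_pos_left (ht1 j) hδ
    exact ⟨by linarith, by linarith⟩
  have hcl : ∀ x ∈ Set.Icc c (c + δ), |G 0 x - P x| ≤ S * δ ^ (r + 1) := by
    have hne : c ≠ c + δ := by linarith
    have hm : Set.MapsTo (fun x => G 0 x - P x) (Set.Ioo c (c + δ))
        (Set.Icc (-(S * δ ^ (r + 1))) (S * δ ^ (r + 1))) := by
      intro x hx
      exact abs_le.1 (ha x hx).1
    have hPc : Continuous P := by
      refine continuous_finsetSum _ fun m _ => ?_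
      fun_prop
    have h := hm.closure_of_continuousOn (by
      rw [closure_Ioo hne]
      exact hc.sub hPc.continuousOn)
    rw [closure_Ioo hne, isClosed_Icc.closure_eq] at h
    intro x hx
    exact abs_le.2 (h hx)
  have hsum : |∑ j, δ * w j * (G 1 (c + δ * t j) - P1 (c + δ * t j))|
      ≤ (∑ j, |w j|) * (S * δ ^ (r + 1)) := by
    refine (Finset.abs_sum_le_sum_abs _ _).trans ?_
    rw [Finset.sum_mul]
    refine Finset.sum_le_sum fun j _ => ?_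
    rw [abs_mul, abs_mul, abs_of_pos hδ]
    have h := (ha _ (hmem j)).2
    calc δ * |w j| * |G 1 (c + δ * t j) - P1 (c + δ * t j)| ≤ δ * |w j| * (S * δ ^ r) :=
          mul_le_mul_of_nonneg_left h (mul_nonneg hδ.le (abs_nonneg _))
      _ = |w j| * (S * δ ^ (r + 1)) := by ring
  have e : (∑ j, δ * w j * G 1 (c + δ * t j)) - (G 0 (c + δ) - G 0 c)
      = (∑ j, δ * w j * (G 1 (c + δ * t j) - P1 (c + δ * t j)))
        - (G 0 (c + δ) - P (c + δ)) + (G 0 c - P c) := by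
    have h1 : ∑ j, δ * w j * (G 1 (c + δ * t j) - P1 (c + δ * t j))
        = ∑ j, δ * w j * G 1 (c + δ * t j) - ∑ j, δ * w j * P1 (c + δ * t j) := by
      rw [← Finset.sum_sub_distrib]
      refine Finset.sum_congr rfl fun j _ => ?_
      ring
    rw [h1, hP1]
    ring
  rw [e]
  have h1 := hcl (c + δ) ⟨by linarith, le_rfl⟩
  have h2 := hcl c ⟨le_rfl, by linarith⟩
  have h3 := abs_le.1 hsum
  have h4 := abs_le.1 h1
  have h5 := abs_le.1 h2
  rw [abs_le]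
  constructor <;> linarith [h3.1, h3.2, h4.1, h4.2, h5.1, h5.2]

theorem quad_hasDeriv {r : ℕ} {φ : ℝ → ℝ} {ρ : ℝ} (h : ContDiffAt ℝ (r + 1 : ℕ) φ ρ) (m : ℕ)
    (hm : m ≤ r) : HasDerivAt (iteratedDeriv m φ) (iteratedDeriv (m + 1) φ ρ) ρ := by
  have h1 : ContDiffAt ℝ 1 (iteratedFDeriv ℝ m φ) ρ := by
    refine h.iteratedFDeriv_right ?_
    have : 1 + m ≤ r + 1 := by omega
    exact_mod_cast this
  have h2 : DifferentiableAt ℝ (iteratedDeriv m φ) ρ := by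
    rw [iteratedDeriv_eq_equiv_comp]
    exact (LinearIsometryEquiv.differentiable _).differentiableAt.comp ρ
      (h1.differentiableAt one_ne_zero)
  rw [iteratedDeriv_succ]
  exact h2.hasDerivAt

theorem quad_anti {r : ℕ} {q y : ℝ} (hq : 0 < q) (hqy : q ≤ y) :
    √y / y ^ (r + 1) ≤ √q / q ^ (r + 1) := by
  have key : ∀ z : ℝ, 0 < z → √z / z ^ (r + 1) = (√z * z ^ r)⁻¹ := by
    intro z hz
    have h1 : 0 < √z := Real.sqrt_pos.2 hz
    have h2 : √z * √z = z := Real.mul_self_sqrt hz.le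
    have h3 : z ^ (r + 1) = √z * √z * z ^ r := by rw [h2]; ring
    rw [h3]
    field_simp
  rw [key y (hq.trans_le hqy), key q hq]
  have h1 : 0 < √q := Real.sqrt_pos.2 hq
  have h2 : √q ≤ √y := Real.sqrt_le_sqrt hqy
  have h3 : q ^ r ≤ y ^ r := pow_le_pow_left₀ hq.le hqy r
  exact inv_anti₀ (mul_pos h1 (pow_pos hq r)) (mul_le_mul h2 h3 (pow_pos hq r).le
    (h1.le.trans h2))

theorem quad_s : (0 : ℝ) < (√2)⁻¹ ∧ ((√2)⁻¹ : ℝ) ^ 2 = 1 / 2 ∧ ((√2)⁻¹ : ℝ) ≤ 3 / 4 := by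
  have h1 : (0 : ℝ) < √2 := Real.sqrt_pos.2 (by norm_num)
  have h2 : (√2 : ℝ) ^ 2 = 2 := Real.sq_sqrt (by norm_num)
  refine ⟨inv_pos.2 h1, by rw [inv_pow, h2]; norm_num, ?_⟩
  have h3 : (4 / 3 : ℝ) ≤ √2 := Real.le_sqrt_of_sq_le (by norm_num)
  calc ((√2)⁻¹ : ℝ) ≤ (4 / 3 : ℝ)⁻¹ := inv_anti₀ (by norm_num) h3
    _ = 3 / 4 := by norm_num

theorem quad_geo (I : ℕ) : ∑ i ∈ Finset.range I, ((√2)⁻¹ : ℝ) ^ (i + 1) ≤ 3 := by
  obtain ⟨h0, -, h1⟩ := quad_s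
  have h : ∑ i ∈ Finset.range I, ((√2)⁻¹ : ℝ) ^ (i + 1) ≤ 3 * (1 - ((√2)⁻¹ : ℝ) ^ I) := by
    induction I with
    | zero => simp
    | succ I ih =>
      rw [Finset.sum_range_succ]
      have h2 : ((√2)⁻¹ : ℝ) ^ (I + 1) ≤ ((√2)⁻¹ : ℝ) ^ I * (3 / 4) := by
        rw [pow_succ]
        exact mul_le_mul_of_nonneg_left h1 (pow_pos h0 I).le
      linarith
  have h2 := pow_pos h0 I
  linarith

/-- the hypotheses on the function -/
def QHyp (r : ℕ) (φ : ℝ → ℝ) (B : ℝ) : Prop :=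
  0 ≤ B ∧ ContinuousOn φ (Set.Icc 0 1) ∧
    ∀ ρ : ℝ, 0 < ρ → ρ < 1 → ContDiffAt ℝ (r + 1 : ℕ) φ ρ ∧
      ∀ m : ℕ, 1 ≤ m → m ≤ r + 1 →
        |iteratedDeriv m φ ρ| ≤ B * (√(1 - ρ) / (1 - ρ) ^ m)

theorem quad_deriv_le {r : ℕ} {φ : ℝ → ℝ} {B : ℝ} (h : QHyp r φ B) {ρ : ℝ} (h0 : 0 < ρ)
    (h1 : ρ < 1) : |deriv φ ρ| ≤ B / √(1 - ρ) := by
  have h2 := (h.2.2 ρ h0 h1).2 1 le_rfl (by omega)
  rw [iteratedDeriv_one, pow_one] at h2
  have h3 : 0 < 1 - ρ := by linarith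
  have h4 : 0 < √(1 - ρ) := Real.sqrt_pos.2 h3
  have h5 : √(1 - ρ) / (1 - ρ) = 1 / √(1 - ρ) := by
    rw [div_eq_div_iff h3.ne' h4.ne', Real.mul_self_sqrt h3.le, one_mul]
  rw [h5, mul_one_div] at h2
  exact h2

theorem quad_end {r : ℕ} {φ : ℝ → ℝ} {B : ℝ} (h : QHyp r φ B) {q : ℝ} (h0 : 0 < q)
    (h1 : q ≤ 1) : |φ 1 - φ (1 - q)| ≤ 2 * B * √q := by
  have hsub : Set.Icc (1 - q) 1 ⊆ Set.Icc (0 : ℝ) 1 := Set.Icc_subset_Icc (by linarith) le_rfl
  have hφ : ContinuousOn φ (Set.Icc (1 - q) 1) := h.2.1.mono hsub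
  have hs : Continuous (fun ρ : ℝ => 2 * B * √(1 - ρ)) := by fun_prop
  have hd : ∀ ρ ∈ Set.Ioo (1 - q) 1, HasDerivAt (fun ρ : ℝ => 2 * B * √(1 - ρ))
      (-(B / √(1 - ρ))) ρ := by
    intro ρ hρ
    have h2 : 0 < 1 - ρ := by linarith [hρ.2]
    have h3 := (((hasDerivAt_id' ρ).const_sub 1).sqrt h2.ne').const_mul (2 * B)
    refine h3.congr_deriv ?_
    have h4 : 0 < √(1 - ρ) := Real.sqrt_pos.2 h2
    field_simp
  have hp : ∀ ρ ∈ Set.Ioo (1 - q) 1, HasDerivAt φ (deriv φ ρ) ρ := by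
    intro ρ hρ
    have h3 := (h.2.2 ρ (by linarith [hρ.1]) hρ.2).1
    refine (h3.differentiableAt ?_).hasDerivAt
    exact_mod_cast Nat.succ_ne_zero r
  have hin : ∀ ρ ∈ Set.Ioo (1 - q) 1, |deriv φ ρ| ≤ B / √(1 - ρ) := fun ρ hρ =>
    quad_deriv_le h (by linarith [hρ.1]) hρ.2
  have hq1 : (1 - q) ∈ Set.Icc (1 - q) 1 := ⟨le_rfl, by linarith⟩
  have hq2 : (1 : ℝ) ∈ Set.Icc (1 - q) 1 := ⟨by linarith, le_rfl⟩
  have hA : AntitoneOn (fun ρ => φ ρ + 2 * B * √(1 - ρ)) (Set.Icc (1 - q) 1) := by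
    refine antitoneOn_of_hasDerivWithinAt_nonpos (convex_Icc _ _) (hφ.add hs.continuousOn)
      (f' := fun ρ => deriv φ ρ + -(B / √(1 - ρ))) ?_ ?_
    · intro ρ hρ
      rw [interior_Icc] at hρ
      exact ((hp ρ hρ).add (hd ρ hρ)).hasDerivWithinAt
    · intro ρ hρ
      rw [interior_Icc] at hρ
      have := (abs_le.1 (hin ρ hρ)).2
      linarith
  have hB : MonotoneOn (fun ρ => φ ρ - 2 * B * √(1 - ρ)) (Set.Icc (1 - q) 1) := by
    refine monotoneOn_of_hasDerivWithinAt_nonneg (convex_Icc _ _) (hφ.sub hs.continuousOn)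
      (f' := fun ρ => deriv φ ρ - -(B / √(1 - ρ))) ?_ ?_
    · intro ρ hρ
      rw [interior_Icc] at hρ
      exact ((hp ρ hρ).sub (hd ρ hρ)).hasDerivWithinAt
    · intro ρ hρ
      rw [interior_Icc] at hρ
      have := (abs_le.1 (hin ρ hρ)).1
      linarith
  have h5 := hA hq1 hq2 (by linarith)
  have h6 := hB hq1 hq2 (by linarith)
  simp only [sub_self, Real.sqrt_zero, mul_zero, add_zero, sub_zero, sub_sub_cancel] at h5 h6
  rw [abs_le]
  constructor <;> linarith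

theorem quad_block {r : ℕ} (w t : Fin r → ℝ) (ht0 : ∀ j, 0 < t j) (ht1 : ∀ j, t j < 1)
    (hw : ∀ m : ℕ, m < r → ∑ j : Fin r, w j * t j ^ m = 1 / ((m : ℝ) + 1))
    {φ : ℝ → ℝ} {B : ℝ} (h : QHyp r φ B) {M : ℕ} (hM : 1 ≤ M) {q : ℝ} (hq : 0 < q)
    (hq1 : 2 * q ≤ 1) :
    |(∑ l ∈ Finset.range M, ∑ j, q / M * w j * deriv φ (1 - 2 * q + l * (q / M) + q / M * t j))
        - (φ (1 - q) - φ (1 - 2 * q))|
      ≤ ((∑ j, |w j|) + 2) * (B * √q * ((M : ℝ)⁻¹) ^ r) := by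
  have hM0 : (0 : ℝ) < M := by
    have : 0 < M := hM
    exact_mod_cast this
  have hδ : 0 < q / M := div_pos hq hM0
  have hMδ : (M : ℝ) * (q / M) = q := by field_simp
  have htel : φ (1 - q) - φ (1 - 2 * q) = ∑ l ∈ Finset.range M,
      (φ (1 - 2 * q + l * (q / M) + q / M) - φ (1 - 2 * q + l * (q / M))) := by
    have h1 := Finset.sum_range_sub (fun l : ℕ => φ (1 - 2 * q + l * (q / M))) M
    have h2 : ∀ l : ℕ, 1 - 2 * q + ((l + 1 : ℕ) : ℝ) * (q / M)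
        = 1 - 2 * q + l * (q / M) + q / M := by
      intro l
      push_cast
      ring
    simp only [h2, Nat.cast_zero, zero_mul, add_zero, hMδ] at h1
    rw [h1]
    congr 2
    ring
  have hcell : ∀ l ∈ Finset.range M,
      |(∑ j, q / M * w j * deriv φ (1 - 2 * q + l * (q / M) + q / M * t j))
        - (φ (1 - 2 * q + l * (q / M) + q / M) - φ (1 - 2 * q + l * (q / M)))|
      ≤ ((∑ j, |w j|) + 2) * (B * (√q / q ^ (r + 1)) * (q / M) ^ (r + 1)) := by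
    intro l hl
    have hl1 : (l : ℝ) + 1 ≤ M := by
      have := Finset.mem_range.1 hl
      exact_mod_cast this
    have hc0 : 0 ≤ 1 - 2 * q + l * (q / M) := by
      have : 0 ≤ (l : ℝ) * (q / M) := by positivity
      linarith
    have hc1 : 1 - 2 * q + l * (q / M) + q / M ≤ 1 - q := by
      have h1 : ((l : ℝ) + 1) * (q / M) ≤ M * (q / M) := mul_le_mul_of_nonneg_right hl1 hδ.le
      rw [hMδ] at h1
      linarith
    have hin : ∀ x ∈ Set.Ioo (1 - 2 * q + l * (q / M)) (1 - 2 * q + l * (q / M) + q / M),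
        0 < x ∧ x < 1 ∧ q ≤ 1 - x := by
      intro x hx
      exact ⟨by linarith [hx.1], by linarith [hx.2], by linarith [hx.2]⟩
    have hkey := quad_cell w t ht0 ht1 hw (fun m => iteratedDeriv m φ)
      (1 - 2 * q + l * (q / M)) (q / M) (B * (√q / q ^ (r + 1))) hδ
      (fun m hm x hx => quad_hasDeriv (h.2.2 x (hin x hx).1 (hin x hx).2.1).1 m hm)
      (fun x hx => by
        obtain ⟨h1, h2, h3⟩ := hin x hx
        exact ((h.2.2 x h1 h2).2 (r + 1) (by omega) le_rfl).trans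
          (mul_le_mul_of_nonneg_left (quad_anti hq h3) h.1))
      (by
        simp only [iteratedDeriv_zero]
        refine h.2.1.mono (Set.Icc_subset_Icc hc0 (by linarith)))
    simp only [iteratedDeriv_zero, iteratedDeriv_one] at hkey
    exact hkey
  rw [htel, ← Finset.sum_sub_distrib]
  refine (Finset.abs_sum_le_sum_abs _ _).trans ((Finset.sum_le_sum hcell).trans (le_of_eq ?_))
  rw [Finset.sum_const, Finset.card_range, nsmul_eq_mul]
  have hq0 : q ≠ 0 := hq.ne'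
  have hM0' : (M : ℝ) ≠ 0 := hM0.ne'
  rw [div_pow, inv_pow]
  field_simp
  ring

theorem quad_kap {J ρ p : ℝ} (hρ0 : 0 < ρ) (hρ1 : ρ < 1) (hp : 0 < p) (h : p ^ 2 ≤ 1 - ρ) :
    |J| / √(1 - ρ ^ 2) ≤ |J| / p := by
  refine div_le_div_of_nonneg_left (abs_nonneg _) hp ?_
  refine Real.le_sqrt_of_sq_le (h.trans ?_)
  nlinarith

theorem quad_half (I : ℕ) : ∑ i ∈ Finset.range I, (1 / 2 : ℝ) ^ (i + 1) = 1 - (1 / 2 : ℝ) ^ I := by
  induction I with
  | zero => simp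
  | succ I ih =>
    rw [Finset.sum_range_succ, ih, pow_succ]
    ring

theorem quad (r : ℕ) (hr : 1 ≤ r) : ∃ C : ℝ, 1 ≤ C ∧ ∀ M I : ℕ, 1 ≤ M → 1 ≤ I →
    ∃ (K : ℕ) (N : Nodes K), (K : ℝ) ≤ C * M * I ∧ (∀ k, 0 < N.rho k) ∧ (∀ k, N.rho k < 1) ∧
      ∑ k, N.J k = 1 ∧ ∑ k, |N.J k| / N.kap k ≤ C ∧
      ∀ (φ : ℝ → ℝ) (B : ℝ), 0 ≤ B → ContinuousOn φ (Set.Icc 0 1) →
        (∀ ρ : ℝ, 0 < ρ → ρ < 1 → ContDiffAt ℝ (r + 1 : ℕ) φ ρ ∧
          ∀ m : ℕ, 1 ≤ m → m ≤ r + 1 →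
            |iteratedDeriv m φ ρ| ≤ B * (√(1 - ρ) / (1 - ρ) ^ m)) →
        |(∑ k, N.J k * deriv φ (N.rho k)) - (φ 1 - φ 0)| ≤
          C * B * (((M : ℝ)⁻¹) ^ r + ((√2)⁻¹) ^ I) := by
  obtain ⟨w, hw⟩ := quad_weights r
  let t : Fin r → ℝ := fun j => (((j : ℕ) : ℝ) + 1) / (r + 1)
  have ht0 : ∀ j, 0 < t j := fun j => div_pos (by positivity) (by positivity)
  have ht1 : ∀ j, t j < 1 := by
    intro j
    have h1 : ((j : ℕ) : ℝ) < r := by exact_mod_cast j.2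
    exact (div_lt_one (by positivity)).2 (by linarith)
  have hw' : ∀ m : ℕ, m < r → ∑ j : Fin r, w j * t j ^ m = 1 / ((m : ℝ) + 1) := hw
  have hw0 : ∑ j, w j = 1 := by
    have h := hw' 0 (by omega)
    simpa using h
  have hW : 0 ≤ ∑ j, |w j| := Finset.sum_nonneg fun j _ => abs_nonneg _
  obtain ⟨s0, s2, s34⟩ := quad_s
  have hr0 : (0 : ℝ) ≤ r := Nat.cast_nonneg r
  refine ⟨(r : ℝ) + 1 + 5 * ((∑ j, |w j|) + 2), by linarith, fun M I hM hI => ?_⟩
  have hM1 : (1 : ℝ) ≤ M := by exact_mod_cast hM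
  have hI1 : (1 : ℝ) ≤ I := by exact_mod_cast hI
  have hM0 : (0 : ℝ) < M := by linarith
  let q : ℕ → ℝ := fun i => (1 / 2 : ℝ) ^ (i + 1)
  have hq0 : ∀ i, 0 < q i := fun i => by positivity
  have hqi : ∀ i, 2 * q i = (1 / 2 : ℝ) ^ i := by
    intro i
    simp only [q, pow_succ]
    ring
  have hq1 : ∀ i, 2 * q i ≤ 1 := by
    intro i
    rw [hqi]
    exact pow_le_one₀ (by norm_num) (by norm_num)
  have hqs : ∀ n : ℕ, (1 / 2 : ℝ) ^ n = (((√2)⁻¹ : ℝ) ^ n) ^ 2 := by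
    intro n
    rw [← pow_mul, mul_comm n 2, pow_mul, s2]
  have hsq : ∀ n : ℕ, √((1 / 2 : ℝ) ^ n) = ((√2)⁻¹ : ℝ) ^ n := by
    intro n
    rw [hqs, Real.sqrt_sq (pow_pos s0 n).le]
  let T : Type := (Fin I × Fin M × Fin r) ⊕ Unit
  let rhoT : T → ℝ := Sum.elim
    (fun x => 1 - 2 * q x.1 + ((x.2.1 : ℕ) : ℝ) * (q x.1 / M) + q x.1 / M * t x.2.2)
    (fun _ => 1 - (1 / 2 : ℝ) ^ (I + 1))
  let JT : T → ℝ := Sum.elim (fun x => q x.1 / M * w x.2.2) (fun _ => (1 / 2 : ℝ) ^ I)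
  let e : T ≃ Fin (Fintype.card T) := Fintype.equivFin T
  let N : Nodes (Fintype.card T) := ⟨fun k => rhoT (e.symm k), fun k => JT (e.symm k)⟩
  have hsumT : ∀ F : ℝ → ℝ → ℝ, ∑ k, F (N.J k) (N.rho k)
      = (∑ i ∈ Finset.range I, ∑ l ∈ Finset.range M, ∑ j : Fin r, F (q i / M * w j)
          (1 - 2 * q i + l * (q i / M) + q i / M * t j))
        + F ((1 / 2 : ℝ) ^ I) (1 - (1 / 2 : ℝ) ^ (I + 1)) := by
    intro F
    have h1 : ∑ k, F (N.J k) (N.rho k) = ∑ x : T, F (JT x) (rhoT x) :=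
      Equiv.sum_comp e.symm (fun x => F (JT x) (rhoT x))
    rw [h1, Fintype.sum_sum_type, Fintype.sum_prod_type, Finset.sum_range]
    congr 1
    · refine Finset.sum_congr rfl fun i _ => ?_
      rw [Fintype.sum_prod_type, Finset.sum_range]
      rfl
    · simp [JT, rhoT]
  have hcell : ∀ (i l : ℕ) (j : Fin r), l < M →
      0 < 1 - 2 * q i + l * (q i / M) + q i / M * t j ∧
      q i ≤ 1 - (1 - 2 * q i + l * (q i / M) + q i / M * t j) := by
    intro i l j hl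
    have hδ : 0 < q i / M := div_pos (hq0 i) hM0
    have h1 : 0 ≤ (l : ℝ) * (q i / M) := by positivity
    have h2 : 0 < q i / M * t j := mul_pos hδ (ht0 j)
    have h3 : q i / M * t j ≤ q i / M := mul_le_of_le_one_right hδ.le (ht1 j).le
    have hl1 : (l : ℝ) + 1 ≤ M := by exact_mod_cast hl
    have h4 : ((l : ℝ) + 1) * (q i / M) ≤ M * (q i / M) := mul_le_mul_of_nonneg_right hl1 hδ.le
    have h5 : (M : ℝ) * (q i / M) = q i := by field_simp
    have h6 := hq1 i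
    constructor
    · linarith
    · linarith
  have hlast : (0 : ℝ) < 1 - (1 / 2 : ℝ) ^ (I + 1) ∧ 1 - (1 / 2 : ℝ) ^ (I + 1) < 1 := by
    have h1 : (0 : ℝ) < (1 / 2 : ℝ) ^ (I + 1) := by positivity
    have h2 := hq1 I
    have h3 : q I = (1 / 2 : ℝ) ^ (I + 1) := rfl
    constructor
    · linarith
    · linarith
  have hrhoT : ∀ x : T, 0 < rhoT x ∧ rhoT x < 1 := by
    rintro (⟨i, l, j⟩ | u)
    · have h := hcell i l j l.2
      refine ⟨h.1, ?_⟩
      have h1 := hq0 i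
      show 1 - 2 * q i + ((l : ℕ) : ℝ) * (q i / M) + q i / M * t j < 1
      linarith [h.2]
    · exact hlast
  refine ⟨Fintype.card T, N, ?_, fun k => (hrhoT _).1, fun k => (hrhoT _).2, ?_, ?_, ?_⟩
  · have h1 : Fintype.card T = I * (M * r) + 1 := by
      simp [T]
    rw [h1]
    push_cast
    have h2 : (1 : ℝ) ≤ M * I := by nlinarith
    have h3 : 0 ≤ 5 * ((∑ j, |w j|) + 2) * (M * I) := by positivity
    nlinarith
  · rw [hsumT (fun J _ => J)]
    have h1 : ∀ i ∈ Finset.range I, ∑ l ∈ Finset.range M, ∑ j : Fin r, q i / M * w j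
        = (1 / 2 : ℝ) ^ (i + 1) := by
      intro i _
      rw [Finset.sum_const, Finset.card_range, nsmul_eq_mul, ← Finset.mul_sum, hw0]
      show (M : ℝ) * (q i / M * 1) = q i
      field_simp
    rw [Finset.sum_congr rfl h1, quad_half]
    ring
  · have h1 : ∑ k, |N.J k| / N.kap k = (∑ i ∈ Finset.range I, ∑ l ∈ Finset.range M, ∑ j : Fin r,
        |q i / M * w j| / √(1 - (1 - 2 * q i + l * (q i / M) + q i / M * t j) ^ 2))
        + |(1 / 2 : ℝ) ^ I| / √(1 - (1 - (1 / 2 : ℝ) ^ (I + 1)) ^ 2) :=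
      hsumT (fun J ρ : ℝ => |J| / √(1 - ρ ^ 2))
    rw [h1]
    have h2 : ∀ i ∈ Finset.range I, ∑ l ∈ Finset.range M, ∑ j : Fin r,
        |q i / M * w j| / √(1 - (1 - 2 * q i + l * (q i / M) + q i / M * t j) ^ 2)
        ≤ (∑ j, |w j|) * ((√2)⁻¹ : ℝ) ^ (i + 1) := by
      intro i _
      have hp : 0 < ((√2)⁻¹ : ℝ) ^ (i + 1) := pow_pos s0 _
      have hpq : (((√2)⁻¹ : ℝ) ^ (i + 1)) ^ 2 = q i := (hqs (i + 1)).symm
      have h3 : ∀ l ∈ Finset.range M, ∑ j : Fin r,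
          |q i / M * w j| / √(1 - (1 - 2 * q i + l * (q i / M) + q i / M * t j) ^ 2)
          ≤ (∑ j, |w j|) * (q i / M / ((√2)⁻¹ : ℝ) ^ (i + 1)) := by
        intro l hl
        rw [Finset.sum_mul]
        refine Finset.sum_le_sum fun j _ => ?_
        obtain ⟨h4, h5⟩ := hcell i l j (Finset.mem_range.1 hl)
        refine (quad_kap h4 (by linarith [hq0 i]) hp (hpq.trans_le h5)).trans (le_of_eq ?_)
        rw [abs_mul, abs_of_pos (div_pos (hq0 i) hM0)]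
        ring
      refine (Finset.sum_le_sum h3).trans (le_of_eq ?_)
      rw [Finset.sum_const, Finset.card_range, nsmul_eq_mul, ← hpq]
      field_simp
    have h3 : |(1 / 2 : ℝ) ^ I| / √(1 - (1 - (1 / 2 : ℝ) ^ (I + 1)) ^ 2) ≤ 2 := by
      refine (quad_kap (p := ((√2)⁻¹ : ℝ) ^ (I + 1)) hlast.1 hlast.2 (pow_pos s0 _) ?_).trans ?_
      · rw [← hqs]
        linarith
      · rw [abs_of_pos (by positivity), hqs, div_le_iff₀ (pow_pos s0 _), pow_succ _ I]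
        have h4 : ((√2)⁻¹ : ℝ) ^ I ≤ 1 := pow_le_one₀ s0.le (by linarith)
        have h5 : 0 < ((√2)⁻¹ : ℝ) ^ I := pow_pos s0 _
        have h6 : (0 : ℝ) ≤ 2 * (√2)⁻¹ - 1 := by nlinarith
        have h7 := mul_nonneg h5.le (sub_nonneg.2 h4)
        have h8 := mul_nonneg h5.le h6
        nlinarith
    have h4 := Finset.sum_le_sum h2
    rw [← Finset.mul_sum] at h4
    have h5 := mul_le_mul_of_nonneg_left (quad_geo I) hW
    refine (add_le_add (h4.trans h5) h3).trans ?_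
    linarith
  · intro φ B hB hφ hd
    have h : QHyp r φ B := ⟨hB, hφ, hd⟩
    have h1 : ∑ k, N.J k * deriv φ (N.rho k) = (∑ i ∈ Finset.range I, ∑ l ∈ Finset.range M,
        ∑ j : Fin r, q i / M * w j * deriv φ (1 - 2 * q i + l * (q i / M) + q i / M * t j))
        + (1 / 2 : ℝ) ^ I * deriv φ (1 - (1 / 2 : ℝ) ^ (I + 1)) :=
      hsumT (fun J ρ : ℝ => J * deriv φ ρ)
    rw [h1]
    have htel : ∑ i ∈ Finset.range I, (φ (1 - q i) - φ (1 - 2 * q i))
        = φ (1 - (1 / 2 : ℝ) ^ I) - φ 0 := by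
      have h2 := Finset.sum_range_sub (fun i : ℕ => φ (1 - (1 / 2 : ℝ) ^ i)) I
      simp only [pow_zero, sub_self] at h2
      rw [← h2]
      refine Finset.sum_congr rfl fun i _ => ?_
      rw [hqi]
    have hblk : |∑ i ∈ Finset.range I, ((∑ l ∈ Finset.range M, ∑ j : Fin r,
        q i / M * w j * deriv φ (1 - 2 * q i + l * (q i / M) + q i / M * t j))
          - (φ (1 - q i) - φ (1 - 2 * q i)))|
        ≤ ((∑ j, |w j|) + 2) * (B * ((M : ℝ)⁻¹) ^ r) * 3 := by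
      refine (Finset.abs_sum_le_sum_abs _ _).trans ?_
      have h2 : ∀ i ∈ Finset.range I, |((∑ l ∈ Finset.range M, ∑ j : Fin r,
          q i / M * w j * deriv φ (1 - 2 * q i + l * (q i / M) + q i / M * t j))
            - (φ (1 - q i) - φ (1 - 2 * q i)))|
          ≤ ((∑ j, |w j|) + 2) * (B * ((M : ℝ)⁻¹) ^ r) * ((√2)⁻¹ : ℝ) ^ (i + 1) := by
        intro i _
        have h3 := quad_block w t ht0 ht1 hw' h hM (hq0 i) (hq1 i)
        have h4 : √(q i) = ((√2)⁻¹ : ℝ) ^ (i + 1) := hsq (i + 1)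
        rw [h4] at h3
        refine h3.trans (le_of_eq ?_)
        ring
      refine (Finset.sum_le_sum h2).trans ?_
      rw [← Finset.mul_sum]
      exact mul_le_mul_of_nonneg_left (quad_geo I) (by positivity)
    have hl : |(1 / 2 : ℝ) ^ I * deriv φ (1 - (1 / 2 : ℝ) ^ (I + 1))|
        ≤ 2 * (B * ((√2)⁻¹ : ℝ) ^ I) := by
      have h2 := quad_deriv_le h hlast.1 hlast.2
      rw [sub_sub_cancel, hsq] at h2
      rw [abs_mul, abs_of_pos (by positivity : (0 : ℝ) < (1 / 2 : ℝ) ^ I)]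
      refine (mul_le_mul_of_nonneg_left h2 (by positivity)).trans ?_
      rw [hqs, mul_div_assoc', div_le_iff₀ (by positivity), pow_succ _ I]
      have h5 : (0 : ℝ) ≤ 2 * (√2)⁻¹ - 1 := by nlinarith
      have h6 : 0 ≤ (((√2)⁻¹ : ℝ) ^ I) ^ 2 * B := by positivity
      have h7 := mul_nonneg h6 h5
      nlinarith
    have he := quad_end h (q := (1 / 2 : ℝ) ^ I) (by positivity)
      (pow_le_one₀ (by norm_num) (by norm_num))
    rw [hsq] at he
    rw [Finset.sum_sub_distrib, htel] at hblk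
    have h7 : 0 ≤ ((M : ℝ)⁻¹) ^ r := by positivity
    have h8 : 0 ≤ ((√2)⁻¹ : ℝ) ^ I := by positivity
    have h9 : 0 ≤ B * ((M : ℝ)⁻¹) ^ r := mul_nonneg hB h7
    have h10 : 0 ≤ B * ((√2)⁻¹ : ℝ) ^ I := mul_nonneg hB h8
    have h11 : 0 ≤ (r : ℝ) * (B * ((M : ℝ)⁻¹) ^ r) := mul_nonneg hr0 h9
    have h12 : 0 ≤ (r : ℝ) * (B * ((√2)⁻¹ : ℝ) ^ I) := mul_nonneg hr0 h10
    have h13 : 0 ≤ (∑ j, |w j|) * (B * ((M : ℝ)⁻¹) ^ r) := mul_nonneg hW h9
    have h14 : 0 ≤ (∑ j, |w j|) * (B * ((√2)⁻¹ : ℝ) ^ I) := mul_nonneg hW h10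
    have e1 := abs_le.1 hblk
    have e2 := abs_le.1 hl
    have e3 := abs_le.1 he
    rw [abs_le]
    constructor
    · nlinarith [e1.1, e2.1, e3.2]
    · nlinarith [e1.2, e2.2, e3.1]

end Vale.Agent.P347
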