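import Vale.Agent.Lib.P347.RhoC
import Vale.Agent.Lib.P347.Quad

/-!
P347: existence of good nodes.

Proofs. `nodes_exist`: `quad` for `φ ρ = ρ * AA F w ρ` with `phi_deriv`, `phi_ends`, `phi_bounds`
(`B = C (a √d |w|)`), constant the maximum of the constants involved.
`nodes_param`: given `δ > 0` choose `r ≥ 4/δ`, `M = ⌈d^(δ/2)⌉`, `I = ⌈8 log d⌉ + 1`; then
`C' (M^-r + 2^(-I/2)) ≤ 1/d` and `K ≤ C' M I ≤ d^δ` for large `d` (a larger error bound `ε` in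
`GoodNodes` is weaker).
-/

open Filter

namespace Vale.Agent.P347

theorem nodes_exist (r : ℕ) (hr : 1 ≤ r) : ∃ C : ℝ, 1 ≤ C ∧ ∀ M I : ℕ, 1 ≤ M → 1 ≤ I →
    ∃ (K : ℕ) (N : Nodes K), (K : ℝ) ≤ C * M * I ∧
      GoodNodes N C (C * (((M : ℝ)⁻¹) ^ r + ((√2)⁻¹) ^ I)) := by
  obtain ⟨Cq, hCq, hq⟩ := quad r hr
  obtain ⟨Cb, hCb, hb⟩ := phi_bounds r
  have hCC : Cq ≤ Cq * (1 + Cb) := by nlinarith
  refine ⟨Cq * (1 + Cb), by linarith, fun M I hM hI => ?_⟩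
  obtain ⟨K, N, hK, hpos, hlt, hsum, habs, hex⟩ := hq M I hM hI
  have hM0 : (0 : ℝ) ≤ M := Nat.cast_nonneg M
  have hI0 : (0 : ℝ) ≤ I := Nat.cast_nonneg I
  refine ⟨K, N, ?_, ?_⟩
  · refine hK.trans ?_
    gcongr
  · refine ⟨by linarith, hpos, hlt, hsum, habs.trans hCC, ?_⟩
    intro d F a hF ha w hw bw hw0
    have ha0 : 0 ≤ a := (norm_nonneg _).trans (ha 0)
    obtain ⟨hc, he⟩ := phi_ends hF ha hw bw
    have hbd := hb d F w a hF ha hw bw hw0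
    set W : ℝ := √(∫ x, ‖w x‖ ^ 2 ∂(ProbabilityTheory.stdGaussian (E d))) with hW
    have hW0 : 0 ≤ W := Real.sqrt_nonneg _
    have hB : 0 ≤ Cb * (a * √d * W) := by positivity
    have key := hex (fun t => t * AA F w t) (Cb * (a * √d * W)) hB hc hbd
    have hval : ∀ k, deriv (fun t => t * AA F w t) (N.rho k) = _ := fun k =>
      (phi_deriv hF ha hw bw (hpos k) (hlt k)).deriv
    simp only [hval] at key
    have he' : (1 : ℝ) * AA F w 1 - 0 * AA F w 0 =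
        ∫ x, inner ℝ (F x) (w x) ∂(ProbabilityTheory.stdGaussian (E d)) := he
    rw [he'] at key
    refine key.trans ?_
    have hx : 0 ≤ ((M : ℝ)⁻¹) ^ r + ((√2)⁻¹) ^ I := by positivity
    have h1 : 0 ≤ Cq * (((M : ℝ)⁻¹) ^ r + ((√2)⁻¹) ^ I) * (a * √d) * W := by positivity
    calc Cq * (Cb * (a * √d * W)) * (((M : ℝ)⁻¹) ^ r + ((√2)⁻¹) ^ I)
        ≤ Cq * (Cb * (a * √d * W)) * (((M : ℝ)⁻¹) ^ r + ((√2)⁻¹) ^ I) +
          Cq * (((M : ℝ)⁻¹) ^ r + ((√2)⁻¹) ^ I) * (a * √d) * W := by linarith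
      _ = Cq * (1 + Cb) * (((M : ℝ)⁻¹) ^ r + ((√2)⁻¹) ^ I) * (a * √d) * W := by ring

private theorem goodNodes_mono {K : ℕ} {N : Nodes K} {C ε ε' : ℝ} (h : GoodNodes N C ε)
    (he : ε ≤ ε') : GoodNodes N C ε' := by
  refine ⟨h.one_le, h.pos, h.lt, h.sum, h.abs, ?_⟩
  intro d F a hF ha w hw bw hw0
  have ha0 : 0 ≤ a := (norm_nonneg _).trans (ha 0)
  refine (h.exact d F a hF ha w hw bw hw0).trans ?_
  have h1 : 0 ≤ a * √(d : ℝ) := by positivity
  gcongr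

theorem nodes_param {δ : ℝ} (hδ : 0 < δ) : ∃ C : ℝ, 1 ≤ C ∧ ∀ᶠ d : ℕ in atTop,
    ∃ (K : ℕ) (N : Nodes K), (K : ℝ) ≤ (d : ℝ) ^ δ ∧ GoodNodes N C (1 / d) := by
  obtain ⟨r, hr1, hr⟩ : ∃ r : ℕ, 1 ≤ r ∧ 4 / δ ≤ r :=
    ⟨⌈4 / δ⌉₊ + 1, by omega, (Nat.le_ceil _).trans (by push_cast; linarith)⟩
  obtain ⟨C, hC, hn⟩ := nodes_exist r hr1
  refine ⟨C, hC, ?_⟩
  have hlog : ∀ᶠ x : ℝ in atTop, Real.log x ≤ (1 / (32 * C)) * x ^ (δ / 2) := by
    have h1 := (isLittleO_log_rpow_atTop (by positivity : 0 < δ / 2)).bound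
      (by positivity : (0 : ℝ) < 1 / (32 * C))
    filter_upwards [h1, eventually_ge_atTop (1 : ℝ)] with x hx hx1
    rw [Real.norm_of_nonneg (Real.log_nonneg hx1),
      Real.norm_of_nonneg (Real.rpow_nonneg (by linarith) _)] at hx
    exact hx
  have hbig : ∀ᶠ x : ℝ in atTop, 8 * C ≤ x ^ (δ / 2) :=
    (tendsto_rpow_atTop (by positivity : 0 < δ / 2)).eventually_ge_atTop _
  have hlog' := tendsto_natCast_atTop_atTop (R := ℝ) |>.eventually hlog
  have hbig' := tendsto_natCast_atTop_atTop (R := ℝ) |>.eventually hbig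
  have hd' := tendsto_natCast_atTop_atTop (R := ℝ) |>.eventually (eventually_ge_atTop (2 * C))
  filter_upwards [hlog', hbig', hd'] with d h1 h2 h3
  have hd1 : (1 : ℝ) ≤ d := by linarith
  have hd0 : (0 : ℝ) < d := by linarith
  obtain ⟨x, hx⟩ : ∃ x : ℝ, x = (d : ℝ) ^ (δ / 2) := ⟨_, rfl⟩
  rw [← hx] at h1 h2
  have hx8 : 8 ≤ x := by nlinarith
  have hx0 : 0 < x := by linarith
  have hlogd : 0 ≤ Real.log d := Real.log_nonneg hd1
  set M : ℕ := ⌈x⌉₊ with hM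
  set I : ℕ := ⌈8 * Real.log d⌉₊ + 1 with hI
  have hMx : x ≤ M := Nat.le_ceil x
  have hM1 : 1 ≤ M := Nat.one_le_ceil_iff.mpr hx0
  have hMu : (M : ℝ) ≤ 2 * x := by
    have := (Nat.ceil_lt_add_one hx0.le).le
    rw [← hM] at this
    linarith
  have hIl : 8 * Real.log d ≤ I := by
    rw [hI]; push_cast
    have := Nat.le_ceil (8 * Real.log d)
    linarith
  have hIu : (I : ℝ) ≤ 8 * Real.log d + 2 := by
    rw [hI]; push_cast
    have := (Nat.ceil_lt_add_one (by positivity : 0 ≤ 8 * Real.log d)).le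
    linarith
  obtain ⟨K, N, hK, hN⟩ := hn M I hM1 (by omega)
  refine ⟨K, N, ?_, goodNodes_mono hN ?_⟩
  · have hxx : (d : ℝ) ^ δ = x * x := by
      rw [hx, ← Real.rpow_add hd0]
      congr 1; ring
    rw [hxx]
    have hC0 : 0 < C := by linarith
    have e1 : C * Real.log d ≤ x / 32 := by
      have := mul_le_mul_of_nonneg_left h1 hC0.le
      have e2 : C * (1 / (32 * C) * x) = x / 32 := by field_simp
      linarith
    have e3 : C * (8 * Real.log d + 2) ≤ x / 2 := by linarith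
    calc (K : ℝ) ≤ C * M * I := hK
      _ ≤ C * (2 * x) * (8 * Real.log d + 2) := by gcongr
      _ = 2 * x * (C * (8 * Real.log d + 2)) := by ring
      _ ≤ 2 * x * (x / 2) := by gcongr
      _ = x * x := by ring
  · have hC0 : 0 < C := by linarith
    have hM0 : (0 : ℝ) < M := by linarith
    have e1 : ((M : ℝ)⁻¹) ^ r ≤ ((d : ℝ) ^ 2)⁻¹ := by
      have e2 : ((M : ℝ)⁻¹) ^ r ≤ (x⁻¹) ^ r := by gcongr
      refine e2.trans ?_
      rw [inv_pow]
      apply inv_anti₀ (by positivity)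
      rw [hx, ← Real.rpow_natCast ((d : ℝ) ^ (δ / 2)) r, ← Real.rpow_mul hd0.le,
        ← Real.rpow_natCast (d : ℝ) 2]
      apply Real.rpow_le_rpow_of_exponent_le hd1
      rw [div_le_iff₀ hδ] at hr
      push_cast
      linarith
    have hs2 : (1 : ℝ) < √2 := by
      rw [Real.lt_sqrt (by norm_num)]; norm_num
    have e2 : ((√2)⁻¹) ^ I ≤ ((d : ℝ) ^ 2)⁻¹ := by
      rw [inv_pow]
      apply inv_anti₀ (by positivity)
      rw [← Real.rpow_natCast (√2) I, ← Real.rpow_natCast (d : ℝ) 2,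
        Real.rpow_def_of_pos hd0, Real.rpow_def_of_pos (by linarith : (0 : ℝ) < √2)]
      apply Real.exp_le_exp.mpr
      have hl2 : 1 / 4 ≤ Real.log (√2) := by
        rw [Real.log_sqrt (by norm_num)]
        have := Real.log_two_gt_d9
        linarith
      push_cast
      calc Real.log d * 2 = 1 / 4 * (8 * Real.log d) := by ring
        _ ≤ Real.log (√2) * I := by gcongr
    calc C * (((M : ℝ)⁻¹) ^ r + ((√2)⁻¹) ^ I)
        ≤ C * (((d : ℝ) ^ 2)⁻¹ + ((d : ℝ) ^ 2)⁻¹) := by gcongr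
      _ = (2 * C) / d ^ 2 := by ring
      _ ≤ d / d ^ 2 := by gcongr
      _ = 1 / d := by field_simp

end Vale.Agent.P347
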