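import Mathlib

/-!
P347: choice of the parameters (real analysis only).

Proof. Without loss `δ ≤ 1/4` (if `δ` is larger use `1/4`). `h = d^(-1/4-δ/4)`, `n = ⌈d^(1/4+δ/2)⌉`,
`J` least with `2^J ≥ 400 √d h`, so `h/2^J ≤ 1/(400 √d)` and (for `d` large, `400 √d h ≥ 1`)
`h/2^J ≥ 1/(800 √d) ≥ 1/(2 d)`. `√d h² = d^(-δ/2)`, `h n ≤ d^(δ/4) + 1`, so the first and third
terms tend to `0`; the second is at most `2 d * exp (-(h/2) (n - 1))`, `h (n-1) ≥ d^(δ/4) - 1`; the last is at most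
`1/100`. `J ≤ log (800 √d)/log 2`, so `n + J + 1 ≤ d^(1/4+δ)`.
-/

open Filter

namespace Vale.Agent.P347

theorem param_pow_zero {a : ℝ} (ha : 0 < a) : Tendsto (fun x : ℝ => x ^ (-a)) atTop (nhds 0) :=
  tendsto_rpow_neg_atTop ha

theorem param_F2 {s : ℝ} (hs : 0 < s) :
    Tendsto (fun x : ℝ => x ^ (-(s / 2)) * (18 + 3 * Real.log x + 11 * x ^ (s / 4)))
      atTop (nhds 0) := by
  have h1 : Tendsto (fun x : ℝ => 18 * x ^ (-(s / 2))) atTop (nhds 0) := by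
    simpa using (param_pow_zero (a := s / 2) (by positivity)).const_mul 18
  have h2 : Tendsto (fun x : ℝ => 3 * (Real.log x / x ^ (s / 2))) atTop (nhds 0) := by
    have := (isLittleO_log_rpow_atTop (r := s / 2) (by positivity)).tendsto_div_nhds_zero
    simpa using this.const_mul 3
  have h3 : Tendsto (fun x : ℝ => 11 * x ^ (-(s / 4))) atTop (nhds 0) := by
    simpa using (param_pow_zero (a := s / 4) (by positivity)).const_mul 11
  have h4 := (h1.add h2).add h3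
  simp only [add_zero] at h4
  refine h4.congr' ?_
  filter_upwards [eventually_gt_atTop (0 : ℝ)] with x hx
  have e1 : x ^ (-(s / 2)) * x ^ (s / 4) = x ^ (-(s / 4)) := by
    rw [← Real.rpow_add hx]
    ring_nf
  have e2 : Real.log x / x ^ (s / 2) = x ^ (-(s / 2)) * Real.log x := by
    rw [Real.rpow_neg hx.le, div_eq_mul_inv, mul_comm]
  rw [e2, ← e1]
  ring

theorem param_F3 {s : ℝ} (hs : 0 < s) :
    Tendsto (fun x : ℝ => 2 * (Real.exp (-((x ^ (s / 4) - 1) / 2)) * x ^ (2 : ℝ)))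
      atTop (nhds 0) := by
  have h1 := tendsto_rpow_mul_exp_neg_mul_atTop_nhds_zero (8 / s) (1 / 2) (by norm_num)
  have h2 := h1.comp (tendsto_rpow_atTop (y := s / 4) (by positivity))
  have h3 := h2.const_mul (2 * Real.exp (1 / 2))
  rw [mul_zero] at h3
  refine h3.congr' ?_
  filter_upwards [eventually_gt_atTop (0 : ℝ)] with x hx
  have e1 : (x ^ (s / 4)) ^ (8 / s) = x ^ (2 : ℝ) := by
    rw [← Real.rpow_mul hx.le]
    congr 1
    field_simp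
    norm_num
  have e2 : Real.exp (-((x ^ (s / 4) - 1) / 2)) =
      Real.exp (1 / 2) * Real.exp (-(1 / 2) * x ^ (s / 4)) := by
    rw [← Real.exp_add]
    congr 1
    ring
  simp only [Function.comp_apply]
  rw [e1, e2]
  ring

theorem param_F5 {s δ : ℝ} (hs : 0 < s) (hsδ : s ≤ δ) :
    ∀ᶠ x : ℝ in atTop,
      x ^ (1 / 4 + s / 2) + 1 + (400 * x ^ (1 / 4 - s / 4) + 1) + 1 ≤ x ^ (1 / 4 + δ) := by
  have h1 : Tendsto (fun x : ℝ => x ^ (-(s / 2))) atTop (nhds 0) :=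
    param_pow_zero (by positivity)
  have h2 : Tendsto (fun x : ℝ => 400 * x ^ (-(s + s / 4))) atTop (nhds 0) := by
    simpa using (param_pow_zero (a := s + s / 4) (by positivity)).const_mul 400
  have h3 : Tendsto (fun x : ℝ => 3 * x ^ (-(1 / 4 + s))) atTop (nhds 0) := by
    simpa using (param_pow_zero (a := 1 / 4 + s) (by positivity)).const_mul 3
  have h4 := (h1.add h2).add h3
  simp only [add_zero] at h4
  filter_upwards [h4.eventually (eventually_le_nhds (show (0 : ℝ) < 1 by norm_num)),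
    eventually_ge_atTop (1 : ℝ)] with x hx hx1
  have hx0 : 0 < x := by linarith
  have hp : 0 < x ^ (1 / 4 + s) := Real.rpow_pos_of_pos hx0 _
  have e1 : x ^ (1 / 4 + s) * x ^ (-(s / 2)) = x ^ (1 / 4 + s / 2) := by
    rw [← Real.rpow_add hx0]
    ring_nf
  have e2 : x ^ (1 / 4 + s) * x ^ (-(s + s / 4)) = x ^ (1 / 4 - s / 4) := by
    rw [← Real.rpow_add hx0]
    ring_nf
  have e3 : x ^ (1 / 4 + s) * x ^ (-(1 / 4 + s)) = 1 := by
    rw [← Real.rpow_add hx0]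
    simp
  have h5 : x ^ (1 / 4 + s) ≤ x ^ (1 / 4 + δ) :=
    Real.rpow_le_rpow_of_exponent_le hx1 (by linarith)
  have h6 := mul_le_mul_of_nonneg_left hx hp.le
  nlinarith [h6, e1, e2, e3]

theorem param_exp_aux {h : ℝ} (hh : 0 < h) (hh1 : h ≤ 1) : (1 + h)⁻¹ ≤ Real.exp (-(h / 2)) := by
  rw [Real.exp_neg]
  apply inv_anti₀ (Real.exp_pos _)
  have h3 := Real.exp_bound' (x := h / 2) (n := 2) (by positivity) (by linarith) (by norm_num)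
  simp only [Finset.sum_range_succ, Finset.sum_range_zero, Nat.factorial] at h3
  norm_num at h3
  nlinarith [h3]

theorem param_second {x s h : ℝ} {n : ℕ} (hx1 : 1 ≤ x) (hs4 : s ≤ 1 / 4)
    (hhdef : h = x ^ (-(1 / 4 + s / 4))) (hh : 0 < h) (hh1 : h ≤ 1) (hn1 : 1 ≤ n)
    (h3 : x ^ (s / 4) ≤ h * n)
    (g3 : 2 * (Real.exp (-((x ^ (s / 4) - 1) / 2)) * x ^ (2 : ℝ)) ≤ 1 / 40) :
    ((1 + h)⁻¹) ^ (n - 1) * (√h)⁻¹ * √(2 * x) ≤ 1 / 40 := by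
  have hx0 : 0 < x := by linarith
  have h1 := param_exp_aux hh hh1
  have h2 : ((1 + h)⁻¹) ^ (n - 1) ≤ Real.exp (-((x ^ (s / 4) - 1) / 2)) := by
    have e : (Real.exp (-(h / 2))) ^ (n - 1) = Real.exp (((n - 1 : ℕ) : ℝ) * (-(h / 2))) :=
      (Real.exp_nat_mul _ _).symm
    have e2 : ((n - 1 : ℕ) : ℝ) * (-(h / 2)) ≤ -((x ^ (s / 4) - 1) / 2) := by
      rw [Nat.cast_sub hn1]
      push_cast
      nlinarith
    calc ((1 + h)⁻¹) ^ (n - 1) ≤ (Real.exp (-(h / 2))) ^ (n - 1) :=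
          pow_le_pow_left₀ (by positivity) h1 _
      _ = Real.exp (((n - 1 : ℕ) : ℝ) * (-(h / 2))) := e
      _ ≤ Real.exp (-((x ^ (s / 4) - 1) / 2)) := Real.exp_le_exp.2 e2
  have h3 : (√h)⁻¹ ≤ x := by
    have e : √h = x ^ (-(1 / 8 + s / 8)) := by
      rw [Real.sqrt_eq_rpow, hhdef, ← Real.rpow_mul hx0.le]
      ring_nf
    rw [e, ← Real.rpow_neg hx0.le]
    have : x ^ (-(-(1 / 8 + s / 8))) ≤ x ^ (1 : ℝ) := by
      apply Real.rpow_le_rpow_of_exponent_le hx1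
      linarith
    rwa [Real.rpow_one] at this
  have h4 : √(2 * x) ≤ 2 * x := by
    apply Real.sqrt_le_iff.2
    constructor
    · positivity
    · nlinarith
  have h5 : x ^ (2 : ℝ) = x * x := by
    rw [Real.rpow_two]
    ring
  rw [h5] at g3
  have hE : 0 < Real.exp (-((x ^ (s / 4) - 1) / 2)) := Real.exp_pos _
  have h6 : 0 ≤ (√h)⁻¹ := by positivity
  calc ((1 + h)⁻¹) ^ (n - 1) * (√h)⁻¹ * √(2 * x)
      ≤ Real.exp (-((x ^ (s / 4) - 1) / 2)) * x * (2 * x) :=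
        mul_le_mul (mul_le_mul h2 h3 h6 hE.le) h4 (Real.sqrt_nonneg _) (by positivity)
    _ = 2 * (Real.exp (-((x ^ (s / 4) - 1) / 2)) * (x * x)) := by ring
    _ ≤ 1 / 40 := g3

theorem param_first {x s h C : ℝ} {n : ℕ} (hx1 : 1 ≤ x) (hn1 : 1 ≤ n) (hh : 0 < h)
    (e2 : √x * h ^ 2 = x ^ (-(s / 2))) (e3 : h * x ^ (1 / 4 + s / 2) = x ^ (s / 4))
    (hh1 : h ≤ 1) (hnx : (n : ℝ) ≤ x) (hnup : (n : ℝ) ≤ x ^ (1 / 4 + s / 2) + 1)
    (g2 : 960 * C ^ 2 * (x ^ (-(s / 2)) * (18 + 3 * Real.log x + 11 * x ^ (s / 4))) ≤ 1 / 40) :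
    960 * C ^ 2 * √x * h ^ 2 * (7 + 3 * Real.log n + 11 * h * n) ≤ 1 / 40 := by
  have hx0 : 0 < x := by linarith
  have hlog : Real.log n ≤ Real.log x := by
    apply Real.log_le_log _ hnx
    exact_mod_cast hn1
  have hhn : h * n ≤ x ^ (s / 4) + 1 := by
    have h0 := mul_le_mul_of_nonneg_left hnup hh.le
    rw [mul_add, e3, mul_one] at h0
    linarith
  have h1 : 7 + 3 * Real.log n + 11 * h * n ≤ 18 + 3 * Real.log x + 11 * x ^ (s / 4) := by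
    have e : 11 * h * n = 11 * (h * n) := by ring
    rw [e]
    linarith
  have h2 : 960 * C ^ 2 * √x * h ^ 2 = 960 * C ^ 2 * x ^ (-(s / 2)) := by
    rw [← e2]
    ring
  rw [h2]
  have h3 : 0 ≤ 960 * C ^ 2 * x ^ (-(s / 2)) := by positivity
  calc 960 * C ^ 2 * x ^ (-(s / 2)) * (7 + 3 * Real.log n + 11 * h * n)
      ≤ 960 * C ^ 2 * x ^ (-(s / 2)) * (18 + 3 * Real.log x + 11 * x ^ (s / 4)) :=
        mul_le_mul_of_nonneg_left h1 h3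
    _ = 960 * C ^ 2 * (x ^ (-(s / 2)) * (18 + 3 * Real.log x + 11 * x ^ (s / 4))) := by ring
    _ ≤ 1 / 40 := g2

theorem param_third {x h : ℝ} {k : ℕ} (hx : 160000 ≤ x) (hh : 0 < h)
    (hJ2 : (2 : ℝ) ^ (k + 1) ≤ 800 * (√x * h)) : 1 / x ≤ 2 * (h / 2 ^ (k + 1)) := by
  have hx0 : 0 < x := by linarith
  have hsqpos : 0 < √x := Real.sqrt_pos.2 hx0
  have hpow : (0 : ℝ) < 2 ^ (k + 1) := by positivity
  have h1 : √x * √x = x := Real.mul_self_sqrt hx0.le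
  have h400 : (400 : ℝ) ≤ √x := by
    apply Real.le_sqrt_of_sq_le
    linarith
  have h2 : (2 : ℝ) ^ (k + 1) ≤ 2 * h * x := by
    have h5 : 400 * (√x * h) ≤ √x * (√x * h) :=
      mul_le_mul_of_nonneg_right h400 (by positivity)
    have h6 : √x * (√x * h) = h * x := by
      rw [← mul_assoc, h1]
      ring
    rw [h6] at h5
    linarith
  rw [div_le_iff₀ hx0]
  have h3 : 2 * (h / 2 ^ (k + 1)) * x = (2 * h * x) / 2 ^ (k + 1) := by ring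
  rw [h3, le_div_iff₀ hpow]
  linarith

theorem param_core {x s δ C : ℝ} (hC : 1 ≤ C) (hs : 0 < s) (hs4 : s ≤ 1 / 4)
    (g1 : C ^ 2 * x ^ (-(1 / 4 + s / 4)) ≤ 1 / 1000)
    (g2 : 960 * C ^ 2 * (x ^ (-(s / 2)) * (18 + 3 * Real.log x + 11 * x ^ (s / 4))) ≤ 1 / 40)
    (g3 : 2 * (Real.exp (-((x ^ (s / 4) - 1) / 2)) * x ^ (2 : ℝ)) ≤ 1 / 40)
    (g4 : 9000 * C ^ 2 * x ^ (-(s / 2)) ≤ 1 / 40)
    (g5 : x ^ (1 / 4 + s / 2) + 1 + (400 * x ^ (1 / 4 - s / 4) + 1) + 1 ≤ x ^ (1 / 4 + δ))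
    (g6 : x ^ (1 / 4 + s / 2) + 1 + (400 * x ^ (1 / 4 - s / 4) + 1) + 1 ≤
      x ^ (1 / 4 + 3 / 4 : ℝ))
    (g7 : 160000 ≤ x) :
    ∃ (h : ℝ) (n J : ℕ), 0 < h ∧ 1 ≤ n ∧ C ^ 2 * h ≤ 1 / 1000 ∧ (1 : ℝ) / x ≤ 2 * (h / 2 ^ J) ∧
      960 * C ^ 2 * √x * h ^ 2 * (7 + 3 * Real.log n + 11 * h * n) +
        ((1 + h)⁻¹) ^ (n - 1) * (√h)⁻¹ * √(2 * x) +
        (9000 * C ^ 2 * h ^ 2 * √x + 4 * (h / 2 ^ J) * √x) ≤ 1 / 10 ∧
      ((n : ℝ) + J + 1) ≤ x ^ (1 / 4 + δ) := by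
  have hx0 : 0 < x := by linarith
  have hx1 : 1 ≤ x := by linarith
  obtain ⟨h, hhdef⟩ : ∃ h, h = x ^ (-(1 / 4 + s / 4)) := ⟨_, rfl⟩
  rw [← hhdef] at g1
  have hh : 0 < h := hhdef ▸ Real.rpow_pos_of_pos hx0 _
  have hsq : √x = x ^ (1 / 2 : ℝ) := Real.sqrt_eq_rpow x
  have e1 : √x * h = x ^ (1 / 4 - s / 4) := by
    rw [hsq, hhdef, ← Real.rpow_add hx0]
    ring_nf
  have e2 : √x * h ^ 2 = x ^ (-(s / 2)) := by
    rw [hsq, hhdef, ← Real.rpow_natCast, ← Real.rpow_mul hx0.le, ← Real.rpow_add hx0]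
    congr 1
    push_cast
    ring
  have e3 : h * x ^ (1 / 4 + s / 2) = x ^ (s / 4) := by
    rw [hhdef, ← Real.rpow_add hx0]
    ring_nf
  have hh1 : h ≤ 1 := by
    rw [hhdef]
    exact Real.rpow_le_one_of_one_le_of_nonpos hx1 (by linarith)
  have hP : 0 < x ^ (1 / 4 + s / 2) := Real.rpow_pos_of_pos hx0 _
  obtain ⟨n, hnlow, hnup⟩ : ∃ n : ℕ, x ^ (1 / 4 + s / 2) ≤ n ∧
      (n : ℝ) ≤ x ^ (1 / 4 + s / 2) + 1 :=
    ⟨⌈x ^ (1 / 4 + s / 2)⌉₊, Nat.le_ceil _, (Nat.ceil_lt_add_one hP.le).le⟩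
  have hn1 : 1 ≤ n := by
    have : (0 : ℝ) < n := by linarith
    exact_mod_cast this
  have hQ : (1 : ℝ) ≤ x ^ (1 / 4 - s / 4) := Real.one_le_rpow hx1 (by linarith)
  have hy : (1 : ℝ) ≤ 400 * (√x * h) := by
    rw [e1]
    linarith
  obtain ⟨k, hk1, hk2⟩ := exists_nat_pow_near hy (by norm_num : (1 : ℝ) < 2)
  have hJ2 : (2 : ℝ) ^ (k + 1) ≤ 800 * (√x * h) := by
    rw [pow_succ]
    linarith
  have hpow : (0 : ℝ) < 2 ^ (k + 1) := by positivity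
  have hkx : (k : ℝ) ≤ 400 * (√x * h) := by
    have h1 : (k : ℝ) < 2 ^ k := by exact_mod_cast Nat.lt_two_pow_self
    linarith
  have hnx : (n : ℝ) ≤ x := by
    have h2 : x ^ (1 / 4 + 3 / 4 : ℝ) = x := by norm_num
    rw [h2] at g6
    linarith
  have h3 : x ^ (s / 4) ≤ h * n := by
    rw [← e3]
    exact mul_le_mul_of_nonneg_left hnlow hh.le
  have t1 := param_first hx1 hn1 hh e2 e3 hh1 hnx hnup g2
  have t2 := param_second hx1 hs4 hhdef hh hh1 hn1 h3 g3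
  have t3 : 9000 * C ^ 2 * h ^ 2 * √x ≤ 1 / 40 := by
    have e : 9000 * C ^ 2 * h ^ 2 * √x = 9000 * C ^ 2 * (√x * h ^ 2) := by ring
    rw [e, e2]
    exact g4
  have t4 : 4 * (h / 2 ^ (k + 1)) * √x ≤ 1 / 100 := by
    have e : 4 * (h / 2 ^ (k + 1)) * √x = (4 * (√x * h)) / 2 ^ (k + 1) := by ring
    rw [e, div_le_iff₀ hpow]
    linarith
  have t5 := param_third g7 hh hJ2
  refine ⟨h, n, k + 1, hh, hn1, g1, t5, by linarith, ?_⟩
  rw [e1] at hkx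
  push_cast
  linarith

theorem param_num {δ C : ℝ} (hδ : 0 < δ) (hC : 1 ≤ C) : ∀ᶠ d : ℕ in atTop,
    ∃ (h : ℝ) (n J : ℕ), 0 < h ∧ 1 ≤ n ∧ C ^ 2 * h ≤ 1 / 1000 ∧ (1 : ℝ) / d ≤ 2 * (h / 2 ^ J) ∧
      960 * C ^ 2 * √d * h ^ 2 * (7 + 3 * Real.log n + 11 * h * n) +
        ((1 + h)⁻¹) ^ (n - 1) * (√h)⁻¹ * √(2 * d) +
        (9000 * C ^ 2 * h ^ 2 * √d + 4 * (h / 2 ^ J) * √d) ≤ 1 / 10 ∧
      ((n : ℝ) + J + 1) ≤ (d : ℝ) ^ (1 / 4 + δ) := by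
  obtain ⟨s, hs, hs4, hsδ⟩ : ∃ s : ℝ, 0 < s ∧ s ≤ 1 / 4 ∧ s ≤ δ :=
    ⟨min δ (1 / 4), lt_min hδ (by norm_num), min_le_right _ _, min_le_left _ _⟩
  have G1 : ∀ᶠ x : ℝ in atTop, C ^ 2 * x ^ (-(1 / 4 + s / 4)) ≤ 1 / 1000 := by
    have := (param_pow_zero (a := 1 / 4 + s / 4) (by positivity)).const_mul (C ^ 2)
    rw [mul_zero] at this
    exact this.eventually (eventually_le_nhds (by norm_num))
  have G2 : ∀ᶠ x : ℝ in atTop,
      960 * C ^ 2 * (x ^ (-(s / 2)) * (18 + 3 * Real.log x + 11 * x ^ (s / 4))) ≤ 1 / 40 := by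
    have := (param_F2 hs).const_mul (960 * C ^ 2)
    rw [mul_zero] at this
    exact this.eventually (eventually_le_nhds (by norm_num))
  have G3 : ∀ᶠ x : ℝ in atTop,
      2 * (Real.exp (-((x ^ (s / 4) - 1) / 2)) * x ^ (2 : ℝ)) ≤ 1 / 40 :=
    (param_F3 hs).eventually (eventually_le_nhds (by norm_num))
  have G4 : ∀ᶠ x : ℝ in atTop, 9000 * C ^ 2 * x ^ (-(s / 2)) ≤ 1 / 40 := by
    have := (param_pow_zero (a := s / 2) (by positivity)).const_mul (9000 * C ^ 2)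
    rw [mul_zero] at this
    exact this.eventually (eventually_le_nhds (by norm_num))
  have G5 := param_F5 hs hsδ
  have G6 := param_F5 (s := s) (δ := 3 / 4) hs (by linarith)
  have T := tendsto_natCast_atTop_atTop (R := ℝ)
  filter_upwards [T.eventually G1, T.eventually G2, T.eventually G3, T.eventually G4,
    T.eventually G5, T.eventually G6, T.eventually (eventually_ge_atTop (160000 : ℝ))]
    with d g1 g2 g3 g4 g5 g6 g7
  exact param_core hC hs hs4 g1 g2 g3 g4 g5 g6 g7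

theorem param_count {δ : ℝ} (hδ : 0 < δ) : ∀ᶠ d : ℕ in atTop, ∀ K m : ℕ,
    (K : ℝ) ≤ (d : ℝ) ^ δ → (m : ℝ) ≤ (d : ℝ) ^ (1 / 4 + δ) →
      ((m * (2 * K + 3) : ℕ) : ℝ) ≤ (d : ℝ) ^ (1 / 4 + 3 * δ) := by
  have h1 : Tendsto (fun x : ℝ => x ^ δ) atTop atTop := tendsto_rpow_atTop hδ
  filter_upwards [tendsto_natCast_atTop_atTop.eventually (h1.eventually_ge_atTop (5 : ℝ)),
    eventually_ge_atTop 1] with d hd hd1 K m hK hm
  have hx0 : (0 : ℝ) < d := by exact_mod_cast hd1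
  have hm0 : (0 : ℝ) ≤ m := Nat.cast_nonneg m
  have hpos : 0 < (d : ℝ) ^ (1 / 4 + δ) := Real.rpow_pos_of_pos hx0 _
  push_cast
  have h2 : 2 * (K : ℝ) + 3 ≤ (d : ℝ) ^ δ * (d : ℝ) ^ δ := by nlinarith
  calc (m : ℝ) * (2 * K + 3) ≤ (d : ℝ) ^ (1 / 4 + δ) * ((d : ℝ) ^ δ * (d : ℝ) ^ δ) := by
        apply mul_le_mul hm h2 (by positivity) hpos.le
    _ = (d : ℝ) ^ (1 / 4 + 3 * δ) := by
        rw [← Real.rpow_add hx0, ← Real.rpow_add hx0]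
        ring_nf

end Vale.Agent.P347
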