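import Vale.Agent.Lib.P347.RunL
import Vale.Agent.Lib.P347.NodesE
import Vale.Agent.Lib.P347.Param

/-!
P347: assembly.

Proofs. `samples_of`: `exists_algo`, and for `f` the indicator of `B`, `g = casc N V h J f`:
`|Phat^[n] g 0 - ∫ f dπ| ≤ |Phat^[n] g 0 - ∫ g d(nuS h)| + |∫ g d(nuS h) - ∫ f dπ|`, by
`main_chain` and `casc_err`. `sampler`: `nodes_param` and `param_num`, `param_count` with
`δ = ε/3`. `gammaStar_le`: from `sampler`, `Q d ≤ q ≤ d^(1/4+ε)` for large `d`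
(`Nat.sInf_le`), so `log Q d / log d ≤ 1/4 + ε` eventually, and the upper limit is at most
`1/4 + ε` for every `ε > 0`.
-/

open MeasureTheory ProbabilityTheory Filter

namespace Vale.Agent.P347

theorem samples_of {d K : ℕ} {N : Nodes K} {C ε h : ℝ} {n J : ℕ} (hN : GoodNodes N C ε)
    (hε : 0 ≤ ε) (hh : 0 < h) (hn : 1 ≤ n) (hCh : C ^ 2 * h ≤ 1 / 1000)
    (hεh : ε ≤ 2 * (h / 2 ^ J))
    (hsum : 960 * C ^ 2 * √d * h ^ 2 * (7 + 3 * Real.log n + 11 * h * n) +
        ((1 + h)⁻¹) ^ (n - 1) * (√h)⁻¹ * √(2 * d) +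
        (9000 * C ^ 2 * h ^ 2 * √d + 4 * (h / 2 ^ J) * √d) ≤ 1 / 10) :
    ∃ A : Algo d ((n + J + 1) * (2 * K + 3)), A.Samples := by
  obtain ⟨A, hA⟩ := exists_algo (d := d) N h n J
  refine ⟨A, ?_⟩
  intro V hV0 B hB
  have hV : Pot d V := hV0.pot
  rw [hA V hV B hB]
  have hf : Measurable (B.indicator (fun _ : E d => (1 : ℝ))) := measurable_const.indicator hB
  have bf : ∀ x, |B.indicator (fun _ : E d => (1 : ℝ)) x| ≤ 1 := by
    intro x
    by_cases hx : x ∈ B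
    · rw [Set.indicator_of_mem hx, abs_one]
    · rw [Set.indicator_of_notMem hx, abs_zero]
      exact zero_le_one
  have hg : Measurable (casc N V h J (B.indicator (fun _ : E d => (1 : ℝ)))) :=
    casc_measurable hV hf J h
  have bg : ∀ x, |casc N V h J (B.indicator (fun _ : E d => (1 : ℝ))) x| ≤ 1 :=
    fun x => casc_bdd hV bf J h x
  have h2 : h / 2 ^ J ≤ h := div_le_self hh.le (one_le_pow₀ (by norm_num))
  have hεh' : ε ≤ 2 * h := by linarith
  have e1 := main_chain hV hh hN hε hεh' hCh hg bg hn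
  have e2 := casc_err hV hN hε hf bf J h hh hεh hCh
  have e3 : ∫ x, B.indicator (fun _ : E d => (1 : ℝ)) x ∂(gibbs V) = (gibbs V).real B :=
    integral_indicator_one hB
  rw [e3] at e2
  rw [abs_le] at e1 e2 ⊢
  constructor
  · linarith [e1.1, e2.1]
  · linarith [e1.2, e2.2]

theorem sampler {ε : ℝ} (hε : 0 < ε) : ∀ᶠ d : ℕ in atTop,
    ∃ q : ℕ, (q : ℝ) ≤ (d : ℝ) ^ (1 / 4 + ε) ∧ ∃ A : Algo d q, A.Samples := by
  have hδ : 0 < ε / 3 := by positivity
  obtain ⟨C, hC, hN⟩ := nodes_param hδ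
  filter_upwards [hN, param_num hδ hC, param_count hδ] with d h1 h2 h3
  obtain ⟨K, N, hK, hNg⟩ := h1
  obtain ⟨h, n, J, hh, hn, hCh, hdh, hsum, hcnt⟩ := h2
  refine ⟨(n + J + 1) * (2 * K + 3), ?_, samples_of hNg (by positivity) hh hn hCh hdh hsum⟩
  have h4 := h3 K (n + J + 1) hK (by push_cast; exact hcnt)
  have h5 : (1 / 4 + 3 * (ε / 3) : ℝ) = 1 / 4 + ε := by ring
  rw [h5] at h4
  exact h4

theorem gammaStar_le : gammaStar ≤ ((1 / 4 : ℝ) : EReal) := by
  rw [← EReal.le_of_forall_lt_iff_le]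
  intro z hz
  have hz' : (1 / 4 : ℝ) < z := by exact_mod_cast hz
  unfold gammaStar
  refine limsup_le_of_le (h := ?_)
  have hε : 0 < z - 1 / 4 := by linarith
  filter_upwards [sampler hε, eventually_ge_atTop 2] with d hd hd2
  obtain ⟨q, hq, A, hA⟩ := hd
  have hQ : Q d ≤ q := Nat.sInf_le ⟨A, hA⟩
  have h5 : (1 / 4 + (z - 1 / 4) : ℝ) = z := by ring
  rw [h5] at hq
  have hd1 : (1 : ℝ) < d := by exact_mod_cast hd2
  have hlog : 0 < Real.log d := Real.log_pos hd1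
  rw [EReal.coe_le_coe_iff, div_le_iff₀ hlog]
  rcases Nat.eq_zero_or_pos (Q d) with h0 | h0
  · rw [h0, Nat.cast_zero, Real.log_zero]
    have : 0 < z := by linarith
    positivity
  · have hQ0 : (0 : ℝ) < Q d := by exact_mod_cast h0
    rw [← Real.log_rpow (by linarith)]
    apply Real.log_le_log hQ0
    refine le_trans ?_ hq
    exact_mod_cast hQ

end Vale.Agent.P347
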