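import Vale.Agent.Lib.P347.ModL
import Vale.Agent.Lib.P347.ExpandL
import Vale.Agent.Lib.P347.Invar

/-!
P347: Stein bound. If `μ` nearly satisfies the Stein identity of `nuG G` then it is close to
`nuG G` on smooth functions.

Proof. Fix `T > 0`, `η ≤ 1`, `N = ⌈T/η⌉`. Telescoping:
`∫ ψ dμ - ∫ Pop^[N] ψ dμ = Σ_{j<N} ∫ (Pop^[j] ψ - Pop^[j+1] ψ) dμ`, each term is
`- η ∫ Ls (Pop^[j] ψ) dμ` up to `C η^(5/4)` by `expand` (with the bounds of `iter_contraction`,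
`hess_one`, `mod_iter`, uniform in `j` and `η ≤ 1`; the fourth moment of `μ` is finite); the sum
of these errors is at most `C (T + 1) η^(1/4)`. By the hypothesis for `f = Pop^[j] ψ` with
`(1+η)^-j A1` and `(1+η)^(-2j) A2 + 2 b √η (1 + √j) (1+η)^-j A1`, and the sums
`η Σ (1+η)^-j ≤ 1 + η`, `η Σ (1+η)^(-2j) ≤ (1+η)^2/(2+η)`,
`η^(3/2) Σ √j (1+η)^-j ≤ 1 + η` (Cauchy-Schwarz: `(Σ q^j)^(1/2) (Σ j q^j)^(1/2)`), the main part is
at most `2 ε1 A1 + 2 ε2 (A2 + 2 b A1)` for `η` small (up to a quantity tending to zero).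
Finally `|∫ Pop^[N] ψ dμ - ∫ Pop^[N] ψ d(nuS G η)| ≤ (1+η)^-N A1 (∫ |x| dμ + ∫ |x| d(nuS G η))`
by `iter_contraction`, `∫ Pop^[N] ψ d(nuS G η) = ∫ ψ d(nuS G η)` (`inv_iter`) tends to
`∫ ψ d(nuG G)` (`nuS_lip`). Let `η → 0`, then `T → ∞`.
-/

open MeasureTheory ProbabilityTheory

namespace Vale.Agent.P347

private theorem steinL_qpos {η : ℝ} (hη : 0 < η) : 0 < (1 + η)⁻¹ := by positivity

private theorem steinL_qle {η : ℝ} (hη : 0 < η) : (1 + η)⁻¹ ≤ 1 :=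
  inv_le_one_of_one_le₀ (by linarith)

private theorem steinL_qmul {η : ℝ} (hη : 0 < η) (N : ℕ) :
    (1 + η) * ((1 + η)⁻¹) ^ (N + 1) = ((1 + η)⁻¹) ^ N := by
  have h : (1 + η) ≠ 0 := by positivity
  rw [pow_succ, mul_comm (((1 + η)⁻¹) ^ N), ← mul_assoc, mul_inv_cancel₀ h, one_mul]

private theorem steinL_sum1 {η : ℝ} (hη : 0 < η) (N : ℕ) :
    ∑ j ∈ Finset.range N, η * ((1 + η)⁻¹) ^ j ≤ 1 + η := by
  have h : ∀ N : ℕ, ∑ j ∈ Finset.range N, η * ((1 + η)⁻¹) ^ j =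
      (1 + η) - (1 + η) * ((1 + η)⁻¹) ^ N := by
    intro N
    induction N with
    | zero => simp
    | succ N ih =>
      rw [Finset.sum_range_succ, ih, steinL_qmul hη]
      ring
  rw [h]
  have : 0 < (1 + η) * ((1 + η)⁻¹) ^ N := by positivity
  linarith

private theorem steinL_sum2 {η : ℝ} (hη : 0 < η) (N : ℕ) :
    ∑ j ∈ Finset.range N, η ^ 2 * j * ((1 + η)⁻¹) ^ j ≤ 1 + η := by
  have h : ∀ N : ℕ, ∑ j ∈ Finset.range N, η ^ 2 * j * ((1 + η)⁻¹) ^ j =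
      (1 + η) - (1 + η) * ((1 + η)⁻¹) ^ N * (1 + η * N) := by
    intro N
    induction N with
    | zero => simp
    | succ N ih =>
      rw [Finset.sum_range_succ, ih, steinL_qmul hη]
      push_cast
      ring
  rw [h]
  have : 0 < (1 + η) * ((1 + η)⁻¹) ^ N * (1 + η * N) := by positivity
  linarith

private theorem steinL_sqrt_le (t : ℝ) (ht : 0 ≤ t) : √t ≤ (1 + t) / 2 := by
  have h := sq_nonneg (√t - 1)
  have h2 := Real.sq_sqrt ht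
  nlinarith

private theorem steinL_sum3 {η : ℝ} (hη : 0 < η) (N : ℕ) :
    ∑ j ∈ Finset.range N, η * (√η * (1 + √j) * ((1 + η)⁻¹) ^ j) ≤ (1 + √η) * (1 + η) := by
  have h1 : ∀ j ∈ Finset.range N, η * (√η * (1 + √j) * ((1 + η)⁻¹) ^ j) ≤
      √η * (η * ((1 + η)⁻¹) ^ j) + (1 / 2) * (η * ((1 + η)⁻¹) ^ j) +
        (1 / 2) * (η ^ 2 * j * ((1 + η)⁻¹) ^ j) := by
    intro j _
    have hq : 0 ≤ ((1 + η)⁻¹) ^ j := by positivity
    have h2 : √η * √(j : ℝ) ≤ (1 + η * j) / 2 := by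
      rw [← Real.sqrt_mul hη.le]
      exact steinL_sqrt_le _ (by positivity)
    have h3 := mul_le_mul_of_nonneg_right h2 (mul_nonneg hη.le hq)
    nlinarith
  refine (Finset.sum_le_sum h1).trans ?_
  have h4 := steinL_sum1 hη N
  have h5 := mul_le_mul_of_nonneg_left (steinL_sum2 hη N) (show (0 : ℝ) ≤ 1 / 2 by norm_num)
  have h6 := mul_le_mul_of_nonneg_left h4 (Real.sqrt_nonneg η)
  have h7 := mul_le_mul_of_nonneg_left h4 (show (0 : ℝ) ≤ 1 / 2 by norm_num)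
  rw [Finset.mul_sum] at h5 h6 h7
  rw [Finset.sum_add_distrib, Finset.sum_add_distrib]
  linarith

private theorem steinL_unif {η : ℝ} (hη : 0 < η) (hη1 : η ≤ 1) (j : ℕ) :
    √η * (1 + √j) * ((1 + η)⁻¹) ^ j ≤ 2 := by
  have hq0 : 0 ≤ ((1 + η)⁻¹) ^ j := by positivity
  have hq1 : ((1 + η)⁻¹) ^ j ≤ 1 := pow_le_one₀ (steinL_qpos hη).le (steinL_qle hη)
  have hs1 : √η ≤ 1 := Real.sqrt_le_one.mpr hη1
  have h1 : √η * ((1 + η)⁻¹) ^ j ≤ 1 := by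
    calc √η * ((1 + η)⁻¹) ^ j ≤ 1 * 1 := mul_le_mul hs1 hq1 hq0 zero_le_one
      _ = 1 := one_mul 1
  have h2 : √η * √(j : ℝ) * ((1 + η)⁻¹) ^ j ≤ 1 := by
    have h3 : √η * √(j : ℝ) ≤ (1 + η) ^ j := by
      rw [← Real.sqrt_mul hη.le]
      have h4 := steinL_sqrt_le (η * j) (by positivity)
      have h5 := one_add_mul_le_pow (show (-2 : ℝ) ≤ η by linarith) j
      have h6 : 0 ≤ η * j := by positivity
      linarith
    have h7 : (1 + η) ^ j * ((1 + η)⁻¹) ^ j = 1 := by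
      rw [← mul_pow, mul_inv_cancel₀ (by positivity), one_pow]
    exact (mul_le_mul_of_nonneg_right h3 hq0).trans h7.le
  have h8 : √η * (1 + √j) * ((1 + η)⁻¹) ^ j =
      √η * ((1 + η)⁻¹) ^ j + √η * √(j : ℝ) * ((1 + η)⁻¹) ^ j := by ring
  rw [h8]
  linarith

private theorem steinL_pow4 (t : ℝ) : (1 + t) ^ 4 ≤ 8 * (1 + t ^ 4) := by
  have h1 : (1 + t) ^ 2 ≤ 2 * (1 + t ^ 2) := by nlinarith [sq_nonneg (1 - t)]
  have h2 : (1 + t ^ 2) ^ 2 ≤ 2 * (1 + t ^ 4) := by nlinarith [sq_nonneg (1 - t ^ 2)]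
  have h3 := pow_le_pow_left₀ (sq_nonneg (1 + t)) h1 2
  have h4 : (1 + t) ^ 4 = ((1 + t) ^ 2) ^ 2 := by ring
  rw [h4]
  nlinarith

variable {d : ℕ} {b : ℝ} {G : E d → ℝ}

private theorem steinL_int4 {μ : Measure (E d)} [IsProbabilityMeasure μ]
    (hμ : Integrable (fun x => ‖x‖ ^ 4) μ) : Integrable (fun x : E d => (1 + ‖x‖) ^ 4) μ := by
  have h1 : Integrable (fun x : E d => 8 * (1 + ‖x‖ ^ 4)) μ :=
    ((integrable_const 1).add hμ).const_mul 8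
  refine h1.mono' (by fun_prop) (Filter.Eventually.of_forall fun x => ?_)
  rw [Real.norm_eq_abs, abs_of_nonneg (by positivity)]
  exact steinL_pow4 _

private theorem steinL_gradG (hG : Pert d b G) : Continuous (gradient G) := by
  have h1 : Continuous (fderiv ℝ G) := hG.smooth.continuous_fderiv (by norm_num)
  have h2 : gradient G = fun x => (InnerProductSpace.toDual ℝ (E d)).symm (fderiv ℝ G x) := by
    funext x
    rfl
  rw [h2]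
  exact (InnerProductSpace.toDual ℝ (E d)).symm.continuous.comp h1

private theorem steinL_Ls_cont (hG : Pert d b G) {f : E d → ℝ} (hf : CB 2 (sc f)) :
    Continuous (Ls G f) := by
  have h1 : CB 1 (gradient f) := hf.gradient
  have h2 : Continuous (gradient f) := h1.contDiff.continuous
  have h3 : Continuous (Dv (gradient f)) := h1.dv.contDiff.continuous
  have h4 := steinL_gradG hG
  unfold Ls
  refine Continuous.sub ?_ ((continuous_id.add h4).inner h2)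
  refine continuous_finsetSum _ fun i _ => ?_
  exact (EuclideanSpace.proj (𝕜 := ℝ) (i, i)).continuous.comp h3

/-- one step -/
private theorem steinL_step (hG : Pert d b G)
    {μ : Measure (E d)} [IsProbabilityMeasure μ] (hμ : Integrable (fun x => ‖x‖ ^ 4) μ)
    {η : ℝ} (hη : 0 < η) {f g : E d → ℝ} (hf : CB 2 (sc f)) (hg : Continuous g) {C0 : ℝ}
    (hf0 : ∀ x, |f x| ≤ C0) (hg0 : ∀ x, |g x| ≤ C0) {R m : ℝ} (hR : 0 ≤ R)
    (hrem : ∀ y, |g y - f y - η * Ls G f y| ≤ R * (1 + ‖y‖) ^ 4)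
    (hmain : |∫ x, Ls G f x ∂μ| ≤ m) :
    |(∫ x, f x ∂μ) - ∫ x, g x ∂μ| ≤ η * m + R * ∫ x, (1 + ‖x‖) ^ 4 ∂μ := by
  have hfc : Continuous f := hf.contDiff_of_sc.continuous
  have hLc := steinL_Ls_cont hG hf
  have h4 := steinL_int4 hμ
  have hfi : Integrable f μ := (integrable_const C0).mono' hfc.aestronglyMeasurable
    (Filter.Eventually.of_forall fun x => by rw [Real.norm_eq_abs]; exact hf0 x)
  have hgi : Integrable g μ := (integrable_const C0).mono' hg.aestronglyMeasurable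
    (Filter.Eventually.of_forall fun x => by rw [Real.norm_eq_abs]; exact hg0 x)
  have hri : Integrable (fun y => g y - f y - η * Ls G f y) μ := by
    refine (h4.const_mul R).mono'
      ((hg.sub hfc).sub (hLc.const_smul η)).aestronglyMeasurable
      (Filter.Eventually.of_forall fun x => ?_)
    rw [Real.norm_eq_abs]
    exact hrem x
  have hLi : Integrable (Ls G f) μ := by
    have h5 : Integrable (fun y => η⁻¹ * ((g y - f y) - (g y - f y - η * Ls G f y))) μ :=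
      ((hgi.sub hfi).sub hri).const_mul _
    refine h5.congr (Filter.Eventually.of_forall fun y => ?_)
    show η⁻¹ * ((g y - f y) - (g y - f y - η * Ls G f y)) = Ls G f y
    field_simp
    ring
  have hre : |∫ y, (g y - f y - η * Ls G f y) ∂μ| ≤ R * ∫ x, (1 + ‖x‖) ^ 4 ∂μ := by
    rw [← integral_const_mul]
    refine (abs_integral_le_integral_abs).trans ?_
    exact integral_mono hri.abs (h4.const_mul R) hrem
  have heq : ∫ y, (g y - f y - η * Ls G f y) ∂μ =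
      (∫ y, g y ∂μ) - (∫ y, f y ∂μ) - η * ∫ y, Ls G f y ∂μ := by
    have h7 : ∫ y, (g y - f y - η * Ls G f y) ∂μ =
        (∫ y, (g y - f y) ∂μ) - ∫ y, η * Ls G f y ∂μ :=
      integral_sub (hgi.sub hfi) (hLi.const_mul η)
    rw [h7, integral_sub hgi hfi, integral_const_mul]
  rw [heq] at hre
  have hm := mul_le_mul_of_nonneg_left hmain hη.le
  rw [← abs_of_pos hη, ← abs_mul, abs_of_pos hη] at hm
  have e : (∫ x, f x ∂μ) - ∫ x, g x ∂μ =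
      -(η * ∫ y, Ls G f y ∂μ) -
        ((∫ y, g y ∂μ) - (∫ y, f y ∂μ) - η * ∫ y, Ls G f y ∂μ) := by ring
  rw [e]
  refine (abs_sub _ _).trans ?_
  rw [abs_neg]
  linarith

/-- Lipschitz functions integrate to almost their value at zero -/
private theorem steinL_lip {ρ : Measure (E d)} [IsProbabilityMeasure ρ]
    (hρ : Integrable (fun x => ‖x‖) ρ) {f : E d → ℝ} (hf : Continuous f) {C0 L : ℝ}
    (hf0 : ∀ x, |f x| ≤ C0) (hL : ∀ x, |f x - f 0| ≤ L * ‖x‖) :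
    |(∫ x, f x ∂ρ) - f 0| ≤ L * ∫ x, ‖x‖ ∂ρ := by
  have hfi : Integrable f ρ := (integrable_const C0).mono' hf.aestronglyMeasurable
    (Filter.Eventually.of_forall fun x => by rw [Real.norm_eq_abs]; exact hf0 x)
  have h1 : (∫ x, f x ∂ρ) - f 0 = ∫ x, (f x - f 0) ∂ρ := by
    rw [integral_sub hfi (integrable_const _), integral_const, probReal_univ, one_smul]
  rw [h1, ← integral_const_mul]
  refine abs_integral_le_integral_abs.trans ?_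
  exact integral_mono (hfi.sub (integrable_const _)).abs (hρ.const_mul L) hL

/-- the sum of the main parts -/
private theorem steinL_hsum {η : ℝ} (hη : 0 < η) {ε1 ε2 A1 A2 b K : ℝ} (h1 : 0 ≤ ε1)
    (h2 : 0 ≤ ε2) (hA1 : 0 ≤ A1) (hA2 : 0 ≤ A2) (hb : 0 ≤ b) (N : ℕ) :
    ∑ j ∈ Finset.range N, (η * (ε1 * (((1 + η)⁻¹) ^ j * A1) +
      ε2 * (((1 + η)⁻¹) ^ (2 * j) * A2 +
      2 * b * √η * (1 + √j) * ((1 + η)⁻¹) ^ j * A1)) + K) ≤
    (ε1 * A1 + ε2 * A2) * (1 + η) + ε2 * (2 * b * A1) * ((1 + √η) * (1 + η)) + N * K := by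
  have hterm : ∀ j ∈ Finset.range N, (η * (ε1 * (((1 + η)⁻¹) ^ j * A1) +
      ε2 * (((1 + η)⁻¹) ^ (2 * j) * A2 +
      2 * b * √η * (1 + √j) * ((1 + η)⁻¹) ^ j * A1)) + K) ≤
      (ε1 * A1 + ε2 * A2) * (η * ((1 + η)⁻¹) ^ j) +
      ε2 * (2 * b * A1) * (η * (√η * (1 + √j) * ((1 + η)⁻¹) ^ j)) + K := by
    intro j _
    have hqq : ((1 + η)⁻¹) ^ (2 * j) ≤ ((1 + η)⁻¹) ^ j :=
      pow_le_pow_of_le_one (steinL_qpos hη).le (steinL_qle hη) (by omega)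
    have h5 := mul_le_mul_of_nonneg_left hqq (show 0 ≤ η * (ε2 * A2) by positivity)
    have e1 : (η * (ε1 * (((1 + η)⁻¹) ^ j * A1) + ε2 * (((1 + η)⁻¹) ^ (2 * j) * A2 +
        2 * b * √η * (1 + √j) * ((1 + η)⁻¹) ^ j * A1)) + K) =
        ε1 * A1 * (η * ((1 + η)⁻¹) ^ j) + η * (ε2 * A2) * ((1 + η)⁻¹) ^ (2 * j) +
        ε2 * (2 * b * A1) * (η * (√η * (1 + √j) * ((1 + η)⁻¹) ^ j)) + K := by ring
    have e2 : (ε1 * A1 + ε2 * A2) * (η * ((1 + η)⁻¹) ^ j) +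
        ε2 * (2 * b * A1) * (η * (√η * (1 + √j) * ((1 + η)⁻¹) ^ j)) + K =
        ε1 * A1 * (η * ((1 + η)⁻¹) ^ j) + η * (ε2 * A2) * ((1 + η)⁻¹) ^ j +
        ε2 * (2 * b * A1) * (η * (√η * (1 + √j) * ((1 + η)⁻¹) ^ j)) + K := by ring
    rw [e1, e2]
    linarith
  refine (Finset.sum_le_sum hterm).trans ?_
  have h5 := mul_le_mul_of_nonneg_left (steinL_sum1 hη N)
    (show 0 ≤ ε1 * A1 + ε2 * A2 by positivity)
  have h6 := mul_le_mul_of_nonneg_left (steinL_sum3 hη N)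
    (show 0 ≤ ε2 * (2 * b * A1) by positivity)
  rw [Finset.mul_sum] at h5 h6
  rw [Finset.sum_add_distrib, Finset.sum_add_distrib, Finset.sum_const, Finset.card_range,
    nsmul_eq_mul]
  linarith

private theorem steinL_hess {u q2 A1 A2 b : ℝ} {w : ℝ} (hb : 0 ≤ b) (hA1 : 0 ≤ A1)
    (hu : u ≤ 2) (hq : q2 * A2 ≤ A2) (hw : w = 2 * b * A1 * u) :
    q2 * A2 + w ≤ A2 + 4 * b * A1 := by
  have h1 := mul_le_mul_of_nonneg_left hu (show 0 ≤ 2 * b * A1 by positivity)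
  have h2 : 2 * b * A1 * 2 = 4 * b * A1 := by ring
  linarith

/-- the steps together -/
private theorem steinL_tele {d : ℕ} {b : ℝ} {G : E d → ℝ} (hb : 0 ≤ b) (hG : Pert d b G)
    {μ : Measure (E d)} [IsProbabilityMeasure μ] (hμ : Integrable (fun x => ‖x‖ ^ 4) μ)
    {ε1 ε2 : ℝ} (h1 : 0 ≤ ε1) (h2 : 0 ≤ ε2)
    (h : ∀ f : E d → ℝ, CB 2 (sc f) → ∀ A1 A2 : ℝ, (∀ x, ‖Dv (sc f) x‖ ≤ A1) →
      (∀ x, ‖Dv (Dv (sc f)) x‖ ≤ A2) → |∫ x, Ls G f x ∂μ| ≤ ε1 * A1 + ε2 * A2)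
    {ψ : E d → ℝ} (hψ2 : CB 2 (sc ψ)) {A1 A2 : ℝ} (hA1 : ∀ x, ‖Dv (sc ψ) x‖ ≤ A1)
    (hA2 : ∀ x, ‖Dv (Dv (sc ψ)) x‖ ≤ A2) {C0 : ℝ} (hψ0 : ∀ x, ‖ψ x‖ ≤ C0)
    {η : ℝ} (hη : 0 < η) (hη1 : η ≤ 1) {Cm Ce : ℝ} (hCm0 : 0 ≤ Cm)
    (hCm : ∀ j x y, ‖Dv (Dv ((Pop G η)^[j] (sc ψ))) x - Dv (Dv ((Pop G η)^[j] (sc ψ))) y‖ ≤
      Cm * (√‖x - y‖ + √η))
    (hCe : ∀ f : E d → ℝ, CB 2 (sc f) → ∀ A1 A2 A3 : ℝ, (∀ x, ‖Dv (sc f) x‖ ≤ A1) →
      (∀ x, ‖Dv (Dv (sc f)) x‖ ≤ A2) →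
      (∀ x y, ‖Dv (Dv (sc f)) x - Dv (Dv (sc f)) y‖ ≤ A3 * (√‖x - y‖ + √η)) → 0 ≤ A3 →
      ∀ y, |Pop G η f y - f y - η * Ls G f y| ≤
        Ce * (1 + ‖y‖) ^ 4 * (A1 + A2 + A3) * (η * √(√η))) (N : ℕ) :
    |(∫ x, ψ x ∂μ) - ∫ x, (Pop G η)^[N] ψ x ∂μ| ≤
      (ε1 * A1 + ε2 * A2) * (1 + η) + ε2 * (2 * b * A1) * ((1 + √η) * (1 + η)) +
      N * (|Ce| * (A1 + (A2 + 4 * b * A1) + Cm) * (η * √(√η)) *
        ∫ x, (1 + ‖x‖) ^ 4 ∂μ) := by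
  have hA1' : 0 ≤ A1 := (norm_nonneg _).trans (hA1 0)
  have hA2' : 0 ≤ A2 := (norm_nonneg _).trans (hA2 0)
  have hψ1 : CB 1 (sc ψ) := hψ2.mono (by norm_num)
  have hq0 := steinL_qpos hη
  have hq1 := steinL_qle hη
  set S : ℕ → E d → ℝ := fun j => (Pop G η)^[j] ψ with hS
  have hSsc : ∀ j, sc (S j) = (Pop G η)^[j] (sc ψ) := fun j => (iter_sc ψ j).symm
  have hSCB : ∀ j, CB 2 (sc (S j)) := fun j => by
    rw [hSsc]
    exact iter_CB le_rfl hb hG hη hψ2 j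
  have hScont : ∀ j, Continuous (S j) := fun j => (hSCB j).contDiff_of_sc.continuous
  have hSbd : ∀ j x, |S j x| ≤ C0 := fun j x => norm_iter_le hG hη hψ0 j x
  have hD1 : ∀ j x, ‖Dv (sc (S j)) x‖ ≤ ((1 + η)⁻¹) ^ j * A1 := fun j x => by
    rw [hSsc]
    exact iter_contraction hb hG hη hψ1 hA1 j x
  have hD2 : ∀ j x, ‖Dv (Dv (sc (S j))) x‖ ≤ ((1 + η)⁻¹) ^ (2 * j) * A2 +
      2 * b * √η * (1 + √j) * ((1 + η)⁻¹) ^ j * A1 := fun j x => by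
    rw [hSsc]
    exact hess_one hb hG hη hψ2 hA1 hA2 j x
  have hS1 : ∀ j, S (j + 1) = Pop G η (S j) := fun j => by
    rw [hS]
    exact Function.iterate_succ_apply' _ _ _
  have hstep : ∀ j, |(∫ x, S j x ∂μ) - ∫ x, S (j + 1) x ∂μ| ≤
      η * (ε1 * (((1 + η)⁻¹) ^ j * A1) + ε2 * (((1 + η)⁻¹) ^ (2 * j) * A2 +
        2 * b * √η * (1 + √j) * ((1 + η)⁻¹) ^ j * A1)) +
        |Ce| * (A1 + (A2 + 4 * b * A1) + Cm) * (η * √(√η)) * ∫ x, (1 + ‖x‖) ^ 4 ∂μ := by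
    intro j
    refine steinL_step hG hμ hη (hSCB j) (hScont (j + 1)) (hSbd j) (hSbd (j + 1))
      (by positivity) ?_ (h (S j) (hSCB j) _ _ (hD1 j) (hD2 j))
    intro y
    have hqj1 : ((1 + η)⁻¹) ^ j ≤ 1 := pow_le_one₀ hq0.le hq1
    have hq2j1 : ((1 + η)⁻¹) ^ (2 * j) ≤ 1 := pow_le_one₀ hq0.le hq1
    have hB1 : ∀ x, ‖Dv (sc (S j)) x‖ ≤ A1 := fun x =>
      (hD1 j x).trans (mul_le_of_le_one_left hA1' hqj1)
    have hB2 : ∀ x, ‖Dv (Dv (sc (S j))) x‖ ≤ A2 + 4 * b * A1 := fun x =>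
      (hD2 j x).trans (steinL_hess hb hA1' (steinL_unif hη hη1 j)
        (mul_le_of_le_one_left hA2' hq2j1) (by ring))
    have hB3 : ∀ x y, ‖Dv (Dv (sc (S j))) x - Dv (Dv (sc (S j))) y‖ ≤
        Cm * (√‖x - y‖ + √η) := fun x y => by
      rw [hSsc]
      exact hCm j x y
    have he := hCe (S j) (hSCB j) A1 (A2 + 4 * b * A1) Cm hB1 hB2 hB3 hCm0 y
    rw [hS1]
    refine he.trans ?_
    have hpos : 0 ≤ (1 + ‖y‖) ^ 4 * (A1 + (A2 + 4 * b * A1) + Cm) * (η * √(√η)) := by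
      positivity
    have hle := mul_le_mul_of_nonneg_right (le_abs_self Ce) hpos
    have e1 : Ce * (1 + ‖y‖) ^ 4 * (A1 + (A2 + 4 * b * A1) + Cm) * (η * √(√η)) =
        Ce * ((1 + ‖y‖) ^ 4 * (A1 + (A2 + 4 * b * A1) + Cm) * (η * √(√η))) := by ring
    have e2 : |Ce| * (A1 + (A2 + 4 * b * A1) + Cm) * (η * √(√η)) * (1 + ‖y‖) ^ 4 =
        |Ce| * ((1 + ‖y‖) ^ 4 * (A1 + (A2 + 4 * b * A1) + Cm) * (η * √(√η))) := by ring
    rw [e1, e2]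
    exact hle
  have htel : ∀ N : ℕ, |(∫ x, ψ x ∂μ) - ∫ x, S N x ∂μ| ≤
      ∑ j ∈ Finset.range N, (η * (ε1 * (((1 + η)⁻¹) ^ j * A1) +
        ε2 * (((1 + η)⁻¹) ^ (2 * j) * A2 +
        2 * b * √η * (1 + √j) * ((1 + η)⁻¹) ^ j * A1)) +
        |Ce| * (A1 + (A2 + 4 * b * A1) + Cm) * (η * √(√η)) *
          ∫ x, (1 + ‖x‖) ^ 4 ∂μ) := by
    intro N
    induction N with
    | zero =>
      have : S 0 = ψ := rfl
      simp [this]
    | succ N ih =>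
      rw [Finset.sum_range_succ]
      have e : (∫ x, ψ x ∂μ) - ∫ x, S (N + 1) x ∂μ =
          ((∫ x, ψ x ∂μ) - ∫ x, S N x ∂μ) + ((∫ x, S N x ∂μ) - ∫ x, S (N + 1) x ∂μ) := by
        ring
      rw [e]
      exact (abs_add_le _ _).trans (add_le_add ih (hstep N))
  exact (htel N).trans (steinL_hsum hη h1 h2 hA1' hA2' hb N)

/-- both laws are near after many steps -/
private theorem steinL_end {d : ℕ} {b : ℝ} {G : E d → ℝ} (hb : 0 ≤ b) (hG : Pert d b G)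
    {μ : Measure (E d)} [IsProbabilityMeasure μ] (hn1 : Integrable (fun x => ‖x‖) μ)
    {ψ : E d → ℝ} (hψ2 : CB 2 (sc ψ)) {A1 : ℝ} (hA1 : ∀ x, ‖Dv (sc ψ) x‖ ≤ A1)
    {C0 : ℝ} (hψ0 : ∀ x, ‖ψ x‖ ≤ C0) {η : ℝ} (hη : 0 < η) (hη1 : η ≤ 1) (N : ℕ) :
    |(∫ x, (Pop G η)^[N] ψ x ∂μ) - ∫ x, ψ x ∂(nuG G)| ≤
      ((1 + η)⁻¹) ^ N * A1 * ((∫ x, ‖x‖ ∂μ) + 1 + (∫ x, ‖x‖ ^ 2 ∂(nuG G)) + d) +
        A1 * √η * √d := by
  have hA1' : 0 ≤ A1 := (norm_nonneg _).trans (hA1 0)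
  have hψ1 : CB 1 (sc ψ) := hψ2.mono (by norm_num)
  have hψc : Continuous ψ := hψ2.contDiff_of_sc.continuous
  have hq0 := steinL_qpos hη
  set S : E d → ℝ := (Pop G η)^[N] ψ with hS
  have hSsc : sc S = (Pop G η)^[N] (sc ψ) := (iter_sc ψ N).symm
  have hSCB : CB 2 (sc S) := by
    rw [hSsc]
    exact iter_CB le_rfl hb hG hη hψ2 N
  have hScont : Continuous S := hSCB.contDiff_of_sc.continuous
  have hSbd : ∀ x, |S x| ≤ C0 := fun x => norm_iter_le hG hη hψ0 N x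
  have hD1 : ∀ x, ‖Dv (sc S) x‖ ≤ ((1 + η)⁻¹) ^ N * A1 := fun x => by
    rw [hSsc]
    exact iter_contraction hb hG hη hψ1 hA1 N x
  have hprob : IsProbabilityMeasure (nuS G η) := nuS_isProb hG
  obtain ⟨hsq1, hsq2⟩ := nuS_sq hG hη.le
  have hn2 : Integrable (fun x : E d => ‖x‖) (nuS G η) := by
    refine ((integrable_const (1 : ℝ)).add hsq1).mono' (by fun_prop)
      (Filter.Eventually.of_forall fun x => ?_)
    rw [norm_norm]
    show ‖x‖ ≤ 1 + ‖x‖ ^ 2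
    nlinarith [sq_nonneg (‖x‖ - 1)]
  have hn2le : ∫ x, ‖x‖ ∂(nuS G η) ≤ 1 + (∫ x, ‖x‖ ^ 2 ∂(nuG G)) + d := by
    have h5 : ∫ x, ‖x‖ ∂(nuS G η) ≤ ∫ x, (1 + ‖x‖ ^ 2) ∂(nuS G η) := by
      refine integral_mono hn2 ((integrable_const (1 : ℝ)).add hsq1) (fun x => ?_)
      show ‖x‖ ≤ 1 + ‖x‖ ^ 2
      nlinarith [sq_nonneg (‖x‖ - 1)]
    rw [integral_add (integrable_const _) hsq1, integral_const, probReal_univ, one_smul,
      hsq2] at h5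
    have h6 : η * d ≤ d := mul_le_of_le_one_left (Nat.cast_nonneg d) hη1
    linarith
  have hLip : ∀ x, |S x - S 0| ≤ ((1 + η)⁻¹) ^ N * A1 * ‖x‖ := by
    intro x
    have h5 := lip_of_Dv (hSCB.contDiff.differentiable (by norm_num)) hD1 x 0
    rw [sub_zero] at h5
    have h6 : sc S x - sc S 0 = sc (fun y => S y - S 0) x := rfl
    rw [h6, norm_sc] at h5
    exact h5
  have hl1 := steinL_lip hn1 hScont hSbd hLip
  have hl2 := steinL_lip hn2 hScont hSbd hLip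
  have hinv : ∫ y, S y ∂(nuS G η) = ∫ y, ψ y ∂(nuS G η) :=
    inv_iter hb hG hη hψc.measurable ⟨C0, hψ0⟩ N
  have hlipψ : ∀ x y, |ψ x - ψ y| ≤ A1 * ‖x - y‖ := by
    intro x y
    have h5 := lip_of_Dv (hψ1.contDiff.differentiable (by norm_num)) hA1 x y
    have h6 : sc ψ x - sc ψ y = sc (fun z => ψ z - ψ y) x := rfl
    rw [h6, norm_sc] at h5
    exact h5
  have hlip := nuS_lip hG hη.le hlipψ ⟨C0, hψ0⟩
  have hq : 0 ≤ ((1 + η)⁻¹) ^ N * A1 := by positivity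
  have hfin2 := mul_le_mul_of_nonneg_left hn2le hq
  rw [hinv] at hl2
  have e1 : ((1 + η)⁻¹) ^ N * A1 * ((∫ x, ‖x‖ ∂μ) + 1 + (∫ x, ‖x‖ ^ 2 ∂(nuG G)) + d) =
      ((1 + η)⁻¹) ^ N * A1 * (∫ x, ‖x‖ ∂μ) +
      ((1 + η)⁻¹) ^ N * A1 * (1 + (∫ x, ‖x‖ ^ 2 ∂(nuG G)) + d) := by ring
  rw [e1]
  rw [abs_le] at hl1 hl2 hlip ⊢
  obtain ⟨a1, a2⟩ := hl1
  obtain ⟨a3, a4⟩ := hl2
  obtain ⟨a5, a6⟩ := hlip
  constructor
  · linarith
  · linarith

/-- choice of the parameters -/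
private theorem steinL_param {X a B K L D : ℝ} (ha : 0 ≤ a) (hB : 0 ≤ B) (hK : 0 ≤ K)
    (hL : 0 ≤ L) (hD : 0 ≤ D)
    (core : ∀ (η : ℝ), 0 < η → η ≤ 1 → ∀ N : ℕ,
      X ≤ a * (1 + η) + B * ((1 + √η) * (1 + η)) + N * η * (K * √(√η)) +
        ((1 + η)⁻¹) ^ N * L + D * √η) : X ≤ 2 * a + 2 * B := by
  refine le_of_forall_pos_le_add fun δ hδ => ?_
  obtain ⟨T, hT⟩ : ∃ T : ℝ, T = 3 * L / δ := ⟨_, rfl⟩
  have hT0 : 0 ≤ T := by rw [hT]; positivity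
  have hKT : 0 ≤ K * (T + 1) := by positivity
  obtain ⟨s, hs⟩ : ∃ s : ℝ, s = min (1 / 2) (min (δ / (3 * (K * (T + 1) + 1)))
    (δ / (3 * (D + 1)))) := ⟨_, rfl⟩
  have hs0 : 0 < s := by
    rw [hs]
    refine lt_min (by norm_num) (lt_min ?_ ?_)
    · exact div_pos hδ (by linarith)
    · exact div_pos hδ (by linarith)
  have hs1 : s ≤ 1 / 2 := by rw [hs]; exact min_le_left _ _
  have hs2 : s * (3 * (K * (T + 1) + 1)) ≤ δ := by
    rw [← le_div_iff₀ (by linarith), hs]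
    exact (min_le_right _ _).trans (min_le_left _ _)
  have hs3 : s * (3 * (D + 1)) ≤ δ := by
    rw [← le_div_iff₀ (by linarith), hs]
    exact (min_le_right _ _).trans (min_le_right _ _)
  obtain ⟨η, hη⟩ : ∃ η : ℝ, η = s ^ 4 := ⟨_, rfl⟩
  have hη0 : 0 < η := by rw [hη]; positivity
  have hsη : √η = s ^ 2 := by
    rw [hη, show s ^ 4 = (s ^ 2) ^ 2 by ring]
    exact Real.sqrt_sq (by positivity)
  have hssη : √(√η) = s := by
    rw [hsη]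
    exact Real.sqrt_sq hs0.le
  have hs2' : s ^ 2 ≤ 1 / 4 := by
    have := mul_self_le_mul_self hs0.le hs1
    rw [pow_two]
    linarith
  have hη16 : η ≤ 1 / 16 := by
    have := mul_self_le_mul_self (sq_nonneg s) hs2'
    rw [hη, show s ^ 4 = s ^ 2 * s ^ 2 by ring]
    linarith
  have hη1 : η ≤ 1 := by linarith
  obtain ⟨N, hN⟩ : ∃ N : ℕ, N = ⌈T / η⌉₊ := ⟨_, rfl⟩
  have hTη : 0 ≤ T / η := div_nonneg hT0 hη0.le
  have hN1 : T ≤ N * η := by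
    have := Nat.le_ceil (T / η)
    rwa [div_le_iff₀ hη0, ← hN] at this
  have hN2 : N * η ≤ T + 1 := by
    have h5 := (Nat.ceil_lt_add_one hTη).le
    have h6 := mul_le_mul_of_nonneg_right h5 hη0.le
    rw [add_mul, div_mul_cancel₀ _ hη0.ne', one_mul, ← hN] at h6
    linarith
  refine (core η hη0 hη1 N).trans ?_
  rw [hssη, hsη]
  -- the pieces
  have p1 : a * (1 + η) ≤ 2 * a := by
    have h5 := mul_le_mul_of_nonneg_left hη1 ha
    rw [mul_add]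
    linarith
  have p2 : B * ((1 + s ^ 2) * (1 + η)) ≤ 2 * B := by
    have h6 : (1 + s ^ 2) * (1 + η) ≤ (1 + 1 / 4) * (1 + 1 / 16) :=
      mul_le_mul (by linarith) (by linarith) (by linarith) (by norm_num)
    have h7 := mul_le_mul_of_nonneg_left h6 hB
    linarith
  have p3 : N * η * (K * s) ≤ δ / 3 := by
    have h5 : 0 ≤ K * s := mul_nonneg hK hs0.le
    have h6 := mul_le_mul_of_nonneg_right hN2 h5
    have h7 : (T + 1) * (K * s) = s * (K * (T + 1)) := by ring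
    have h8 : s * (3 * (K * (T + 1) + 1)) = 3 * (s * (K * (T + 1))) + 3 * s := by ring
    linarith
  have p4 : ((1 + η)⁻¹) ^ N * L ≤ δ / 3 := by
    have h8 : 0 ≤ ((1 + η)⁻¹) ^ N := by positivity
    have h5 : ((1 + η)⁻¹) ^ N * (1 + T) ≤ 1 := by
      have h6 := one_add_mul_le_pow (show (-2 : ℝ) ≤ η by linarith) N
      have h7 : (1 + η) ^ N * ((1 + η)⁻¹) ^ N = 1 := by
        rw [← mul_pow, mul_inv_cancel₀ (by positivity), one_pow]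
      have h9 : 1 + T ≤ (1 + η) ^ N := by linarith
      have h10 := mul_le_mul_of_nonneg_right h9 h8
      rw [h7] at h10
      linarith
    have h7 : L ≤ (1 + T) * (δ / 3) := by
      have h11 : T * (δ / 3) = L := by
        rw [hT]
        field_simp
      rw [add_mul, h11]
      linarith
    calc ((1 + η)⁻¹) ^ N * L ≤ ((1 + η)⁻¹) ^ N * ((1 + T) * (δ / 3)) :=
          mul_le_mul_of_nonneg_left h7 h8
      _ = (((1 + η)⁻¹) ^ N * (1 + T)) * (δ / 3) := by ring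
      _ ≤ 1 * (δ / 3) := mul_le_mul_of_nonneg_right h5 (by linarith)
      _ = δ / 3 := one_mul _
  have p5 : D * s ^ 2 ≤ δ / 3 := by
    have h5 : s ^ 2 ≤ s := by
      have := mul_le_mul_of_nonneg_left hs1 hs0.le
      rw [pow_two]
      linarith
    have h6 := mul_le_mul_of_nonneg_left h5 hD
    have h8 : s * (3 * (D + 1)) = 3 * (D * s) + 3 * s := by ring
    linarith
  linarith

theorem stein_law {d : ℕ} {b : ℝ} {G : E d → ℝ} (hb : 0 ≤ b) (hG : Pert d b G)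
    {μ : Measure (E d)} [IsProbabilityMeasure μ] (hμ : Integrable (fun x => ‖x‖ ^ 4) μ)
    {ε1 ε2 : ℝ} (h1 : 0 ≤ ε1) (h2 : 0 ≤ ε2)
    (h : ∀ f : E d → ℝ, CB 2 (sc f) → ∀ A1 A2 : ℝ, (∀ x, ‖Dv (sc f) x‖ ≤ A1) →
      (∀ x, ‖Dv (Dv (sc f)) x‖ ≤ A2) → |∫ x, Ls G f x ∂μ| ≤ ε1 * A1 + ε2 * A2)
    {ψ : E d → ℝ} (hψ : CB 3 (sc ψ)) {A1 A2 : ℝ} (hA1 : ∀ x, ‖Dv (sc ψ) x‖ ≤ A1)
    (hA2 : ∀ x, ‖Dv (Dv (sc ψ)) x‖ ≤ A2) :
    |(∫ x, ψ x ∂μ) - ∫ x, ψ x ∂(nuG G)| ≤ 2 * ε1 * A1 + 2 * ε2 * (A2 + 2 * b * A1) := by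
  have hA1' : 0 ≤ A1 := (norm_nonneg _).trans (hA1 0)
  have hA2' : 0 ≤ A2 := (norm_nonneg _).trans (hA2 0)
  obtain ⟨Cm, hCm⟩ := mod_iter hb hG hψ
  obtain ⟨Ce, hCe⟩ := expand hb hG
  obtain ⟨C0, hC0⟩ := hψ.bdd
  have hψ0 : ∀ x, ‖ψ x‖ ≤ C0 := fun x => by
    have := hC0 x
    rwa [norm_sc] at this
  have hψ2 : CB 2 (sc ψ) := hψ.mono (by norm_num)
  have hψ1 : CB 1 (sc ψ) := hψ.mono (by norm_num)
  have hψc : Continuous ψ := hψ2.contDiff_of_sc.continuous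
  have h4 := steinL_int4 hμ
  have hn1 : Integrable (fun x : E d => ‖x‖) μ := by
    refine h4.mono' (by fun_prop) (Filter.Eventually.of_forall fun x => ?_)
    rw [norm_norm]
    have h5 : (1 + ‖x‖) ^ 1 ≤ (1 + ‖x‖) ^ 4 :=
      pow_le_pow_right₀ (by linarith [norm_nonneg x]) (by norm_num)
    rw [pow_one] at h5
    linarith
  set M4 : ℝ := ∫ x, (1 + ‖x‖) ^ 4 ∂μ with hM4
  set M1 : ℝ := ∫ x, ‖x‖ ∂μ with hM1
  set M2 : ℝ := ∫ x, ‖x‖ ^ 2 ∂(nuG G) with hM2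
  have hM40 : 0 ≤ M4 := integral_nonneg fun x => by positivity
  have hM10 : 0 ≤ M1 := integral_nonneg fun x => by positivity
  have hM20 : 0 ≤ M2 := integral_nonneg fun x => by positivity
  set R0 : ℝ := |Ce| * (A1 + (A2 + 4 * b * A1) + |Cm|) with hR0
  have hR00 : 0 ≤ R0 := by positivity
  -- the core estimate
  have core : ∀ (η : ℝ), 0 < η → η ≤ 1 → ∀ N : ℕ,
      |(∫ x, ψ x ∂μ) - ∫ x, ψ x ∂(nuG G)| ≤
        (ε1 * A1 + ε2 * A2) * (1 + η) + ε2 * (2 * b * A1) * ((1 + √η) * (1 + η))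
        + N * η * (R0 * M4 * √(√η))
        + ((1 + η)⁻¹) ^ N * A1 * (M1 + 1 + M2 + d) + A1 * √η * √d := by
    intro η hη hη1 N
    have c1 := steinL_tele hb hG hμ h1 h2 h hψ2 hA1 hA2 hψ0 hη hη1 (abs_nonneg Cm)
      (fun j x y => (hCm η hη hη1 j x y).trans
        (mul_le_mul_of_nonneg_right (le_abs_self _) (by positivity)))
      (fun f hf B1 B2 B3 k1 k2 k3 k4 y => hCe η hη hη1 f hf B1 B2 B3 k1 k2 k3 k4 y) N
    have c2 := steinL_end hb hG hn1 hψ2 hA1 hψ0 hη hη1 N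
    have e1 : (N : ℝ) * η * (R0 * M4 * √(√η)) = N * (R0 * (η * √(√η)) * M4) := by ring
    have e2 : (∫ x, ψ x ∂μ) - ∫ x, ψ x ∂(nuG G) =
        ((∫ x, ψ x ∂μ) - ∫ x, (Pop G η)^[N] ψ x ∂μ) +
        ((∫ x, (Pop G η)^[N] ψ x ∂μ) - ∫ x, ψ x ∂(nuG G)) := by ring
    rw [e1, e2]
    refine (abs_add_le _ _).trans ((add_le_add c1 c2).trans (le_of_eq ?_))
    exact (add_assoc _ _ _).symm
  refine (steinL_param (a := ε1 * A1 + ε2 * A2) (B := ε2 * (2 * b * A1)) (K := R0 * M4)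
    (L := A1 * (M1 + 1 + M2 + d)) (D := A1 * √d) (by positivity) (by positivity)
    (by positivity) (by positivity) (by positivity) ?_).trans (le_of_eq ?_)
  · intro η hη hη1 N
    refine (core η hη hη1 N).trans (le_of_eq ?_)
    ring
  · ring

end Vale.Agent.P347
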