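import Vale.Agent.Lib.P347.SchB
import Vale.Agent.Lib.P347.SteinL

/-!
P347: the scheme in unit scale is close to its target on smooth functions.

Proof. `stein_law` for the law of `XX` (fourth moment: `XX_fourth`) with
`ε1 = 20 C^2 a^2 (m0 + a √d)`, `ε2 = 20 C^2 a (m0 + a √d)`, `b = a`, and `a ≤ 1`:
`2 ε1 A1 + 2 ε2 (A2 + 2 a A1) = 40 C^2 a (m0 + a √d) (3 a A1 + A2)`.
-/

open MeasureTheory ProbabilityTheory
open scoped RealInnerProductSpace

namespace Vale.Agent.P347

private theorem unitB_Dv_cont {d : ℕ} {u : E d → E d} (hu : ContDiff ℝ 1 u) (i : Fin d) :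
    Continuous (fun x => Dv u x (i, i)) := by
  have h1 : Continuous (fun x => fderiv ℝ u x (EuclideanSpace.single i 1)) :=
    (hu.continuous_fderiv one_ne_zero).clm_apply continuous_const
  exact (PiLp.continuous_apply 2 (fun _ : Fin d => ℝ) i).comp h1

private theorem unitB_Ls_cont {d : ℕ} {a : ℝ} {G : E d → ℝ} (hG : Pert d a G) {f : E d → ℝ}
    (hf : CB 2 (sc f)) : Continuous (Ls G f) := by
  have h1 : ContDiff ℝ 1 (gradient f) := (CB.gradient (k := 1) hf).contDiff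
  have h2 : Continuous (fun x => ∑ i, Dv (gradient f) x (i, i)) :=
    continuous_finsetSum _ (fun i _ => unitB_Dv_cont h1 i)
  have h3 : Continuous (fun x : E d => ⟪x + gradient G x, gradient f x⟫) :=
    (continuous_id.add hG.grad_contDiff.continuous).inner h1.continuous
  exact h2.sub h3

theorem unit_bd {d K : ℕ} {N : Nodes K} {C ε a : ℝ} {G : E d → ℝ} (hN : GoodNodes N C ε)
    (hε : 0 ≤ ε) (hεa : ε ≤ a) (haC : a * C ≤ 1 / 8) (hG : Pert d a G) {ψ : E d → ℝ}
    (hψ : CB 3 (sc ψ)) {A1 A2 : ℝ} (hA1 : ∀ x, ‖Dv (sc ψ) x‖ ≤ A1)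
    (hA2 : ∀ x, ‖Dv (Dv (sc ψ)) x‖ ≤ A2) :
    |(∫ ω, ψ (XX N (gradient G) ω) ∂(noiseLaw d K)) - ∫ x, ψ x ∂(nuG G)| ≤
      120 * C ^ 2 * a * (‖gradient G 0‖ + a * √d) * (a * A1 + A2) := by
  have ha : 0 ≤ a := hε.trans hεa
  have hF : ContDiff ℝ 1 (gradient G) := hG.grad_contDiff
  have hFa : ∀ x, ‖fderiv ℝ (gradient G) x‖ ≤ a := fun x => hG.norm_fderiv_le ha x
  have hXc : Continuous (XX N (gradient G)) := XX_continuous hF.continuous
  have hXm : AEMeasurable (XX N (gradient G)) (noiseLaw d K) := hXc.measurable.aemeasurable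
  have := noise_isProb d K
  have : IsProbabilityMeasure ((noiseLaw d K).map (XX N (gradient G))) :=
    Measure.isProbabilityMeasure_map hXm
  have hm : 0 ≤ ‖gradient G 0‖ + a * √d := by positivity
  have hε1 : 0 ≤ 20 * C ^ 2 * a ^ 2 * (‖gradient G 0‖ + a * √d) := by positivity
  have hε2 : 0 ≤ 20 * C ^ 2 * a * (‖gradient G 0‖ + a * √d) := by positivity
  have hmap : ∀ g : E d → ℝ, Continuous g →
      ∫ x, g x ∂((noiseLaw d K).map (XX N (gradient G))) =
        ∫ ω, g (XX N (gradient G) ω) ∂(noiseLaw d K) :=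
    fun g hg => integral_map hXm hg.aestronglyMeasurable
  have key := stein_law (μ := (noiseLaw d K).map (XX N (gradient G))) ha hG
    (XX_fourth hF hFa) hε1 hε2
    (fun f hf B1 B2 hB1 hB2 => by
      rw [hmap _ (unitB_Ls_cont hG hf)]
      have h1 := stein_bd hN hε hεa haC hG hf hB1 hB2
      refine h1.trans (le_of_eq ?_)
      ring)
    hψ hA1 hA2
  rw [hmap ψ (CB.contDiff_of_sc hψ).continuous] at key
  have hA10 : 0 ≤ A1 := (norm_nonneg _).trans (hA1 0)
  have hA20 : 0 ≤ A2 := (norm_nonneg _).trans (hA2 0)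
  refine key.trans ?_
  have h5 : 0 ≤ 20 * C ^ 2 * a * (‖gradient G 0‖ + a * √d) * A2 := mul_nonneg hε2 hA20
  nlinarith

end Vale.Agent.P347
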