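import Vale.Agent.Lib.P347.Scale
import Vale.Agent.Lib.P347.UnitB

/-!
P347: the local error of one step.

Proof. `unit_bd` for `G = Gy V h y`, `F = Fy V h y`, `a = 2h` and the function
`ξ ↦ ψ (cen V h y + √h ξ)`, whose first and second derivatives are bounded by `√h α1`, `h α2`
(`Dv_affine`), and `Rop_eq_unit`; `m0 + a √d ≤ 4 h √h |y| + 2 h √d = 2h (√d + 2 √h |y|)`, hence
`120 C² (2h) 2h (√d + 2√h|y|) (2h √h α1 + h α2) = 480 C² h³ (√d + 2√h|y|)(2√h α1 + α2)`.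
-/

open MeasureTheory ProbabilityTheory

namespace Vale.Agent.P347

theorem local_err {d K : ℕ} {V : E d → ℝ} {h C ε : ℝ} {N : Nodes K} (hV : Pot d V) (hh : 0 < h)
    (hN : GoodNodes N C ε) (hε : 0 ≤ ε) (hεh : ε ≤ 2 * h) (hCh : C ^ 2 * h ≤ 1 / 1000)
    {ψ : E d → ℝ} (hψ : CB 3 (sc ψ)) {α1 α2 : ℝ} (h1 : ∀ x, ‖Dv (sc ψ) x‖ ≤ α1)
    (h2 : ∀ x, ‖Dv (Dv (sc ψ)) x‖ ≤ α2) (y : E d) :
    |Ahat N V h ψ y - Rop (pertOf V) h ψ y| ≤
      480 * C ^ 2 * h ^ 3 * (√d + 2 * √h * ‖y‖) * (2 * √h * α1 + α2) := by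
  have hC1 : 1 ≤ C := hN.one_le
  have hsh : 0 ≤ √h := Real.sqrt_nonneg h
  have hss : √h * √h = h := Real.mul_self_sqrt hh.le
  have hα1 : 0 ≤ α1 := (norm_nonneg _).trans (h1 0)
  have hα2 : 0 ≤ α2 := (norm_nonneg _).trans (h2 0)
  have hcd : Differentiable ℝ (sc ψ) := hψ.1.differentiable one_ne_zero
  have hcd2 : Differentiable ℝ (Dv (sc ψ)) := hψ.2.2.1.differentiable one_ne_zero
  have e1 : ∀ ξ, Dv (sc (fun ξ => ψ (cen V h y + √h • ξ))) ξ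
      = √h • Dv (sc ψ) (cen V h y + √h • ξ) := fun ξ => Dv_affine (sc ψ) (cen V h y) ξ √h hcd
  have e1' : Dv (sc (fun ξ => ψ (cen V h y + √h • ξ)))
      = fun ξ => √h • Dv (sc ψ) (cen V h y + √h • ξ) := funext e1
  have hd2 : Differentiable ℝ fun ξ : E d => Dv (sc ψ) (cen V h y + √h • ξ) :=
    hcd2.comp (by fun_prop)
  have e2 : ∀ ξ, Dv (Dv (sc (fun ξ => ψ (cen V h y + √h • ξ)))) ξ
      = √h • (√h • Dv (Dv (sc ψ)) (cen V h y + √h • ξ)) := by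
    intro ξ
    rw [e1', Dv_smul √h (hd2 ξ), Dv_affine (Dv (sc ψ)) (cen V h y) ξ √h hcd2]
  have hhC : h * C ≤ 1 / 1000 := by
    have h3 : h * C ≤ C ^ 2 * h := by
      have h4 : C ≤ C ^ 2 := by nlinarith
      calc h * C ≤ h * C ^ 2 := mul_le_mul_of_nonneg_left h4 hh.le
        _ = C ^ 2 * h := mul_comm _ _
    linarith
  have key := unit_bd (ψ := fun ξ => ψ (cen V h y + √h • ξ)) hN hε hεh
    (by linarith : 2 * h * C ≤ 1 / 8) (Gy_pert hV hh y) (hψ.affine (cen V h y) √h)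
    (A1 := √h * α1) (A2 := h * α2)
    (fun ξ => by
      rw [e1 ξ, norm_smul, Real.norm_eq_abs, abs_of_nonneg hsh]
      exact mul_le_mul_of_nonneg_left (h1 _) hsh)
    (fun ξ => by
      rw [e2 ξ, norm_smul, norm_smul, Real.norm_eq_abs, abs_of_nonneg hsh, ← mul_assoc, hss]
      exact mul_le_mul_of_nonneg_left (h2 _) hh.le)
  rw [gradient_Gy hV hh y] at key
  rw [Rop_eq_unit hV hh y ψ]
  refine le_trans key ?_
  have hF := Fy_zero_le hV hh y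
  have h5 : ‖Fy V h y 0‖ + 2 * h * √d ≤ 2 * h * (√d + 2 * √h * ‖y‖) := by
    calc ‖Fy V h y 0‖ + 2 * h * √d ≤ 4 * (h * √h) * ‖y‖ + 2 * h * √d := by linarith
      _ = 2 * h * (√d + 2 * √h * ‖y‖) := by ring
  have h6 : 2 * h * (√h * α1) + h * α2 = h * (2 * √h * α1 + α2) := by ring
  have h7 : 0 ≤ h * (2 * √h * α1 + α2) := by positivity
  rw [h6]
  have h8 : 0 ≤ 120 * C ^ 2 * (2 * h) := by positivity
  calc 120 * C ^ 2 * (2 * h) * (‖Fy V h y 0‖ + 2 * h * √d) * (h * (2 * √h * α1 + α2))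
      ≤ 120 * C ^ 2 * (2 * h) * (2 * h * (√d + 2 * √h * ‖y‖)) * (h * (2 * √h * α1 + α2)) :=
        mul_le_mul_of_nonneg_right (mul_le_mul_of_nonneg_left h5 h8) h7
    _ = 480 * C ^ 2 * h ^ 3 * (√d + 2 * √h * ‖y‖) * (2 * √h * α1 + α2) := by ring

end Vale.Agent.P347
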