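import Vale.Agent.Lib.P347.SCm
import Vale.Agent.Lib.P347.PLn

/-!
P347: Maurey's property for strongly log-concave laws.

Proof: apply `pl_E` to `f = exp (p - U)`, `g = exp (q - U)`, `h = exp (-U)` (as `ENNReal.ofReal`).
The hypothesis and strong midpoint convexity give `f x ^ (1/2) * g y ^ (1/2) ≤ h ((x + y) / 2)`.
Divide by the normalising constant squared.
-/

open MeasureTheory ProbabilityTheory

namespace Vale.Agent.P347

theorem maurey_integrable {d : ℕ} {α : ℝ} {U : E d → ℝ} (h : SC d α U) {p : E d → ℝ}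
    (hp : Measurable p) (bp : ∃ C, ∀ x, |p x| ≤ C) :
    Integrable (fun x => Real.exp (-U x) * Real.exp (p x)) volume := by
  obtain ⟨C, hC⟩ := bp
  have h1 := (h.integrable_exp).mul_bdd (c := Real.exp C) (f := fun x => Real.exp (-U x))
    (g := fun x => Real.exp (p x)) (Real.measurable_exp.comp hp).aestronglyMeasurable
    (Filter.Eventually.of_forall fun x => by
      rw [Real.norm_eq_abs, Real.abs_exp]
      exact Real.exp_le_exp.2 ((le_abs_self _).trans (hC x)))
  exact h1

theorem maurey {d : ℕ} {α : ℝ} {U : E d → ℝ} (h : SC d α U) {p q : E d → ℝ}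
    (hp : Measurable p) (hq : Measurable q) (bp : ∃ C, ∀ x, |p x| ≤ C) (bq : ∃ C, ∀ x, |q x| ≤ C)
    (H : ∀ x y, p x + q y ≤ α / 4 * ‖x - y‖ ^ 2) :
    (∫ x, Real.exp (p x) ∂((volume : Measure (E d)).tilted (fun x => -U x))) *
      (∫ x, Real.exp (q x) ∂((volume : Measure (E d)).tilted (fun x => -U x))) ≤ 1 := by
  have hU : Measurable U := h.cont.measurable
  have ip := maurey_integrable h hp bp
  have iq := maurey_integrable h hq bq
  have iz := h.integrable_exp
  set A : ℝ := ∫ x, Real.exp (-U x) * Real.exp (p x) with hA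
  set B : ℝ := ∫ x, Real.exp (-U x) * Real.exp (q x) with hB
  set Z : ℝ := ∫ x, Real.exp (-U x) with hZ
  have hA0 : 0 ≤ A := integral_nonneg fun x => by positivity
  have hB0 : 0 ≤ B := integral_nonneg fun x => by positivity
  have hZ0 : 0 < Z := h.integral_exp_pos
  have eA : ENNReal.ofReal A = ∫⁻ x, ENNReal.ofReal (Real.exp (-U x) * Real.exp (p x)) :=
    ofReal_integral_eq_lintegral_ofReal ip (Filter.Eventually.of_forall fun x => by positivity)
  have eB : ENNReal.ofReal B = ∫⁻ x, ENNReal.ofReal (Real.exp (-U x) * Real.exp (q x)) :=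
    ofReal_integral_eq_lintegral_ofReal iq (Filter.Eventually.of_forall fun x => by positivity)
  have eZ : ENNReal.ofReal Z = ∫⁻ x, ENNReal.ofReal (Real.exp (-U x)) :=
    ofReal_integral_eq_lintegral_ofReal iz (Filter.Eventually.of_forall fun x => by positivity)
  have key := pl_E d (f := fun x => ENNReal.ofReal (Real.exp (-U x) * Real.exp (p x)))
    (g := fun x => ENNReal.ofReal (Real.exp (-U x) * Real.exp (q x)))
    (h := fun x => ENNReal.ofReal (Real.exp (-U x)))
    (ENNReal.measurable_ofReal.comp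
      ((Real.measurable_exp.comp hU.neg).mul (Real.measurable_exp.comp hp)))
    (ENNReal.measurable_ofReal.comp
      ((Real.measurable_exp.comp hU.neg).mul (Real.measurable_exp.comp hq)))
    (ENNReal.measurable_ofReal.comp (Real.measurable_exp.comp hU.neg))
    (by
      intro x y
      rw [← Real.exp_add, ← Real.exp_add, ENNReal.ofReal_rpow_of_pos (Real.exp_pos _),
        ENNReal.ofReal_rpow_of_pos (Real.exp_pos _), ← ENNReal.ofReal_mul (by positivity)]
      apply ENNReal.ofReal_le_ofReal
      rw [← Real.exp_mul, ← Real.exp_mul, ← Real.exp_add, Real.exp_le_exp, ← smul_add]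
      have h1 := h.mid x y
      have h2 := H x y
      linarith)
  rw [← eA, ← eB, ← eZ, ENNReal.ofReal_rpow_of_nonneg hA0 (by norm_num),
    ENNReal.ofReal_rpow_of_nonneg hB0 (by norm_num), ← ENNReal.ofReal_mul (by positivity),
    ENNReal.ofReal_le_ofReal_iff hZ0.le, ← Real.mul_rpow hA0 hB0, ← Real.sqrt_eq_rpow] at key
  have h3 : A * B ≤ Z ^ 2 := by
    have h4 := Real.sqrt_le_left hZ0.le |>.1 key
    exact h4
  have tA : (∫ x, Real.exp (p x) ∂((volume : Measure (E d)).tilted (fun x => -U x)))
      = Z⁻¹ * A := by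
    rw [SC.integral_tilted]
    rfl
  have tB : (∫ x, Real.exp (q x) ∂((volume : Measure (E d)).tilted (fun x => -U x)))
      = Z⁻¹ * B := by
    rw [SC.integral_tilted]
    rfl
  rw [tA, tB]
  have h5 : Z⁻¹ * A * (Z⁻¹ * B) = (A * B) / Z ^ 2 := by
    field_simp
  rw [h5, div_le_one (by positivity)]
  exact h3

end Vale.Agent.P347
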