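import Vale.Agent.Lib.P347.HessL

/-!
P347: uniform modulus of continuity of the second derivatives along the chain.

Proof. By `comm_iter`, `Dv (Dv (Pop^[j] u))` is `(1+η)^-j Dv (Pop^[j] (Dv u))` plus
`Σ_{l<j} (1+η)^-(l+1) Dv (Pop^[l] (Phi w_l))`, `w_l = Nop η (Pop^[j-1-l] u)`.
First part: `hess_one` for `Dv u` (which is `CB 2`) bounds its derivative by a constant uniform in
`j` and `η ≤ 1` (note `√η √j (1+η)^-j ≤ 1`), and the map itself is bounded, so the
difference at `x`, `y` is at most `C min (1, |x-y|) ≤ C √|x-y|`.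
Second part, `l = 0`: at most `2 * 2 b √η B1`. For `l ≥ 1`: `|Phi w_l| ≤ η b (1+η)^-(j-1-l) B1`,
`|Dv (Pop^[l] (Phi w_l))| ≤ (l η)^(-1/2) |Phi w_l|` (`iter_reverse`) and
`|Dv (Dv (Pop^[l] (Phi w_l)))| ≤ (3/(l η) + 7 b) |Phi w_l|` (`hess_three`), so for `|x-y| ≤ 1` the
difference is at most `C η (l η)^(-3/4) √|x-y| (1+η)^-(j-1-l) B1 + C η |x-y| (1+η)^-(j-1-l) B1`
(`min (a, c) ≤ √(a c)`), and
the sum over `l` of `(1+η)^-j η ((l η)^(-3/4) + 1)` is bounded uniformly in `j`, `η`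
(`Σ_{1≤l<j} l^(-3/4) ≤ 4 j^(1/4)`, `(1+η)^-j (j η)^(1/4) ≤ 1`, `(1+η)^-j j η ≤ 1`).
For `|x-y| > 1` use the uniform bound of `hess_one` for `u`.
-/

open MeasureTheory ProbabilityTheory

namespace Vale.Agent.P347

private theorem ModL_q {η : ℝ} (hη : 0 < η) (j : ℕ) : ((1 + η)⁻¹) ^ j * (1 + j * η) ≤ 1 := by
  have h1 : 1 + (j : ℝ) * η ≤ (1 + η) ^ j := one_add_mul_le_pow (by linarith) j
  have h2 : (0 : ℝ) < (1 + η) ^ j := by positivity
  rw [inv_pow, inv_mul_le_iff₀ h2, mul_one]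
  exact h1

private theorem ModL_q0 {η : ℝ} (hη : 0 < η) (j : ℕ) : 0 < ((1 + η)⁻¹) ^ j := by positivity

private theorem ModL_q1 {η : ℝ} (hη : 0 < η) (j : ℕ) : ((1 + η)⁻¹) ^ j ≤ 1 := by
  have h := ModL_q hη j
  have h0 := ModL_q0 hη j
  have h1 : (0 : ℝ) ≤ j * η := by positivity
  nlinarith

/-- the fourth root of `l η` -/
private noncomputable def ModL_r (η : ℝ) (l : ℕ) : ℝ := √(√(l * η))

private theorem ModL_r0 (η : ℝ) (l : ℕ) : 0 ≤ ModL_r η l := Real.sqrt_nonneg _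

private theorem ModL_r2 (η : ℝ) (l : ℕ) : ModL_r η l ^ 2 = √(l * η) :=
  Real.sq_sqrt (Real.sqrt_nonneg _)

private theorem ModL_r4 {η : ℝ} (hη : 0 < η) (l : ℕ) : ModL_r η l ^ 4 = l * η := by
  have h : ModL_r η l ^ 4 = (ModL_r η l ^ 2) ^ 2 := by ring
  rw [h, ModL_r2, Real.sq_sqrt (by positivity)]

private theorem ModL_rpos {η : ℝ} (hη : 0 < η) (l : ℕ) : 0 < ModL_r η (l + 1) := by
  unfold ModL_r
  positivity

private theorem ModL_rmono {η : ℝ} (hη : 0 < η) {l m : ℕ} (h : l ≤ m) : ModL_r η l ≤ ModL_r η m := by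
  unfold ModL_r
  gcongr

private theorem ModL_sum {η : ℝ} (hη : 0 < η) (j : ℕ) :
    ∑ l ∈ Finset.range j, η / ModL_r η (l + 1) ^ 3 ≤ 4 * ModL_r η j := by
  induction j with
  | zero =>
    simp only [Finset.range_zero, Finset.sum_empty]
    have := ModL_r0 η 0
    linarith
  | succ j ih =>
    rw [Finset.sum_range_succ]
    have hp := ModL_rpos hη j
    have h0 := ModL_r0 η j
    have hm := ModL_rmono hη (Nat.le_succ j)
    have e4 := ModL_r4 hη (j + 1)
    have e4' := ModL_r4 hη j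
    set p := ModL_r η (j + 1) with hpdef
    set q := ModL_r η j with hqdef
    have hη4 : η = p ^ 4 - q ^ 4 := by
      rw [e4, e4']
      push_cast
      ring
    have hqp : q ≤ p := hm
    have h1 : η / p ^ 3 ≤ 4 * (p - q) := by
      rw [div_le_iff₀ (by positivity), hη4]
      have e : p ^ 4 - q ^ 4 = (p - q) * (p ^ 3 + p ^ 2 * q + p * q ^ 2 + q ^ 3) := by ring
      rw [e]
      have e2 : p ^ 3 + p ^ 2 * q + p * q ^ 2 + q ^ 3 ≤ 4 * p ^ 3 := by
        have a1 : p ^ 2 * q ≤ p ^ 2 * p := by gcongr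
        have a2 : p * q ^ 2 ≤ p * p ^ 2 := by gcongr
        have a3 : q ^ 3 ≤ p ^ 3 := by gcongr
        nlinarith
      have e3 : 0 ≤ p - q := by linarith
      calc (p - q) * (p ^ 3 + p ^ 2 * q + p * q ^ 2 + q ^ 3) ≤ (p - q) * (4 * p ^ 3) := by gcongr
        _ = 4 * (p - q) * p ^ 3 := by ring
    linarith

private theorem ModL_qr {η : ℝ} (hη : 0 < η) (j : ℕ) : ((1 + η)⁻¹) ^ j * ModL_r η j ≤ 1 := by
  have h := ModL_q hη j
  have h0 := ModL_q0 hη j
  have h1 : ModL_r η j ≤ 1 + j * η := by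
    rw [← ModL_r4 hη j]
    have h2 := ModL_r0 η j
    set r := ModL_r η j
    rcases le_total r 1 with h3 | h3
    · have : 0 ≤ r ^ 4 := by positivity
      linarith
    · have h4 : r ^ 1 ≤ r ^ 4 := pow_le_pow_right₀ h3 (by norm_num)
      rw [pow_one] at h4
      linarith
  calc ((1 + η)⁻¹) ^ j * ModL_r η j ≤ ((1 + η)⁻¹) ^ j * (1 + j * η) := by gcongr
    _ ≤ 1 := h

private theorem ModL_qs {η : ℝ} (hη : 0 < η) (hη1 : η ≤ 1) (j : ℕ) :
    √η * (1 + √j) * ((1 + η)⁻¹) ^ j ≤ 2 := by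
  have h := ModL_q hη j
  have h0 := ModL_q0 hη j
  have h1 := ModL_q1 hη j
  have h2 : √η ≤ 1 := by
    exact (Real.sqrt_le_left (by norm_num)).2 (by linarith)
  have h3 : √η * √j ≤ 1 + j * η := by
    rw [← Real.sqrt_mul hη.le]
    have h4 : (0 : ℝ) ≤ η * j := by positivity
    have h5 := Real.sqrt_nonneg (η * j)
    have h6 := Real.sq_sqrt h4
    nlinarith [sq_nonneg (√(η * j) - 1)]
  have h7 : √η * (1 + √j) ≤ 1 + (1 + j * η) := by
    rw [mul_add, mul_one]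
    exact add_le_add h2 h3
  calc √η * (1 + √j) * ((1 + η)⁻¹) ^ j ≤ (1 + (1 + j * η)) * ((1 + η)⁻¹) ^ j := by gcongr
    _ = ((1 + η)⁻¹) ^ j + ((1 + η)⁻¹) ^ j * (1 + j * η) := by ring
    _ ≤ 1 + 1 := add_le_add h1 h
    _ = 2 := by norm_num

variable {d : ℕ} {b : ℝ} {G : E d → ℝ} {η : ℝ}

private theorem ModL_iter_CB2 {κ : Type} [Fintype κ] (hb : 0 ≤ b) (hG : Pert d b G) (hη : 0 < η)
    {w : E d → EuclideanSpace ℝ κ} (hw : Measurable w) {M : ℝ} (hM : ∀ x, ‖w x‖ ≤ M) (l : ℕ) :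
    CB 2 ((Pop G η)^[l + 1] w) := by
  rw [Function.iterate_succ_apply']
  exact Pop_CB hb hG hη (iter_meas hb hG hη hw ⟨M, hM⟩ l) ⟨M, norm_iter_le hG hη hM l⟩

/-- difference of the derivatives of `Pop^[l+1] w` for bounded `w` -/
private theorem ModL_B {κ : Type} [Fintype κ] (hb : 0 ≤ b) (hG : Pert d b G) (hη : 0 < η)
    (hη1 : η ≤ 1) {w : E d → EuclideanSpace ℝ κ} (hw : Measurable w) {M : ℝ}
    (hM : ∀ x, ‖w x‖ ≤ M) (l : ℕ) (x y : E d) (ht : ‖x - y‖ ≤ 1) :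
    ‖Dv ((Pop G η)^[l + 1] w) x - Dv ((Pop G η)^[l + 1] w) y‖ ≤
      M * √‖x - y‖ * (3 / ModL_r η (l + 1) ^ 3 + 7 * b) := by
  have hM0 : 0 ≤ M := (norm_nonneg _).trans (hM 0)
  have hCB := ModL_iter_CB2 hb hG hη hw hM l
  have hr := ModL_rpos hη l
  have hr4 := ModL_r4 hη (l + 1)
  set r := ModL_r η (l + 1) with hrdef
  set t := √‖x - y‖ with htdef
  have ht0 : 0 ≤ t := Real.sqrt_nonneg _
  have htt : t ^ 2 = ‖x - y‖ := Real.sq_sqrt (norm_nonneg _)
  have ht1 : t ≤ 1 := by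
    rw [htdef]
    exact (Real.sqrt_le_left (by norm_num)).2 (by linarith)
  have h7 : 0 ≤ M * t * (7 * b) := by positivity
  rcases le_total t r with hc | hc
  · have hd : Differentiable ℝ (Dv ((Pop G η)^[l + 1] w)) := by
      have h1 : ContDiff ℝ (1 : ℕ) (Dv ((Pop G η)^[l + 1] w)) := (CB.dv hCB).contDiff
      exact h1.differentiable (by norm_num)
    have h2 := lip_of_Dv hd (fun z => hess_three hb hG hη hη1 hw hM (l + 1) (Nat.le_add_left 1 l) z)
      x y
    refine h2.trans ?_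
    rw [← htt, ← hr4]
    have e1 : (3 / r ^ 4 + 7 * b) * M * t ^ 2 = M * t * (3 * t / r ^ 4 + 7 * b * t) := by ring
    rw [e1]
    have e2 : 3 * t / r ^ 4 ≤ 3 / r ^ 3 := by
      rw [div_le_div_iff₀ (by positivity) (by positivity)]
      calc 3 * t * r ^ 3 ≤ 3 * r * r ^ 3 := by gcongr
        _ = 3 * r ^ 4 := by ring
    have e3 : 7 * b * t ≤ 7 * b := mul_le_of_le_one_right (by positivity) ht1
    gcongr
  · have hbd : ∀ z, ‖Dv ((Pop G η)^[l + 1] w) z‖ ≤ M / r ^ 2 := by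
      intro z
      have h1 := iter_reverse hb hG hη hw hM (l + 1) z
      rw [← hr4] at h1
      rw [le_div_iff₀ (by positivity)]
      refine le_of_sq_le_sq ?_ hM0
      calc (‖Dv ((Pop G η)^[l + 1] w) z‖ * r ^ 2) ^ 2
          = r ^ 4 * ‖Dv ((Pop G η)^[l + 1] w) z‖ ^ 2 := by ring
        _ ≤ M ^ 2 := h1
    have h3 : ‖Dv ((Pop G η)^[l + 1] w) x - Dv ((Pop G η)^[l + 1] w) y‖ ≤ 2 * (M / r ^ 2) := by
      refine (norm_sub_le _ _).trans ?_
      have := hbd x
      have := hbd y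
      linarith
    refine h3.trans ?_
    have e2 : 2 * (M / r ^ 2) ≤ M * t * (3 / r ^ 3) := by
      have e3 : M * t * (3 / r ^ 3) = (3 * (M * t)) / r ^ 3 := by ring
      have e4 : 2 * (M / r ^ 2) = (2 * (M * r)) / r ^ 3 := by field_simp
      rw [e3, e4]
      have : M * r ≤ M * t := by gcongr
      have h5 : 0 ≤ M * t := by positivity
      gcongr
      linarith
    calc 2 * (M / r ^ 2) ≤ M * t * (3 / r ^ 3) := e2
      _ ≤ M * t * (3 / r ^ 3) + M * t * (7 * b) := by linarith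
      _ = M * t * (3 / r ^ 3 + 7 * b) := by ring

theorem mod_iter {d : ℕ} {b : ℝ} {G : E d → ℝ} {ι : Type} [Fintype ι]
    (hb : 0 ≤ b) (hG : Pert d b G) {u : E d → EuclideanSpace ℝ ι} (hu : CB 3 u) :
    ∃ C : ℝ, ∀ η : ℝ, 0 < η → η ≤ 1 → ∀ (j : ℕ) (x y : E d),
      ‖Dv (Dv ((Pop G η)^[j] u)) x - Dv (Dv ((Pop G η)^[j] u)) y‖ ≤
        C * (√‖x - y‖ + √η) := by
  obtain ⟨B1, hB1⟩ := hu.dv.bdd
  obtain ⟨B2, hB2⟩ := hu.dv.dv.bdd
  obtain ⟨B3, hB3⟩ := hu.dv.dv.dv.bdd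
  have hB1' : 0 ≤ B1 := (norm_nonneg _).trans (hB1 0)
  have hB2' : 0 ≤ B2 := (norm_nonneg _).trans (hB2 0)
  have hB3' : 0 ≤ B3 := (norm_nonneg _).trans (hB3 0)
  have hu2 : CB 2 u := hu.mono (by norm_num)
  have hu1 : CB 1 u := hu.mono (by norm_num)
  refine ⟨(2 * B2 + (B3 + 4 * b * B2)) + 4 * b * B1 + b * B1 * (12 + 7 * b) +
    2 * (B2 + 4 * b * B1), fun η hη hη1 j x y => ?_⟩
  set t := √‖x - y‖ with htdef
  have ht0 : 0 ≤ t := Real.sqrt_nonneg _
  have hη0 : 0 ≤ √η := Real.sqrt_nonneg _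
  have htt : t ^ 2 = ‖x - y‖ := Real.sq_sqrt (norm_nonneg _)
  have hk1 : 0 ≤ (2 * B2 + (B3 + 4 * b * B2)) := by positivity
  have hk2 : 0 ≤ 4 * b * B1 := by positivity
  have hk3 : 0 ≤ b * B1 * (12 + 7 * b) := by positivity
  have hk4 : 0 ≤ 2 * (B2 + 4 * b * B1) := by positivity
  -- uniform bound
  have hunif : ∀ {κ : Type} [Fintype κ] {v : E d → EuclideanSpace ℝ κ} (_ : CB 2 v) {b1 b2 : ℝ}
      (_ : ∀ x, ‖Dv v x‖ ≤ b1) (_ : ∀ x, ‖Dv (Dv v) x‖ ≤ b2) (_ : 0 ≤ b1) (_ : 0 ≤ b2)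
      (z : E d), ‖Dv (Dv ((Pop G η)^[j] v)) z‖ ≤ b2 + 4 * b * b1 := by
    intro κ _ v hv b1 b2 h1 h2 h3 h4 z
    refine (hess_one hb hG hη hv h1 h2 j z).trans ?_
    have e1 : ((1 + η)⁻¹) ^ (2 * j) * b2 ≤ b2 := mul_le_of_le_one_left h4 (ModL_q1 hη _)
    have e2 : 2 * b * √η * (1 + √j) * ((1 + η)⁻¹) ^ j * b1 =
        2 * b * b1 * (√η * (1 + √j) * ((1 + η)⁻¹) ^ j) := by ring
    have e3 := ModL_qs hη hη1 j
    have e4 : 2 * b * b1 * (√η * (1 + √j) * ((1 + η)⁻¹) ^ j) ≤ 2 * b * b1 * 2 := by gcongr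
    rw [e2]
    linarith
  rcases lt_or_ge 1 ‖x - y‖ with hbig | hsmall
  · -- large distance
    have ht1 : 1 ≤ t := by
      rw [htdef, Real.one_le_sqrt]
      exact hbig.le
    have h1 := hunif hu2 hB1 hB2 hB1' hB2' x
    have h2 := hunif hu2 hB1 hB2 hB1' hB2' y
    refine (norm_sub_le _ _).trans ?_
    have h3 : 2 * (B2 + 4 * b * B1) * 1 ≤ 2 * (B2 + 4 * b * B1) * (t + √η) := by
      gcongr
      linarith
    have h4 : 0 ≤ ((2 * B2 + (B3 + 4 * b * B2)) + 4 * b * B1 + b * B1 * (12 + 7 * b)) *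
        (t + √η) := by positivity
    nlinarith
  have ht1 : t ≤ 1 := by
    rw [htdef]
    exact (Real.sqrt_le_left (by norm_num)).2 (by linarith)
  -- notation
  set q : ℝ := (1 + η)⁻¹ with hq
  set w : ℕ → E d → EuclideanSpace ℝ ι := fun l => Nop η ((Pop G η)^[l] u) with hw
  have hwCB : ∀ l, CB 1 (w l) := fun l =>
    Nop_CB_of hη.le (iter_CB (by norm_num) hb hG hη hu1 l)
  have hwD : ∀ l z, ‖Dv (w l) z‖ ≤ q ^ l * B1 := by
    intro l z
    simp only [hw]
    rw [Dv_Nop hη.le (iter_CB (by norm_num) hb hG hη hu1 l)]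
    exact norm_Nop_le (fun x => iter_contraction hb hG hη hu1 hB1 l x) z
  have hΦCB : ∀ l, CB 1 (Phi G η (w l)) := fun l => Phi_CB hb hG hη (hwCB l)
  have hΦm : ∀ l, Measurable (Phi G η (w l)) := fun l =>
    (hΦCB l).contDiff.continuous.measurable
  have hΦb : ∀ l z, ‖Phi G η (w l) z‖ ≤ η * b * (q ^ l * B1) := by
    intro l z
    obtain ⟨C, hC⟩ := (hwCB l).bdd
    exact norm_Phi_le hb hG hη (by exact_mod_cast (hwCB l).contDiff) (PG.of_bdd hC) (hwD l) z
  -- the derivative formula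
  have hcomm : Dv ((Pop G η)^[j] u) = fun z => q ^ j • ((Pop G η)^[j] (Dv u)) z +
      ∑ l ∈ Finset.range j, q ^ (l + 1) • ((Pop G η)^[l] (Phi G η (w (j - 1 - l)))) z := by
    funext z
    exact comm_iter hb hG hη hu1 j z
  have hAd : Differentiable ℝ ((Pop G η)^[j] (Dv u)) := by
    have h1 : ContDiff ℝ (2 : ℕ) ((Pop G η)^[j] (Dv u)) :=
      (iter_CB (by norm_num) hb hG hη hu.dv j).contDiff
    exact h1.differentiable (by norm_num)
  have hBd : ∀ l, Differentiable ℝ ((Pop G η)^[l] (Phi G η (w (j - 1 - l)))) := by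
    intro l
    have h1 : ContDiff ℝ (1 : ℕ) ((Pop G η)^[l] (Phi G η (w (j - 1 - l)))) :=
      (iter_CB (by norm_num) hb hG hη (hΦCB (j - 1 - l)) l).contDiff
    exact h1.differentiable (by norm_num)
  have hDD : ∀ z, Dv (Dv ((Pop G η)^[j] u)) z = q ^ j • Dv ((Pop G η)^[j] (Dv u)) z +
      ∑ l ∈ Finset.range j, q ^ (l + 1) • Dv ((Pop G η)^[l] (Phi G η (w (j - 1 - l)))) z := by
    intro z
    rw [hcomm]
    have d1 : DifferentiableAt ℝ (fun z => q ^ j • ((Pop G η)^[j] (Dv u)) z) z :=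
      ((hAd z).hasFDerivAt.const_smul (q ^ j)).differentiableAt
    have d2 : ∀ l ∈ Finset.range j, DifferentiableAt ℝ
        (fun z => q ^ (l + 1) • ((Pop G η)^[l] (Phi G η (w (j - 1 - l)))) z) z := fun l _ =>
      ((hBd l z).hasFDerivAt.const_smul (q ^ (l + 1))).differentiableAt
    have d3 : DifferentiableAt ℝ (fun z => ∑ l ∈ Finset.range j,
        q ^ (l + 1) • ((Pop G η)^[l] (Phi G η (w (j - 1 - l)))) z) z :=
      DifferentiableAt.fun_sum d2
    rw [Dv_add d1 d3, Dv_smul _ (hAd z), Dv_sum _ d2]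
    congr 1
    exact Finset.sum_congr rfl fun l _ => Dv_smul _ (hBd l z)
  have hdiff : Dv (Dv ((Pop G η)^[j] u)) x - Dv (Dv ((Pop G η)^[j] u)) y =
      q ^ j • (Dv ((Pop G η)^[j] (Dv u)) x - Dv ((Pop G η)^[j] (Dv u)) y) +
      ∑ l ∈ Finset.range j, q ^ (l + 1) • (Dv ((Pop G η)^[l] (Phi G η (w (j - 1 - l)))) x -
        Dv ((Pop G η)^[l] (Phi G η (w (j - 1 - l)))) y) := by
    rw [hDD x, hDD y]
    simp only [smul_sub, Finset.sum_sub_distrib]
    abel
  rw [hdiff]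
  have hq0 : ∀ l, 0 < q ^ l := ModL_q0 hη
  have hq1 : ∀ l, q ^ l ≤ 1 := ModL_q1 hη
  -- first part
  have hA : ‖q ^ j • (Dv ((Pop G η)^[j] (Dv u)) x - Dv ((Pop G η)^[j] (Dv u)) y)‖ ≤
      (2 * B2 + (B3 + 4 * b * B2)) * t := by
    rw [norm_smul, Real.norm_of_nonneg (hq0 j).le]
    refine (mul_le_of_le_one_left (norm_nonneg _) (hq1 j)).trans ?_
    have hd : Differentiable ℝ (Dv ((Pop G η)^[j] (Dv u))) := by
      have h1 : ContDiff ℝ (1 : ℕ) (Dv ((Pop G η)^[j] (Dv u))) :=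
        (CB.dv (iter_CB (by norm_num) hb hG hη hu.dv j)).contDiff
      exact h1.differentiable (by norm_num)
    have h2 := lip_of_Dv hd (fun z => hunif hu.dv hB2 hB3 hB2' hB3' z) x y
    refine h2.trans ?_
    rw [← htt]
    have h3 : t ^ 2 ≤ t := by nlinarith
    have h4 : 0 ≤ B3 + 4 * b * B2 := by positivity
    nlinarith [mul_nonneg hB2' ht0]
  -- second part
  have hS : ‖∑ l ∈ Finset.range j, q ^ (l + 1) •
      (Dv ((Pop G η)^[l] (Phi G η (w (j - 1 - l)))) x -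
        Dv ((Pop G η)^[l] (Phi G η (w (j - 1 - l)))) y)‖ ≤
      4 * b * B1 * √η + b * B1 * (12 + 7 * b) * t := by
    cases j with
    | zero =>
      simp only [Finset.range_zero, Finset.sum_empty, norm_zero]
      positivity
    | succ n =>
      rw [Finset.sum_range_succ', add_comm]
      refine (norm_add_le _ _).trans (add_le_add ?_ ?_)
      · -- l = 0
        rw [norm_smul, Real.norm_of_nonneg (hq0 _).le]
        refine (mul_le_of_le_one_left (norm_nonneg _) (hq1 _)).trans ?_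
        have h1 : ∀ z, ‖Dv ((Pop G η)^[0] (Phi G η (w (n + 1 - 1 - 0)))) z‖ ≤
            2 * b * √η * B1 := by
          intro z
          refine norm_Dv_Phi_le hb hG hη (hwCB _) (fun z => (hwD _ z).trans ?_) z
          exact mul_le_of_le_one_left hB1' (hq1 _)
        refine (norm_sub_le _ _).trans ?_
        have := h1 x
        have := h1 y
        linarith
      · -- l ≥ 1
        refine (norm_sum_le _ _).trans ?_
        have hterm : ∀ l ∈ Finset.range n, ‖q ^ (l + 1 + 1) •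
            (Dv ((Pop G η)^[l + 1] (Phi G η (w (n + 1 - 1 - (l + 1))))) x -
            Dv ((Pop G η)^[l + 1] (Phi G η (w (n + 1 - 1 - (l + 1))))) y)‖ ≤
            b * B1 * t * q ^ (n + 1) * (3 * (η / ModL_r η (l + 1) ^ 3) + 7 * b * η) := by
          intro l hl
          rw [Finset.mem_range] at hl
          rw [norm_smul, Real.norm_of_nonneg (hq0 _).le]
          have h1 := ModL_B hb hG hη hη1 (hΦm (n + 1 - 1 - (l + 1)))
            (hΦb (n + 1 - 1 - (l + 1))) l x y hsmall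
          calc q ^ (l + 1 + 1) * _ ≤ q ^ (l + 1 + 1) *
                (η * b * (q ^ (n + 1 - 1 - (l + 1)) * B1) * √‖x - y‖ *
                (3 / ModL_r η (l + 1) ^ 3 + 7 * b)) :=
                mul_le_mul_of_nonneg_left h1 (hq0 _).le
            _ = (q ^ (l + 1 + 1) * q ^ (n + 1 - 1 - (l + 1))) * (η * b * B1 * t *
                (3 / ModL_r η (l + 1) ^ 3 + 7 * b)) := by rw [← htdef]; ring
            _ = q ^ (n + 1) * (η * b * B1 * t *
                (3 / ModL_r η (l + 1) ^ 3 + 7 * b)) := by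
                rw [← pow_add]
                congr 2
                omega
            _ = b * B1 * t * q ^ (n + 1) * (3 * (η / ModL_r η (l + 1) ^ 3) + 7 * b * η) := by
                ring
        refine (Finset.sum_le_sum hterm).trans ?_
        rw [← Finset.mul_sum, Finset.sum_add_distrib, ← Finset.mul_sum, Finset.sum_const,
          Finset.card_range, nsmul_eq_mul]
        have h2 := ModL_sum hη n
        have h3 := ModL_rmono hη (Nat.le_succ n)
        have h4 := ModL_qr hη (n + 1)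
        have h5 := ModL_q hη (n + 1)
        have h6 : q ^ (n + 1) * (n * η) ≤ 1 := by
          refine le_trans ?_ h5
          have h7 := hq0 (n + 1)
          have h8 : (n : ℝ) * η ≤ 1 + ((n + 1 : ℕ) : ℝ) * η := by
            push_cast
            nlinarith
          gcongr
        have h9 : 3 * ∑ l ∈ Finset.range n, η / ModL_r η (l + 1) ^ 3 ≤ 12 * ModL_r η (n + 1) := by
          have : ModL_r η n ≤ ModL_r η (n + 1) := h3
          linarith
        have h10 : q ^ (n + 1) * (3 * ∑ l ∈ Finset.range n, η / ModL_r η (l + 1) ^ 3 +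
            n * (7 * b * η)) ≤ 12 + 7 * b := by
          calc q ^ (n + 1) * (3 * ∑ l ∈ Finset.range n, η / ModL_r η (l + 1) ^ 3 +
              n * (7 * b * η)) ≤ q ^ (n + 1) * (12 * ModL_r η (n + 1) + n * (7 * b * η)) := by
                have := hq0 (n + 1)
                gcongr
            _ = 12 * (q ^ (n + 1) * ModL_r η (n + 1)) + 7 * b * (q ^ (n + 1) * (n * η)) := by
                ring
            _ ≤ 12 * 1 + 7 * b * 1 := by gcongr
            _ = 12 + 7 * b := by ring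
        have h11 : 0 ≤ b * B1 * t := by positivity
        calc b * B1 * t * q ^ (n + 1) * (3 * ∑ l ∈ Finset.range n, η / ModL_r η (l + 1) ^ 3 +
              n * (7 * b * η)) = b * B1 * t * (q ^ (n + 1) *
              (3 * ∑ l ∈ Finset.range n, η / ModL_r η (l + 1) ^ 3 + n * (7 * b * η))) := by ring
          _ ≤ b * B1 * t * (12 + 7 * b) := mul_le_mul_of_nonneg_left h10 h11
          _ = b * B1 * (12 + 7 * b) * t := by ring
  refine (norm_add_le _ _).trans ((add_le_add hA hS).trans ?_)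
  have e1 : 0 ≤ (2 * B2 + (B3 + 4 * b * B2)) * √η := by positivity
  have e2 : 0 ≤ 4 * b * B1 * t := by positivity
  have e3 : 0 ≤ b * B1 * (12 + 7 * b) * √η := by positivity
  have e4 : 0 ≤ 2 * (B2 + 4 * b * B1) * (t + √η) := by positivity
  nlinarith

end Vale.Agent.P347
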