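import Vale.Agent.Lib.P347.PoincC

/-!
P347: the Poincare inequality for functions of polynomial growth, scalar and vector valued.

Proof: `u_n x = u x * χ (x / n)` with a smooth cutoff `χ` (equal to one near the origin, compactly
supported, values in `[0, 1]`), dominated convergence with `SC.integrable`. The vector valued
version is the sum of the scalar versions over the components (`norm_Dv_sq'`).
-/

open MeasureTheory ProbabilityTheory

namespace Vale.Agent.P347

private theorem poinc_norm_gradient {d : ℕ} (f : E d → ℝ) (x : E d) :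
    ‖gradient f x‖ = ‖fderiv ℝ f x‖ := by
  unfold gradient
  rw [LinearIsometryEquiv.norm_map]

/-- the cutoff functions -/
private theorem poinc_cutoff (d : ℕ) : ∃ (χ : ℕ → E d → ℝ) (K : ℝ), 0 ≤ K ∧
    (∀ n, ContDiff ℝ 1 (χ n)) ∧ (∀ n, HasCompactSupport (χ n)) ∧ (∀ n x, |χ n x| ≤ 1) ∧
    (∀ n x, ‖fderiv ℝ (χ n) x‖ ≤ K) ∧
    (∀ x, ∀ᶠ n in Filter.atTop, (χ n) =ᶠ[nhds x] fun _ => 1) := by
  let B : ContDiffBump (0 : E d) := ⟨1, 2, one_pos, one_lt_two⟩
  have hB : ContDiff ℝ 1 B := B.contDiff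
  obtain ⟨K, hK⟩ : ∃ K, ∀ x, ‖fderiv ℝ B x‖ ≤ K := by
    have h1 : Continuous (fun x => fderiv ℝ B x) := hB.continuous_fderiv one_ne_zero
    have h2 : HasCompactSupport (fun x => fderiv ℝ B x) := B.hasCompactSupport.fderiv ℝ
    obtain ⟨K, hK⟩ := h1.bounded_above_of_compact_support h2
    exact ⟨K, hK⟩
  have hK0 : 0 ≤ K := (norm_nonneg _).trans (hK 0)
  have hpos : ∀ n : ℕ, (0 : ℝ) < ((n : ℝ) + 1)⁻¹ := fun n => by positivity
  have hle : ∀ n : ℕ, ((n : ℝ) + 1)⁻¹ ≤ 1 := fun n => by
    apply inv_le_one_of_one_le₀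
    have : (0 : ℝ) ≤ n := n.cast_nonneg
    linarith
  refine ⟨fun n x => B (((n : ℝ) + 1)⁻¹ • x), K, hK0, fun n => ?_, fun n => ?_, fun n x => ?_,
    fun n x => ?_, fun x => ?_⟩
  · exact hB.comp (contDiff_const_smul _)
  · exact B.hasCompactSupport.comp_smul (hpos n).ne'
  · rw [abs_of_nonneg B.nonneg]
    exact B.le_one
  · have h1 : HasFDerivAt (fun x : E d => ((n : ℝ) + 1)⁻¹ • x)
        (((n : ℝ) + 1)⁻¹ • ContinuousLinearMap.id ℝ (E d)) x :=
      (((n : ℝ) + 1)⁻¹ • ContinuousLinearMap.id ℝ (E d)).hasFDerivAt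
    have h2 := ((hB.differentiable one_ne_zero _).hasFDerivAt.comp x h1).fderiv
    change ‖fderiv ℝ (B ∘ fun x : E d => ((n : ℝ) + 1)⁻¹ • x) x‖ ≤ K
    rw [h2, ContinuousLinearMap.comp_smul, ContinuousLinearMap.comp_id, norm_smul,
      Real.norm_eq_abs, abs_of_pos (hpos n)]
    calc ((n : ℝ) + 1)⁻¹ * ‖fderiv ℝ B (((n : ℝ) + 1)⁻¹ • x)‖ ≤ 1 * K :=
          mul_le_mul (hle n) (hK _) (norm_nonneg _) zero_le_one
      _ = K := one_mul K
  · obtain ⟨N, hN⟩ := exists_nat_gt ‖x‖
    filter_upwards [Filter.eventually_ge_atTop N] with n hn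
    have h1 : ∀ᶠ y in nhds x, ‖y‖ < n + 1 := by
      have h2 : ‖x‖ < (n : ℝ) + 1 := by
        have : (N : ℝ) ≤ n := by exact_mod_cast hn
        linarith
      exact continuous_norm.continuousAt.eventually_lt continuousAt_const h2
    filter_upwards [h1] with y hy
    apply B.one_of_mem_closedBall
    rw [mem_closedBall_zero_iff, norm_smul, Real.norm_eq_abs, abs_of_pos (hpos n)]
    show ((n : ℝ) + 1)⁻¹ * ‖y‖ ≤ 1
    rw [inv_mul_le_iff₀ (by positivity)]
    linarith

theorem poinc_scalar {d : ℕ} {α : ℝ} (hα : 0 < α) {U : E d → ℝ} (h : SC d α U) {u : E d → ℝ}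
    (hu : ContDiff ℝ 1 u) (hp : PG u) (hp' : PG (gradient u)) :
    (∫ x, u x ^ 2 ∂((volume : Measure (E d)).tilted (fun x => -U x))) -
      (∫ x, u x ∂((volume : Measure (E d)).tilted (fun x => -U x))) ^ 2 ≤
      α⁻¹ * ∫ x, ‖gradient u x‖ ^ 2 ∂((volume : Measure (E d)).tilted (fun x => -U x)) := by
  obtain ⟨χ, K, hK, hχ, hχc, hχ1, hχK, hχe⟩ := poinc_cutoff d
  have hun : ∀ n, ContDiff ℝ 1 (fun x => χ n x * u x) := fun n => (hχ n).mul hu
  have hunc : ∀ n, HasCompactSupport (fun x => χ n x * u x) := fun n => (hχc n).mul_right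
  have hmain := fun n => poinc_cpt hα h (hun n) (hunc n)
  have hgc : Continuous (gradient u) := by
    unfold gradient
    exact (LinearIsometryEquiv.continuous _).comp (hu.continuous_fderiv one_ne_zero)
  have hgcn : ∀ n, Continuous (gradient (fun x => χ n x * u x)) := fun n => by
    unfold gradient
    exact (LinearIsometryEquiv.continuous _).comp ((hun n).continuous_fderiv one_ne_zero)
  have hlim : ∀ x, ∀ᶠ n in Filter.atTop, (fun y => χ n y * u y) =ᶠ[nhds x] u := fun x => by
    filter_upwards [hχe x] with n hn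
    filter_upwards [hn] with y hy
    rw [hy, one_mul]
  have t1 : Filter.Tendsto
      (fun n => ∫ x, (χ n x * u x) ^ 2 ∂((volume : Measure (E d)).tilted (fun x => -U x)))
      Filter.atTop (nhds (∫ x, u x ^ 2 ∂((volume : Measure (E d)).tilted (fun x => -U x)))) := by
    refine tendsto_integral_of_dominated_convergence (fun x => u x ^ 2) ?_ ?_ ?_ ?_
    · intro n
      exact ((hun n).continuous.pow 2).aestronglyMeasurable
    · exact h.integrable (hu.continuous.pow 2).aestronglyMeasurable (hp.pow 2)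
    · intro n
      refine Filter.Eventually.of_forall fun x => ?_
      rw [Real.norm_eq_abs, abs_of_nonneg (sq_nonneg _), ← sq_abs, ← sq_abs (u x)]
      refine pow_le_pow_left₀ (abs_nonneg _) ?_ 2
      rw [abs_mul]
      calc |χ n x| * |u x| ≤ 1 * |u x| := mul_le_mul_of_nonneg_right (hχ1 n x) (abs_nonneg _)
        _ = |u x| := one_mul _
    · refine Filter.Eventually.of_forall fun x => ?_
      refine tendsto_const_nhds.congr' ?_
      filter_upwards [hlim x] with n hn
      rw [hn.eq_of_nhds]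
  have t2 : Filter.Tendsto
      (fun n => ∫ x, χ n x * u x ∂((volume : Measure (E d)).tilted (fun x => -U x)))
      Filter.atTop (nhds (∫ x, u x ∂((volume : Measure (E d)).tilted (fun x => -U x)))) := by
    refine tendsto_integral_of_dominated_convergence (fun x => ‖u x‖) ?_ ?_ ?_ ?_
    · intro n
      exact (hun n).continuous.aestronglyMeasurable
    · exact (h.integrable hu.continuous.aestronglyMeasurable hp).norm
    · intro n
      refine Filter.Eventually.of_forall fun x => ?_
      rw [norm_mul, Real.norm_eq_abs (χ n x)]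
      calc |χ n x| * ‖u x‖ ≤ 1 * ‖u x‖ := mul_le_mul_of_nonneg_right (hχ1 n x) (norm_nonneg _)
        _ = ‖u x‖ := one_mul _
    · refine Filter.Eventually.of_forall fun x => ?_
      refine tendsto_const_nhds.congr' ?_
      filter_upwards [hlim x] with n hn
      rw [hn.eq_of_nhds]
  have t3 : Filter.Tendsto (fun n => ∫ x, ‖gradient (fun x => χ n x * u x) x‖ ^ 2
        ∂((volume : Measure (E d)).tilted (fun x => -U x)))
      Filter.atTop (nhds (∫ x, ‖gradient u x‖ ^ 2
        ∂((volume : Measure (E d)).tilted (fun x => -U x)))) := by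
    refine tendsto_integral_of_dominated_convergence
      (fun x => (‖gradient u x‖ + K * ‖u x‖) ^ 2) ?_ ?_ ?_ ?_
    · intro n
      exact ((hgcn n).norm.pow 2).aestronglyMeasurable
    · refine h.integrable ?_ ?_
      · exact ((hgc.norm.add (continuous_const.mul hu.continuous.norm)).pow 2).aestronglyMeasurable
      · refine PG.pow ?_ 2
        refine PG.add hp'.norm ?_
        exact PG.mul (PG.of_bdd (C := ‖K‖) fun _ => le_rfl) hp.norm
    · intro n
      refine Filter.Eventually.of_forall fun x => ?_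
      rw [Real.norm_eq_abs, abs_of_nonneg (sq_nonneg _)]
      refine pow_le_pow_left₀ (norm_nonneg _) ?_ 2
      rw [poinc_norm_gradient, poinc_norm_gradient]
      have e1 : fderiv ℝ (fun x => χ n x * u x) x
          = χ n x • fderiv ℝ u x + u x • fderiv ℝ (χ n) x :=
        fderiv_fun_mul ((hχ n).differentiable one_ne_zero x) (hu.differentiable one_ne_zero x)
      rw [e1]
      refine (norm_add_le _ _).trans ?_
      rw [norm_smul, norm_smul]
      refine add_le_add ?_ ?_
      · calc ‖χ n x‖ * ‖fderiv ℝ u x‖ ≤ 1 * ‖fderiv ℝ u x‖ :=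
              mul_le_mul_of_nonneg_right (hχ1 n x) (norm_nonneg _)
          _ = ‖fderiv ℝ u x‖ := one_mul _
      · rw [mul_comm]
        exact mul_le_mul_of_nonneg_right (hχK n x) (norm_nonneg _)
    · refine Filter.Eventually.of_forall fun x => ?_
      refine tendsto_const_nhds.congr' ?_
      filter_upwards [hlim x] with n hn
      rw [poinc_norm_gradient, poinc_norm_gradient, hn.fderiv_eq]
  exact le_of_tendsto_of_tendsto' (t1.sub (t2.pow 2)) (t3.const_mul α⁻¹) hmain

theorem poinc {d : ℕ} {ι : Type} [Fintype ι] {α : ℝ} (hα : 0 < α) {U : E d → ℝ} (h : SC d α U)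
    {u : E d → EuclideanSpace ℝ ι} (hu : ContDiff ℝ 1 u) (hp : PG u) (hp' : PG (Dv u)) :
    (∫ x, ‖u x‖ ^ 2 ∂((volume : Measure (E d)).tilted (fun x => -U x))) -
      ‖∫ x, u x ∂((volume : Measure (E d)).tilted (fun x => -U x))‖ ^ 2 ≤
      α⁻¹ * ∫ x, ‖Dv u x‖ ^ 2 ∂((volume : Measure (E d)).tilted (fun x => -U x)) := by
  have hk : ∀ k, ContDiff ℝ 1 (fun x => u x k) := fun k =>
    (EuclideanSpace.proj (𝕜 := ℝ) k).contDiff.comp hu
  have hg2 : ∀ x, ‖Dv u x‖ ^ 2 = ∑ k, ‖gradient (fun y => u y k) x‖ ^ 2 := fun x =>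
    norm_Dv_sq' (hu.differentiable one_ne_zero x)
  have hgk : ∀ k x, ‖gradient (fun y => u y k) x‖ ≤ ‖Dv u x‖ := fun k x => by
    refine le_of_sq_le_sq ?_ (norm_nonneg _)
    rw [hg2]
    exact Finset.single_le_sum (f := fun k => ‖gradient (fun y => u y k) x‖ ^ 2)
      (fun _ _ => sq_nonneg _) (Finset.mem_univ k)
  have hpk : ∀ k, PG (gradient (fun y => u y k)) := fun k => hp'.mono (hgk k)
  have hgc : ∀ k, Continuous (gradient (fun y => u y k)) := fun k => by
    unfold gradient
    exact (LinearIsometryEquiv.continuous _).comp ((hk k).continuous_fderiv one_ne_zero)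
  have hint : Integrable u ((volume : Measure (E d)).tilted (fun x => -U x)) :=
    h.integrable hu.continuous.aestronglyMeasurable hp
  have e1 : ∫ x, ‖u x‖ ^ 2 ∂((volume : Measure (E d)).tilted (fun x => -U x))
      = ∑ k, ∫ x, u x k ^ 2 ∂((volume : Measure (E d)).tilted (fun x => -U x)) := by
    rw [← integral_finsetSum]
    · refine integral_congr_ae (Filter.Eventually.of_forall fun x => ?_)
      simp only [EuclideanSpace.norm_sq_eq, Real.norm_eq_abs, sq_abs]
    · intro k _
      exact h.integrable ((hk k).continuous.pow 2).aestronglyMeasurable ((hp.apply k).pow 2)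
  have e2 : ‖∫ x, u x ∂((volume : Measure (E d)).tilted (fun x => -U x))‖ ^ 2
      = ∑ k, (∫ x, u x k ∂((volume : Measure (E d)).tilted (fun x => -U x))) ^ 2 := by
    rw [EuclideanSpace.norm_sq_eq]
    refine Finset.sum_congr rfl fun k _ => ?_
    rw [Real.norm_eq_abs, sq_abs]
    congr 1
    exact ((EuclideanSpace.proj (𝕜 := ℝ) k).integral_comp_comm hint).symm
  have e3 : ∫ x, ‖Dv u x‖ ^ 2 ∂((volume : Measure (E d)).tilted (fun x => -U x))
      = ∑ k, ∫ x, ‖gradient (fun y => u y k) x‖ ^ 2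
        ∂((volume : Measure (E d)).tilted (fun x => -U x)) := by
    rw [← integral_finsetSum]
    · exact integral_congr_ae (Filter.Eventually.of_forall fun x => hg2 x)
    · intro k _
      exact h.integrable ((hgc k).norm.pow 2).aestronglyMeasurable ((hpk k).norm.pow 2)
  rw [e1, e2, e3, ← Finset.sum_sub_distrib, Finset.mul_sum]
  exact Finset.sum_le_sum fun k _ => poinc_scalar hα h (hk k) (hp.apply k) (hpk k)

end Vale.Agent.P347
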