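import Vale.Agent.Lib.P347.Maurey

/-!
P347: the Poincare inequality for compactly supported functions.

Proof: `u` and `gradient u` are bounded and `gradient u` is uniformly continuous, so for every
`δ > 0` there is `L ≥ 0` with `|gradient u x - gradient u y| ≤ δ + L |x - y|`, hence
`u y ≥ u x + ⟨gradient u x, y - x⟩ - δ |x - y| - L |x - y|^2 / 2`. For small `ε > 0` put
`q y = - ε u y` and `p x = ε u x - ε^2 (|gradient u x| + δ)^2 / (α - 2 ε L)`; then
`p x + q y ≤ α / 4 |x - y|^2` (complete the square). Apply `maurey` and expand to second order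
in `ε` (subtract from `u` its mean first), let `ε → 0` and then `δ → 0`.
-/

open MeasureTheory ProbabilityTheory Filter Topology

namespace Vale.Agent.P347

private theorem PoincC_modulus {d : ℕ} {u : E d → ℝ}
    (hu : ContDiff ℝ 1 u) (hc : HasCompactSupport u) {δ : ℝ} (hδ : 0 < δ) :
    ∃ L : ℝ, 0 ≤ L ∧ ∀ x y, u x - u y ≤ (‖fderiv ℝ u x‖ + δ) * ‖x - y‖ + L * ‖x - y‖ ^ 2 := by
  have hD : Continuous (fderiv ℝ u) := hu.continuous_fderiv one_ne_zero
  have hDc : HasCompactSupport (fderiv ℝ u) := hc.fderiv (𝕜 := ℝ)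
  obtain ⟨B, hB⟩ := hDc.exists_bound_of_continuous hD
  have hB0 : 0 ≤ B := (norm_nonneg _).trans (hB 0)
  have hunif : UniformContinuous (fderiv ℝ u) := hDc.uniformContinuous_of_continuous hD
  obtain ⟨η, hη, hηu⟩ := Metric.uniformContinuous_iff.1 hunif δ hδ
  have hmod : ∀ x y, ‖fderiv ℝ u y - fderiv ℝ u x‖ ≤ δ + (2 * B / η) * ‖x - y‖ := by
    intro x y
    by_cases hxy : ‖x - y‖ < η
    · have h1 := hηu (a := y) (b := x) (by rw [dist_eq_norm, norm_sub_rev]; exact hxy)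
      rw [dist_eq_norm] at h1
      have h2 : 0 ≤ (2 * B / η) * ‖x - y‖ := by positivity
      linarith
    · have h1 : ‖fderiv ℝ u y - fderiv ℝ u x‖ ≤ 2 * B := by
        refine (norm_sub_le _ _).trans ?_
        linarith [hB x, hB y]
      have h2 : 2 * B ≤ (2 * B / η) * ‖x - y‖ := by
        rw [div_mul_eq_mul_div, le_div_iff₀ hη]
        exact mul_le_mul_of_nonneg_left (not_lt.1 hxy) (by positivity)
      linarith
  refine ⟨2 * B / η, by positivity, fun x y => ?_⟩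
  have hseg : ‖u y - u x - (fderiv ℝ u x) (y - x)‖ ≤
      (δ + (2 * B / η) * ‖x - y‖) * ‖y - x‖ := by
    refine Convex.norm_image_sub_le_of_norm_fderiv_le' (s := segment ℝ x y) (𝕜 := ℝ) ?_ ?_
      (convex_segment x y) (left_mem_segment ℝ x y) (right_mem_segment ℝ x y)
    · intro z _
      exact (hu.differentiable one_ne_zero) z
    · intro z hz
      refine (hmod x z).trans ?_
      have h1 : ‖x - z‖ ≤ ‖x - y‖ := by
        rw [norm_sub_rev x z, norm_sub_rev x y]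
        obtain ⟨t, ht, rfl⟩ := (segment_eq_image' ℝ x y ▸ hz)
        rw [add_sub_cancel_left, norm_smul, Real.norm_eq_abs, abs_of_nonneg ht.1]
        exact mul_le_of_le_one_left (norm_nonneg _) ht.2
      have h2 : (2 * B / η) * ‖x - z‖ ≤ (2 * B / η) * ‖x - y‖ :=
        mul_le_mul_of_nonneg_left h1 (by positivity)
      linarith
  rw [Real.norm_eq_abs] at hseg
  have h3 := (abs_le.1 hseg).1
  have h4 : |(fderiv ℝ u x) (y - x)| ≤ ‖fderiv ℝ u x‖ * ‖y - x‖ :=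
    (fderiv ℝ u x).le_opNorm (y - x)
  have h5 := (abs_le.1 h4).1
  rw [norm_sub_rev y x] at h3 h5
  nlinarith [h3, h5]

private theorem PoincC_exp (t : ℝ) (ht : |t| ≤ 1) :
    1 + t + t ^ 2 / 2 - |t| ^ 3 ≤ Real.exp t := by
  have h := Real.exp_bound ht (n := 3) (by norm_num)
  have h2 := (abs_le.1 h).1
  have hs : ∑ m ∈ Finset.range 3, t ^ m / (m.factorial : ℝ) = 1 + t + t ^ 2 / 2 := by
    simp [Finset.sum_range_succ, Nat.factorial]
  rw [hs] at h2
  have h3 : |t| ^ 3 * ((Nat.succ 3 : ℕ) / ((Nat.factorial 3 : ℕ) * (3 : ℕ)) : ℝ) ≤ |t| ^ 3 := by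
    have : ((Nat.succ 3 : ℕ) / ((Nat.factorial 3 : ℕ) * (3 : ℕ)) : ℝ) ≤ 1 := by
      norm_num [Nat.factorial]
    exact mul_le_of_le_one_right (by positivity) this
  linarith

private theorem PoincC_pointwise {M ε v W : ℝ} (hM : 1 ≤ M) (hε : 0 < ε) (hε1 : ε * (2 * M) ≤ 1)
    (hv : |v| ≤ M) (hW : 0 ≤ W) (hWM : W ≤ M) :
    1 + ε * v - ε ^ 2 * W + ε ^ 2 / 2 * v ^ 2 - ε ^ 3 * (M ^ 2 + 8 * M ^ 3) ≤
      Real.exp (ε * v - ε ^ 2 * W) := by
  have hεle : ε ≤ 1 := by nlinarith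
  have habs : |ε * v - ε ^ 2 * W| ≤ ε * (2 * M) := by
    have h1 := abs_le.1 hv
    have h2 : ε ^ 2 * W ≤ ε * M := by
      have : ε ^ 2 * W ≤ ε ^ 2 * M := mul_le_mul_of_nonneg_left hWM (by positivity)
      nlinarith [mul_nonneg hε.le (by linarith : (0:ℝ) ≤ M)]
    have h3 : 0 ≤ ε ^ 2 * W := by positivity
    have h4 : ε * v ≤ ε * M := mul_le_mul_of_nonneg_left h1.2 hε.le
    have h5 : -(ε * M) ≤ ε * v := by nlinarith [mul_le_mul_of_nonneg_left h1.1 hε.le]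
    rw [abs_le]
    constructor <;> nlinarith
  have h := PoincC_exp _ (habs.trans hε1)
  have hc : |ε * v - ε ^ 2 * W| ^ 3 ≤ ε ^ 3 * (8 * M ^ 3) := by
    calc |ε * v - ε ^ 2 * W| ^ 3 ≤ (ε * (2 * M)) ^ 3 := by
          gcongr
      _ = ε ^ 3 * (8 * M ^ 3) := by ring
  have hsq : ε ^ 2 * v ^ 2 - 2 * ε ^ 3 * M ^ 2 ≤ (ε * v - ε ^ 2 * W) ^ 2 := by
    have h1 : v * W ≤ M * M := by
      have h2 := (abs_le.1 hv).2
      nlinarith
    have h3 : ε ^ 3 * (v * W) ≤ ε ^ 3 * (M * M) := mul_le_mul_of_nonneg_left h1 (by positivity)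
    nlinarith [sq_nonneg (ε ^ 2 * W)]
  nlinarith

private theorem PoincC_integral {Ω : Type*} [MeasurableSpace Ω] {μ : Measure Ω}
    [IsProbabilityMeasure μ] {M ε : ℝ} (hM : 1 ≤ M) (hε : 0 < ε) (hε1 : ε * (2 * M) ≤ 1)
    {v W : Ω → ℝ} (hvm : Measurable v) (hWm : Measurable W) (hv : ∀ x, |v x| ≤ M)
    (hW : ∀ x, 0 ≤ W x) (hWM : ∀ x, W x ≤ M) (hv0 : ∫ x, v x ∂μ = 0) :
    1 + ε ^ 2 * ((∫ x, v x ^ 2 ∂μ) / 2 - ∫ x, W x ∂μ) - ε ^ 3 * (M ^ 2 + 8 * M ^ 3) ≤
      ∫ x, Real.exp (ε * v x - ε ^ 2 * W x) ∂μ := by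
  have iv : Integrable v μ := Integrable.of_bound hvm.aestronglyMeasurable M
    (Eventually.of_forall fun x => by rw [Real.norm_eq_abs]; exact hv x)
  have iW : Integrable W μ := Integrable.of_bound hWm.aestronglyMeasurable M
    (Eventually.of_forall fun x => by
      rw [Real.norm_eq_abs, abs_of_nonneg (hW x)]; exact hWM x)
  have iv2 : Integrable (fun x => v x ^ 2) μ :=
    Integrable.of_bound (hvm.pow_const 2).aestronglyMeasurable (M ^ 2)
    (Eventually.of_forall fun x => by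
      rw [Real.norm_eq_abs, abs_pow]
      exact pow_le_pow_left₀ (abs_nonneg _) (hv x) 2)
  have ie : Integrable (fun x => Real.exp (ε * v x - ε ^ 2 * W x)) μ := by
    refine Integrable.of_bound
      ((hvm.const_mul ε).sub (hWm.const_mul (ε ^ 2))).exp.aestronglyMeasurable (Real.exp (ε * M))
      (Eventually.of_forall fun x => ?_)
    rw [Real.norm_eq_abs, abs_of_pos (Real.exp_pos _)]
    refine Real.exp_le_exp.2 ?_
    have h1 := (abs_le.1 (hv x)).2
    have h2 : 0 ≤ ε ^ 2 * W x := mul_nonneg (by positivity) (hW x)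
    nlinarith
  have j1 : Integrable (fun x => 1 + ε * v x) μ := (integrable_const _).add (iv.const_mul ε)
  have j2 : Integrable (fun x => 1 + ε * v x - ε ^ 2 * W x) μ := j1.sub (iW.const_mul _)
  have j3 : Integrable (fun x => 1 + ε * v x - ε ^ 2 * W x + ε ^ 2 / 2 * v x ^ 2) μ :=
    j2.add (iv2.const_mul _)
  have j4 : Integrable (fun x => 1 + ε * v x - ε ^ 2 * W x + ε ^ 2 / 2 * v x ^ 2 -
      ε ^ 3 * (M ^ 2 + 8 * M ^ 3)) μ := j3.sub (integrable_const _)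
  have key : ∫ x, (1 + ε * v x - ε ^ 2 * W x + ε ^ 2 / 2 * v x ^ 2 -
      ε ^ 3 * (M ^ 2 + 8 * M ^ 3)) ∂μ ≤ ∫ x, Real.exp (ε * v x - ε ^ 2 * W x) ∂μ :=
    integral_mono j4 ie fun x => PoincC_pointwise hM hε hε1 (hv x) (hW x) (hWM x)
  have e : ∫ x, (1 + ε * v x - ε ^ 2 * W x + ε ^ 2 / 2 * v x ^ 2 -
      ε ^ 3 * (M ^ 2 + 8 * M ^ 3)) ∂μ = 1 + ε ^ 2 * ((∫ x, v x ^ 2 ∂μ) / 2 - ∫ x, W x ∂μ) -
        ε ^ 3 * (M ^ 2 + 8 * M ^ 3) := by
    rw [integral_sub j3 (integrable_const _), integral_add j2 (iv2.const_mul _),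
      integral_sub j1 (iW.const_mul _), integral_add (integrable_const _) (iv.const_mul ε),
      integral_const_mul, integral_const_mul, integral_const_mul, hv0]
    simp
    ring
  rw [← e]
  exact key

private theorem PoincC_arith {M ε V w K a b : ℝ} (hM : 1 ≤ M) (hε : 0 < ε) (hK : K = M ^ 2 + 8 * M ^ 3)
    (hV : 0 ≤ V) (hVM : V ≤ M ^ 2) (hw : 0 ≤ w) (hwM : w ≤ M)
    (hεK : ε * (M ^ 2 + M + K) ≤ 1 / 2)
    (ha : 1 + ε ^ 2 * (V / 2 - w) - ε ^ 3 * K ≤ a)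
    (hb : 1 + ε ^ 2 * (V / 2) - ε ^ 3 * K ≤ b) (hab : a * b ≤ 1) :
    V - w ≤ 2 * K * ε + ε * (M ^ 2 + M + K) ^ 2 := by
  have hM2 : 1 ≤ M ^ 2 := one_le_pow₀ hM
  have hM3 : 1 ≤ M ^ 3 := one_le_pow₀ hM
  have hK0 : 0 < K := by rw [hK]; linarith
  clear hK
  set T := M ^ 2 + M + K with hT
  have hT1 : 1 ≤ T := by rw [hT]; linarith
  have hεT : ε ≤ ε * T := le_mul_of_one_le_right hε.le hT1
  have hεle : ε ≤ 1 / 2 := hεT.trans hεK
  have hε2 : 0 < ε ^ 2 := by positivity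
  have hε2le : ε ^ 2 ≤ ε := by
    rw [sq]
    exact mul_le_of_le_one_right hε.le (by linarith)
  have hε32' : ε ^ 3 ≤ ε ^ 2 := by
    rw [pow_succ]
    exact mul_le_of_le_one_right hε2.le (by linarith)
  have hε32 : ε ^ 3 * K ≤ ε ^ 2 * K := mul_le_mul_of_nonneg_right hε32' hK0.le
  have hε3 : 0 ≤ ε ^ 3 * K := by positivity
  have hsmall : ε ^ 2 * T ≤ 1 / 2 :=
    (mul_le_mul_of_nonneg_right hε2le (by linarith)).trans hεK
  obtain ⟨α₁, hα⟩ : ∃ α₁, α₁ = ε ^ 2 * (V / 2 - w) - ε ^ 3 * K := ⟨_, rfl⟩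
  obtain ⟨β₁, hβ⟩ : ∃ β₁, β₁ = ε ^ 2 * (V / 2) - ε ^ 3 * K := ⟨_, rfl⟩
  have hαu : α₁ ≤ ε ^ 2 * T := by
    have h1 : ε ^ 2 * (V / 2 - w) ≤ ε ^ 2 * T :=
      mul_le_mul_of_nonneg_left (by rw [hT]; linarith) hε2.le
    rw [hα]; linarith
  have hαl : -(ε ^ 2 * T) ≤ α₁ := by
    have h1 : ε ^ 2 * (-(M ^ 2 + M)) ≤ ε ^ 2 * (V / 2 - w) :=
      mul_le_mul_of_nonneg_left (by linarith) hε2.le
    have h2 : -(ε ^ 2 * T) = ε ^ 2 * (-(M ^ 2 + M)) - ε ^ 2 * K := by rw [hT]; ring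
    rw [hα, h2]; linarith
  have hβu : β₁ ≤ ε ^ 2 * T := by
    have h1 : ε ^ 2 * (V / 2) ≤ ε ^ 2 * T :=
      mul_le_mul_of_nonneg_left (by rw [hT]; linarith) hε2.le
    rw [hβ]; linarith
  have hβl : -(ε ^ 2 * T) ≤ β₁ := by
    have h1 : ε ^ 2 * (-(M ^ 2 + M)) ≤ ε ^ 2 * (V / 2) :=
      mul_le_mul_of_nonneg_left (by linarith) hε2.le
    have h2 : -(ε ^ 2 * T) = ε ^ 2 * (-(M ^ 2 + M)) - ε ^ 2 * K := by rw [hT]; ring
    rw [hβ, h2]; linarith
  have hpa : 0 < 1 + α₁ := by linarith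
  have hpb : 0 < 1 + β₁ := by linarith
  have hprod : (1 + α₁) * (1 + β₁) ≤ 1 := by
    have h1 : 1 + α₁ ≤ a := by rw [hα]; linarith
    have h2 : 1 + β₁ ≤ b := by rw [hβ]; linarith
    calc (1 + α₁) * (1 + β₁) ≤ a * b := mul_le_mul h1 h2 hpb.le (hpa.le.trans h1)
      _ ≤ 1 := hab
  have hneg : -(α₁ * β₁) ≤ (ε ^ 2 * T) ^ 2 := by
    have h1 : |α₁| ≤ ε ^ 2 * T := abs_le.2 ⟨hαl, hαu⟩
    have h2 : |β₁| ≤ ε ^ 2 * T := abs_le.2 ⟨hβl, hβu⟩
    calc -(α₁ * β₁) ≤ |α₁ * β₁| := neg_le_abs _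
      _ = |α₁| * |β₁| := abs_mul _ _
      _ ≤ (ε ^ 2 * T) * (ε ^ 2 * T) := mul_le_mul h1 h2 (abs_nonneg _) (by positivity)
      _ = (ε ^ 2 * T) ^ 2 := by ring
  have hsum : α₁ + β₁ ≤ (ε ^ 2 * T) ^ 2 := by
    have h3 : (1 + α₁) * (1 + β₁) = 1 + (α₁ + β₁) + α₁ * β₁ := by ring
    rw [h3] at hprod
    linarith
  have e1 : α₁ + β₁ = ε ^ 2 * (V - w - 2 * K * ε) := by rw [hα, hβ]; ring
  have e2 : (ε ^ 2 * T) ^ 2 = ε ^ 2 * (ε ^ 2 * T ^ 2) := by ring
  rw [e1, e2] at hsum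
  have h3 := le_of_mul_le_mul_left hsum hε2
  have h4 : ε ^ 2 * T ^ 2 ≤ ε * T ^ 2 := mul_le_mul_of_nonneg_right hε2le (by positivity)
  linarith

private theorem PoincC_square {A s T : ℝ} (hA : 0 < A) : s * T ≤ A / 4 * s ^ 2 + T ^ 2 / A := by
  have h : 0 ≤ (A * s / 2 - T) ^ 2 / A := by positivity
  have e : (A * s / 2 - T) ^ 2 / A = A / 4 * s ^ 2 + T ^ 2 / A - s * T := by
    field_simp
    ring
  linarith

private theorem PoincC_delta {d : ℕ} {α : ℝ} (hα : 0 < α) {U : E d → ℝ} (h : SC d α U) {u : E d → ℝ}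
    (hu : ContDiff ℝ 1 u) (hc : HasCompactSupport u) {δ : ℝ} (hδ : 0 < δ) :
    α * ((∫ x, u x ^ 2 ∂((volume : Measure (E d)).tilted (fun x => -U x))) -
      (∫ x, u x ∂((volume : Measure (E d)).tilted (fun x => -U x))) ^ 2) ≤
      ∫ x, (‖fderiv ℝ u x‖ + δ) ^ 2 ∂((volume : Measure (E d)).tilted (fun x => -U x)) := by
  have := h.isProb
  set μ : Measure (E d) := (volume : Measure (E d)).tilted (fun x => -U x) with hμ
  have hD : Continuous (fderiv ℝ u) := hu.continuous_fderiv one_ne_zero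
  have hDc : HasCompactSupport (fderiv ℝ u) := hc.fderiv (𝕜 := ℝ)
  obtain ⟨B, hB⟩ := hDc.exists_bound_of_continuous hD
  have hB0 : 0 ≤ B := (norm_nonneg _).trans (hB 0)
  obtain ⟨Bu, hBu⟩ := hc.exists_bound_of_continuous hu.continuous
  have hBu0 : 0 ≤ Bu := (norm_nonneg _).trans (hBu 0)
  obtain ⟨L, hL0, hL⟩ := PoincC_modulus hu hc hδ
  have hum : Measurable u := hu.continuous.measurable
  have iu : Integrable u μ := Integrable.of_bound hum.aestronglyMeasurable Bu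
    (Eventually.of_forall hBu)
  have iu2 : Integrable (fun x => u x ^ 2) μ :=
    Integrable.of_bound (hum.pow_const 2).aestronglyMeasurable (Bu ^ 2)
    (Eventually.of_forall fun x => by
      rw [norm_pow]
      exact pow_le_pow_left₀ (norm_nonneg _) (hBu x) 2)
  set m : ℝ := ∫ x, u x ∂μ with hm
  have hmB : |m| ≤ Bu := by
    have := norm_integral_le_of_norm_le_const (μ := μ) (f := u) (C := Bu)
      (Eventually.of_forall hBu)
    simpa using this
  set v : E d → ℝ := fun x => u x - m with hv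
  have hvm : Measurable v := hum.sub_const m
  have hv0 : ∫ x, v x ∂μ = 0 := by
    rw [hv, integral_sub iu (integrable_const _)]
    simp [hm]
  have hvar : ∫ x, v x ^ 2 ∂μ = (∫ x, u x ^ 2 ∂μ) - m ^ 2 := by
    have e : ∀ x, v x ^ 2 = u x ^ 2 - 2 * m * u x + m ^ 2 := fun x => by
      simp only [hv]; ring
    simp_rw [e]
    have j1 : Integrable (fun x => u x ^ 2 - 2 * m * u x) μ := iu2.sub (iu.const_mul _)
    rw [integral_add j1 (integrable_const _),
      integral_sub iu2 (iu.const_mul _), integral_const_mul, ← hm]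
    simp
    ring
  rw [← hvar]
  set V : ℝ := ∫ x, v x ^ 2 ∂μ with hV
  set Gd : E d → ℝ := fun x => (‖fderiv ℝ u x‖ + δ) ^ 2 with hGd
  have hGm : Measurable Gd := ((hD.norm.add continuous_const).pow 2).measurable
  have hG0 : ∀ x, 0 ≤ Gd x := fun x => by positivity
  have hGB : ∀ x, Gd x ≤ (B + δ) ^ 2 := fun x => by
    simp only [hGd]
    have := hB x
    gcongr
  have iG : Integrable Gd μ := Integrable.of_bound hGm.aestronglyMeasurable ((B + δ) ^ 2)
    (Eventually.of_forall fun x => by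
      rw [Real.norm_eq_abs, abs_of_nonneg (hG0 x)]; exact hGB x)
  set M : ℝ := 2 * Bu + 2 * (B + δ) ^ 2 / α + 1 with hM
  have hM1 : 1 ≤ M := by
    have : 0 ≤ 2 * (B + δ) ^ 2 / α := by positivity
    rw [hM]; linarith
  have hvM : ∀ x, |v x| ≤ M := fun x => by
    have h1 : |u x| ≤ Bu := hBu x
    have h2 : |u x - m| ≤ |u x| + |m| := abs_sub _ _
    have h3 : 0 ≤ 2 * (B + δ) ^ 2 / α := by positivity
    show |u x - m| ≤ M
    rw [hM]; linarith
  have hVM : V ≤ M ^ 2 := by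
    have h1 : V ≤ ∫ _x : E d, M ^ 2 ∂μ := by
      refine integral_mono_of_nonneg (Eventually.of_forall fun x => by positivity)
        (integrable_const _) (Eventually.of_forall fun x => ?_)
      show v x ^ 2 ≤ M ^ 2
      exact sq_le_sq' (by linarith [(abs_le.1 (hvM x)).1]) (abs_le.1 (hvM x)).2
    simpa using h1
  have hV0 : 0 ≤ V := integral_nonneg fun x => by positivity
  set K : ℝ := M ^ 2 + 8 * M ^ 3 with hK
  have hK0 : 0 < K := by positivity
  set S : ℝ := ∫ x, Gd x ∂μ with hS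
  have hS0 : 0 ≤ S := integral_nonneg hG0
  -- the main inequality for small ε
  have main : ∀ᶠ ε in 𝓝[>] (0 : ℝ),
      V * (α - 4 * ε * L) ≤ S + (2 * K * ε + ε * (M ^ 2 + M + K) ^ 2) * (α - 4 * ε * L) := by
    have e1 : ∀ᶠ ε in 𝓝[>] (0 : ℝ), 0 < ε := eventually_mem_nhdsWithin
    have t0 : ∀ c : ℝ, Tendsto (fun ε : ℝ => ε * c) (𝓝[>] (0 : ℝ)) (𝓝 0) := fun c => by
      have : Tendsto (fun ε : ℝ => ε * c) (𝓝 (0 : ℝ)) (𝓝 (0 * c)) :=
        tendsto_id.mul_const c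
      rw [zero_mul] at this
      exact this.mono_left nhdsWithin_le_nhds
    have e2 : ∀ᶠ ε in 𝓝[>] (0 : ℝ), ε * (8 * L) < α := (t0 _).eventually_lt_const hα
    have e3 : ∀ᶠ ε in 𝓝[>] (0 : ℝ), ε * (2 * M) < 1 := (t0 _).eventually_lt_const one_pos
    have e4 : ∀ᶠ ε in 𝓝[>] (0 : ℝ), ε * (M ^ 2 + M + K) < 1 / 2 :=
      (t0 _).eventually_lt_const (by norm_num)
    filter_upwards [e1, e2, e3, e4] with ε hε h2 h3 h4
    have hA2 : α / 2 ≤ α - 4 * ε * L := by linarith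
    have hA : 0 < α - 4 * ε * L := by linarith
    set A : ℝ := α - 4 * ε * L with hAdef
    set W : E d → ℝ := fun x => Gd x / A with hW
    have hWm : Measurable W := hGm.div_const A
    have hW0 : ∀ x, 0 ≤ W x := fun x => div_nonneg (hG0 x) hA.le
    have hWM : ∀ x, W x ≤ M := fun x => by
      have h5 : W x ≤ (B + δ) ^ 2 / (α / 2) := by
        simp only [hW]
        exact div_le_div₀ (by positivity) (hGB x) (by positivity) hA2
      have h6 : (B + δ) ^ 2 / (α / 2) = 2 * (B + δ) ^ 2 / α := by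
        field_simp
      rw [h6] at h5
      rw [hM]; linarith
    have hWint : ∫ x, W x ∂μ = S / A := by
      simp only [hW]
      rw [integral_div]
    have mau := maurey h (p := fun x => ε * v x - ε ^ 2 * W x) (q := fun y => ε * (-v y) - ε ^ 2 * 0)
      ((hvm.const_mul ε).sub (hWm.const_mul (ε ^ 2)))
      ((hvm.neg.const_mul ε).sub_const _)
      ⟨ε * M + ε ^ 2 * M, fun x => by
        refine (abs_sub _ _).trans ?_
        rw [abs_mul, abs_mul, abs_of_pos hε, abs_of_pos (by positivity : 0 < ε ^ 2),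
          abs_of_nonneg (hW0 x)]
        have h5 := hvM x
        have h6 := hWM x
        gcongr⟩
      ⟨ε * M, fun x => by
        rw [mul_zero, sub_zero, abs_mul, abs_of_pos hε, abs_neg]
        have h5 := hvM x
        gcongr⟩
      (fun x y => by
        have h5 := hL x y
        have h6 := PoincC_square (s := ‖x - y‖) (T := ε * (‖fderiv ℝ u x‖ + δ)) hA
        have h7 : (ε * (‖fderiv ℝ u x‖ + δ)) ^ 2 / A = ε ^ 2 * W x := by
          simp only [hW, hGd]; ring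
        rw [h7] at h6
        have h8 : ε * (u x - u y) ≤ ε * ((‖fderiv ℝ u x‖ + δ) * ‖x - y‖ + L * ‖x - y‖ ^ 2) :=
          mul_le_mul_of_nonneg_left h5 hε.le
        simp only [hv]
        rw [hAdef] at h6
        nlinarith)
    have ia := PoincC_integral (μ := μ) hM1 hε h3.le hvm hWm hvM hW0 hWM hv0
    have ib := PoincC_integral (μ := μ) (v := fun x => -v x) (W := fun _ => 0) hM1 hε h3.le
      hvm.neg measurable_const (fun x => by rw [abs_neg]; exact hvM x) (fun _ => le_rfl)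
      (fun _ => by linarith) (by rw [integral_neg, hv0, neg_zero])
    have hwM : ∫ x, W x ∂μ ≤ M := by
      have h5 : ∫ x, W x ∂μ ≤ ∫ _x : E d, M ∂μ :=
        integral_mono_of_nonneg (Eventually.of_forall hW0) (integrable_const _)
          (Eventually.of_forall hWM)
      simpa using h5
    have hw0 : 0 ≤ ∫ x, W x ∂μ := integral_nonneg hW0
    have ib' : 1 + ε ^ 2 * (V / 2) - ε ^ 3 * K ≤ ∫ x, Real.exp (ε * (-v x) - ε ^ 2 * 0) ∂μ := by
      have e5 : ∫ x, (-v x) ^ 2 ∂μ = V := by simp [hV]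
      rw [e5] at ib
      simpa using ib
    have fin := PoincC_arith hM1 hε hK hV0 hVM hw0 hwM h4.le ia ib' mau
    rw [hWint] at fin
    have h9 : (V - S / A) * A ≤ (2 * K * ε + ε * (M ^ 2 + M + K) ^ 2) * A :=
      mul_le_mul_of_nonneg_right fin hA.le
    have h10 : (V - S / A) * A = V * A - S := by
      field_simp
    rw [h10] at h9
    linarith
  have lim1 : Tendsto (fun ε : ℝ => V * (α - 4 * ε * L)) (𝓝[>] (0 : ℝ)) (𝓝 (V * α)) := by
    have : Tendsto (fun ε : ℝ => V * (α - 4 * ε * L)) (𝓝 (0 : ℝ)) (𝓝 (V * (α - 4 * 0 * L))) :=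
      (Continuous.tendsto (by fun_prop) 0)
    simp only [mul_zero, zero_mul, sub_zero] at this
    exact this.mono_left nhdsWithin_le_nhds
  have lim2 : Tendsto (fun ε : ℝ => S + (2 * K * ε + ε * (M ^ 2 + M + K) ^ 2) *
      (α - 4 * ε * L)) (𝓝[>] (0 : ℝ)) (𝓝 S) := by
    have : Tendsto (fun ε : ℝ => S + (2 * K * ε + ε * (M ^ 2 + M + K) ^ 2) *
      (α - 4 * ε * L)) (𝓝 (0 : ℝ)) (𝓝 (S + (2 * K * 0 + 0 * (M ^ 2 + M + K) ^ 2) *
      (α - 4 * 0 * L))) :=
      (Continuous.tendsto (by fun_prop) 0)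
    simp only [mul_zero, zero_mul, add_zero] at this
    exact this.mono_left nhdsWithin_le_nhds
  have := le_of_tendsto_of_tendsto lim1 lim2 main
  linarith

theorem poinc_cpt {d : ℕ} {α : ℝ} (hα : 0 < α) {U : E d → ℝ} (h : SC d α U) {u : E d → ℝ}
    (hu : ContDiff ℝ 1 u) (hc : HasCompactSupport u) :
    (∫ x, u x ^ 2 ∂((volume : Measure (E d)).tilted (fun x => -U x))) -
      (∫ x, u x ∂((volume : Measure (E d)).tilted (fun x => -U x))) ^ 2 ≤
      α⁻¹ * ∫ x, ‖gradient u x‖ ^ 2 ∂((volume : Measure (E d)).tilted (fun x => -U x)) := by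
  have := h.isProb
  have hD : Continuous (fderiv ℝ u) := hu.continuous_fderiv one_ne_zero
  have hDc : HasCompactSupport (fderiv ℝ u) := hc.fderiv (𝕜 := ℝ)
  obtain ⟨B, hB⟩ := hDc.exists_bound_of_continuous hD
  have hB0 : 0 ≤ B := (norm_nonneg _).trans (hB 0)
  have hgn : ∀ x, ‖gradient u x‖ = ‖fderiv ℝ u x‖ := fun x => by
    simp [gradient]
  simp_rw [hgn]
  rw [← div_eq_inv_mul, le_div_iff₀ hα, mul_comm]
  have key : ∀ δ : ℝ, 0 < δ → α * ((∫ x, u x ^ 2 ∂((volume : Measure (E d)).tilted (fun x => -U x))) -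
      (∫ x, u x ∂((volume : Measure (E d)).tilted (fun x => -U x))) ^ 2) ≤
      (∫ x, ‖fderiv ℝ u x‖ ^ 2 ∂((volume : Measure (E d)).tilted (fun x => -U x))) +
        (2 * B * δ + δ ^ 2) := by
    intro δ hδ
    refine (PoincC_delta hα h hu hc hδ).trans ?_
    have i1 : Integrable (fun x => ‖fderiv ℝ u x‖ ^ 2)
        ((volume : Measure (E d)).tilted (fun x => -U x)) :=
      Integrable.of_bound (hD.norm.pow 2).aestronglyMeasurable (B ^ 2)
        (Eventually.of_forall fun x => by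
          rw [norm_pow, norm_norm]
          exact pow_le_pow_left₀ (norm_nonneg _) (hB x) 2)
    have e : (∫ x, ‖fderiv ℝ u x‖ ^ 2 ∂((volume : Measure (E d)).tilted (fun x => -U x))) +
        (2 * B * δ + δ ^ 2) = ∫ x, (‖fderiv ℝ u x‖ ^ 2 + (2 * B * δ + δ ^ 2))
          ∂((volume : Measure (E d)).tilted (fun x => -U x)) := by
      rw [integral_add i1 (integrable_const _)]
      simp
    rw [e]
    refine integral_mono_of_nonneg (Eventually.of_forall fun x => by positivity)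
      (i1.add (integrable_const _)) (Eventually.of_forall fun x => ?_)
    show (‖fderiv ℝ u x‖ + δ) ^ 2 ≤ ‖fderiv ℝ u x‖ ^ 2 + (2 * B * δ + δ ^ 2)
    have := hB x
    nlinarith
  have lim : Tendsto (fun δ : ℝ => (∫ x, ‖fderiv ℝ u x‖ ^ 2
      ∂((volume : Measure (E d)).tilted (fun x => -U x))) + (2 * B * δ + δ ^ 2)) (𝓝[>] (0 : ℝ))
      (𝓝 (∫ x, ‖fderiv ℝ u x‖ ^ 2 ∂((volume : Measure (E d)).tilted (fun x => -U x)))) := by
    have : Tendsto (fun δ : ℝ => (∫ x, ‖fderiv ℝ u x‖ ^ 2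
      ∂((volume : Measure (E d)).tilted (fun x => -U x))) + (2 * B * δ + δ ^ 2)) (𝓝 (0 : ℝ))
      (𝓝 ((∫ x, ‖fderiv ℝ u x‖ ^ 2 ∂((volume : Measure (E d)).tilted (fun x => -U x))) +
        (2 * B * 0 + 0 ^ 2))) :=
      (Continuous.tendsto (by fun_prop) 0)
    simp only [mul_zero, add_zero, ne_eq, OfNat.ofNat_ne_zero, not_false_eq_true, zero_pow] at this
    exact this.mono_left nhdsWithin_le_nhds
  refine ge_of_tendsto lim ?_
  filter_upwards [eventually_mem_nhdsWithin] with δ hδ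
  exact key δ hδ

end Vale.Agent.P347
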