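import Vale.Agent.Lib.P347.RDiff

/-!
P347: first order bounds for `Rop`.

Proofs. By `Rop_fderiv`, `Dv (Rop G η u) y (i, k) = η⁻¹ Cov (x_i, u_k)`, covariance under
`RG G η y`. For fixed `k` the vector `c_k = Cov (x, u_k)` satisfies
`|c_k|^2 = Cov (⟨x, c_k⟩, u_k)`, so by `RG_cov_sq_le` and `RG_var_inner`
`|c_k|^2 ≤ (η/(1+η)) Var u_k`. Sum over `k`: `‖Dv (Rop G η u) y‖^2 ≤ η⁻² (η/(1+η)) ΣVar u_k`,
which gives the first theorem, and with `RG_poinc` the second. The third one: subtract from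
`RG_ibp` for `u` (direction `e_i`) the product of `RG_mean` with the mean of `u`:
`∫ ∂_i u_k = (1 + 1/η) Cov (x_i, u_k) + Cov (∂_i G, u_k)`.
Fourth: `|Cov (gradient G, u_k)|^2 ≤ Var u_k * sup over unit e of Var ⟨gradient G, e⟩`, and the
latter is at most `(η/(1+η)) b^2` by `RG_poinc_scalar` and `Pert.norm_fderiv_le`.
-/

open MeasureTheory ProbabilityTheory
open scoped RealInnerProductSpace

namespace Vale.Agent.P347

variable {d : ℕ} {b : ℝ} {G : E d → ℝ} {η : ℝ} {ι : Type} [Fintype ι]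

private theorem rba_int_apply {κ : Type} [Fintype κ] {μ : Measure (E d)}
    {v : E d → EuclideanSpace ℝ κ} (hv : Integrable v μ) (k : κ) :
    (∫ x, v x ∂μ) k = ∫ x, v x k ∂μ :=
  ((EuclideanSpace.proj (𝕜 := ℝ) k).integral_comp_comm hv).symm

private theorem rba_var_nonneg (hG : Pert d b G) (hη : 0 < η) (y : E d) {g : E d → ℝ}
    (hg : Measurable g) (pg : PG g) :
    0 ≤ (∫ x, g x ^ 2 ∂(RG G η y)) - (∫ x, g x ∂(RG G η y)) ^ 2 := by
  have := RG_isProb hG hη y
  have i1 : Integrable g (RG G η y) := RG_integrable hG hη y hg.aestronglyMeasurable pg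
  have i2 : Integrable (fun x => g x ^ 2) (RG G η y) :=
    RG_integrable hG hη y (hg.pow_const 2).aestronglyMeasurable (pg.pow 2)
  set m := ∫ x, g x ∂(RG G η y) with hm
  have h0 : 0 ≤ ∫ x, (g x - m) ^ 2 ∂(RG G η y) := integral_nonneg fun x => sq_nonneg _
  have e : (fun x => (g x - m) ^ 2) = fun x => g x ^ 2 - (2 * m) * g x + m ^ 2 := by
    funext x
    ring
  have i3 : Integrable (fun x => (2 * m) * g x) (RG G η y) := i1.const_mul _
  have i4 : Integrable (fun x => g x ^ 2 - (2 * m) * g x) (RG G η y) := i2.sub i3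
  rw [e, integral_add i4 (integrable_const _),
    integral_sub i2 i3, integral_const_mul, integral_const, ← hm] at h0
  simp only [probReal_univ, smul_eq_mul, one_mul] at h0
  nlinarith [h0]

private theorem rba_inner (v c : E d) : ⟪v, c⟫ = ∑ i, c i * v i := by
  simp [PiLp.inner_apply]

private theorem rba_norm_sq (c : E d) : ‖c‖ ^ 2 = ∑ i, c i ^ 2 := by
  rw [EuclideanSpace.real_norm_sq_eq]

private theorem rba_cov_vec (hG : Pert d b G) (hη : 0 < η) (y : E d) {f : E d → E d}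
    (hf : Measurable f) (pf : PG f) {g : E d → ℝ} (hg : Measurable g) (pg : PG g) {κ : ℝ}
    (hκ : 0 ≤ κ) (hV : ∀ c : E d, (∫ x, ⟪f x, c⟫ ^ 2 ∂(RG G η y)) -
      (∫ x, ⟪f x, c⟫ ∂(RG G η y)) ^ 2 ≤ κ * ‖c‖ ^ 2) :
    ∑ i, ((∫ x, f x i * g x ∂(RG G η y)) - (∫ x, f x i ∂(RG G η y)) *
      ∫ x, g x ∂(RG G η y)) ^ 2 ≤
      κ * ((∫ x, g x ^ 2 ∂(RG G η y)) - (∫ x, g x ∂(RG G η y)) ^ 2) := by
  have := RG_isProb hG hη y
  have hfi : ∀ i, Measurable (fun x => f x i) := fun i =>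
    (EuclideanSpace.proj (𝕜 := ℝ) i).continuous.measurable.comp hf
  have pfi : ∀ i, PG (fun x => f x i) := fun i => pf.apply i
  have ifi : ∀ i, Integrable (fun x => f x i) (RG G η y) := fun i =>
    RG_integrable hG hη y (hfi i).aestronglyMeasurable (pfi i)
  have ifg : ∀ i, Integrable (fun x => f x i * g x) (RG G η y) := fun i =>
    RG_integrable hG hη y ((hfi i).mul hg).aestronglyMeasurable ((pfi i).mul pg)
  set cv : Fin d → ℝ := fun i => (∫ x, f x i * g x ∂(RG G η y)) - (∫ x, f x i ∂(RG G η y)) *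
      ∫ x, g x ∂(RG G η y) with hcv
  set c : E d := WithLp.toLp 2 cv with hc
  have hci : ∀ i, c i = cv i := fun i => rfl
  have hS : ‖c‖ ^ 2 = ∑ i, cv i ^ 2 := by
    rw [rba_norm_sq]
  have hin : ∀ x, ⟪f x, c⟫ = ∑ i, cv i * f x i := fun x => by
    rw [rba_inner]
  have hmeas : Measurable (fun x => ⟪f x, c⟫) := hf.inner_const
  have hpg : PG (fun x => ⟪f x, c⟫) := by
    obtain ⟨C, p, hC⟩ := pf
    refine ⟨C * ‖c‖, p, fun x => ?_⟩
    calc ‖⟪f x, c⟫‖ ≤ ‖f x‖ * ‖c‖ := norm_inner_le_norm _ _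
      _ ≤ (C * (1 + ‖x‖) ^ p) * ‖c‖ := mul_le_mul_of_nonneg_right (hC x) (norm_nonneg _)
      _ = C * ‖c‖ * (1 + ‖x‖) ^ p := by ring
  have hcs := RG_cov_sq_le hG hη y hmeas hg hpg pg
  have e1 : ∫ x, ⟪f x, c⟫ * g x ∂(RG G η y) = ∑ i, cv i * ∫ x, f x i * g x ∂(RG G η y) := by
    have : (fun x => ⟪f x, c⟫ * g x) = fun x => ∑ i, cv i * (f x i * g x) := by
      funext x
      rw [hin, Finset.sum_mul]
      exact Finset.sum_congr rfl fun i _ => by ring
    rw [this, integral_finsetSum _ fun i _ => (ifg i).const_mul _]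
    exact Finset.sum_congr rfl fun i _ => integral_const_mul _ _
  have e2 : ∫ x, ⟪f x, c⟫ ∂(RG G η y) = ∑ i, cv i * ∫ x, f x i ∂(RG G η y) := by
    have : (fun x => ⟪f x, c⟫) = fun x => ∑ i, cv i * f x i := by
      funext x
      rw [hin]
    rw [this, integral_finsetSum _ fun i _ => (ifi i).const_mul _]
    exact Finset.sum_congr rfl fun i _ => integral_const_mul _ _
  have e3 : (∫ x, ⟪f x, c⟫ * g x ∂(RG G η y)) - (∫ x, ⟪f x, c⟫ ∂(RG G η y)) *
      ∫ x, g x ∂(RG G η y) = ‖c‖ ^ 2 := by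
    rw [e1, e2, hS, Finset.sum_mul, ← Finset.sum_sub_distrib]
    refine Finset.sum_congr rfl fun i _ => ?_
    simp only [hcv]
    ring
  rw [e3] at hcs
  have hvg := rba_var_nonneg hG hη y hg pg
  have h4 : (‖c‖ ^ 2) ^ 2 ≤ (κ * ‖c‖ ^ 2) *
      ((∫ x, g x ^ 2 ∂(RG G η y)) - (∫ x, g x ∂(RG G η y)) ^ 2) :=
    hcs.trans (mul_le_mul_of_nonneg_right (hV c) hvg)
  rw [← hS]
  rcases eq_or_lt_of_le (sq_nonneg ‖c‖) with h0 | h0
  · rw [← h0]
    exact mul_nonneg hκ hvg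
  · by_contra hcon
    push Not at hcon
    have h5 := mul_lt_mul_of_pos_right hcon h0
    nlinarith [h4, h5]

private theorem rba_sum_var (hG : Pert d b G) (hη : 0 < η) (y : E d)
    {u : E d → EuclideanSpace ℝ ι} (hu : Measurable u) (hp : PG u) :
    ∑ k, ((∫ x, (u x k) ^ 2 ∂(RG G η y)) - (∫ x, u x k ∂(RG G η y)) ^ 2) =
      (∫ x, ‖u x‖ ^ 2 ∂(RG G η y)) - ‖∫ x, u x ∂(RG G η y)‖ ^ 2 := by
  have := RG_isProb hG hη y
  have hui : ∀ k, Measurable (fun x => u x k) := fun k =>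
    (EuclideanSpace.proj (𝕜 := ℝ) k).continuous.measurable.comp hu
  have iu : Integrable u (RG G η y) := RG_integrable hG hη y hu.aestronglyMeasurable hp
  have i2 : ∀ k, Integrable (fun x => (u x k) ^ 2) (RG G η y) := fun k =>
    RG_integrable hG hη y ((hui k).pow_const 2).aestronglyMeasurable ((hp.apply k).pow 2)
  rw [Finset.sum_sub_distrib, ← integral_finsetSum _ fun k _ => i2 k]
  congr 1
  · refine integral_congr_ae (Filter.Eventually.of_forall fun x => ?_)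
    simp only
    rw [EuclideanSpace.real_norm_sq_eq]
  · rw [EuclideanSpace.real_norm_sq_eq]
    exact Finset.sum_congr rfl fun k _ => by rw [rba_int_apply iu k]

private theorem rba_Dv_Rop_apply (hb : 0 ≤ b) (hG : Pert d b G) (hη : 0 < η)
    {u : E d → EuclideanSpace ℝ ι} (hu : Measurable u) (hp : PG u) (y : E d) (i : Fin d) (k : ι) :
    Dv (Rop G η u) y (i, k) = η⁻¹ * ((∫ x, x i * u x k ∂(RG G η y)) -
      (∫ x, x i ∂(RG G η y)) * ∫ x, u x k ∂(RG G η y)) := by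
  have := RG_isProb hG hη y
  have iu : Integrable u (RG G η y) := RG_integrable hG hη y hu.aestronglyMeasurable hp
  have hm0 : Measurable (fun x : E d => (⟪x, EuclideanSpace.single i (1 : ℝ)⟫ : ℝ)) :=
    measurable_id.inner_const
  have hm : Measurable (fun x : E d => (⟪x, EuclideanSpace.single i (1 : ℝ)⟫ : ℝ) • u x) :=
    hm0.smul hu
  have ixu : Integrable (fun x : E d => (⟪x, EuclideanSpace.single i (1 : ℝ)⟫ : ℝ) • u x)
      (RG G η y) :=
    RG_integrable hG hη y hm.aestronglyMeasurable ((PG_inner _).smul hp)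
  rw [Dv_apply, Rop_fderiv hb hG hη hu.aestronglyMeasurable hp]
  simp only [Rop, PiLp.smul_apply, PiLp.sub_apply, smul_eq_mul]
  rw [rba_int_apply ixu k, rba_int_apply iu k]
  simp [EuclideanSpace.inner_single_right]

private theorem rba_core (hb : 0 ≤ b) (hG : Pert d b G) (hη : 0 < η)
    {u : E d → EuclideanSpace ℝ ι} (hu : Measurable u) (hp : PG u) (y : E d) :
    ‖Dv (Rop G η u) y‖ ^ 2 ≤
      (η⁻¹ ^ 2 * (η / (1 + η))) * ((∫ x, ‖u x‖ ^ 2 ∂(RG G η y)) - ‖Rop G η u y‖ ^ 2) := by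
  have hκ : 0 ≤ η / (1 + η) := by positivity
  have hvec : ∀ k : ι, ∑ i, ((∫ x, x i * u x k ∂(RG G η y)) -
      (∫ x, x i ∂(RG G η y)) * ∫ x, u x k ∂(RG G η y)) ^ 2 ≤
      η / (1 + η) * ((∫ x, (u x k) ^ 2 ∂(RG G η y)) - (∫ x, u x k ∂(RG G η y)) ^ 2) := fun k =>
    rba_cov_vec hG hη y (f := fun x => x) measurable_id PG_id
      ((EuclideanSpace.proj (𝕜 := ℝ) k).continuous.measurable.comp hu) (hp.apply k) hκ
      (fun c => RG_var_inner hG hη y c)
  have e1 : ‖Dv (Rop G η u) y‖ ^ 2 = η⁻¹ ^ 2 * ∑ k, ∑ i, ((∫ x, x i * u x k ∂(RG G η y)) -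
      (∫ x, x i ∂(RG G η y)) * ∫ x, u x k ∂(RG G η y)) ^ 2 := by
    rw [EuclideanSpace.real_norm_sq_eq, Fintype.sum_prod_type, Finset.sum_comm, Finset.mul_sum]
    refine Finset.sum_congr rfl fun k _ => ?_
    rw [Finset.mul_sum]
    refine Finset.sum_congr rfl fun i _ => ?_
    rw [rba_Dv_Rop_apply hb hG hη hu hp y i k, mul_pow]
  rw [e1, mul_assoc]
  refine mul_le_mul_of_nonneg_left ?_ (by positivity)
  calc ∑ k, ∑ i, ((∫ x, x i * u x k ∂(RG G η y)) -
      (∫ x, x i ∂(RG G η y)) * ∫ x, u x k ∂(RG G η y)) ^ 2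
      ≤ ∑ k, η / (1 + η) * ((∫ x, (u x k) ^ 2 ∂(RG G η y)) -
          (∫ x, u x k ∂(RG G η y)) ^ 2) := Finset.sum_le_sum fun k _ => hvec k
    _ = _ := by
      rw [← Finset.mul_sum, rba_sum_var hG hη y hu hp]
      rfl

private theorem rba_var_vec_nonneg (hG : Pert d b G) (hη : 0 < η) (y : E d)
    {u : E d → EuclideanSpace ℝ ι} (hu : Measurable u) (hp : PG u) :
    0 ≤ (∫ x, ‖u x‖ ^ 2 ∂(RG G η y)) - ‖∫ x, u x ∂(RG G η y)‖ ^ 2 := by
  rw [← rba_sum_var hG hη y hu hp]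
  exact Finset.sum_nonneg fun k _ => rba_var_nonneg hG hη y
    ((EuclideanSpace.proj (𝕜 := ℝ) k).continuous.measurable.comp hu) (hp.apply k)

theorem norm_Dv_Rop_sq_le (hb : 0 ≤ b) (hG : Pert d b G) (hη : 0 < η)
    {u : E d → EuclideanSpace ℝ ι} (hu : Measurable u) (hp : PG u) (y : E d) :
    ‖Dv (Rop G η u) y‖ ^ 2 ≤
      η⁻¹ * ((∫ x, ‖u x‖ ^ 2 ∂(RG G η y)) - ‖Rop G η u y‖ ^ 2) := by
  refine (rba_core hb hG hη hu hp y).trans ?_
  refine mul_le_mul_of_nonneg_right ?_ (rba_var_vec_nonneg hG hη y hu hp)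
  have h1 : η⁻¹ ^ 2 * (η / (1 + η)) = η⁻¹ * (1 + η)⁻¹ := by
    field_simp
  rw [h1]
  have h2 : (1 + η)⁻¹ ≤ 1 := inv_le_one_of_one_le₀ (by linarith)
  have h3 : 0 ≤ η⁻¹ := by positivity
  nlinarith

theorem norm_Dv_Rop_sq_le' (hb : 0 ≤ b) (hG : Pert d b G) (hη : 0 < η)
    {u : E d → EuclideanSpace ℝ ι} (hu : ContDiff ℝ 1 u) (hp : PG u) (hp' : PG (Dv u))
    (y : E d) :
    ‖Dv (Rop G η u) y‖ ^ 2 ≤ ((1 + η)⁻¹) ^ 2 * ∫ x, ‖Dv u x‖ ^ 2 ∂(RG G η y) := by
  refine (rba_core hb hG hη hu.continuous.measurable hp y).trans ?_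
  have h1 : η⁻¹ ^ 2 * (η / (1 + η)) = η⁻¹ * (1 + η)⁻¹ := by
    field_simp
  have h2 := mul_le_mul_of_nonneg_left (RG_poinc hG hη y hu hp hp')
    (show 0 ≤ η⁻¹ * (1 + η)⁻¹ by positivity)
  rw [h1]
  refine h2.trans (le_of_eq ?_)
  rw [← mul_assoc]
  congr 1
  field_simp

theorem Dv_Rop_eq (hb : 0 ≤ b) (hG : Pert d b G) (hη : 0 < η)
    {u : E d → EuclideanSpace ℝ ι} (hu : ContDiff ℝ 1 u) (hp : PG u) (hp' : PG (Dv u))
    (y : E d) :
    (1 + η) • Dv (Rop G η u) y = Rop G η (Dv u) y + Phi G η u y := by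
  have := RG_isProb hG hη y
  have hum : Measurable u := hu.continuous.measurable
  have hpf : PG (fun x => fderiv ℝ u x) := hp'.mono fun x => opNorm_le_Dv u x
  have hgm : Measurable (gradient G) := hG.grad_contDiff.continuous.measurable
  have hgp : PG (gradient G) := hG.PG_grad hb
  have iu : Integrable u (RG G η y) := RG_integrable hG hη y hum.aestronglyMeasurable hp
  have hDc : Continuous (Dv u) := by
    have hc : Continuous (fun x => fderiv ℝ u x) := hu.continuous_fderiv one_ne_zero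
    refine (PiLp.continuous_toLp 2 _).comp (continuous_pi fun p => ?_)
    exact (EuclideanSpace.proj (𝕜 := ℝ) p.2).continuous.comp (hc.clm_apply continuous_const)
  have iD : Integrable (Dv u) (RG G η y) :=
    RG_integrable hG hη y hDc.aestronglyMeasurable hp'
  ext ⟨i, k⟩
  set e : E d := EuclideanSpace.single i (1 : ℝ) with he
  have hei : ∀ v : E d, ⟪v, e⟫ = v i := fun v => by
    simp [he, EuclideanSpace.inner_single_right]
  have hcoef : Measurable (fun x : E d => ⟪x, e⟫ + ⟪gradient G x, e⟫ + ⟪x - y, e⟫ / η) :=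
    ((measurable_id.inner_const).add hgm.inner_const).add
      (((measurable_id.sub_const y).inner_const).div_const η)
  have pcoef : PG (fun x : E d => ⟪x, e⟫ + ⟪gradient G x, e⟫ + ⟪x - y, e⟫ / η) := by
    have p1 : PG (fun x : E d => ⟪x, e⟫) := PG_inner e
    have p2 : PG (fun x : E d => ⟪gradient G x, e⟫) := by
      have := hgp.apply i
      simpa only [hei] using this
    have p3 : PG (fun x : E d => ⟪x - y, e⟫ / η) := by
      have q1 : PG (fun x : E d => ⟪x, e⟫ - ⟪y, e⟫) :=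
        p1.sub (PG.of_bdd (C := ‖⟪y, e⟫‖) fun _ => le_rfl)
      have q2 : PG (fun x : E d => η⁻¹ * (⟪x, e⟫ - ⟪y, e⟫)) :=
        (PG.of_bdd (C := ‖η⁻¹‖) fun _ => le_rfl).mul q1
      refine q2.mono fun x => le_of_eq ?_
      rw [inner_sub_left, div_eq_inv_mul]
    exact (p1.add p2).add p3
  have h1 := RG_ibp hb hG hη y hu hp hpf e
  have h2 := RG_mean hb hG hη y e
  -- component k
  have hfd : Integrable (fun x => fderiv ℝ u x e) (RG G η y) := by
    refine RG_integrable hG hη y ?_ ?_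
    · exact ((hu.continuous_fderiv one_ne_zero).clm_apply continuous_const).aestronglyMeasurable
    · obtain ⟨C, p, hC⟩ := hpf
      refine ⟨C * ‖e‖, p, fun x => ?_⟩
      calc ‖fderiv ℝ u x e‖ ≤ ‖fderiv ℝ u x‖ * ‖e‖ := (fderiv ℝ u x).le_opNorm e
        _ ≤ (C * (1 + ‖x‖) ^ p) * ‖e‖ := mul_le_mul_of_nonneg_right (hC x) (norm_nonneg _)
        _ = C * ‖e‖ * (1 + ‖x‖) ^ p := by ring
  have hcu : Integrable (fun x => (⟪x, e⟫ + ⟪gradient G x, e⟫ + ⟪x - y, e⟫ / η) • u x)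
      (RG G η y) :=
    RG_integrable hG hη y (hcoef.smul hum).aestronglyMeasurable (pcoef.smul hp)
  have h3 := congrArg (fun v : EuclideanSpace ℝ ι => v k) h1
  simp only at h3
  rw [rba_int_apply hfd k, rba_int_apply hcu k] at h3
  -- scalar integrability
  have hukm : Measurable (fun x => u x k) :=
    (EuclideanSpace.proj (𝕜 := ℝ) k).continuous.measurable.comp hum
  have hukp : PG (fun x => u x k) := hp.apply k
  have hxm : Measurable (fun x : E d => x i) :=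
    (EuclideanSpace.proj (𝕜 := ℝ) i).continuous.measurable
  have hxp : PG (fun x : E d => x i) := PG_id.apply i
  have hgim : Measurable (fun x : E d => gradient G x i) :=
    (EuclideanSpace.proj (𝕜 := ℝ) i).continuous.measurable.comp hgm
  have hgip : PG (fun x : E d => gradient G x i) := hgp.apply i
  have j1 : Integrable (fun x => u x k) (RG G η y) :=
    RG_integrable hG hη y hukm.aestronglyMeasurable hukp
  have j2 : Integrable (fun x : E d => x i) (RG G η y) :=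
    RG_integrable hG hη y hxm.aestronglyMeasurable hxp
  have j3 : Integrable (fun x : E d => gradient G x i) (RG G η y) :=
    RG_integrable hG hη y hgim.aestronglyMeasurable hgip
  have j4 : Integrable (fun x : E d => x i * u x k) (RG G η y) :=
    RG_integrable hG hη y (hxm.mul hukm).aestronglyMeasurable (hxp.mul hukp)
  have j5 : Integrable (fun x : E d => u x k * gradient G x i) (RG G η y) :=
    RG_integrable hG hη y (hukm.mul hgim).aestronglyMeasurable (hukp.mul hgip)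
  have e3 : ∫ x, ((⟪x, e⟫ + ⟪gradient G x, e⟫ + ⟪x - y, e⟫ / η) • u x) k ∂(RG G η y) =
      (1 + η⁻¹) * (∫ x, x i * u x k ∂(RG G η y)) + (∫ x, u x k * gradient G x i ∂(RG G η y)) -
        (η⁻¹ * y i) * ∫ x, u x k ∂(RG G η y) := by
    have : (fun x => ((⟪x, e⟫ + ⟪gradient G x, e⟫ + ⟪x - y, e⟫ / η) • u x) k) =
        fun x => (1 + η⁻¹) * (x i * u x k) + u x k * gradient G x i - (η⁻¹ * y i) * u x k := by
      funext x
      simp only [hei, PiLp.smul_apply, smul_eq_mul, PiLp.sub_apply]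
      field_simp
      ring
    have l1 : Integrable (fun x : E d => (1 + η⁻¹) * (x i * u x k)) (RG G η y) := j4.const_mul _
    have l2 : Integrable (fun x : E d => (1 + η⁻¹) * (x i * u x k) + u x k * gradient G x i)
      (RG G η y) := l1.add j5
    have l3 : Integrable (fun x : E d => (η⁻¹ * y i) * u x k) (RG G η y) := j1.const_mul _
    rw [this, integral_sub l2 l3, integral_add l1 j5, integral_const_mul, integral_const_mul]
  have e4 : ∫ x, (⟪x, e⟫ + ⟪gradient G x, e⟫ + ⟪x - y, e⟫ / η) ∂(RG G η y) =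
      (1 + η⁻¹) * (∫ x, x i ∂(RG G η y)) + (∫ x, gradient G x i ∂(RG G η y)) - η⁻¹ * y i := by
    have : (fun x => (⟪x, e⟫ + ⟪gradient G x, e⟫ + ⟪x - y, e⟫ / η)) =
        fun x => (1 + η⁻¹) * (x i) + gradient G x i - (η⁻¹ * y i) := by
      funext x
      simp only [hei, PiLp.sub_apply]
      field_simp
      ring
    have l1 : Integrable (fun x : E d => (1 + η⁻¹) * (x i)) (RG G η y) := j2.const_mul _
    have l2 : Integrable (fun x : E d => (1 + η⁻¹) * (x i) + gradient G x i)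
      (RG G η y) := l1.add j3
    rw [this, integral_sub l2 (integrable_const _), integral_add l1 j3, integral_const_mul,
      integral_const]
    simp
  rw [e3] at h3
  rw [e4] at h2
  have lhs : ((1 + η) • Dv (Rop G η u) y) (i, k) = (1 + η) * (η⁻¹ *
      ((∫ x, x i * u x k ∂(RG G η y)) -
      (∫ x, x i ∂(RG G η y)) * ∫ x, u x k ∂(RG G η y))) := by
    rw [PiLp.smul_apply, smul_eq_mul, rba_Dv_Rop_apply hb hG hη hum hp y i k]
  have rhs1 : (Rop G η (Dv u) y) (i, k) = ∫ x, fderiv ℝ u x e k ∂(RG G η y) := by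
    rw [Rop, rba_int_apply iD (i, k)]
    rfl
  have rhs2 : (Phi G η u y) (i, k) = -((∫ x, u x k * gradient G x i ∂(RG G η y)) -
      (∫ x, u x k ∂(RG G η y)) * (∫ x, gradient G x i ∂(RG G η y))) := rfl
  rw [lhs, PiLp.add_apply, rhs1, rhs2, h3]
  have h5 : (1 + η) * η⁻¹ = 1 + η⁻¹ := by
    field_simp
    ring
  have h6 : (∫ x, gradient G x i ∂(RG G η y)) =
      η⁻¹ * y i - (1 + η⁻¹) * (∫ x, x i ∂(RG G η y)) := by linarith
  rw [h6, ← mul_assoc, h5]
  ring

theorem norm_Phi_le (hb : 0 ≤ b) (hG : Pert d b G) (hη : 0 < η)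
    {u : E d → EuclideanSpace ℝ ι} (hu : ContDiff ℝ 1 u) (hp : PG u) {B : ℝ}
    (hB : ∀ x, ‖Dv u x‖ ≤ B) (y : E d) : ‖Phi G η u y‖ ≤ η * b * B := by
  have := RG_isProb hG hη y
  have hum : Measurable u := hu.continuous.measurable
  have hB0 : 0 ≤ B := (norm_nonneg _).trans (hB 0)
  have hp' : PG (Dv u) := PG.of_bdd hB
  have hgc : ContDiff ℝ 1 (gradient G) := hG.grad_contDiff
  have hgm : Measurable (gradient G) := hgc.continuous.measurable
  have hgp : PG (gradient G) := hG.PG_grad hb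
  have hκ : 0 ≤ η / (1 + η) * b ^ 2 := by positivity
  have hV : ∀ c : E d, (∫ x, ⟪gradient G x, c⟫ ^ 2 ∂(RG G η y)) -
      (∫ x, ⟪gradient G x, c⟫ ∂(RG G η y)) ^ 2 ≤ (η / (1 + η) * b ^ 2) * ‖c‖ ^ 2 := by
    intro c
    have hcd : ContDiff ℝ 1 (fun x => ⟪gradient G x, c⟫) := hgc.inner ℝ contDiff_const
    have hgrad : ∀ x, ‖gradient (fun x => ⟪gradient G x, c⟫) x‖ ≤ b * ‖c‖ := by
      intro x
      have hd : DifferentiableAt ℝ (gradient G) x := hgc.differentiable one_ne_zero x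
      have h1 : ‖gradient (fun x => ⟪gradient G x, c⟫) x‖ =
          ‖fderiv ℝ (fun x => ⟪gradient G x, c⟫) x‖ := by
        rw [gradient, LinearIsometryEquiv.norm_map]
      rw [h1]
      refine ContinuousLinearMap.opNorm_le_bound _ (by positivity) fun v => ?_
      have h2 : fderiv ℝ (fun x => (⟪gradient G x, c⟫ : ℝ)) x v =
          ⟪fderiv ℝ (gradient G) x v, c⟫ := by
        have h3 := (hd.hasFDerivAt.inner ℝ (hasFDerivAt_const c x)).fderiv
        rw [h3]
        simp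
      rw [h2]
      calc ‖⟪fderiv ℝ (gradient G) x v, c⟫‖ ≤ ‖fderiv ℝ (gradient G) x v‖ * ‖c‖ :=
            norm_inner_le_norm _ _
        _ ≤ (b * ‖v‖) * ‖c‖ := by
            refine mul_le_mul_of_nonneg_right ?_ (norm_nonneg _)
            exact (ContinuousLinearMap.le_opNorm _ v).trans
              (mul_le_mul_of_nonneg_right (hG.norm_fderiv_le hb x) (norm_nonneg _))
        _ = b * ‖c‖ * ‖v‖ := by ring
    have hpc : PG (fun x => (⟪gradient G x, c⟫ : ℝ)) := by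
      obtain ⟨C, p, hC⟩ := hgp
      refine ⟨C * ‖c‖, p, fun x => ?_⟩
      calc ‖⟪gradient G x, c⟫‖ ≤ ‖gradient G x‖ * ‖c‖ := norm_inner_le_norm _ _
        _ ≤ (C * (1 + ‖x‖) ^ p) * ‖c‖ := mul_le_mul_of_nonneg_right (hC x) (norm_nonneg _)
        _ = C * ‖c‖ * (1 + ‖x‖) ^ p := by ring
    have hpoin := RG_poinc_scalar hG hη y hcd hpc (PG.of_bdd hgrad)
    refine hpoin.trans ?_
    rw [mul_assoc]
    refine mul_le_mul_of_nonneg_left ?_ (by positivity)
    have hle : ∀ x, ‖gradient (fun x => (⟪gradient G x, c⟫ : ℝ)) x‖ ^ 2 ≤ b ^ 2 * ‖c‖ ^ 2 := by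
      intro x
      calc _ ≤ (b * ‖c‖) ^ 2 := pow_le_pow_left₀ (norm_nonneg _) (hgrad x) 2
        _ = _ := by ring
    calc _ ≤ ∫ _x, b ^ 2 * ‖c‖ ^ 2 ∂(RG G η y) := by
          refine integral_mono_of_nonneg (Filter.Eventually.of_forall fun x => sq_nonneg _)
            (integrable_const _) (Filter.Eventually.of_forall hle)
      _ = _ := by simp
  have hvec : ∀ k : ι, ∑ i, ((∫ x, gradient G x i * u x k ∂(RG G η y)) -
      (∫ x, gradient G x i ∂(RG G η y)) * ∫ x, u x k ∂(RG G η y)) ^ 2 ≤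
      (η / (1 + η) * b ^ 2) * ((∫ x, (u x k) ^ 2 ∂(RG G η y)) -
        (∫ x, u x k ∂(RG G η y)) ^ 2) := fun k =>
    rba_cov_vec hG hη y hgm hgp
      ((EuclideanSpace.proj (𝕜 := ℝ) k).continuous.measurable.comp hum) (hp.apply k) hκ hV
  have e1 : ‖Phi G η u y‖ ^ 2 = ∑ k, ∑ i, ((∫ x, gradient G x i * u x k ∂(RG G η y)) -
      (∫ x, gradient G x i ∂(RG G η y)) * ∫ x, u x k ∂(RG G η y)) ^ 2 := by
    rw [EuclideanSpace.real_norm_sq_eq, Fintype.sum_prod_type, Finset.sum_comm]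
    refine Finset.sum_congr rfl fun k _ => Finset.sum_congr rfl fun i _ => ?_
    have e2 : (Phi G η u y) (i, k) = -((∫ x, u x k * gradient G x i ∂(RG G η y)) -
      (∫ x, u x k ∂(RG G η y)) * (∫ x, gradient G x i ∂(RG G η y))) := rfl
    rw [e2, neg_sq]
    congr 1
    simp only [mul_comm]
  have hint : ∫ x, ‖Dv u x‖ ^ 2 ∂(RG G η y) ≤ B ^ 2 := by
    calc _ ≤ ∫ _x, B ^ 2 ∂(RG G η y) := by
          refine integral_mono_of_nonneg (Filter.Eventually.of_forall fun x => sq_nonneg _)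
            (integrable_const _) (Filter.Eventually.of_forall fun x =>
              pow_le_pow_left₀ (norm_nonneg _) (hB x) 2)
      _ = _ := by simp
  have h2 : ‖Phi G η u y‖ ^ 2 ≤ (η * b * B) ^ 2 := by
    rw [e1]
    calc _ ≤ ∑ k, (η / (1 + η) * b ^ 2) * ((∫ x, (u x k) ^ 2 ∂(RG G η y)) -
        (∫ x, u x k ∂(RG G η y)) ^ 2) := Finset.sum_le_sum fun k _ => hvec k
      _ = (η / (1 + η) * b ^ 2) * ((∫ x, ‖u x‖ ^ 2 ∂(RG G η y)) -
          ‖∫ x, u x ∂(RG G η y)‖ ^ 2) := by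
        rw [← Finset.mul_sum, rba_sum_var hG hη y hum hp]
      _ ≤ (η / (1 + η) * b ^ 2) * (η / (1 + η) * ∫ x, ‖Dv u x‖ ^ 2 ∂(RG G η y)) :=
        mul_le_mul_of_nonneg_left (RG_poinc hG hη y hu hp hp') hκ
      _ ≤ (η / (1 + η) * b ^ 2) * (η / (1 + η) * B ^ 2) :=
        mul_le_mul_of_nonneg_left (mul_le_mul_of_nonneg_left hint (by positivity)) hκ
      _ = (η / (1 + η)) ^ 2 * (b * B) ^ 2 := by ring
      _ ≤ η ^ 2 * (b * B) ^ 2 := by
        refine mul_le_mul_of_nonneg_right ?_ (sq_nonneg _)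
        refine pow_le_pow_left₀ (by positivity) ?_ 2
        exact div_le_self hη.le (by linarith)
      _ = (η * b * B) ^ 2 := by ring
  exact (sq_le_sq₀ (norm_nonneg _) (by positivity)).1 h2

end Vale.Agent.P347
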