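import Vale.Agent.Lib.P347.RBa

/-!
P347: second order bounds for `Rop` and `Phi`.

Proofs. Differentiating a covariance under `RG G η y` with respect to `y` in direction `e` gives
`η⁻¹` times the third central moment with `⟨x, e⟩` (from `Rop_fderiv` applied to `f g`, `f`, `g`).
So `Dv (Phi G η u) y (e, (i, k)) = - η⁻¹ κ (⟨x,e⟩, u_k, ∂_i G)`, where
`κ (f, g, h) = E (f - E f) (g - E g) (h - E h)`. For fixed `k` the Hilbert-Schmidt norm over
`(e, i)` of the matrix `κ (x_e, u_k, ∂_i G)` is the supremum over matrices `A` of norm at most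
one of `E (u_k - E u_k) q_A`, `q_A = ⟨A (x - E x), gradient G - E gradient G⟩`, and one can
subtract the mean of `q_A`, so it is at most `√(Var u_k) √(Var q_A)`. By Poincare
(`RG_poinc_scalar`, `gradient q_A = Aᵀ (gradient G - E gradient G) + D (gradient G) A (x - E x)`)
`Var q_A ≤ η * 2 * (b^2 η + b^2 η)`; sum over `k` using `RG_poinc`:
`‖Dv (Phi G η u) y‖ ≤ η⁻¹ * √(η) B * 2 η b = 2 b √η B`.
For `Rop`: `Dv (Dv (Rop G η u)) y (e, (i, k)) = η⁻² κ (x_e, x_i, u_k)`, same argument with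
`q_A = ⟨A (x - E x), x - E x⟩`, `Var q_A ≤ η * 4 η`, `ΣVar u_k ≤ B^2`, which gives `2 B / η`.
-/

open MeasureTheory ProbabilityTheory
open scoped RealInnerProductSpace

namespace Vale.Agent.P347

variable {d : ℕ} {b : ℝ} {G : E d → ℝ} {η : ℝ} {ι : Type} [Fintype ι]

private theorem rb_int (hG : Pert d b G) (hη : 0 < η) (y : E d) {f : E d → ℝ}
    (hf : Measurable f) (pf : PG f) : Integrable f (RG G η y) :=
  RG_integrable hG hη y hf.aestronglyMeasurable pf

private theorem rb_PG_const {F : Type} [NormedAddCommGroup F] (c : F) :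
    PG (fun _ : E d => c) := PG.of_bdd (C := ‖c‖) fun _ => le_rfl

private theorem rb_PG_clm {F F' : Type} [NormedAddCommGroup F] [NormedSpace ℝ F]
    [NormedAddCommGroup F'] [NormedSpace ℝ F'] {u : E d → F} (hu : PG u) (L : F →L[ℝ] F') :
    PG (fun x => L (u x)) := by
  have h1 : PG (fun x => ‖L‖ • u x) := PG.smul (rb_PG_const ‖L‖) hu
  refine PG.mono h1 fun x => ?_
  rw [norm_smul, norm_norm]
  exact L.le_opNorm _

/-- third central moment with a linear form -/
private noncomputable def rb_kap (G : E d → ℝ) (η : ℝ) (y e : E d) (f g : E d → ℝ) : ℝ :=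
  ∫ x, (⟪x, e⟫ - ∫ z, ⟪z, e⟫ ∂(RG G η y)) * (f x - ∫ z, f z ∂(RG G η y)) *
    (g x - ∫ z, g z ∂(RG G η y)) ∂(RG G η y)

/-- covariance -/
private noncomputable def rb_cv (G : E d → ℝ) (η : ℝ) (f g : E d → ℝ) (y : E d) : ℝ :=
  Rop G η (fun x => f x * g x) y - Rop G η f y * Rop G η g y

private theorem rb_cv_contDiff (hb : 0 ≤ b) (hG : Pert d b G) (hη : 0 < η) {f g : E d → ℝ}
    (hf : Measurable f) (pf : PG f) (hg : Measurable g) (pg : PG g) (n : ℕ) :
    ContDiff ℝ n (rb_cv G η f g) := by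
  have h1 := Rop_contDiff hb hG hη (hf.mul hg).aestronglyMeasurable (pf.mul pg) n
  have h2 := Rop_contDiff hb hG hη hf.aestronglyMeasurable pf n
  have h3 := Rop_contDiff hb hG hη hg.aestronglyMeasurable pg n
  exact h1.sub (h2.mul h3)

private theorem rb_kap_eq (hG : Pert d b G) (hη : 0 < η) {f g : E d → ℝ}
    (hf : Measurable f) (pf : PG f) (hg : Measurable g) (pg : PG g) (y e : E d) :
    rb_kap G η y e f g =
      (∫ x, ⟪x, e⟫ * (f x * g x) ∂(RG G η y))
      - (∫ x, g x ∂(RG G η y)) * (∫ x, ⟪x, e⟫ * f x ∂(RG G η y))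
      - (∫ x, f x ∂(RG G η y)) * (∫ x, ⟪x, e⟫ * g x ∂(RG G η y))
      - (∫ x, ⟪x, e⟫ ∂(RG G η y)) * (∫ x, f x * g x ∂(RG G η y))
      + 2 * (∫ x, ⟪x, e⟫ ∂(RG G η y)) * (∫ x, f x ∂(RG G η y)) * (∫ x, g x ∂(RG G η y)) := by
  have := RG_isProb hG hη y
  unfold rb_kap
  set μ := RG G η y with hμ
  set mX := ∫ x, ⟪x, e⟫ ∂μ with hmX
  set mf := ∫ x, f x ∂μ with hmf
  set mg := ∫ x, g x ∂μ with hmg
  have hX : Measurable (fun x : E d => ⟪x, e⟫) := by fun_prop
  have pX : PG (fun x : E d => ⟪x, e⟫) := PG_inner e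
  have i1 : Integrable (fun x => ⟪x, e⟫ * (f x * g x)) μ :=
    rb_int hG hη y (hX.mul (hf.mul hg)) (pX.mul (pf.mul pg))
  have i2 : Integrable (fun x => mg * (⟪x, e⟫ * f x)) μ :=
    (rb_int hG hη y (hX.mul hf) (pX.mul pf)).const_mul mg
  have i3 : Integrable (fun x => mf * (⟪x, e⟫ * g x)) μ :=
    (rb_int hG hη y (hX.mul hg) (pX.mul pg)).const_mul mf
  have i4 : Integrable (fun x => mX * (f x * g x)) μ :=
    (rb_int hG hη y (hf.mul hg) (pf.mul pg)).const_mul mX
  have i5 : Integrable (fun x => mf * mg * ⟪x, e⟫) μ :=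
    (rb_int hG hη y hX pX).const_mul _
  have i6 : Integrable (fun x => mX * mg * f x) μ :=
    (rb_int hG hη y hf pf).const_mul _
  have i7 : Integrable (fun x => mX * mf * g x) μ :=
    (rb_int hG hη y hg pg).const_mul _
  have i8 : Integrable (fun _ : E d => mX * mf * mg) μ := integrable_const _
  have e0 : (fun x => (⟪x, e⟫ - mX) * (f x - mf) * (g x - mg)) =
      fun x => ⟪x, e⟫ * (f x * g x) - mg * (⟪x, e⟫ * f x) - mf * (⟪x, e⟫ * g x)
        - mX * (f x * g x) + mf * mg * ⟪x, e⟫ + mX * mg * f x + mX * mf * g x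
        - mX * mf * mg := by
    funext x
    ring
  have j1 : Integrable (fun x => ⟪x, e⟫ * (f x * g x) - mg * (⟪x, e⟫ * f x)) μ := i1.sub i2
  have j2 : Integrable (fun x => ⟪x, e⟫ * (f x * g x) - mg * (⟪x, e⟫ * f x)
      - mf * (⟪x, e⟫ * g x)) μ := j1.sub i3
  have j3 : Integrable (fun x => ⟪x, e⟫ * (f x * g x) - mg * (⟪x, e⟫ * f x)
      - mf * (⟪x, e⟫ * g x) - mX * (f x * g x)) μ := j2.sub i4
  have j4 : Integrable (fun x => ⟪x, e⟫ * (f x * g x) - mg * (⟪x, e⟫ * f x)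
      - mf * (⟪x, e⟫ * g x) - mX * (f x * g x) + mf * mg * ⟪x, e⟫) μ := j3.add i5
  have j5 : Integrable (fun x => ⟪x, e⟫ * (f x * g x) - mg * (⟪x, e⟫ * f x)
      - mf * (⟪x, e⟫ * g x) - mX * (f x * g x) + mf * mg * ⟪x, e⟫ + mX * mg * f x) μ := j4.add i6
  have j6 : Integrable (fun x => ⟪x, e⟫ * (f x * g x) - mg * (⟪x, e⟫ * f x)
      - mf * (⟪x, e⟫ * g x) - mX * (f x * g x) + mf * mg * ⟪x, e⟫ + mX * mg * f x
      + mX * mf * g x) μ := j5.add i7
  rw [e0, integral_sub j6 i8, integral_add j5 i7, integral_add j4 i6, integral_add j3 i5,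
    integral_sub j2 i4, integral_sub j1 i3,
    integral_sub i1 i2, integral_const_mul, integral_const_mul, integral_const_mul,
    integral_const_mul, integral_const_mul, integral_const_mul, integral_const]
  simp only [probReal_univ, smul_eq_mul, one_mul]
  rw [← hmX, ← hmf, ← hmg]
  ring

private theorem rb_cv_fderiv (hb : 0 ≤ b) (hG : Pert d b G) (hη : 0 < η) {f g : E d → ℝ}
    (hf : Measurable f) (pf : PG f) (hg : Measurable g) (pg : PG g) (y e : E d) :
    fderiv ℝ (rb_cv G η f g) y e = η⁻¹ * rb_kap G η y e f g := by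
  have d1 := Rop_differentiableAt hb hG hη (hf.mul hg).aestronglyMeasurable (pf.mul pg) y
  have d2 := Rop_differentiableAt hb hG hη hf.aestronglyMeasurable pf y
  have d3 := Rop_differentiableAt hb hG hη hg.aestronglyMeasurable pg y
  have f1 := Rop_fderiv hb hG hη (hf.mul hg).aestronglyMeasurable (pf.mul pg) y e
  have f2 := Rop_fderiv hb hG hη hf.aestronglyMeasurable pf y e
  have f3 := Rop_fderiv hb hG hη hg.aestronglyMeasurable pg y e
  have h1 : HasFDerivAt (rb_cv G η f g)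
      (fderiv ℝ (Rop G η (f * g)) y - (Rop G η f y • fderiv ℝ (Rop G η g) y
        + Rop G η g y • fderiv ℝ (Rop G η f) y)) y :=
    d1.hasFDerivAt.sub (d2.hasFDerivAt.mul d3.hasFDerivAt)
  rw [h1.fderiv, rb_kap_eq hG hη hf pf hg pg]
  simp only [sub_apply, add_apply, smul_apply, smul_eq_mul]
  rw [f1, f2, f3]
  simp only [Rop, smul_eq_mul, Pi.mul_apply]
  ring

private theorem rb_var_eq {μ : Measure (E d)} [IsProbabilityMeasure μ] {f : E d → ℝ}
    (h1 : Integrable f μ) (h2 : Integrable (fun x => f x ^ 2) μ) :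
    ∫ x, (f x - ∫ z, f z ∂μ) ^ 2 ∂μ = (∫ x, f x ^ 2 ∂μ) - (∫ x, f x ∂μ) ^ 2 := by
  set m := ∫ z, f z ∂μ with hm
  have e0 : (fun x => (f x - m) ^ 2) = fun x => f x ^ 2 - 2 * m * f x + m ^ 2 := by
    funext x
    ring
  have j0 : Integrable (fun x => 2 * m * f x) μ := h1.const_mul _
  have j1 : Integrable (fun x => f x ^ 2 - 2 * m * f x) μ := h2.sub j0
  rw [e0, integral_add j1 (integrable_const _),
    integral_sub h2 j0, integral_const_mul, integral_const]
  simp only [probReal_univ, smul_eq_mul, one_mul]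
  rw [← hm]
  ring

/-- variance of a component of a Lipschitz map -/
private theorem rb_var_F (hG : Pert d b G) (hη : 0 < η) (y : E d) {F : E d → E d}
    (hF : ContDiff ℝ 1 F) (pF : PG F) {c : ℝ} (hFc : ∀ x, ‖fderiv ℝ F x‖ ≤ c) (w : E d) :
    ∫ x, ⟪F x - ∫ z, F z ∂(RG G η y), w⟫ ^ 2 ∂(RG G η y) ≤ η * c ^ 2 * ‖w‖ ^ 2 := by
  have := RG_isProb hG hη y
  have hc : 0 ≤ c := (norm_nonneg _).trans (hFc 0)
  set μ := RG G η y with hμ
  have iF : Integrable F μ := RG_integrable hG hη y hF.continuous.aestronglyMeasurable pF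
  have hu : ContDiff ℝ 1 (fun x => ⟪F x, w⟫) := hF.inner ℝ contDiff_const
  have pu : PG (fun x => ⟪F x, w⟫) := by
    have h1 : PG (fun x => ‖w‖ • F x) := PG.smul (rb_PG_const ‖w‖) pF
    refine PG.mono h1 fun x => ?_
    rw [norm_smul, norm_norm, mul_comm]
    exact norm_inner_le_norm _ _
  have hgr : ∀ x, ‖gradient (fun x => ⟪F x, w⟫) x‖ ≤ c * ‖w‖ := by
    intro x
    have hd : HasFDerivAt F (fderiv ℝ F x) x := (hF.differentiable one_ne_zero x).hasFDerivAt
    have h1 := hd.inner ℝ (hasFDerivAt_const w x)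
    have h2 : ‖gradient (fun x => ⟪F x, w⟫) x‖ = ‖fderiv ℝ (fun x => ⟪F x, w⟫) x‖ := by
      unfold gradient
      rw [LinearIsometryEquiv.norm_map]
    rw [h2]
    refine ContinuousLinearMap.opNorm_le_bound _ (by positivity) fun v => ?_
    rw [h1.fderiv]
    have h3 : ((fderivInnerCLM ℝ (F x, w)).comp
        ((fderiv ℝ F x).prod (0 : E d →L[ℝ] E d))) v = ⟪fderiv ℝ F x v, w⟫ := by
      simp
    rw [h3]
    calc ‖⟪fderiv ℝ F x v, w⟫‖ ≤ ‖fderiv ℝ F x v‖ * ‖w‖ := norm_inner_le_norm _ _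
      _ ≤ (c * ‖v‖) * ‖w‖ := by
        refine mul_le_mul_of_nonneg_right ?_ (norm_nonneg _)
        exact ((fderiv ℝ F x).le_opNorm v).trans
          (mul_le_mul_of_nonneg_right (hFc x) (norm_nonneg _))
      _ = c * ‖w‖ * ‖v‖ := by ring
  have pgr : PG (gradient (fun x => ⟪F x, w⟫)) := PG.of_bdd hgr
  have hp := RG_poinc_scalar hG hη y hu pu pgr
  have h4 : ∫ x, ⟪F x, w⟫ ∂μ = ⟪∫ z, F z ∂μ, w⟫ := by
    have h5 := integral_inner (𝕜 := ℝ) iF w
    have h6 : (fun x => ⟪F x, w⟫) = fun x => ⟪w, F x⟫ := by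
      funext x
      exact real_inner_comm _ _
    rw [h6, h5]
    exact real_inner_comm _ _
  have h7 : ∫ x, ⟪F x - ∫ z, F z ∂μ, w⟫ ^ 2 ∂μ =
      (∫ x, ⟪F x, w⟫ ^ 2 ∂μ) - (∫ x, ⟪F x, w⟫ ∂μ) ^ 2 := by
    rw [← rb_var_eq (rb_int hG hη y hu.continuous.measurable pu)
      (rb_int hG hη y (hu.continuous.measurable.pow_const 2) (pu.pow 2)), h4]
    refine integral_congr_ae (Filter.Eventually.of_forall fun x => ?_)
    simp only [inner_sub_left]
  rw [h7]
  refine hp.trans ?_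
  have h8 : ∫ x, ‖gradient (fun x => ⟪F x, w⟫) x‖ ^ 2 ∂μ ≤ (c * ‖w‖) ^ 2 := by
    have h9 : ∫ x, ‖gradient (fun x => ⟪F x, w⟫) x‖ ^ 2 ∂μ ≤ ∫ _x, (c * ‖w‖) ^ 2 ∂μ := by
      refine integral_mono_of_nonneg (Filter.Eventually.of_forall fun x => sq_nonneg _)
        (integrable_const _) (Filter.Eventually.of_forall fun x => ?_)
      exact pow_le_pow_left₀ (norm_nonneg _) (hgr x) 2
    simpa using h9
  have h10 : η / (1 + η) ≤ η := by
    rw [div_le_iff₀ (by linarith)]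
    nlinarith
  have h11 : 0 ≤ η / (1 + η) := by positivity
  calc η / (1 + η) * ∫ x, ‖gradient (fun x => ⟪F x, w⟫) x‖ ^ 2 ∂μ
      ≤ η / (1 + η) * (c * ‖w‖) ^ 2 := mul_le_mul_of_nonneg_left h8 h11
    _ ≤ η * (c * ‖w‖) ^ 2 := mul_le_mul_of_nonneg_right h10 (sq_nonneg _)
    _ = η * c ^ 2 * ‖w‖ ^ 2 := by ring

private theorem rb_norm_sq (v : E d) : ‖v‖ ^ 2 = ∑ i, v i ^ 2 := by
  rw [EuclideanSpace.norm_sq_eq]
  simp

/-- matrix applied to a vector -/
private noncomputable def rb_L (a : Fin d → Fin d → ℝ) : E d →L[ℝ] E d :=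
  LinearMap.toContinuousLinearMap
    { toFun := fun w => WithLp.toLp 2 (fun e => ∑ i, a e i * w i)
      map_add' := by
        intro v w
        ext e
        simp [mul_add, Finset.sum_add_distrib]
      map_smul' := by
        intro r w
        ext e
        simp only [PiLp.smul_apply, smul_eq_mul, RingHom.id_apply, Finset.mul_sum]
        exact Finset.sum_congr rfl fun i _ => by ring }

private theorem rb_L_apply (a : Fin d → Fin d → ℝ) (w : E d) (e : Fin d) :
    rb_L a w e = ∑ i, a e i * w i := rfl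

private theorem rb_L_inner (a : Fin d → Fin d → ℝ) (v w : E d) :
    ⟪v, rb_L a w⟫ = ⟪rb_L (fun i e => a e i) v, w⟫ := by
  simp only [PiLp.inner_apply, rb_L_apply, RCLike.inner_apply, conj_trivial, Finset.sum_mul,
    Finset.mul_sum]
  rw [Finset.sum_comm]
  exact Finset.sum_congr rfl fun i _ => Finset.sum_congr rfl fun j _ => by ring

private theorem rb_int_L (hG : Pert d b G) (hη : 0 < η) (y : E d) {F : E d → E d}
    (hF : ContDiff ℝ 1 F) (pF : PG F) {c : ℝ} (hFc : ∀ x, ‖fderiv ℝ F x‖ ≤ c)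
    (a : Fin d → Fin d → ℝ) :
    ∫ x, ‖rb_L a (F x - ∫ z, F z ∂(RG G η y))‖ ^ 2 ∂(RG G η y) ≤
      η * c ^ 2 * ∑ e, ∑ i, a e i ^ 2 := by
  have := RG_isProb hG hη y
  set μ := RG G η y with hμ
  set m := ∫ z, F z ∂μ with hm
  have hmeas : Measurable (fun x => F x - m) := hF.continuous.measurable.sub_const m
  have pm : PG (fun x => F x - m) := pF.sub (rb_PG_const m)
  have h1 : ∀ x, ‖rb_L a (F x - m)‖ ^ 2 = ∑ e, ⟪F x - m, WithLp.toLp 2 (a e)⟫ ^ 2 := by
    intro x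
    rw [rb_norm_sq]
    refine Finset.sum_congr rfl fun e _ => ?_
    rw [rb_L_apply]
    simp only [PiLp.inner_apply, RCLike.inner_apply, conj_trivial]
  have pin : ∀ w : E d, PG (fun x => ⟪F x - m, w⟫) := by
    intro w
    have h1 : PG (fun x => ‖w‖ • (F x - m)) := PG.smul (rb_PG_const ‖w‖) pm
    refine PG.mono h1 fun x => ?_
    rw [norm_smul, norm_norm, mul_comm]
    exact norm_inner_le_norm _ _
  have hin : ∀ w : E d, Measurable (fun x => ⟪F x - m, w⟫) := fun w =>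
    ((hF.continuous.sub continuous_const).inner continuous_const).measurable
  simp only [h1]
  rw [integral_finsetSum _ fun e _ => rb_int hG hη y ((hin _).pow_const 2) ((pin _).pow 2)]
  rw [Finset.mul_sum]
  refine Finset.sum_le_sum fun e _ => ?_
  have h2 := rb_var_F hG hη y hF pF hFc (WithLp.toLp 2 (a e))
  rw [rb_norm_sq] at h2
  exact h2

/-- the core estimate -/
private theorem rb_kap_sum_le (hG : Pert d b G) (hη : 0 < η) (y : E d) {F : E d → E d}
    (hF : ContDiff ℝ 1 F) (pF : PG F) {c : ℝ} (hFc : ∀ x, ‖fderiv ℝ F x‖ ≤ c)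
    {f : E d → ℝ} (hf : Measurable f) (pf : PG f) :
    ∑ e, ∑ i, rb_kap G η y (EuclideanSpace.single e 1) f (fun x => F x i) ^ 2 ≤
      4 * c ^ 2 * η ^ 2 * ((∫ x, f x ^ 2 ∂(RG G η y)) - (∫ x, f x ∂(RG G η y)) ^ 2) := by
  have := RG_isProb hG hη y
  have hc : 0 ≤ c := (norm_nonneg _).trans (hFc 0)
  set a : Fin d → Fin d → ℝ := fun e i =>
    rb_kap G η y (EuclideanSpace.single e 1) f (fun x => F x i) with ha
  set μ := RG G η y with hμ
  have iF : Integrable F μ := RG_integrable hG hη y hF.continuous.aestronglyMeasurable pF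
  have iX : Integrable (fun x : E d => x) μ :=
    RG_integrable hG hη y continuous_id.aestronglyMeasurable PG_id
  set mF : E d := ∫ z, F z ∂μ with hmF
  set mX : E d := ∫ z, z ∂μ with hmX
  set mf : ℝ := ∫ z, f z ∂μ with hmf
  have hmFi : ∀ i, mF i = ∫ z, F z i ∂μ := fun i =>
    ((EuclideanSpace.proj (𝕜 := ℝ) i).integral_comp_comm iF).symm
  have hmXi : ∀ i, mX i = ∫ z, z i ∂μ := fun i =>
    ((EuclideanSpace.proj (𝕜 := ℝ) i).integral_comp_comm iX).symm
  have hin : ∀ (x : E d) (e : Fin d), ⟪x, EuclideanSpace.single e (1 : ℝ)⟫ = x e := by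
    intro x e
    simp [EuclideanSpace.inner_single_right]
  have ha' : ∀ e i, a e i = ∫ x, (x e - mX e) * (f x - mf) * (F x i - mF i) ∂μ := by
    intro e i
    simp only [ha, rb_kap, hin, ← hmXi, ← hmFi, ← hmf, ← hμ]
  set q : E d → ℝ := fun x => ⟪x - mX, rb_L a (F x - mF)⟫ with hq
  have hq' : ∀ x, q x = ∑ e, ∑ i, a e i * ((x e - mX e) * (F x i - mF i)) := by
    intro x
    simp only [hq, PiLp.inner_apply, rb_L_apply, RCLike.inner_apply, conj_trivial,
      PiLp.sub_apply, Finset.sum_mul]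
    exact Finset.sum_congr rfl fun i _ => Finset.sum_congr rfl fun j _ => by ring
  have hqs : ContDiff ℝ 1 q := by
    refine ContDiff.inner ℝ (contDiff_id.sub contDiff_const) ?_
    exact (rb_L a).contDiff.comp (hF.sub contDiff_const)
  have pX0 : PG (fun x : E d => x - mX) := PG_id.sub (rb_PG_const mX)
  have pF0 : PG (fun x => F x - mF) := pF.sub (rb_PG_const mF)
  have pq : PG q := by
    have h1 : PG (fun x : E d => ‖x - mX‖ * ‖rb_L a (F x - mF)‖) :=
      pX0.norm.mul (rb_PG_clm pF0 _).norm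
    refine PG.mono h1 fun x => ?_
    rw [norm_mul, norm_norm, norm_norm]
    exact norm_inner_le_norm _ _
  set at' : Fin d → Fin d → ℝ := fun i e => a e i with hat
  have hgr : ∀ x, ‖gradient q x‖ ≤ ‖rb_L a (F x - mF)‖ + c * ‖rb_L at' (x - mX)‖ := by
    intro x
    have hd : HasFDerivAt F (fderiv ℝ F x) x := (hF.differentiable one_ne_zero x).hasFDerivAt
    have h0 : HasFDerivAt (fun x : E d => x - mX) (ContinuousLinearMap.id ℝ (E d)) x :=
      (hasFDerivAt_id x).sub_const mX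
    have h0' : HasFDerivAt (fun x => rb_L a (F x - mF)) ((rb_L a).comp (fderiv ℝ F x)) x :=
      (rb_L a).hasFDerivAt.comp x (hd.sub_const mF)
    have h1 := h0.inner ℝ h0'
    have h2 : ‖gradient q x‖ = ‖fderiv ℝ q x‖ := by
      unfold gradient
      rw [LinearIsometryEquiv.norm_map]
    rw [h2]
    refine ContinuousLinearMap.opNorm_le_bound _ (by positivity) fun v => ?_
    have h3 : fderiv ℝ q x v = ⟪x - mX, rb_L a (fderiv ℝ F x v)⟫ + ⟪v, rb_L a (F x - mF)⟫ := by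
      have h4 : fderiv ℝ q x = _ := h1.fderiv
      rw [h4]
      simp
    rw [h3, rb_L_inner]
    calc ‖⟪rb_L (fun i e => a e i) (x - mX), fderiv ℝ F x v⟫ + ⟪v, rb_L a (F x - mF)⟫‖
        ≤ ‖⟪rb_L (fun i e => a e i) (x - mX), fderiv ℝ F x v⟫‖ + ‖⟪v, rb_L a (F x - mF)⟫‖ :=
          norm_add_le _ _
      _ ≤ ‖rb_L at' (x - mX)‖ * (c * ‖v‖) + ‖v‖ * ‖rb_L a (F x - mF)‖ := by
          refine add_le_add ?_ (norm_inner_le_norm _ _)
          refine (norm_inner_le_norm _ _).trans ?_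
          refine mul_le_mul_of_nonneg_left ?_ (norm_nonneg _)
          exact ((fderiv ℝ F x).le_opNorm v).trans
            (mul_le_mul_of_nonneg_right (hFc x) (norm_nonneg _))
      _ = (‖rb_L a (F x - mF)‖ + c * ‖rb_L at' (x - mX)‖) * ‖v‖ := by ring
  have pL1 : PG (fun x => rb_L a (F x - mF)) := rb_PG_clm pF0 _
  have pL2 : PG (fun x => rb_L at' (x - mX)) := rb_PG_clm pX0 _
  have pgr : PG (gradient q) := by
    have h1 : PG (fun x : E d => ‖rb_L a (F x - mF)‖ + c * ‖rb_L at' (x - mX)‖) :=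
      pL1.norm.add ((rb_PG_const c).mul pL2.norm)
    refine PG.mono h1 fun x => ?_
    refine (hgr x).trans ?_
    exact le_abs_self _
  have hcF : Continuous (fun x => rb_L a (F x - mF)) :=
    (rb_L a).continuous.comp (hF.continuous.sub continuous_const)
  have hcX : Continuous (fun x : E d => rb_L at' (x - mX)) :=
    (rb_L at').continuous.comp (continuous_id.sub continuous_const)
  have i1 : Integrable (fun x => ‖rb_L a (F x - mF)‖ ^ 2) μ :=
    rb_int hG hη y (hcF.norm.pow 2).measurable (pL1.norm.pow 2)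
  have i2 : Integrable (fun x => ‖rb_L at' (x - mX)‖ ^ 2) μ :=
    rb_int hG hη y (hcX.norm.pow 2).measurable (pL2.norm.pow 2)
  set S : ℝ := ∑ e, ∑ i, a e i ^ 2 with hS
  have hS0 : 0 ≤ S := Finset.sum_nonneg fun e _ => Finset.sum_nonneg fun i _ => sq_nonneg _
  have hP := rb_int_L hG hη y hF pF hFc a
  have hQ := rb_int_L hG hη y (F := fun x : E d => x) contDiff_id PG_id (c := 1) (fun x => by
    rw [show (fun x : E d => x) = id from rfl, fderiv_id]
    exact ContinuousLinearMap.norm_id_le) at'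
  have hSt : ∑ e, ∑ i, at' e i ^ 2 = S := by
    rw [hS, Finset.sum_comm]
  rw [hSt] at hQ
  have hE : ∫ x, ‖gradient q x‖ ^ 2 ∂μ ≤ 4 * c ^ 2 * η * S := by
    have h1 : ∫ x, ‖gradient q x‖ ^ 2 ∂μ ≤
        ∫ x, (2 * ‖rb_L a (F x - mF)‖ ^ 2 + 2 * c ^ 2 * ‖rb_L at' (x - mX)‖ ^ 2) ∂μ := by
      refine integral_mono_of_nonneg (Filter.Eventually.of_forall fun x => sq_nonneg _)
        ((i1.const_mul 2).add (i2.const_mul _)) (Filter.Eventually.of_forall fun x => ?_)
      have h2 := pow_le_pow_left₀ (norm_nonneg _) (hgr x) 2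
      refine h2.trans ?_
      nlinarith [sq_nonneg (‖rb_L a (F x - mF)‖ - c * ‖rb_L at' (x - mX)‖)]
    rw [integral_add (i1.const_mul 2) (i2.const_mul _), integral_const_mul,
      integral_const_mul] at h1
    refine h1.trans ?_
    have h3 : 2 * ∫ x, ‖rb_L a (F x - mF)‖ ^ 2 ∂μ ≤ 2 * (η * c ^ 2 * S) :=
      mul_le_mul_of_nonneg_left hP (by norm_num)
    have h4 : 2 * c ^ 2 * ∫ x, ‖rb_L at' (x - mX)‖ ^ 2 ∂μ ≤ 2 * c ^ 2 * (η * 1 ^ 2 * S) :=
      mul_le_mul_of_nonneg_left hQ (by positivity)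
    linarith
  have hmq : Measurable q := hqs.continuous.measurable
  have hVar : (∫ x, q x ^ 2 ∂μ) - (∫ x, q x ∂μ) ^ 2 ≤ 4 * c ^ 2 * η ^ 2 * S := by
    refine (RG_poinc_scalar hG hη y hqs pq pgr).trans ?_
    have h10 : η / (1 + η) ≤ η := by
      rw [div_le_iff₀ (by linarith)]
      nlinarith
    have h11 : 0 ≤ η / (1 + η) := by positivity
    calc η / (1 + η) * ∫ x, ‖gradient q x‖ ^ 2 ∂μ
        ≤ η / (1 + η) * (4 * c ^ 2 * η * S) := mul_le_mul_of_nonneg_left hE h11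
      _ ≤ η * (4 * c ^ 2 * η * S) := mul_le_mul_of_nonneg_right h10 (by positivity)
      _ = 4 * c ^ 2 * η ^ 2 * S := by ring
  have hSq : S = (∫ x, f x * q x ∂μ) - (∫ x, f x ∂μ) * ∫ x, q x ∂μ := by
    have hXe : ∀ e : Fin d, PG (fun x : E d => x e - mX e) := fun e =>
      (PG_id.apply e).sub (rb_PG_const _)
    have hFi : ∀ i : Fin d, PG (fun x : E d => F x i - mF i) := fun i =>
      (pF.apply i).sub (rb_PG_const _)
    have hf0 : PG (fun x : E d => f x - mf) := pf.sub (rb_PG_const _)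
    have mXe : ∀ e : Fin d, Measurable (fun x : E d => x e - mX e) := fun e => by fun_prop
    have mFi : ∀ i : Fin d, Measurable (fun x : E d => F x i - mF i) := fun i =>
      (((EuclideanSpace.proj (𝕜 := ℝ) i).continuous.comp hF.continuous).measurable).sub_const _
    have mf0 : Measurable (fun x : E d => f x - mf) := hf.sub_const _
    have h1 : ∀ e i, a e i ^ 2 =
        ∫ x, a e i * ((x e - mX e) * (f x - mf) * (F x i - mF i)) ∂μ := by
      intro e i
      rw [integral_const_mul, ← ha' e i, sq]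
    have h2 : S = ∫ x, (f x - mf) * q x ∂μ := by
      rw [hS]
      simp only [h1]
      have h3 : ∀ e i, Integrable (fun x : E d =>
          a e i * ((x e - mX e) * (f x - mf) * (F x i - mF i))) μ := by
        intro e i
        refine Integrable.const_mul ?_ _
        exact rb_int hG hη y (((mXe e).mul mf0).mul (mFi i)) (((hXe e).mul hf0).mul (hFi i))
      simp only [← integral_finsetSum _ (fun i _ => h3 _ i)]
      rw [← integral_finsetSum _ (fun e _ => integrable_finsetSum _ (fun i _ => h3 e i))]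
      refine integral_congr_ae (Filter.Eventually.of_forall fun x => ?_)
      simp only [hq', Finset.mul_sum]
      exact Finset.sum_congr rfl fun i _ => Finset.sum_congr rfl fun j _ => by ring
    rw [h2]
    have i3 : Integrable (fun x => f x * q x) μ := rb_int hG hη y (hf.mul hmq) (pf.mul pq)
    have i4 : Integrable (fun x => mf * q x) μ := (rb_int hG hη y hmq pq).const_mul _
    have e0 : (fun x => (f x - mf) * q x) = fun x => f x * q x - mf * q x := by
      funext x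
      ring
    rw [e0, integral_sub i3 i4, integral_const_mul]
  have hcov := RG_cov_sq_le hG hη y hf hmq pf pq
  have hVf : 0 ≤ (∫ x, f x ^ 2 ∂μ) - (∫ x, f x ∂μ) ^ 2 := by
    rw [← rb_var_eq (rb_int hG hη y hf pf) (rb_int hG hη y (hf.pow_const 2) (pf.pow 2))]
    exact integral_nonneg fun x => sq_nonneg _
  rw [← hμ, ← hSq] at hcov
  have hfin : S ^ 2 ≤ ((∫ x, f x ^ 2 ∂μ) - (∫ x, f x ∂μ) ^ 2) * (4 * c ^ 2 * η ^ 2 * S) :=
    hcov.trans (mul_le_mul_of_nonneg_left hVar hVf)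
  rcases eq_or_lt_of_le hS0 with h0 | h0
  · rw [← h0]
    positivity
  · have h1 : S * S ≤ (4 * c ^ 2 * η ^ 2 * ((∫ x, f x ^ 2 ∂μ) - (∫ x, f x ∂μ) ^ 2)) * S := by
      calc S * S = S ^ 2 := by ring
        _ ≤ _ := hfin
        _ = _ := by ring
    exact le_of_mul_le_mul_right h1 h0

private theorem rb_norm_sq' {κ : Type} [Fintype κ] (v : EuclideanSpace ℝ κ) :
    ‖v‖ ^ 2 = ∑ i, v i ^ 2 := by
  rw [EuclideanSpace.norm_sq_eq]
  simp

private theorem rb_fderiv_apply {κ : Type} [Fintype κ] {u : E d → EuclideanSpace ℝ κ} {x : E d}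
    (hu : DifferentiableAt ℝ u x) (v : E d) (p : κ) :
    fderiv ℝ u x v p = fderiv ℝ (fun y => u y p) x v := by
  have h1 : HasFDerivAt (fun y => u y p)
      ((EuclideanSpace.proj (𝕜 := ℝ) p).comp (fderiv ℝ u x)) x :=
    (EuclideanSpace.proj (𝕜 := ℝ) p).hasFDerivAt.comp x hu.hasFDerivAt
  rw [h1.fderiv]
  rfl

private theorem rb_sum_var (hG : Pert d b G) (hη : 0 < η) (y : E d)
    {u : E d → EuclideanSpace ℝ ι} (hu : Measurable u) (pu : PG u) :
    ∑ k, ((∫ x, u x k ^ 2 ∂(RG G η y)) - (∫ x, u x k ∂(RG G η y)) ^ 2) =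
      (∫ x, ‖u x‖ ^ 2 ∂(RG G η y)) - ‖∫ x, u x ∂(RG G η y)‖ ^ 2 := by
  have := RG_isProb hG hη y
  have iu : Integrable u (RG G η y) := RG_integrable hG hη y hu.aestronglyMeasurable pu
  have hk : ∀ k, Measurable (fun x => u x k) := fun k =>
    (EuclideanSpace.proj (𝕜 := ℝ) k).continuous.measurable.comp hu
  simp only [rb_norm_sq']
  rw [Finset.sum_sub_distrib, integral_finsetSum _ fun k _ =>
    rb_int hG hη y ((hk k).pow_const 2) ((pu.apply k).pow 2)]
  congr 1
  refine Finset.sum_congr rfl fun k _ => ?_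
  rw [show (∫ x, u x ∂(RG G η y)) k = ∫ x, u x k ∂(RG G η y) from
    ((EuclideanSpace.proj (𝕜 := ℝ) k).integral_comp_comm iu).symm]

/-- assembling the core estimate over the components -/
private theorem rb_assemble (hG : Pert d b G) (hη : 0 < η) (y : E d) {F : E d → E d}
    (hF : ContDiff ℝ 1 F) (pF : PG F) {c : ℝ} (hFc : ∀ x, ‖fderiv ℝ F x‖ ≤ c)
    {u : E d → EuclideanSpace ℝ ι} (hu : Measurable u) (pu : PG u)
    (D : EuclideanSpace ℝ (Fin d × (Fin d × ι))) (r : ℝ)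
    (hD : ∀ e i k, D (e, (i, k)) =
      r * rb_kap G η y (EuclideanSpace.single e 1) (fun x => u x k) (fun x => F x i)) :
    ‖D‖ ^ 2 ≤ r ^ 2 * (4 * c ^ 2 * η ^ 2) *
      ((∫ x, ‖u x‖ ^ 2 ∂(RG G η y)) - ‖∫ x, u x ∂(RG G η y)‖ ^ 2) := by
  have hk : ∀ k, Measurable (fun x => u x k) := fun k =>
    (EuclideanSpace.proj (𝕜 := ℝ) k).continuous.measurable.comp hu
  have h1 : ‖D‖ ^ 2 = r ^ 2 * ∑ k, ∑ e, ∑ i,
      rb_kap G η y (EuclideanSpace.single e 1) (fun x => u x k) (fun x => F x i) ^ 2 := by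
    rw [rb_norm_sq', Fintype.sum_prod_type]
    simp only [Fintype.sum_prod_type, hD, mul_pow, Finset.mul_sum]
    have h2 : ∀ T : Fin d → Fin d → ι → ℝ,
        ∑ e, ∑ i, ∑ k, T e i k = ∑ k, ∑ e, ∑ i, T e i k := by
      intro T
      rw [Finset.sum_comm]
      calc ∑ i, ∑ e, ∑ k, T e i k = ∑ i, ∑ k, ∑ e, T e i k :=
            Finset.sum_congr rfl fun i _ => Finset.sum_comm
        _ = ∑ k, ∑ i, ∑ e, T e i k := Finset.sum_comm
        _ = ∑ k, ∑ e, ∑ i, T e i k := Finset.sum_congr rfl fun k _ => Finset.sum_comm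
    exact h2 _
  have h3 : ∑ k, ∑ e, ∑ i,
      rb_kap G η y (EuclideanSpace.single e 1) (fun x => u x k) (fun x => F x i) ^ 2 ≤
      (4 * c ^ 2 * η ^ 2) * ∑ k, ((∫ x, u x k ^ 2 ∂(RG G η y)) - (∫ x, u x k ∂(RG G η y)) ^ 2) := by
    rw [Finset.mul_sum]
    refine Finset.sum_le_sum fun k _ => ?_
    exact rb_kap_sum_le hG hη y hF pF hFc (hk k) (pu.apply k)
  rw [h1, ← rb_sum_var hG hη y hu pu, mul_assoc (r ^ 2)]
  exact mul_le_mul_of_nonneg_left h3 (sq_nonneg r)

private theorem rb_Phi_contDiff (hb : 0 ≤ b) (hG : Pert d b G) (hη : 0 < η)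
    {u : E d → EuclideanSpace ℝ ι} (hu : Measurable u) (pu : PG u) (n : ℕ) :
    ContDiff ℝ n (Phi G η u) := by
  have hk : ∀ k, Measurable (fun x => u x k) := fun k =>
    (EuclideanSpace.proj (𝕜 := ℝ) k).continuous.measurable.comp hu
  have hgk : ∀ i, Measurable (fun x => gradient G x i) := fun i =>
    ((EuclideanSpace.proj (𝕜 := ℝ) i).continuous.comp hG.grad_contDiff.continuous).measurable
  rw [contDiff_euclidean]
  rintro ⟨i, k⟩
  exact (rb_cv_contDiff hb hG hη (hk k) (pu.apply k) (hgk i) ((Pert.PG_grad hb hG).apply i) n).neg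

private theorem rb_Dv_Phi (hb : 0 ≤ b) (hG : Pert d b G) (hη : 0 < η)
    {u : E d → EuclideanSpace ℝ ι} (hu : Measurable u) (pu : PG u) (y : E d)
    (e i : Fin d) (k : ι) :
    Dv (Phi G η u) y (e, (i, k)) = (-η⁻¹) *
      rb_kap G η y (EuclideanSpace.single e 1) (fun x => u x k) (fun x => gradient G x i) := by
  have hk : ∀ k, Measurable (fun x => u x k) := fun k =>
    (EuclideanSpace.proj (𝕜 := ℝ) k).continuous.measurable.comp hu
  have hgk : ∀ i, Measurable (fun x => gradient G x i) := fun i =>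
    ((EuclideanSpace.proj (𝕜 := ℝ) i).continuous.comp hG.grad_contDiff.continuous).measurable
  have hd : DifferentiableAt ℝ (Phi G η u) y :=
    (rb_Phi_contDiff hb hG hη hu pu 1).differentiable (by norm_num) y
  rw [Dv_apply, rb_fderiv_apply hd]
  have h1 : (fun z => Phi G η u z (i, k)) =
      fun z => -(rb_cv G η (fun x => u x k) (fun x => gradient G x i) z) := rfl
  rw [h1, fderiv_fun_neg, neg_apply, rb_cv_fderiv hb hG hη (hk k) (pu.apply k) (hgk i)
    ((Pert.PG_grad hb hG).apply i)]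
  ring

private theorem rb_norm_Dv_Phi_le (hb : 0 ≤ b) (hG : Pert d b G) (hη : 0 < η)
    {u : E d → EuclideanSpace ℝ ι} (hu : ContDiff ℝ 1 u) (pu : PG u) {B : ℝ}
    (hB : ∀ x, ‖Dv u x‖ ≤ B) (y : E d) :
    ‖Dv (Phi G η u) y‖ ≤ 2 * b * √η * B := by
  have := RG_isProb hG hη y
  have hB0 : 0 ≤ B := (norm_nonneg _).trans (hB 0)
  have hum : Measurable u := hu.continuous.measurable
  have h1 := rb_assemble hG hη y hG.grad_contDiff (Pert.PG_grad hb hG)
    (Pert.norm_fderiv_le hb hG) hum pu (Dv (Phi G η u) y) (-η⁻¹)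
    (fun e i k => rb_Dv_Phi hb hG hη hum pu y e i k)
  have h2 := RG_poinc hG hη y hu pu (PG.of_bdd hB)
  have h3 : ∫ x, ‖Dv u x‖ ^ 2 ∂(RG G η y) ≤ B ^ 2 := by
    have h9 : ∫ x, ‖Dv u x‖ ^ 2 ∂(RG G η y) ≤ ∫ _x, B ^ 2 ∂(RG G η y) := by
      refine integral_mono_of_nonneg (Filter.Eventually.of_forall fun x => sq_nonneg _)
        (integrable_const _) (Filter.Eventually.of_forall fun x => ?_)
      exact pow_le_pow_left₀ (norm_nonneg _) (hB x) 2
    simpa using h9
  have h10 : η / (1 + η) ≤ η := by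
    rw [div_le_iff₀ (by linarith)]
    nlinarith
  have h11 : 0 ≤ η / (1 + η) := by positivity
  have h4 : (∫ x, ‖u x‖ ^ 2 ∂(RG G η y)) - ‖∫ x, u x ∂(RG G η y)‖ ^ 2 ≤ η * B ^ 2 :=
    h2.trans ((mul_le_mul_of_nonneg_left h3 h11).trans
      (mul_le_mul_of_nonneg_right h10 (sq_nonneg _)))
  have h5 : ‖Dv (Phi G η u) y‖ ^ 2 ≤ (2 * b * √η * B) ^ 2 := by
    refine h1.trans ((mul_le_mul_of_nonneg_left h4 (by positivity)).trans (le_of_eq ?_))
    rw [mul_pow, mul_pow, Real.sq_sqrt hη.le]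
    field_simp
    ring
  exact le_of_sq_le_sq h5 (by positivity)

theorem Phi_CB (hb : 0 ≤ b) (hG : Pert d b G) (hη : 0 < η)
    {u : E d → EuclideanSpace ℝ ι} (hu : CB 1 u) : CB 1 (Phi G η u) := by
  obtain ⟨C, hC⟩ := hu.bdd
  obtain ⟨B, hB⟩ := hu.dv.bdd
  have hc : ContDiff ℝ 1 u := by exact_mod_cast hu.contDiff
  have pu : PG u := PG.of_bdd hC
  have h1 := rb_Phi_contDiff hb hG hη hc.continuous.measurable pu 1
  refine ⟨by exact_mod_cast h1, ⟨η * b * B, fun y => norm_Phi_le hb hG hη hc pu hB y⟩, ?_,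
    ⟨2 * b * √η * B, fun y => rb_norm_Dv_Phi_le hb hG hη hc pu hB y⟩⟩
  exact (contDiff_Dv (k := 0) (by simpa using h1)).continuous

theorem norm_Dv_Phi_le (hb : 0 ≤ b) (hG : Pert d b G) (hη : 0 < η)
    {u : E d → EuclideanSpace ℝ ι} (hu : CB 1 u) {B : ℝ} (hB : ∀ x, ‖Dv u x‖ ≤ B) (y : E d) :
    ‖Dv (Phi G η u) y‖ ≤ 2 * b * √η * B := by
  obtain ⟨C, hC⟩ := hu.bdd
  have hc : ContDiff ℝ 1 u := by exact_mod_cast hu.contDiff
  exact rb_norm_Dv_Phi_le hb hG hη hc (PG.of_bdd hC) hB y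

private theorem rb_Dv_Rop (hb : 0 ≤ b) (hG : Pert d b G) (hη : 0 < η)
    {u : E d → EuclideanSpace ℝ ι} (hu : Measurable u) (pu : PG u) (y : E d)
    (i : Fin d) (k : ι) :
    Dv (Rop G η u) y (i, k) = η⁻¹ * rb_cv G η (fun x => u x k) (fun x => x i) y := by
  have hin : ∀ (x : E d) (e : Fin d), ⟪x, EuclideanSpace.single e (1 : ℝ)⟫ = x e := by
    intro x e
    simp [EuclideanSpace.inner_single_right]
  have hxi : Measurable (fun x : E d => x i) :=
    (EuclideanSpace.proj (𝕜 := ℝ) i).continuous.measurable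
  have pxi : PG (fun x : E d => x i) := PG_id.apply i
  rw [Dv_apply, Rop_fderiv hb hG hη hu.aestronglyMeasurable pu]
  simp only [hin, PiLp.smul_apply, PiLp.sub_apply, smul_eq_mul, rb_cv, Rop]
  have i1 : Integrable (fun x => x i • u x) (RG G η y) :=
    RG_integrable hG hη y (hxi.smul hu).aestronglyMeasurable (pxi.smul pu)
  have i2 : Integrable u (RG G η y) := RG_integrable hG hη y hu.aestronglyMeasurable pu
  rw [show (∫ x, x i • u x ∂(RG G η y)) k = ∫ x, (x i • u x) k ∂(RG G η y) from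
    ((EuclideanSpace.proj (𝕜 := ℝ) k).integral_comp_comm i1).symm,
    show (∫ x, u x ∂(RG G η y)) k = ∫ x, u x k ∂(RG G η y) from
    ((EuclideanSpace.proj (𝕜 := ℝ) k).integral_comp_comm i2).symm]
  simp only [PiLp.smul_apply, smul_eq_mul]
  have e1 : (fun x : E d => x i * u x k) = fun x => u x k * x i := by
    funext x
    ring
  rw [e1]
  ring

private theorem rb_DDv_Rop (hb : 0 ≤ b) (hG : Pert d b G) (hη : 0 < η)
    {u : E d → EuclideanSpace ℝ ι} (hu : Measurable u) (pu : PG u) (y : E d)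
    (e i : Fin d) (k : ι) :
    Dv (Dv (Rop G η u)) y (e, (i, k)) = (η⁻¹ * η⁻¹) *
      rb_kap G η y (EuclideanSpace.single e 1) (fun x => u x k) (fun x => x i) := by
  have hk : ∀ k, Measurable (fun x => u x k) := fun k =>
    (EuclideanSpace.proj (𝕜 := ℝ) k).continuous.measurable.comp hu
  have hxi : Measurable (fun x : E d => x i) :=
    (EuclideanSpace.proj (𝕜 := ℝ) i).continuous.measurable
  have pxi : PG (fun x : E d => x i) := PG_id.apply i
  have hR2 : ContDiff ℝ (2 : ℕ) (Rop G η u) := Rop_contDiff hb hG hη hu.aestronglyMeasurable pu 2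
  have hD1 : ContDiff ℝ (1 : ℕ) (Dv (Rop G η u)) := contDiff_Dv (k := 1) hR2
  have hd : DifferentiableAt ℝ (Dv (Rop G η u)) y := hD1.differentiable (by norm_num) y
  rw [Dv_apply, rb_fderiv_apply hd]
  have h1 : (fun z => Dv (Rop G η u) z (i, k)) =
      fun z => η⁻¹ * rb_cv G η (fun x => u x k) (fun x => x i) z := by
    funext z
    exact rb_Dv_Rop hb hG hη hu pu z i k
  have hcd : DifferentiableAt ℝ (rb_cv G η (fun x => u x k) (fun x => x i)) y :=
    (rb_cv_contDiff hb hG hη (hk k) (pu.apply k) hxi pxi 1).differentiable (by norm_num) y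
  rw [h1, fderiv_const_mul hcd, smul_apply, smul_eq_mul,
    rb_cv_fderiv hb hG hη (hk k) (pu.apply k) hxi pxi]
  ring

private theorem rb_int_sq_le (hG : Pert d b G) (hη : 0 < η) (y : E d)
    {u : E d → EuclideanSpace ℝ ι} {B : ℝ} (hB : ∀ x, ‖u x‖ ≤ B) :
    ∫ x, ‖u x‖ ^ 2 ∂(RG G η y) ≤ B ^ 2 := by
  have := RG_isProb hG hη y
  have h9 : ∫ x, ‖u x‖ ^ 2 ∂(RG G η y) ≤ ∫ _x, B ^ 2 ∂(RG G η y) := by
    refine integral_mono_of_nonneg (Filter.Eventually.of_forall fun x => sq_nonneg _)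
      (integrable_const _) (Filter.Eventually.of_forall fun x => ?_)
    exact pow_le_pow_left₀ (norm_nonneg _) (hB x) 2
  simpa using h9

private theorem rb_norm_DDv_Rop_le (hb : 0 ≤ b) (hG : Pert d b G) (hη : 0 < η)
    {u : E d → EuclideanSpace ℝ ι} (hu : Measurable u) {B : ℝ} (hB : ∀ x, ‖u x‖ ≤ B) (y : E d) :
    ‖Dv (Dv (Rop G η u)) y‖ ≤ 2 / η * B := by
  have hB0 : 0 ≤ B := (norm_nonneg _).trans (hB 0)
  have pu : PG u := PG.of_bdd hB
  have h1 := rb_assemble hG hη y (F := fun x : E d => x) contDiff_id PG_id (c := 1) (fun x => by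
    rw [show (fun x : E d => x) = id from rfl, fderiv_id]
    exact ContinuousLinearMap.norm_id_le) hu pu (Dv (Dv (Rop G η u)) y) (η⁻¹ * η⁻¹)
    (fun e i k => rb_DDv_Rop hb hG hη hu pu y e i k)
  have h4 : (∫ x, ‖u x‖ ^ 2 ∂(RG G η y)) - ‖∫ x, u x ∂(RG G η y)‖ ^ 2 ≤ B ^ 2 := by
    have h5 := rb_int_sq_le hG hη y hB
    have h6 := sq_nonneg ‖∫ x, u x ∂(RG G η y)‖
    linarith
  have h5 : ‖Dv (Dv (Rop G η u)) y‖ ^ 2 ≤ (2 / η * B) ^ 2 := by
    refine h1.trans ((mul_le_mul_of_nonneg_left h4 (by positivity)).trans (le_of_eq ?_))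
    field_simp
    ring
  exact le_of_sq_le_sq h5 (by positivity)

theorem Rop_CB (hb : 0 ≤ b) (hG : Pert d b G) (hη : 0 < η)
    {u : E d → EuclideanSpace ℝ ι} (hu : Measurable u) {B : ℝ} (hB : ∀ x, ‖u x‖ ≤ B) :
    CB 2 (Rop G η u) := by
  have hB0 : 0 ≤ B := (norm_nonneg _).trans (hB 0)
  have pu : PG u := PG.of_bdd hB
  have hR2 : ContDiff ℝ (2 : ℕ) (Rop G η u) := Rop_contDiff hb hG hη hu.aestronglyMeasurable pu 2
  have hR1 : ContDiff ℝ (1 : ℕ) (Rop G η u) := Rop_contDiff hb hG hη hu.aestronglyMeasurable pu 1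
  have hD1 : ContDiff ℝ (1 : ℕ) (Dv (Rop G η u)) := contDiff_Dv (k := 1) hR2
  have hD0 : ContDiff ℝ (0 : ℕ) (Dv (Dv (Rop G η u))) := contDiff_Dv (k := 0) (by simpa using hD1)
  refine ⟨by exact_mod_cast hR1, ⟨B, fun y => ?_⟩, by exact_mod_cast hD1,
    ⟨√(η⁻¹ * B ^ 2), fun y => ?_⟩, hD0.continuous,
    ⟨2 / η * B, fun y => rb_norm_DDv_Rop_le hb hG hη hu hB y⟩⟩
  · have := RG_isProb hG hη y
    have h1 := norm_integral_le_of_norm_le_const (μ := RG G η y) (f := u) (C := B)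
      (Filter.Eventually.of_forall hB)
    simpa [Rop] using h1
  · have h1 := norm_Dv_Rop_sq_le hb hG hη hu pu y
    have h5 := rb_int_sq_le hG hη y hB
    have h6 := sq_nonneg ‖Rop G η u y‖
    refine Real.le_sqrt_of_sq_le (h1.trans ?_)
    exact mul_le_mul_of_nonneg_left (by linarith) (by positivity)

theorem norm_DDv_Rop_le (hb : 0 ≤ b) (hG : Pert d b G) (hη : 0 < η)
    {u : E d → EuclideanSpace ℝ ι} (hu : Measurable u) {B : ℝ} (hB : ∀ x, ‖u x‖ ≤ B) (y : E d) :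
    ‖Dv (Dv (Rop G η u)) y‖ ≤ 2 / η * B :=
  rb_norm_DDv_Rop_le hb hG hη hu hB y

end Vale.Agent.P347
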