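import Vale.Agent.Lib.P347.Conv
import Vale.Agent.Lib.P347.Poinc

/-!
P347: the basic facts on the laws `RG G η y` and `nuG G`: probability, integrability of functions
of polynomial growth, Poincare inequality, integration by parts.

Proofs: everything is an instance of the theorems of SCm and Poinc for the potentials
`|x|^2/2 + G x + |x - y|^2/(2 η)` (strong convexity constant `1 + 1/η`, inverse `η/(1+η)`) and
`|x|^2/2 + G x` (constant `1`); the gradients are `x + gradient G x + (x - y)/η` and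
`x + gradient G x`.
-/

open MeasureTheory ProbabilityTheory
open scoped RealInnerProductSpace

namespace Vale.Agent.P347

variable {d : ℕ} {b : ℝ} {G : E d → ℝ} {η : ℝ} {ι : Type} [Fintype ι]

theorem inv_one_add_inv (hη : 0 < η) : (1 + 1 / η)⁻¹ = η / (1 + η) := by
  field_simp
  ring

theorem RG_isProb (hG : Pert d b G) (hη : 0 < η) (y : E d) :
    IsProbabilityMeasure (RG G η y) :=
  (hG.sc_RG hη y).isProb

theorem RG_integrable {F : Type} [NormedAddCommGroup F] [NormedSpace ℝ F]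
    (hG : Pert d b G) (hη : 0 < η) (y : E d) {u : E d → F}
    (hu : AEStronglyMeasurable u volume) (hp : PG u) : Integrable u (RG G η y) :=
  (hG.sc_RG hη y).integrable hu hp

theorem RG_poinc (hG : Pert d b G) (hη : 0 < η) (y : E d) {u : E d → EuclideanSpace ℝ ι}
    (hu : ContDiff ℝ 1 u) (hp : PG u) (hp' : PG (Dv u)) :
    (∫ x, ‖u x‖ ^ 2 ∂(RG G η y)) - ‖∫ x, u x ∂(RG G η y)‖ ^ 2 ≤
      η / (1 + η) * ∫ x, ‖Dv u x‖ ^ 2 ∂(RG G η y) := by
  rw [← inv_one_add_inv hη]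
  exact poinc (by positivity) (hG.sc_RG hη y) hu hp hp'

theorem RG_poinc_scalar (hG : Pert d b G) (hη : 0 < η) (y : E d) {u : E d → ℝ}
    (hu : ContDiff ℝ 1 u) (hp : PG u) (hp' : PG (gradient u)) :
    (∫ x, u x ^ 2 ∂(RG G η y)) - (∫ x, u x ∂(RG G η y)) ^ 2 ≤
      η / (1 + η) * ∫ x, ‖gradient u x‖ ^ 2 ∂(RG G η y) := by
  rw [← inv_one_add_inv hη]
  exact poinc_scalar (by positivity) (hG.sc_RG hη y) hu hp hp'

theorem Pert.contDiff_one (hG : Pert d b G) : ContDiff ℝ 1 G := hG.smooth.of_le (by norm_num)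

theorem contDiff_quad (y : E d) (η : ℝ) :
    ContDiff ℝ 1 (fun x : E d => ‖x - y‖ ^ 2 / (2 * η)) := by
  have h : ContDiff ℝ 1 (fun x : E d => ‖x - y‖ ^ 2) :=
    (contDiff_id.sub contDiff_const).norm_sq ℝ
  exact h.div_const _

theorem contDiff_half : ContDiff ℝ 1 (fun x : E d => ‖x‖ ^ 2 / 2) := by
  have h : ContDiff ℝ 1 (fun x : E d => ‖x‖ ^ 2) := contDiff_id.norm_sq ℝ
  exact h.div_const _

theorem hasGradient_half (x : E d) : HasGradientAt (fun x : E d => ‖x‖ ^ 2 / 2) x x := by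
  have h := (hasStrictFDerivAt_norm_sq x).hasFDerivAt.mul_const (1 / 2 : ℝ)
  rw [hasGradientAt_iff_hasFDerivAt]
  have e1 : (fun x : E d => ‖x‖ ^ 2 / 2) = fun x : E d => ‖x‖ ^ 2 * (1 / 2 : ℝ) := by
    funext x; ring
  rw [e1]
  refine h.congr_fderiv ?_
  ext v
  simp

theorem hasGradient_quad (y x : E d) (hη : 0 < η) :
    HasGradientAt (fun x : E d => ‖x - y‖ ^ 2 / (2 * η)) (η⁻¹ • (x - y)) x := by
  have h0 := (hasStrictFDerivAt_norm_sq (x - y)).hasFDerivAt
  have h1 : HasFDerivAt (fun x : E d => x - y) (ContinuousLinearMap.id ℝ (E d)) x :=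
    (hasFDerivAt_id x).sub_const y
  have h := (h0.comp x h1).mul_const (1 / (2 * η) : ℝ)
  rw [hasGradientAt_iff_hasFDerivAt]
  have e1 : (fun x : E d => ‖x - y‖ ^ 2 / (2 * η)) =
      fun t : E d => ((fun x : E d => ‖x‖ ^ 2) ∘ (fun x : E d => x - y)) t * (1 / (2 * η) : ℝ) := by
    funext x; simp only [Function.comp]; ring
  rw [e1]
  refine h.congr_fderiv ?_
  ext v
  simp [inner_smul_left]
  field_simp

theorem hasGradient_G (hG : Pert d b G) (x : E d) : HasGradientAt G (gradient G x) x :=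
  ((hG.contDiff_one.differentiable (by norm_num)) x).hasGradientAt

theorem gradient_nu (hG : Pert d b G) (x : E d) :
    gradient (fun x => ‖x‖ ^ 2 / 2 + G x) x = x + gradient G x :=
  HasGradientAt.gradient (by
    rw [hasGradientAt_iff_hasFDerivAt, map_add]
    exact (hasGradient_half x).hasFDerivAt.add (hasGradient_G hG x).hasFDerivAt)

theorem gradient_RG (hG : Pert d b G) (hη : 0 < η) (y x : E d) :
    gradient (fun x => ‖x‖ ^ 2 / 2 + G x + ‖x - y‖ ^ 2 / (2 * η)) x =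
      x + gradient G x + η⁻¹ • (x - y) :=
  HasGradientAt.gradient (by
    rw [hasGradientAt_iff_hasFDerivAt, map_add, map_add]
    exact ((hasGradient_half x).hasFDerivAt.add (hasGradient_G hG x).hasFDerivAt).add
      (hasGradient_quad y x hη).hasFDerivAt)

theorem PG_gradient_nu (hb : 0 ≤ b) (hG : Pert d b G) :
    PG (gradient (fun x => ‖x‖ ^ 2 / 2 + G x)) := by
  have e : gradient (fun x => ‖x‖ ^ 2 / 2 + G x) = fun x => x + gradient G x := by
    funext x; exact gradient_nu hG x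
  rw [e]
  exact PG_id.add (hG.PG_grad hb)

theorem PG_gradient_RG (hb : 0 ≤ b) (hG : Pert d b G) (hη : 0 < η) (y : E d) :
    PG (gradient (fun x => ‖x‖ ^ 2 / 2 + G x + ‖x - y‖ ^ 2 / (2 * η))) := by
  have e : gradient (fun x => ‖x‖ ^ 2 / 2 + G x + ‖x - y‖ ^ 2 / (2 * η)) =
      fun x => x + gradient G x + η⁻¹ • (x - y) := by
    funext x; exact gradient_RG hG hη y x
  rw [e]
  have c1 : PG (fun _ : E d => y) := PG.of_bdd (C := ‖y‖) (fun _ => le_rfl)
  have c2 : PG (fun _ : E d => η⁻¹) := PG.of_bdd (C := ‖η⁻¹‖) (fun _ => le_rfl)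
  exact (PG_id.add (hG.PG_grad hb)).add (PG.smul c2 (PG_id.sub c1))

theorem RG_ibp {F : Type} [NormedAddCommGroup F] [NormedSpace ℝ F] [CompleteSpace F]
    (hb : 0 ≤ b) (hG : Pert d b G) (hη : 0 < η) (y : E d) {u : E d → F}
    (hu : ContDiff ℝ 1 u) (hp : PG u) (hp' : PG (fun x => fderiv ℝ u x)) (e : E d) :
    ∫ x, fderiv ℝ u x e ∂(RG G η y) =
      ∫ x, (⟪x, e⟫ + ⟪gradient G x, e⟫ + ⟪x - y, e⟫ / η) • u x ∂(RG G η y) := by
  have hU : ContDiff ℝ 1 (fun x => ‖x‖ ^ 2 / 2 + G x + ‖x - y‖ ^ 2 / (2 * η)) :=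
    (contDiff_half.add hG.contDiff_one).add (contDiff_quad y η)
  have h := SC.ibp (hG.sc_RG hη y) hU (PG_gradient_RG hb hG hη y) hu hp hp' e
  have e2 : ∀ x : E d, ⟪gradient (fun x => ‖x‖ ^ 2 / 2 + G x + ‖x - y‖ ^ 2 / (2 * η)) x, e⟫ =
      ⟪x, e⟫ + ⟪gradient G x, e⟫ + ⟪x - y, e⟫ / η := by
    intro x
    rw [gradient_RG hG hη y x, inner_add_left, inner_add_left, inner_smul_left]
    simp
    ring
  simp only [e2] at h
  exact h

theorem RG_mean (hb : 0 ≤ b) (hG : Pert d b G) (hη : 0 < η) (y e : E d) :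
    ∫ x, (⟪x, e⟫ + ⟪gradient G x, e⟫ + ⟪x - y, e⟫ / η) ∂(RG G η y) = 0 := by
  have c1 : PG (fun _ : E d => (1 : ℝ)) := PG.of_bdd (C := 1) (fun _ => by simp)
  have c2 : PG (fun x : E d => fderiv ℝ (fun _ : E d => (1 : ℝ)) x) :=
    PG.of_bdd (C := 0) (fun _ => by simp)
  have h := RG_ibp hb hG hη y (u := fun _ : E d => (1 : ℝ)) contDiff_const c1 c2 e
  simp only [smul_eq_mul, mul_one] at h
  rw [← h]
  simp

/-- variance of a linear form -/
theorem RG_var_inner (hG : Pert d b G) (hη : 0 < η) (y e : E d) :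
    (∫ x, ⟪x, e⟫ ^ 2 ∂(RG G η y)) - (∫ x, ⟪x, e⟫ ∂(RG G η y)) ^ 2 ≤
      η / (1 + η) * ‖e‖ ^ 2 := by
  have hu : ContDiff ℝ 1 (fun x : E d => ⟪x, e⟫) := contDiff_id.inner ℝ contDiff_const
  have hgr : gradient (fun x : E d => ⟪x, e⟫) = fun _ => e := by
    funext x
    have : HasGradientAt (fun x : E d => ⟪x, e⟫) e x := by
      rw [hasGradientAt_iff_hasFDerivAt]
      have h := (innerSL ℝ e).hasFDerivAt (x := x)
      have e1 : (fun x : E d => ⟪x, e⟫) = fun x => innerSL ℝ e x := by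
        funext z; simp [real_inner_comm]
      rw [e1]
      exact h.congr_fderiv (by ext v; simp)
    exact this.gradient
  have hp : PG (fun x : E d => ⟪x, e⟫) := PG_inner e
  have hp' : PG (gradient (fun x : E d => ⟪x, e⟫)) := by
    rw [hgr]; exact PG.of_bdd (C := ‖e‖) (fun _ => le_rfl)
  have h := RG_poinc_scalar hG hη y hu hp hp'
  rw [hgr] at h
  haveI := RG_isProb hG hη y
  simpa using h

/-- Cauchy-Schwarz for covariances, for a probability measure -/
theorem cov_sq_le_of_integrable {Ω : Type} [MeasurableSpace Ω] (μ : Measure Ω)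
    [IsProbabilityMeasure μ] {f g : Ω → ℝ} (hf : Integrable f μ) (hg : Integrable g μ)
    (hff : Integrable (fun x => f x ^ 2) μ) (hgg : Integrable (fun x => g x ^ 2) μ)
    (hfg : Integrable (fun x => f x * g x) μ) :
    ((∫ x, f x * g x ∂μ) - (∫ x, f x ∂μ) * ∫ x, g x ∂μ) ^ 2 ≤
      ((∫ x, f x ^ 2 ∂μ) - (∫ x, f x ∂μ) ^ 2) * ((∫ x, g x ^ 2 ∂μ) - (∫ x, g x ∂μ) ^ 2) := by
  set a := ∫ x, f x ∂μ with ha
  set c := ∫ x, g x ∂μ with hc
  have key : ∀ t : ℝ, 0 ≤ ((∫ x, g x ^ 2 ∂μ) - c ^ 2) * (t * t) +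
      (2 * ((∫ x, f x * g x ∂μ) - a * c)) * t + ((∫ x, f x ^ 2 ∂μ) - a ^ 2) := by
    intro t
    have h0 : 0 ≤ ∫ x, (f x + t * g x - (a + t * c)) ^ 2 ∂μ :=
      integral_nonneg fun x => sq_nonneg _
    have e1 : ∀ x, (f x + t * g x - (a + t * c)) ^ 2 =
        (f x ^ 2 + (2 * t) * (f x * g x)) + ((t ^ 2) * g x ^ 2 +
          ((-2 * (a + t * c)) * f x + ((-2 * (a + t * c) * t) * g x + (a + t * c) ^ 2))) := by
      intro x; ring
    simp only [e1] at h0
    have i1 : Integrable (fun x => f x ^ 2 + (2 * t) * (f x * g x)) μ :=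
      hff.add (hfg.const_mul _)
    have i4 : Integrable (fun x => (-2 * (a + t * c) * t) * g x + (a + t * c) ^ 2) μ :=
      (hg.const_mul _).add (integrable_const _)
    have i3 : Integrable (fun x => (-2 * (a + t * c)) * f x +
        ((-2 * (a + t * c) * t) * g x + (a + t * c) ^ 2)) μ := (hf.const_mul _).add i4
    have i2 : Integrable (fun x => (t ^ 2) * g x ^ 2 + ((-2 * (a + t * c)) * f x +
        ((-2 * (a + t * c) * t) * g x + (a + t * c) ^ 2))) μ := (hgg.const_mul _).add i3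
    rw [integral_add i1 i2, integral_add hff (hfg.const_mul _), integral_add (hgg.const_mul _) i3,
      integral_add (hf.const_mul _) i4, integral_add (hg.const_mul _) (integrable_const _),
      integral_const_mul, integral_const_mul, integral_const_mul, integral_const_mul,
      ← ha, ← hc] at h0
    simp only [integral_const, probReal_univ, one_smul] at h0
    nlinarith [h0]
  have hd := discrim_le_zero key
  unfold discrim at hd
  nlinarith [hd]

/-- Cauchy-Schwarz for covariances of real functions under `RG` -/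
theorem RG_cov_sq_le (hG : Pert d b G) (hη : 0 < η) (y : E d) {f g : E d → ℝ}
    (hf : Measurable f) (hg : Measurable g) (pf : PG f) (pg : PG g) :
    ((∫ x, f x * g x ∂(RG G η y)) - (∫ x, f x ∂(RG G η y)) * ∫ x, g x ∂(RG G η y)) ^ 2 ≤
      ((∫ x, f x ^ 2 ∂(RG G η y)) - (∫ x, f x ∂(RG G η y)) ^ 2) *
        ((∫ x, g x ^ 2 ∂(RG G η y)) - (∫ x, g x ∂(RG G η y)) ^ 2) := by
  haveI := RG_isProb hG hη y
  exact cov_sq_le_of_integrable _ (RG_integrable hG hη y hf.aestronglyMeasurable pf)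
    (RG_integrable hG hη y hg.aestronglyMeasurable pg)
    (RG_integrable hG hη y (hf.pow_const 2).aestronglyMeasurable (pf.pow 2))
    (RG_integrable hG hη y (hg.pow_const 2).aestronglyMeasurable (pg.pow 2))
    (RG_integrable hG hη y (hf.mul hg).aestronglyMeasurable (pf.mul pg))

theorem nuG_isProb (hG : Pert d b G) : IsProbabilityMeasure (nuG G) :=
  hG.sc_nu.isProb

theorem nuG_integrable {F : Type} [NormedAddCommGroup F] [NormedSpace ℝ F]
    (hG : Pert d b G) {u : E d → F}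
    (hu : AEStronglyMeasurable u volume) (hp : PG u) : Integrable u (nuG G) :=
  hG.sc_nu.integrable hu hp

theorem nuG_poinc (hG : Pert d b G) {u : E d → EuclideanSpace ℝ ι}
    (hu : ContDiff ℝ 1 u) (hp : PG u) (hp' : PG (Dv u)) :
    (∫ x, ‖u x‖ ^ 2 ∂(nuG G)) - ‖∫ x, u x ∂(nuG G)‖ ^ 2 ≤ ∫ x, ‖Dv u x‖ ^ 2 ∂(nuG G) := by
  have h := poinc one_pos hG.sc_nu hu hp hp'
  rw [inv_one, one_mul] at h
  exact h

theorem nuG_poinc_scalar (hG : Pert d b G) {u : E d → ℝ}
    (hu : ContDiff ℝ 1 u) (hp : PG u) (hp' : PG (gradient u)) :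
    (∫ x, u x ^ 2 ∂(nuG G)) - (∫ x, u x ∂(nuG G)) ^ 2 ≤ ∫ x, ‖gradient u x‖ ^ 2 ∂(nuG G) := by
  have h := poinc_scalar one_pos hG.sc_nu hu hp hp'
  rw [inv_one, one_mul] at h
  exact h

theorem nuG_ibp {F : Type} [NormedAddCommGroup F] [NormedSpace ℝ F] [CompleteSpace F]
    (hb : 0 ≤ b) (hG : Pert d b G) {u : E d → F}
    (hu : ContDiff ℝ 1 u) (hp : PG u) (hp' : PG (fun x => fderiv ℝ u x)) (e : E d) :
    ∫ x, fderiv ℝ u x e ∂(nuG G) =
      ∫ x, (⟪x, e⟫ + ⟪gradient G x, e⟫) • u x ∂(nuG G) := by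
  have hU : ContDiff ℝ 1 (fun x => ‖x‖ ^ 2 / 2 + G x) := contDiff_half.add hG.contDiff_one
  have h := SC.ibp hG.sc_nu hU (PG_gradient_nu hb hG) hu hp hp' e
  have e2 : ∀ x : E d, ⟪gradient (fun x => ‖x‖ ^ 2 / 2 + G x) x, e⟫ =
      ⟪x, e⟫ + ⟪gradient G x, e⟫ := by
    intro x
    rw [gradient_nu hG x, inner_add_left]
  simp only [e2] at h
  exact h

end Vale.Agent.P347
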