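import Vale.Agent.Lib.P347.RGf

/-!
P347: moments of the restricted Gaussian law.

Proof. Write `g p` for the integral of `|x - y|^(2p)` and `M = |y + gradient G y|`. Sum over the
basis the integration by parts formula `RG_ibp` applied to
`u x = |x - y|^(2p-2) * (x - y) i`, `e = e_i`: the left side is `(d + 2p - 2) g (p-1)`, the right
side is the integral of `⟨x + gradient G x + (x - y)/η, x - y⟩ |x - y|^(2p-2)`, which by
monotonicity of `x + gradient G x` is at least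
`g p / η - M * integral of |x - y|^(2p-1)`. With `t = (g p)^(1/(2p))` and Jensen (power means):
`t^2 ≤ η (d + 2p - 2) + η M t`, hence `t ≤ η M + √(η (d + 2p - 2))`.
The growth statement `Rop_PG`: bound `(1 + |x|)^p ≤ 2^p ((1 + |y|)^p + |x - y|^p)` and use the
moment bound (with `|x-y|^p ≤ 1 + |x-y|^(2p)`) and the growth of `gradient G`.
-/

open MeasureTheory ProbabilityTheory
open scoped RealInnerProductSpace

namespace Vale.Agent.P347

variable {d : ℕ} {b : ℝ} {G : E d → ℝ} {η : ℝ}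

private theorem rmom_young (n : ℕ) {z : ℝ} (hz : 0 ≤ z) :
    (n + 1 : ℝ) * z ^ n ≤ n * z ^ (n + 1) + 1 := by
  induction n with
  | zero => simp
  | succ n ih =>
    have h1 : 0 ≤ (z ^ (n + 1) - 1) * (z - 1) := by
      rcases le_total 1 z with h | h
      · exact mul_nonneg (sub_nonneg.mpr (one_le_pow₀ h)) (sub_nonneg.mpr h)
      · exact mul_nonneg_of_nonpos_of_nonpos (sub_nonpos.mpr (pow_le_one₀ hz h))
          (sub_nonpos.mpr h)
    have h2 := mul_le_mul_of_nonneg_right ih hz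
    have e1 : z ^ (n + 1) = z ^ n * z := pow_succ _ _
    have e2 : z ^ (n + 1 + 1) = z ^ n * z * z := by rw [pow_succ, pow_succ]
    push_cast
    rw [e2, e1]
    rw [e1] at h1 h2
    generalize z ^ n = a at *
    nlinarith

private theorem rmom_PGw (y : E d) : PG (fun x : E d => x - y) :=
  PG_id.sub (PG.of_bdd (C := ‖y‖) (fun _ => le_rfl))

private theorem rmom_PGs (y : E d) (q : ℕ) : PG (fun x : E d => (‖x - y‖ ^ 2) ^ q) :=
  ((rmom_PGw y).norm.pow 2).pow q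

private theorem rmom_hasFDerivAt (y e x : E d) (q : ℕ) :
    HasFDerivAt (fun x : E d => (‖x - y‖ ^ 2) ^ q * ⟪x - y, e⟫)
      ((‖x - y‖ ^ 2) ^ q • innerSL ℝ e +
        (2 * (q * (‖x - y‖ ^ 2) ^ (q - 1)) * ⟪x - y, e⟫) • innerSL ℝ (x - y)) x := by
  have h0 : HasFDerivAt (fun x : E d => x - y) (ContinuousLinearMap.id ℝ (E d)) x :=
    (hasFDerivAt_id x).sub_const y
  have h1 := h0.norm_sq.pow q
  have h2 : HasFDerivAt (fun x : E d => ⟪x - y, e⟫) (innerSL ℝ e) x := by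
    have h3 := (innerSL ℝ e).hasFDerivAt.comp x h0
    refine (h3.congr_of_eventuallyEq (Filter.Eventually.of_forall fun z => ?_)).congr_fderiv ?_
    · simp [real_inner_comm]
    · ext z; simp
  refine (h1.mul h2).congr_fderiv ?_
  ext z
  simp
  ring

private theorem rmom_contDiff (y e : E d) (q : ℕ) :
    ContDiff ℝ 1 (fun x : E d => (‖x - y‖ ^ 2) ^ q * ⟪x - y, e⟫) :=
  (((contDiff_id.sub contDiff_const).norm_sq ℝ).pow q).mul
    ((contDiff_id.sub contDiff_const).inner ℝ contDiff_const)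

private theorem rmom_PGi (y e : E d) : PG (fun x : E d => ⟪x - y, e⟫) := by
  have h := (rmom_PGw y).norm.mul (PG.of_bdd (u := fun _ : E d => ‖e‖) (C := ‖e‖) (by simp))
  refine h.mono fun x => ?_
  rw [norm_mul, norm_norm, norm_norm]
  exact norm_inner_le_norm _ _

private theorem rmom_PGfd (y e : E d) (q : ℕ) :
    PG (fun x => fderiv ℝ (fun x : E d => (‖x - y‖ ^ 2) ^ q * ⟪x - y, e⟫) x) := by
  have h : (fun x => fderiv ℝ (fun x : E d => (‖x - y‖ ^ 2) ^ q * ⟪x - y, e⟫) x) = fun x =>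
      ((‖x - y‖ ^ 2) ^ q • innerSL ℝ e +
        (2 * (q * (‖x - y‖ ^ 2) ^ (q - 1)) * ⟪x - y, e⟫) • innerSL ℝ (x - y)) := by
    funext x
    exact (rmom_hasFDerivAt y e x q).fderiv
  rw [h]
  have h1 : PG (fun x : E d => (‖x - y‖ ^ 2) ^ q • innerSL ℝ e) :=
    (rmom_PGs y q).smul (PG.of_bdd (C := ‖innerSL ℝ e‖) fun _ => le_rfl)
  have h2 : PG (fun x : E d => innerSL ℝ (x - y)) :=
    (rmom_PGw y).mono fun x => by rw [innerSL_apply_norm]
  have h3 : PG (fun x : E d => (2 * (q * (‖x - y‖ ^ 2) ^ (q - 1)) * ⟪x - y, e⟫)) :=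
    (((PG.of_bdd (C := ‖(2 : ℝ)‖) fun _ => le_rfl)).mul
      ((PG.of_bdd (C := ‖(q : ℝ)‖) fun _ => le_rfl).mul (rmom_PGs y (q - 1)))).mul (rmom_PGi y e)
  exact h1.add (h3.smul h2)

private theorem rmom_cont (y : E d) (q : ℕ) : Continuous (fun x : E d => (‖x - y‖ ^ 2) ^ q) := by
  fun_prop

private theorem rmom_step (hb : 0 ≤ b) (hG : Pert d b G) (hη : 0 < η) (y : E d) (q : ℕ) :
    (∫ x, (‖x - y‖ ^ 2) ^ (q + 1) ∂(RG G η y)) / η ≤
      (d + 2 * q) * (∫ x, (‖x - y‖ ^ 2) ^ q ∂(RG G η y)) +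
        ‖y + gradient G y‖ * ∫ x, (‖x - y‖ ^ 2) ^ q * ‖x - y‖ ∂(RG G η y) := by
  classical
  set B := EuclideanSpace.basisFun (Fin d) ℝ with hB
  have hgc : Continuous (gradient G) := (hG.grad_contDiff).continuous
  have hi : ∀ i, ∫ x, ((‖x - y‖ ^ 2) ^ q * ⟪B i, B i⟫ +
        (2 * (q * (‖x - y‖ ^ 2) ^ (q - 1)) * ⟪x - y, B i⟫) * ⟪x - y, B i⟫) ∂(RG G η y) =
      ∫ x, (⟪x, B i⟫ + ⟪gradient G x, B i⟫ + ⟪x - y, B i⟫ / η) *
        ((‖x - y‖ ^ 2) ^ q * ⟪x - y, B i⟫) ∂(RG G η y) := by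
    intro i
    have h := RG_ibp hb hG hη y (rmom_contDiff y (B i) q) ((rmom_PGs y q).mul (rmom_PGi y (B i)))
      (rmom_PGfd y (B i) q) (B i)
    simp only [smul_eq_mul] at h
    rw [← h]
    congr 1
    funext x
    rw [(rmom_hasFDerivAt y (B i) x q).fderiv]
    simp only [add_apply, smul_apply, smul_eq_mul, innerSL_apply_apply]
  have hL : ∀ i, Integrable (fun x => ((‖x - y‖ ^ 2) ^ q * ⟪B i, B i⟫ +
        (2 * (q * (‖x - y‖ ^ 2) ^ (q - 1)) * ⟪x - y, B i⟫) * ⟪x - y, B i⟫)) (RG G η y) := by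
    intro i
    refine RG_integrable hG hη y (Continuous.aestronglyMeasurable (by fun_prop)) ?_
    refine ((rmom_PGs y q).mul (PG.of_bdd (C := ‖⟪B i, B i⟫‖) fun _ => le_rfl)).add ?_
    exact ((((PG.of_bdd (C := ‖(2 : ℝ)‖) fun _ => le_rfl)).mul
      ((PG.of_bdd (C := ‖(q : ℝ)‖) fun _ => le_rfl).mul (rmom_PGs y (q - 1)))).mul
        (rmom_PGi y (B i))).mul (rmom_PGi y (B i))
  have hPgrad : ∀ e : E d, PG (fun x : E d => ⟪gradient G x, e⟫) := by
    intro e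
    have h := (hG.PG_grad hb).norm.mul
      (PG.of_bdd (u := fun _ : E d => ‖e‖) (C := ‖e‖) (by simp))
    refine h.mono fun x => ?_
    rw [norm_mul, norm_norm, norm_norm]
    exact norm_inner_le_norm _ _
  have hR : ∀ i, Integrable (fun x => (⟪x, B i⟫ + ⟪gradient G x, B i⟫ + ⟪x - y, B i⟫ / η) *
        ((‖x - y‖ ^ 2) ^ q * ⟪x - y, B i⟫)) (RG G η y) := by
    intro i
    refine RG_integrable hG hη y (Continuous.aestronglyMeasurable (by fun_prop)) ?_
    refine PG.mul ?_ ((rmom_PGs y q).mul (rmom_PGi y (B i)))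
    refine ((PG_inner (B i)).add (hPgrad (B i))).add ?_
    have := (rmom_PGi y (B i)).mul (PG.of_bdd (u := fun _ : E d => η⁻¹) (C := ‖η⁻¹‖)
      fun _ => le_rfl)
    simpa [div_eq_mul_inv] using this
  have hsum : ∑ i, ∫ x, ((‖x - y‖ ^ 2) ^ q * ⟪B i, B i⟫ +
        (2 * (q * (‖x - y‖ ^ 2) ^ (q - 1)) * ⟪x - y, B i⟫) * ⟪x - y, B i⟫) ∂(RG G η y) =
      ∑ i, ∫ x, (⟪x, B i⟫ + ⟪gradient G x, B i⟫ + ⟪x - y, B i⟫ / η) *
        ((‖x - y‖ ^ 2) ^ q * ⟪x - y, B i⟫) ∂(RG G η y) :=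
    Finset.sum_congr rfl fun i _ => hi i
  rw [← integral_finsetSum _ (fun i _ => hL i), ← integral_finsetSum _ (fun i _ => hR i)] at hsum
  have hpar : ∀ v w : E d, ∑ i, ⟪v, B i⟫ * ⟪w, B i⟫ = ⟪v, w⟫ := by
    intro v w
    rw [← B.sum_inner_mul_inner v w]
    exact Finset.sum_congr rfl fun i _ => by rw [real_inner_comm w (B i)]
  have e1 : (fun x => ∑ i, ((‖x - y‖ ^ 2) ^ q * ⟪B i, B i⟫ +
        (2 * (q * (‖x - y‖ ^ 2) ^ (q - 1)) * ⟪x - y, B i⟫) * ⟪x - y, B i⟫)) =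
      fun x => (d + 2 * q : ℝ) * (‖x - y‖ ^ 2) ^ q := by
    funext x
    rw [Finset.sum_add_distrib]
    have a1 : ∑ i, (‖x - y‖ ^ 2) ^ q * ⟪B i, B i⟫ = d * (‖x - y‖ ^ 2) ^ q := by
      simp
    have a2 : ∑ i, (2 * (q * (‖x - y‖ ^ 2) ^ (q - 1)) * ⟪x - y, B i⟫) * ⟪x - y, B i⟫ =
        2 * (q * (‖x - y‖ ^ 2) ^ (q - 1)) * ‖x - y‖ ^ 2 := by
      rw [← real_inner_self_eq_norm_sq (x - y), ← hpar (x - y) (x - y), Finset.mul_sum]
      exact Finset.sum_congr rfl fun i _ => by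
        rw [hpar]; ring
    rw [a1, a2]
    rcases Nat.eq_zero_or_pos q with hq | hq
    · subst hq; simp
    · have : (‖x - y‖ ^ 2) ^ (q - 1) * ‖x - y‖ ^ 2 = (‖x - y‖ ^ 2) ^ q := by
        rw [← pow_succ, Nat.sub_add_cancel hq]
      rw [mul_assoc, mul_assoc, this]
      ring
  have e2 : (fun x => ∑ i, (⟪x, B i⟫ + ⟪gradient G x, B i⟫ + ⟪x - y, B i⟫ / η) *
        ((‖x - y‖ ^ 2) ^ q * ⟪x - y, B i⟫)) =
      fun x => (⟪x, x - y⟫ + ⟪gradient G x, x - y⟫ + ‖x - y‖ ^ 2 / η) * (‖x - y‖ ^ 2) ^ q := by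
    funext x
    rw [← hpar x (x - y), ← hpar (gradient G x) (x - y), ← real_inner_self_eq_norm_sq (x - y)]
    rw [← hpar (x - y) (x - y), Finset.sum_div, ← Finset.sum_add_distrib, ← Finset.sum_add_distrib,
      Finset.sum_mul]
    exact Finset.sum_congr rfl fun i _ => by ring
  rw [e1, e2, integral_const_mul] at hsum
  have hIs : ∀ q, Integrable (fun x => (‖x - y‖ ^ 2) ^ q) (RG G η y) := fun q =>
    RG_integrable hG hη y (rmom_cont y q).aestronglyMeasurable (rmom_PGs y q)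
  have hIt : Integrable (fun x => (‖x - y‖ ^ 2) ^ q * ‖x - y‖) (RG G η y) :=
    RG_integrable hG hη y (Continuous.aestronglyMeasurable (by fun_prop))
      ((rmom_PGs y q).mul (rmom_PGw y).norm)
  have hIr : Integrable (fun x => (⟪x, x - y⟫ + ⟪gradient G x, x - y⟫ + ‖x - y‖ ^ 2 / η) *
      (‖x - y‖ ^ 2) ^ q) (RG G η y) := by
    rw [← e2]
    exact integrable_finsetSum _ fun i _ => hR i
  have hmono : ∫ x, ((‖x - y‖ ^ 2) ^ (q + 1) / η - ‖y + gradient G y‖ *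
        ((‖x - y‖ ^ 2) ^ q * ‖x - y‖)) ∂(RG G η y) ≤
      ∫ x, (⟪x, x - y⟫ + ⟪gradient G x, x - y⟫ + ‖x - y‖ ^ 2 / η) * (‖x - y‖ ^ 2) ^ q
        ∂(RG G η y) := by
    refine integral_mono (((hIs (q + 1)).div_const η).sub (hIt.const_mul _)) hIr fun x => ?_
    have h1 := hG.mono x y
    have h2 : ⟪x, x - y⟫ + ⟪gradient G x, x - y⟫ =
        ‖x - y‖ ^ 2 + ⟪gradient G x - gradient G y, x - y⟫ + ⟪y + gradient G y, x - y⟫ := by
      rw [← real_inner_self_eq_norm_sq, ← inner_add_left, ← inner_add_left, ← inner_add_left]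
      congr 1
      abel
    have h3 : -(‖y + gradient G y‖ * ‖x - y‖) ≤ ⟪y + gradient G y, x - y⟫ :=
      (abs_le.mp (abs_real_inner_le_norm _ _)).1
    have h4 : 0 ≤ (‖x - y‖ ^ 2) ^ q := by positivity
    have h5 : -(‖y + gradient G y‖ * ‖x - y‖) ≤ ⟪x, x - y⟫ + ⟪gradient G x, x - y⟫ := by
      rw [h2]; nlinarith [sq_nonneg ‖x - y‖]
    have h6 := mul_le_mul_of_nonneg_right h5 h4
    show (‖x - y‖ ^ 2) ^ (q + 1) / η - ‖y + gradient G y‖ * ((‖x - y‖ ^ 2) ^ q * ‖x - y‖) ≤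
      (⟪x, x - y⟫ + ⟪gradient G x, x - y⟫ + ‖x - y‖ ^ 2 / η) * (‖x - y‖ ^ 2) ^ q
    have h7 : (‖x - y‖ ^ 2) ^ (q + 1) / η = ‖x - y‖ ^ 2 / η * (‖x - y‖ ^ 2) ^ q := by
      rw [pow_succ]; ring
    rw [h7]
    nlinarith
  rw [integral_sub ((hIs (q + 1)).div_const η) (hIt.const_mul _), integral_div,
    integral_const_mul, ← hsum] at hmono
  linarith

private theorem rmom_comb {α β q A W X Y : ℝ} (hα0 : 0 ≤ α) (hβ0 : 0 ≤ β) (hq0 : 0 ≤ q)
    (hαβ : α + β ≤ 1) (hW0 : 0 < W) (hA1 : A ≤ α * X + β * Y)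
    (hY1 : (q + 1) * X ≤ q * A + W) (hY2 : (2 * q + 2) * Y ≤ (2 * q + 1) * A + W) : A ≤ W := by
  have k1 := mul_le_mul_of_nonneg_left hY1 (by positivity : 0 ≤ 2 * α)
  have k2 := mul_le_mul_of_nonneg_left hY2 hβ0
  have k3 := mul_le_mul_of_nonneg_left hA1 (by positivity : 0 ≤ 2 * q + 2)
  have k0 := mul_le_mul_of_nonneg_left hαβ (by positivity : 0 ≤ 2 * q + 2)
  have k4 : (2 * q + 2 - 2 * α * q - β * (2 * q + 1)) * A ≤ (2 * α + β) * W := by linarith
  have k5 : 2 * α + β ≤ 2 * q + 2 - 2 * α * q - β * (2 * q + 1) := by linarith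
  have k0' := mul_le_mul_of_nonneg_left hαβ (by positivity : 0 ≤ 2 * q + 1)
  have k6 : 0 < 2 * q + 2 - 2 * α * q - β * (2 * q + 1) := by linarith
  have k7 : (2 * q + 2 - 2 * α * q - β * (2 * q + 1)) * A ≤
      (2 * q + 2 - 2 * α * q - β * (2 * q + 1)) * W :=
    k4.trans (mul_le_mul_of_nonneg_right k5 hW0.le)
  exact le_of_mul_le_mul_left k7 k6

theorem RG_moment (hb : 0 ≤ b) (hG : Pert d b G) (hη : 0 < η) (y : E d) (p : ℕ) :
    ∫ x, ‖x - y‖ ^ (2 * p) ∂(RG G η y) ≤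
      (η * ‖y + gradient G y‖ + √(η * (d + 2 * p))) ^ (2 * p) := by
  have hprob := RG_isProb hG hη y
  rcases Nat.eq_zero_or_pos p with hp | hp
  · subst hp; simp
  obtain ⟨q, rfl⟩ : ∃ q, p = q + 1 := ⟨p - 1, by omega⟩
  set M := ‖y + gradient G y‖ with hM
  have hM0 : 0 ≤ M := norm_nonneg _
  set S := √(η * (d + 2 * ((q + 1 : ℕ) : ℝ))) with hS
  have hSpos : 0 < S := Real.sqrt_pos.mpr (by positivity)
  have hSsq : S ^ 2 = η * (d + 2 * ((q + 1 : ℕ) : ℝ)) := Real.sq_sqrt (by positivity)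
  set T := η * M + S with hT
  have hTpos : 0 < T := by positivity
  have hstep := rmom_step hb hG hη y q
  have hIs : ∀ q, Integrable (fun x => (‖x - y‖ ^ 2) ^ q) (RG G η y) := fun q =>
    RG_integrable hG hη y (rmom_cont y q).aestronglyMeasurable (rmom_PGs y q)
  have hIt : Integrable (fun x => (‖x - y‖ ^ 2) ^ q * ‖x - y‖) (RG G η y) :=
    RG_integrable hG hη y (Continuous.aestronglyMeasurable (by fun_prop))
      ((rmom_PGs y q).mul (rmom_PGw y).norm)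
  have hA : (fun x : E d => ‖x - y‖ ^ (2 * (q + 1))) = fun x => (‖x - y‖ ^ 2) ^ (q + 1) := by
    funext x; rw [pow_mul]
  rw [hA, pow_mul T 2 (q + 1)]
  set A := ∫ x, (‖x - y‖ ^ 2) ^ (q + 1) ∂(RG G η y) with hAdef
  -- Young, integrated
  have hY1 : (q + 1 : ℝ) * (T ^ 2 * ∫ x, (‖x - y‖ ^ 2) ^ q ∂(RG G η y)) ≤
      q * A + (T ^ 2) ^ (q + 1) := by
    have h1 : ∫ x, (q + 1 : ℝ) * (T ^ 2 * (‖x - y‖ ^ 2) ^ q) ∂(RG G η y) ≤
        ∫ x, ((q : ℝ) * (‖x - y‖ ^ 2) ^ (q + 1) + (T ^ 2) ^ (q + 1)) ∂(RG G η y) := by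
      refine integral_mono (((hIs q).const_mul _).const_mul _)
        (((hIs (q + 1)).const_mul _).add (integrable_const _)) fun x => ?_
      have h := rmom_young q (z := ‖x - y‖ ^ 2 / T ^ 2) (by positivity)
      have h' := mul_le_mul_of_nonneg_right h (by positivity : 0 ≤ (T ^ 2) ^ (q + 1))
      have a1 : (q + 1 : ℝ) * (‖x - y‖ ^ 2 / T ^ 2) ^ q * (T ^ 2) ^ (q + 1) =
          (q + 1 : ℝ) * (T ^ 2 * (‖x - y‖ ^ 2) ^ q) := by
        rw [div_pow, pow_succ (T ^ 2) q]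
        field_simp
      have a2 : ((q : ℝ) * (‖x - y‖ ^ 2 / T ^ 2) ^ (q + 1) + 1) * (T ^ 2) ^ (q + 1) =
          (q : ℝ) * (‖x - y‖ ^ 2) ^ (q + 1) + (T ^ 2) ^ (q + 1) := by
        rw [div_pow]
        field_simp
      rw [a1, a2] at h'
      exact h'
    rw [integral_const_mul, integral_const_mul, integral_add ((hIs (q + 1)).const_mul _)
      (integrable_const _), integral_const_mul, integral_const] at h1
    simpa using h1
  have hY2 : (2 * q + 2 : ℝ) * (T * ∫ x, (‖x - y‖ ^ 2) ^ q * ‖x - y‖ ∂(RG G η y)) ≤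
      (2 * q + 1) * A + (T ^ 2) ^ (q + 1) := by
    have h1 : ∫ x, (2 * q + 2 : ℝ) * (T * ((‖x - y‖ ^ 2) ^ q * ‖x - y‖)) ∂(RG G η y) ≤
        ∫ x, ((2 * q + 1 : ℝ) * (‖x - y‖ ^ 2) ^ (q + 1) + (T ^ 2) ^ (q + 1)) ∂(RG G η y) := by
      refine integral_mono ((hIt.const_mul _).const_mul _)
        (((hIs (q + 1)).const_mul _).add (integrable_const _)) fun x => ?_
      have h := rmom_young (2 * q + 1) (z := ‖x - y‖ / T) (by positivity)
      have h' := mul_le_mul_of_nonneg_right h (by positivity : 0 ≤ (T ^ 2) ^ (q + 1))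
      have a0 : (T ^ 2) ^ (q + 1) = T ^ (2 * q + 1) * T := by
        rw [← pow_mul, ← pow_succ]; congr 1
      have a0' : (‖x - y‖ ^ 2) ^ q * ‖x - y‖ = ‖x - y‖ ^ (2 * q + 1) := by
        rw [← pow_mul, ← pow_succ]
      have a0'' : (‖x - y‖ ^ 2) ^ (q + 1) = ‖x - y‖ ^ (2 * q + 1 + 1) := by
        rw [← pow_mul]; congr 1
      have a1 : (((2 * q + 1 : ℕ) : ℝ) + 1) * (‖x - y‖ / T) ^ (2 * q + 1) * (T ^ 2) ^ (q + 1) =
          (2 * q + 2 : ℝ) * (T * ((‖x - y‖ ^ 2) ^ q * ‖x - y‖)) := by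
        rw [div_pow, a0, a0']
        push_cast
        field_simp
        ring
      have a2 : (((2 * q + 1 : ℕ) : ℝ) * (‖x - y‖ / T) ^ (2 * q + 1 + 1) + 1) *
          (T ^ 2) ^ (q + 1) =
          (2 * q + 1 : ℝ) * (‖x - y‖ ^ 2) ^ (q + 1) + (T ^ 2) ^ (q + 1) := by
        have a3 : (T ^ 2) ^ (q + 1) = T ^ (2 * q + 1 + 1) := by
          rw [← pow_mul]; congr 1
        rw [div_pow, a3, a0'']
        push_cast
        field_simp
      rw [a1, a2] at h'
      exact h'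
    rw [integral_const_mul, integral_const_mul, integral_add ((hIs (q + 1)).const_mul _)
      (integrable_const _), integral_const_mul, integral_const] at h1
    simpa using h1
  set I0 := ∫ x, (‖x - y‖ ^ 2) ^ q ∂(RG G η y) with hI0
  set I1 := ∫ x, (‖x - y‖ ^ 2) ^ q * ‖x - y‖ ∂(RG G η y) with hI1
  have hI00 : 0 ≤ I0 := integral_nonneg fun x => by positivity
  have hI10 : 0 ≤ I1 := integral_nonneg fun x => by positivity
  -- combine
  set W := (T ^ 2) ^ (q + 1) with hW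
  have hW0 : 0 < W := by positivity
  have hd0 : (0 : ℝ) ≤ d := by positivity
  have hq0 : (0 : ℝ) ≤ q := by positivity
  set α := η * (d + 2 * q) / T ^ 2 with hα
  set β := η * M / T with hβ
  have hα0 : 0 ≤ α := by positivity
  have hβ0 : 0 ≤ β := by positivity
  have hαβ : α + β ≤ 1 := by
    have : α + β = (η * (d + 2 * q) + η * M * T) / T ^ 2 := by
      rw [hα, hβ]; field_simp
    rw [this, div_le_one (by positivity)]
    have h1 : T ^ 2 = (η * M) * T + S * (η * M) + S ^ 2 := by rw [hT]; ring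
    rw [h1, hSsq]
    have h2 : 0 ≤ S * (η * M) := by positivity
    push_cast
    nlinarith
  have hA1 : A ≤ α * (T ^ 2 * I0) + β * (T * I1) := by
    have h1 : A ≤ η * ((d + 2 * q) * I0 + M * I1) := by
      rw [div_le_iff₀ hη] at hstep
      linarith
    have h2 : α * (T ^ 2 * I0) + β * (T * I1) = η * ((d + 2 * q) * I0 + M * I1) := by
      rw [hα, hβ]; field_simp
    rw [h2]; exact h1
  exact rmom_comb hα0 hβ0 hq0 hαβ hW0 hA1 hY1 hY2

theorem Rop_PG (hb : 0 ≤ b) (hG : Pert d b G) (hη : 0 < η) {F : Type} [NormedAddCommGroup F]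
    [NormedSpace ℝ F] {u : E d → F} (hu : AEStronglyMeasurable u volume) (hp : PG u) :
    PG (Rop G η u) := by
  obtain ⟨C, p, hC⟩ := hp
  have hC0 : 0 ≤ C := by
    have := (norm_nonneg _).trans (hC 0)
    simpa using this
  have hPc : ∀ c : ℝ, PG (fun _ : E d => c) := fun c => PG.of_bdd (C := ‖c‖) fun _ => le_rfl
  have hP1 : PG (fun y : E d => ‖y + gradient G y‖) := (PG_id.add (hG.PG_grad hb)).norm
  have hPm : PG (fun y : E d => (η * ‖y + gradient G y‖ + √(η * (d + 2 * p))) ^ (2 * p)) :=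
    (((hPc η).mul hP1).add (hPc _)).pow (2 * p)
  have hPn : PG (fun y : E d => (1 + ‖y‖) ^ p) := ((hPc 1).add PG_id.norm).pow p
  have hPtot : PG (fun y : E d => (C * 2 ^ p) *
      ((1 + ‖y‖) ^ p + (1 + (η * ‖y + gradient G y‖ + √(η * (d + 2 * p))) ^ (2 * p)))) :=
    (hPc (C * 2 ^ p)).mul (hPn.add ((hPc 1).add hPm))
  refine hPtot.mono fun y => ?_
  have hprob := RG_isProb hG hη y
  have hIs : Integrable (fun x => ‖x - y‖ ^ (2 * p)) (RG G η y) :=
    RG_integrable hG hη y (Continuous.aestronglyMeasurable (by fun_prop))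
      ((rmom_PGw y).norm.pow (2 * p))
  have h1 : ‖Rop G η u y‖ ≤ ∫ x, (C * 2 ^ p) * ((1 + ‖y‖) ^ p + (1 + ‖x - y‖ ^ (2 * p)))
      ∂(RG G η y) := by
    unfold Rop
    refine (norm_integral_le_integral_norm _).trans ?_
    refine integral_mono_of_nonneg (Filter.Eventually.of_forall fun x => norm_nonneg _) ?_
      (Filter.Eventually.of_forall fun x => ?_)
    · exact ((integrable_const _).add ((integrable_const _).add hIs)).const_mul _
    · refine (hC x).trans ?_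
      have h2 : (1 + ‖x‖) ^ p ≤ 2 ^ p * ((1 + ‖y‖) ^ p + (1 + ‖x - y‖ ^ (2 * p))) := by
        have a1 : 1 + ‖x‖ ≤ (1 + ‖y‖) + ‖x - y‖ := by
          have := norm_add_le (x - y) y
          rw [sub_add_cancel] at this
          linarith
        have a2 : ‖x - y‖ ^ p ≤ 1 + ‖x - y‖ ^ (2 * p) := by
          have : (‖x - y‖ ^ p) ^ 2 = ‖x - y‖ ^ (2 * p) := by rw [← pow_mul, mul_comm]
          rw [← this]
          nlinarith [sq_nonneg (‖x - y‖ ^ p - 1)]
        have a3 : 0 ≤ ‖x - y‖ := norm_nonneg _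
        have a4 : 0 ≤ ‖y‖ := norm_nonneg _
        have a5 : (1 + ‖x‖) ^ p ≤ ((1 + ‖y‖) + ‖x - y‖) ^ p :=
          pow_le_pow_left₀ (by positivity) a1 p
        refine a5.trans ?_
        rcases le_total (1 + ‖y‖) ‖x - y‖ with h | h
        · calc ((1 + ‖y‖) + ‖x - y‖) ^ p ≤ (2 * ‖x - y‖) ^ p :=
              pow_le_pow_left₀ (by positivity) (by linarith) p
            _ = 2 ^ p * ‖x - y‖ ^ p := mul_pow _ _ _
            _ ≤ 2 ^ p * ((1 + ‖y‖) ^ p + (1 + ‖x - y‖ ^ (2 * p))) := by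
              gcongr
              have : 0 ≤ (1 + ‖y‖) ^ p := by positivity
              linarith
        · calc ((1 + ‖y‖) + ‖x - y‖) ^ p ≤ (2 * (1 + ‖y‖)) ^ p :=
              pow_le_pow_left₀ (by positivity) (by linarith) p
            _ = 2 ^ p * (1 + ‖y‖) ^ p := mul_pow _ _ _
            _ ≤ 2 ^ p * ((1 + ‖y‖) ^ p + (1 + ‖x - y‖ ^ (2 * p))) := by
              gcongr
              have : 0 ≤ 1 + ‖x - y‖ ^ (2 * p) := by positivity
              linarith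
      calc C * (1 + ‖x‖) ^ p ≤ C * (2 ^ p * ((1 + ‖y‖) ^ p + (1 + ‖x - y‖ ^ (2 * p)))) := by
            gcongr
        _ = _ := by ring
  refine h1.trans ?_
  have h3 : ∫ x, ((1 + ‖y‖) ^ p + (1 + ‖x - y‖ ^ (2 * p))) ∂(RG G η y) =
      (1 + ‖y‖) ^ p + (1 + ∫ x, ‖x - y‖ ^ (2 * p) ∂(RG G η y)) := by
    have e1 : Integrable (fun x => 1 + ‖x - y‖ ^ (2 * p)) (RG G η y) :=
      (integrable_const _).add hIs
    rw [integral_add (integrable_const _) e1, integral_add (integrable_const _) hIs,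
      integral_const, integral_const]
    simp
  rw [integral_const_mul, h3]
  have h2 := RG_moment hb hG hη y p
  refine le_trans ?_ (le_abs_self _)
  gcongr

end Vale.Agent.P347
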