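import Vale.Agent.Lib.P347.Gauss
import Vale.Agent.Lib.P347.NOp

/-!
P347: the Mehler correlation functional.

`AA u w ρ = E ⟪u (ρ x + κ z), w x⟫`, `κ = √(1 - ρ^2)`, and the Mehler operator `Ps`.

Proofs. `Ps s u x = Nop (1 - s^2) u (s x)`, so regularity and the `L²` bound come from NOp
(`Nop_CB`, `norm_Dv_Nop_sq_le`, `Dv_affine`) and the invariance `gauss_comb`. Splitting:
`s (σ X + ..) + ..` has the same joint law: if `x = s x' + √(1-s²) z1`, `y = s y' + √(1-s²) z2` and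
`(x', y')` is a Gaussian pair with correlation `ρ/s²` then `(x, y)` is one with correlation `ρ`
(use `gauss_rot`, `gauss_comb`; or characteristic functions of the pair).
Derivative: differentiate under the integral sign,
`d/dρ u (ρ x + κ z) = κ⁻¹ fderiv u (Y) v`, `Y = ρ x + κ z`, `v = κ x - ρ z`,
then rotate (`gauss_rot`, `x = ρ Y + κ v`) and integrate by parts in `v` for fixed `Y`:
`κ⁻¹ E ⟪fderiv u Y v, w (ρ Y + κ v)⟫ = E Σ_i ⟪∂_i u Y, ∂_i w x⟫ = AA (Dv u) (Dv w) ρ`.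
-/

open MeasureTheory ProbabilityTheory
open scoped RealInnerProductSpace

namespace Vale.Agent.P347

variable {d : ℕ} {ι : Type} [Fintype ι]

/-- Mehler correlation of two maps -/
noncomputable def AA (u w : E d → EuclideanSpace ℝ ι) (ρ : ℝ) : ℝ :=
  ∫ x, ∫ z, ⟪u (ρ • x + √(1 - ρ ^ 2) • z), w x⟫ ∂(stdGaussian (E d)) ∂(stdGaussian (E d))

/-- Mehler operator -/
noncomputable def Ps (s : ℝ) (u : E d → EuclideanSpace ℝ ι) (x : E d) : EuclideanSpace ℝ ι :=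
  ∫ z, u (s • x + √(1 - s ^ 2) • z) ∂(stdGaussian (E d))

/-! ### preliminaries -/

theorem RhoA_kap {ρ : ℝ} (h0 : 0 ≤ ρ) (h1 : ρ ≤ 1) : ρ ^ 2 + √(1 - ρ ^ 2) ^ 2 = 1 := by
  have h : 0 ≤ 1 - ρ ^ 2 := by nlinarith
  rw [Real.sq_sqrt h]
  ring

theorem RhoA_kap_le {ρ : ℝ} : |√(1 - ρ ^ 2)| ≤ 1 := by
  rw [abs_of_nonneg (Real.sqrt_nonneg _)]
  exact Real.sqrt_le_one.2 (by nlinarith [sq_nonneg ρ])

theorem RhoA_meas (a b : ℝ) : Measurable (fun p : E d × E d => a • p.1 + b • p.2) := by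
  fun_prop

theorem RhoA_nonneg {F : Type} [NormedAddCommGroup F] {u : E d → F} {C : ℝ} {p : ℕ}
    (h : ∀ x, ‖u x‖ ≤ C * (1 + ‖x‖) ^ p) : 0 ≤ C := by
  have h0 := (norm_nonneg (u 0)).trans (h 0)
  simpa using h0

theorem RhoA_lin {a b : ℝ} (ha : |a| ≤ 1) (hb : |b| ≤ 1) (x z : E d) :
    1 + ‖a • x + b • z‖ ≤ (1 + ‖x‖) * (1 + ‖z‖) := by
  have h1 : ‖a • x + b • z‖ ≤ ‖x‖ + ‖z‖ := by
    refine (norm_add_le _ _).trans (add_le_add ?_ ?_)
    · rw [norm_smul, Real.norm_eq_abs]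
      exact mul_le_of_le_one_left (norm_nonneg x) ha
    · rw [norm_smul, Real.norm_eq_abs]
      exact mul_le_of_le_one_left (norm_nonneg z) hb
  have h2 := mul_nonneg (norm_nonneg x) (norm_nonneg z)
  nlinarith

theorem RhoA_bd {F : Type} [NormedAddCommGroup F] {u : E d → F} {C : ℝ} {p : ℕ}
    (h : ∀ x, ‖u x‖ ≤ C * (1 + ‖x‖) ^ p) {a b : ℝ} (ha : |a| ≤ 1) (hb : |b| ≤ 1) (x z : E d) :
    ‖u (a • x + b • z)‖ ≤ C * ((1 + ‖x‖) ^ p * (1 + ‖z‖) ^ p) := by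
  have hC := RhoA_nonneg h
  refine (h _).trans (mul_le_mul_of_nonneg_left ?_ hC)
  rw [← mul_pow]
  exact pow_le_pow_left₀ (by linarith [norm_nonneg (a • x + b • z)]) (RhoA_lin ha hb x z) p

theorem RhoA_PG_one (p : ℕ) : PG (fun x : E d => (1 + ‖x‖) ^ p) := by
  refine ⟨1, p, fun x => ?_⟩
  rw [one_mul, Real.norm_of_nonneg (pow_nonneg (by linarith [norm_nonneg x]) p)]

theorem RhoA_poly (p : ℕ) : Integrable (fun x : E d => (1 + ‖x‖) ^ p) (stdGaussian (E d)) :=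
  gauss_integrable (by fun_prop) (RhoA_PG_one p)

theorem RhoA_poly2 (p q : ℕ) :
    Integrable (fun z : E d × E d => (1 + ‖z.1‖) ^ p * (1 + ‖z.2‖) ^ q)
      ((stdGaussian (E d)).prod (stdGaussian (E d))) :=
  (RhoA_poly p).mul_prod (RhoA_poly q)

theorem RhoA_int {F : Type} [NormedAddCommGroup F] [NormedSpace ℝ F] [MeasurableSpace F]
    [BorelSpace F] [SecondCountableTopology F] {u : E d → F} (hu : Measurable u) (pu : PG u)
    {a b : ℝ} (ha : |a| ≤ 1) (hb : |b| ≤ 1) :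
    Integrable (fun p : E d × E d => u (a • p.1 + b • p.2))
      ((stdGaussian (E d)).prod (stdGaussian (E d))) := by
  obtain ⟨C, p, h⟩ := pu
  refine ((RhoA_poly2 p p).const_mul C).mono' ?_ (Filter.Eventually.of_forall fun z => ?_)
  · exact (hu.comp (RhoA_meas a b)).aestronglyMeasurable
  · exact RhoA_bd h ha hb z.1 z.2

theorem RhoA_int1 {F : Type} [NormedAddCommGroup F] [NormedSpace ℝ F] [MeasurableSpace F]
    [BorelSpace F] [SecondCountableTopology F] {u : E d → F} (hu : Measurable u) (pu : PG u)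
    {a b : ℝ} (ha : |a| ≤ 1) (hb : |b| ≤ 1) (x : E d) :
    Integrable (fun z : E d => u (a • x + b • z)) (stdGaussian (E d)) := by
  obtain ⟨C, p, h⟩ := pu
  refine (((RhoA_poly p).const_mul ((1 + ‖x‖) ^ p)).const_mul C).mono' ?_
    (Filter.Eventually.of_forall fun z => ?_)
  · exact (hu.comp (by fun_prop)).aestronglyMeasurable
  · exact RhoA_bd h ha hb x z

theorem RhoA_int_inner {u w : E d → EuclideanSpace ℝ ι} (hu : Measurable u) (pu : PG u)
    (hw : Measurable w) (bw : ∃ C, ∀ x, ‖w x‖ ≤ C) {a b : ℝ} (ha : |a| ≤ 1) (hb : |b| ≤ 1) :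
    Integrable (fun p : E d × E d => ⟪u (a • p.1 + b • p.2), w p.1⟫)
      ((stdGaussian (E d)).prod (stdGaussian (E d))) := by
  obtain ⟨C, hC⟩ := bw
  refine ((RhoA_int hu pu ha hb).norm.mul_const C).mono' ?_
    (Filter.Eventually.of_forall fun z => ?_)
  · exact ((hu.comp (RhoA_meas a b)).inner (hw.comp measurable_fst)).aestronglyMeasurable
  · exact (norm_inner_le_norm _ _).trans (mul_le_mul_of_nonneg_left (hC _) (norm_nonneg _))

theorem RhoA_AA_prod {u w : E d → EuclideanSpace ℝ ι} (hu : Measurable u) (pu : PG u)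
    (hw : Measurable w) (bw : ∃ C, ∀ x, ‖w x‖ ≤ C) {ρ : ℝ} (h0 : 0 ≤ ρ) (h1 : ρ ≤ 1) :
    AA u w ρ = ∫ p : E d × E d, ⟪u (ρ • p.1 + √(1 - ρ ^ 2) • p.2), w p.1⟫
      ∂((stdGaussian (E d)).prod (stdGaussian (E d))) :=
  (integral_prod _ (RhoA_int_inner hu pu hw bw (by rwa [abs_of_nonneg h0]) RhoA_kap_le)).symm

theorem RhoA_AA_Ps {u w : E d → EuclideanSpace ℝ ι} (hu : Measurable u) (pu : PG u)
    {ρ : ℝ} (h0 : 0 ≤ ρ) (h1 : ρ ≤ 1) :
    AA u w ρ = ∫ x, ⟪Ps ρ u x, w x⟫ ∂(stdGaussian (E d)) := by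
  unfold AA Ps
  refine integral_congr_ae (Filter.Eventually.of_forall fun x => ?_)
  show ∫ z, ⟪u (ρ • x + √(1 - ρ ^ 2) • z), w x⟫ ∂(stdGaussian (E d)) =
    ⟪∫ z, u (ρ • x + √(1 - ρ ^ 2) • z) ∂(stdGaussian (E d)), w x⟫
  rw [real_inner_comm, ← integral_inner (RhoA_int1 hu pu (by rwa [abs_of_nonneg h0]) RhoA_kap_le x)]
  refine integral_congr_ae (Filter.Eventually.of_forall fun z => ?_)
  exact real_inner_comm _ _

theorem RhoA_Ps_eq (s : ℝ) (u : E d → EuclideanSpace ℝ ι) (x : E d) :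
    Ps s u x = Nop (1 - s ^ 2) u (s • x) := rfl

theorem RhoA_Ps_meas (s : ℝ) {u : E d → EuclideanSpace ℝ ι} (hu : Measurable u) :
    Measurable (Ps s u) := by
  have h : Ps s u = fun x => Nop (1 - s ^ 2) u (s • x) := rfl
  rw [h]
  exact (measurable_Nop hu).comp (by fun_prop)

theorem RhoA_Ps_PG {s : ℝ} (h0 : 0 ≤ s) (h1 : s ≤ 1) {u : E d → EuclideanSpace ℝ ι}
    (pu : PG u) : PG (Ps s u) := by
  obtain ⟨C, p, h⟩ := pu
  refine ⟨C * ∫ z : E d, (1 + ‖z‖) ^ p ∂(stdGaussian (E d)), p, fun x => ?_⟩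
  unfold Ps
  have h2 : ‖∫ z, u (s • x + √(1 - s ^ 2) • z) ∂(stdGaussian (E d))‖
      ≤ ∫ z : E d, C * ((1 + ‖x‖) ^ p * (1 + ‖z‖) ^ p) ∂(stdGaussian (E d)) := by
    refine norm_integral_le_of_norm_le (((RhoA_poly p).const_mul _).const_mul _)
      (Filter.Eventually.of_forall fun z => ?_)
    exact RhoA_bd h (by rwa [abs_of_nonneg h0]) RhoA_kap_le x z
  refine h2.trans (le_of_eq ?_)
  rw [integral_const_mul, integral_const_mul]
  ring

theorem RhoA_Ps_bdd {s : ℝ} {u : E d → EuclideanSpace ℝ ι} (bu : ∃ C, ∀ x, ‖u x‖ ≤ C) :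
    ∃ C, ∀ x, ‖Ps s u x‖ ≤ C := by
  obtain ⟨C, hC⟩ := bu
  refine ⟨C, fun x => ?_⟩
  unfold Ps
  refine (norm_integral_le_of_norm_le_const (Filter.Eventually.of_forall fun z => hC _)).trans ?_
  simp

theorem RhoA_comb2 {F : Type} [NormedAddCommGroup F] [NormedSpace ℝ F] [MeasurableSpace F]
    [BorelSpace F] [SecondCountableTopology F] [CompleteSpace F] {v : E d → F}
    (hv : Measurable v) (a b : ℝ) :
    ∫ p : E d × E d, v (a • p.1 + b • p.2) ∂((stdGaussian (E d)).prod (stdGaussian (E d)))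
      = ∫ z, v (√(a ^ 2 + b ^ 2) • z) ∂(stdGaussian (E d)) := by
  by_cases h : a ^ 2 + b ^ 2 = 0
  · have ha : a = 0 := by nlinarith [sq_nonneg a, sq_nonneg b]
    have hb : b = 0 := by nlinarith [sq_nonneg a, sq_nonneg b]
    subst ha
    subst hb
    simp
  · have hpos : 0 < a ^ 2 + b ^ 2 := lt_of_le_of_ne (by positivity) (Ne.symm h)
    set τ := √(a ^ 2 + b ^ 2) with hτ
    have hτ0 : 0 < τ := Real.sqrt_pos.2 hpos
    have hτ2 : τ ^ 2 = a ^ 2 + b ^ 2 := Real.sq_sqrt hpos.le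
    have h1 : (a / τ) ^ 2 + (b / τ) ^ 2 = 1 := by
      rw [div_pow, div_pow, ← add_div, hτ2, div_self h]
    have h2 : ∫ z, v (τ • z) ∂(stdGaussian (E d)) =
        ∫ z, v (τ • z) ∂(((stdGaussian (E d)).prod (stdGaussian (E d))).map
          (fun p => (a / τ) • p.1 + (b / τ) • p.2)) := by
      rw [gauss_comb h1]
    have hm : Measurable (fun z : E d => v (τ • z)) := hv.comp (measurable_const_smul τ)
    rw [h2, integral_map (RhoA_meas (a / τ) (b / τ)).aemeasurable hm.aestronglyMeasurable]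
    refine integral_congr_ae (Filter.Eventually.of_forall fun p => ?_)
    show v (a • p.1 + b • p.2) = v (τ • ((a / τ) • p.1 + (b / τ) • p.2))
    congr 1
    rw [smul_add, smul_smul, smul_smul, mul_div_cancel₀ _ hτ0.ne', mul_div_cancel₀ _ hτ0.ne']

/-- change of variables by the rotation -/
theorem RhoA_rot {F : Type} [NormedAddCommGroup F] [NormedSpace ℝ F] [MeasurableSpace F]
    [BorelSpace F] [SecondCountableTopology F] {ρ κ : ℝ} (h : ρ ^ 2 + κ ^ 2 = 1)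
    {g : E d × E d → F} (hg : Measurable g) :
    ∫ p : E d × E d, g (ρ • p.1 + κ • p.2, κ • p.1 - ρ • p.2)
      ∂((stdGaussian (E d)).prod (stdGaussian (E d)))
      = ∫ q, g q ∂((stdGaussian (E d)).prod (stdGaussian (E d))) := by
  have hT : Measurable (fun p : E d × E d => (ρ • p.1 + κ • p.2, κ • p.1 - ρ • p.2)) := by
    fun_prop
  have h1 := integral_map (μ := (stdGaussian (E d)).prod (stdGaussian (E d))) hT.aemeasurable
    (f := g) hg.aestronglyMeasurable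
  rw [gauss_rot h] at h1
  exact h1.symm

theorem RhoA_inv {ρ κ : ℝ} (h : ρ ^ 2 + κ ^ 2 = 1) (x z : E d) :
    ρ • (ρ • x + κ • z) + κ • (κ • x - ρ • z) = x := by
  have : ρ • (ρ • x + κ • z) + κ • (κ • x - ρ • z) = (ρ ^ 2 + κ ^ 2) • x := by
    simp only [smul_add, smul_sub, smul_smul, add_smul]
    have e1 : ρ * κ = κ * ρ := mul_comm _ _
    rw [sq, sq, e1]
    abel
  rw [this, h, one_smul]

/-- the Mehler operators are symmetric -/
theorem RhoA_symm {s : ℝ} (h0 : 0 ≤ s) (h1 : s ≤ 1) {u w : E d → EuclideanSpace ℝ ι}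
    (hu : Measurable u) (pu : PG u) (hw : Measurable w) (bw : ∃ C, ∀ x, ‖w x‖ ≤ C) :
    ∫ x, ⟪Ps s u x, w x⟫ ∂(stdGaussian (E d)) = ∫ x, ⟪u x, Ps s w x⟫ ∂(stdGaussian (E d)) := by
  have hk := RhoA_kap h0 h1
  have hs : |s| ≤ 1 := by rwa [abs_of_nonneg h0]
  set κ := √(1 - s ^ 2) with hκ
  have hκ1 : |κ| ≤ 1 := RhoA_kap_le
  have hw1 : Measurable (fun q : E d × E d => w (s • q.1 + κ • q.2)) := hw.comp (RhoA_meas s κ)
  have hgm : Measurable (fun q : E d × E d => ⟪u q.1, w (s • q.1 + κ • q.2)⟫) :=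
    (hu.comp measurable_fst).inner hw1
  have pw : PG w := by
    obtain ⟨C, hC⟩ := bw
    exact PG.of_bdd hC
  rw [← RhoA_AA_Ps hu pu h0 h1, RhoA_AA_prod hu pu hw bw h0 h1]
  have e1 : ∫ p : E d × E d, ⟪u (s • p.1 + κ • p.2), w p.1⟫
      ∂((stdGaussian (E d)).prod (stdGaussian (E d)))
      = ∫ q : E d × E d, ⟪u q.1, w (s • q.1 + κ • q.2)⟫
      ∂((stdGaussian (E d)).prod (stdGaussian (E d))) := by
    rw [← RhoA_rot hk hgm]
    refine integral_congr_ae (Filter.Eventually.of_forall fun p => ?_)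
    show ⟪u (s • p.1 + κ • p.2), w p.1⟫ = ⟪u (s • p.1 + κ • p.2),
      w (s • (s • p.1 + κ • p.2) + κ • (κ • p.1 - s • p.2))⟫
    rw [RhoA_inv hk]
  rw [← hκ, e1]
  have hint : Integrable (fun q : E d × E d => ⟪u q.1, w (s • q.1 + κ • q.2)⟫)
      ((stdGaussian (E d)).prod (stdGaussian (E d))) := by
    obtain ⟨C, hC⟩ := bw
    have hi1 : Integrable (fun q : E d × E d => u q.1)
        ((stdGaussian (E d)).prod (stdGaussian (E d))) :=
      (gauss_integrable hu.aestronglyMeasurable pu).comp_fst _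
    refine (hi1.norm.mul_const C).mono' hgm.aestronglyMeasurable
      (Filter.Eventually.of_forall fun z => ?_)
    exact (norm_inner_le_norm _ _).trans (mul_le_mul_of_nonneg_left (hC _) (norm_nonneg _))
  rw [integral_prod _ hint]
  refine integral_congr_ae (Filter.Eventually.of_forall fun x => ?_)
  show ∫ z, ⟪u x, w (s • x + κ • z)⟫ ∂(stdGaussian (E d)) = ⟪u x, Ps s w x⟫
  rw [integral_inner (RhoA_int1 hw pw hs hκ1 x)]
  rfl

/-- semigroup property -/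
theorem RhoA_semi {s r : ℝ} (h0 : 0 ≤ s) (h1 : s ≤ 1) (r0 : 0 ≤ r) (r1 : r ≤ 1)
    {u : E d → EuclideanSpace ℝ ι} (hu : Measurable u) (pu : PG u) (x : E d) :
    Ps s (Ps r u) x = Ps (s * r) u x := by
  have hk := RhoA_kap h0 h1
  have hk' := RhoA_kap r0 r1
  have hs : |s| ≤ 1 := by rwa [abs_of_nonneg h0]
  have hr : |r| ≤ 1 := by rwa [abs_of_nonneg r0]
  have e0 : Ps s (Ps r u) x = ∫ z, ∫ z', u (r • (s • x + √(1 - s ^ 2) • z) + √(1 - r ^ 2) • z')
      ∂(stdGaussian (E d)) ∂(stdGaussian (E d)) := rfl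
  set κ := √(1 - s ^ 2) with hκ
  set κ' := √(1 - r ^ 2) with hκ'
  have hκ1 : |κ| ≤ 1 := RhoA_kap_le
  have hκ2 : |κ'| ≤ 1 := RhoA_kap_le
  -- the translated function
  set v : E d → EuclideanSpace ℝ ι := fun y => u ((s * r) • x + y) with hv
  have hvm : Measurable v := hu.comp (by fun_prop)
  have pv : PG v := by
    obtain ⟨C, p, h⟩ := pu
    refine ⟨C * (1 + ‖x‖) ^ p, p, fun y => ?_⟩
    have hsr : |s * r| ≤ 1 := by
      rw [abs_mul]
      exact mul_le_one₀ hs (abs_nonneg _) hr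
    have := RhoA_bd h hsr (b := 1) (by norm_num) x y
    rw [one_smul] at this
    refine this.trans (le_of_eq (by ring))
  have e1 : ∀ z z' : E d, u (r • (s • x + κ • z) + κ' • z') = v ((r * κ) • z + κ' • z') := by
    intro z z'
    rw [hv]
    show u _ = u _
    congr 1
    rw [smul_add, smul_smul, smul_smul, mul_comm r s, add_assoc]
  have hrk : |r * κ| ≤ 1 := by
    rw [abs_mul]
    exact mul_le_one₀ hr (abs_nonneg _) hκ1
  rw [e0]
  simp only [e1]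
  rw [← integral_prod (fun p : E d × E d => v ((r * κ) • p.1 + κ' • p.2))
    (RhoA_int hvm pv hrk hκ2), RhoA_comb2 hvm]
  unfold Ps
  have e2 : (r * κ) ^ 2 + κ' ^ 2 = 1 - (s * r) ^ 2 := by
    rw [mul_pow]
    have e3 : κ ^ 2 = 1 - s ^ 2 := by linarith
    have e4 : κ' ^ 2 = 1 - r ^ 2 := by linarith
    rw [e3, e4]
    ring
  rw [e2]

theorem Ps_CB {s : ℝ} (h0 : 0 < s) (h1 : s < 1) {u : E d → EuclideanSpace ℝ ι}
    (hu : Measurable u) (bu : ∃ C, ∀ x, ‖u x‖ ≤ C) : CB 2 (Ps s u) := by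
  have hη : 0 < 1 - s ^ 2 := by nlinarith
  have h := (((Nop_CB hη hu bu).mono (by norm_num : 2 ≤ 3)).affine 0 s)
  have e : Ps s u = fun y => Nop (1 - s ^ 2) u (0 + s • y) := by
    funext y
    rw [zero_add]
    rfl
  rw [e]
  exact h

theorem Ps_Dv_sq {s : ℝ} (h0 : 0 < s) (h1 : s < 1) {u : E d → EuclideanSpace ℝ ι}
    (hu : Measurable u) (bu : ∃ C, ∀ x, ‖u x‖ ≤ C) :
    ∫ x, ‖Dv (Ps s u) x‖ ^ 2 ∂(stdGaussian (E d)) ≤
      s ^ 2 / (1 - s ^ 2) * ∫ x, ‖u x‖ ^ 2 ∂(stdGaussian (E d)) := by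
  have hη : 0 < 1 - s ^ 2 := by nlinarith
  have hs : |s| ≤ 1 := by rw [abs_of_pos h0]; exact h1.le
  have hkap := RhoA_kap h0.le h1.le
  have hN := Nop_CB hη hu bu
  have hNd : Differentiable ℝ (Nop (1 - s ^ 2) u) :=
    (hN.contDiff).differentiable (by norm_num)
  have e : Ps s u = fun y => Nop (1 - s ^ 2) u (0 + s • y) := by
    funext y
    rw [zero_add]
    rfl
  have hDv : ∀ x, ‖Dv (Ps s u) x‖ ^ 2 ≤
      s ^ 2 / (1 - s ^ 2) * ∫ z, ‖u (s • x + √(1 - s ^ 2) • z)‖ ^ 2 ∂(stdGaussian (E d)) := by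
    intro x
    rw [e, Dv_affine _ 0 x s hNd, zero_add, norm_smul, mul_pow, Real.norm_eq_abs, sq_abs,
      div_eq_mul_inv, mul_assoc]
    exact mul_le_mul_of_nonneg_left (norm_Dv_Nop_sq_le hη hu bu (s • x)) (sq_nonneg s)
  have hsqm : Measurable (fun y => ‖u y‖ ^ 2) := hu.norm.pow_const 2
  have psq : PG (fun y => ‖u y‖ ^ 2) := by
    obtain ⟨C, hC⟩ := bu
    exact (PG.norm (PG.of_bdd hC)).pow 2
  have hi := RhoA_int hsqm psq hs (RhoA_kap_le (ρ := s))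
  have hi2 : Integrable (fun x => ∫ z, ‖u (s • x + √(1 - s ^ 2) • z)‖ ^ 2 ∂(stdGaussian (E d)))
      (stdGaussian (E d)) := hi.integral_prod_left
  have hcomb : ∫ x, ∫ z, ‖u (s • x + √(1 - s ^ 2) • z)‖ ^ 2 ∂(stdGaussian (E d))
      ∂(stdGaussian (E d)) = ∫ x, ‖u x‖ ^ 2 ∂(stdGaussian (E d)) := by
    rw [← integral_prod (fun p : E d × E d => ‖u (s • p.1 + √(1 - s ^ 2) • p.2)‖ ^ 2) hi,
      RhoA_comb2 hsqm, hkap, Real.sqrt_one]
    simp only [one_smul]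
  rw [← hcomb, ← integral_const_mul]
  refine integral_mono_of_nonneg (Filter.Eventually.of_forall fun x => sq_nonneg _)
    (hi2.const_mul _) (Filter.Eventually.of_forall hDv)

/-- symmetric splitting -/
theorem AA_split {s ρ : ℝ} (h0 : 0 < s) (h1 : s < 1) (hρ0 : 0 ≤ ρ) (hρ : ρ ≤ s ^ 2)
    {u w : E d → EuclideanSpace ℝ ι} (hu : Measurable u) (bu : ∃ C, ∀ x, ‖u x‖ ≤ C)
    (hw : Measurable w) (bw : ∃ C, ∀ x, ‖w x‖ ≤ C) :
    AA u w ρ = AA (Ps s u) (Ps s w) (ρ / s ^ 2) := by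
  have hs2 : 0 < s ^ 2 := by positivity
  have r0 : 0 ≤ ρ / s ^ 2 := div_nonneg hρ0 hs2.le
  have r1 : ρ / s ^ 2 ≤ 1 := (div_le_one hs2).2 hρ
  have hs21 : s ^ 2 ≤ 1 := by nlinarith
  have hρ1 : ρ ≤ 1 := hρ.trans hs21
  have pu : PG u := by
    obtain ⟨C, hC⟩ := bu
    exact PG.of_bdd hC
  have mPu := RhoA_Ps_meas s hu
  have pPu := RhoA_Ps_PG h0.le h1.le pu
  have mr := RhoA_Ps_meas (ρ / s ^ 2) mPu
  have pr := RhoA_Ps_PG r0 r1 pPu
  rw [RhoA_AA_Ps hu pu hρ0 hρ1, RhoA_AA_Ps mPu pPu r0 r1, ← RhoA_symm h0.le h1.le mr pr hw bw]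
  refine integral_congr_ae (Filter.Eventually.of_forall fun x => ?_)
  show ⟪Ps ρ u x, w x⟫ = ⟪Ps s (Ps (ρ / s ^ 2) (Ps s u)) x, w x⟫
  congr 1
  have e1 : Ps (ρ / s ^ 2) (Ps s u) = Ps (ρ / s ^ 2 * s) u := by
    funext y
    exact RhoA_semi r0 r1 h0.le h1.le hu pu y
  have r2 : 0 ≤ ρ / s ^ 2 * s := mul_nonneg r0 h0.le
  have r3 : ρ / s ^ 2 * s ≤ 1 := mul_le_one₀ r1 h0.le h1.le
  rw [e1, RhoA_semi h0.le h1.le r2 r3 hu pu x]
  congr 1
  field_simp

/-- one sided splitting, `u` of polynomial growth -/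
theorem AA_split' {s ρ : ℝ} (h0 : 0 < s) (h1 : s < 1) (hρ0 : 0 ≤ ρ) (hρ : ρ ≤ s)
    {u w : E d → EuclideanSpace ℝ ι} (hu : Continuous u) (pu : PG u)
    (hw : Measurable w) (bw : ∃ C, ∀ x, ‖w x‖ ≤ C) :
    AA u w ρ = AA u (Ps s w) (ρ / s) := by
  have r0 : 0 ≤ ρ / s := div_nonneg hρ0 h0.le
  have r1 : ρ / s ≤ 1 := (div_le_one h0).2 hρ
  have hρ1 : ρ ≤ 1 := hρ.trans h1.le
  have mr := RhoA_Ps_meas (ρ / s) hu.measurable
  have pr := RhoA_Ps_PG r0 r1 pu
  rw [RhoA_AA_Ps hu.measurable pu hρ0 hρ1, RhoA_AA_Ps hu.measurable pu r0 r1,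
    ← RhoA_symm h0.le h1.le mr pr hw bw]
  refine integral_congr_ae (Filter.Eventually.of_forall fun x => ?_)
  show ⟪Ps ρ u x, w x⟫ = ⟪Ps s (Ps (ρ / s) u) x, w x⟫
  congr 1
  rw [RhoA_semi h0.le h1.le r0 r1 hu.measurable pu x]
  congr 1
  field_simp

/-- integration by parts against a linear map -/
theorem RhoA_ibp (M : E d →L[ℝ] EuclideanSpace ℝ ι) {W : E d → EuclideanSpace ℝ ι}
    (hW : ContDiff ℝ 1 W) (pW : PG W) (pW' : PG (fun x => fderiv ℝ W x)) :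
    ∫ v, ⟪M v, W v⟫ ∂(stdGaussian (E d)) =
      ∫ v, (∑ i, ⟪M (EuclideanSpace.single i 1), fderiv ℝ W v (EuclideanSpace.single i 1)⟫)
        ∂(stdGaussian (E d)) := by
  have hWd : Differentiable ℝ W := hW.differentiable one_ne_zero
  -- the scalar functions
  have hg : ∀ i : Fin d, ContDiff ℝ 1 (fun v => ⟪M (EuclideanSpace.single i 1), W v⟫) :=
    fun i => contDiff_const.inner ℝ hW
  have hfd : ∀ (i : Fin d) (v e : E d),
      fderiv ℝ (fun v => ⟪M (EuclideanSpace.single i 1), W v⟫) v e =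
        ⟪M (EuclideanSpace.single i 1), fderiv ℝ W v e⟫ := by
    intro i v e
    have h1 : HasFDerivAt (fun v => ⟪M (EuclideanSpace.single i 1), W v⟫)
        ((innerSL ℝ (M (EuclideanSpace.single i 1))).comp (fderiv ℝ W v)) v :=
      (innerSL ℝ (M (EuclideanSpace.single i 1))).hasFDerivAt.comp v (hWd v).hasFDerivAt
    rw [h1.fderiv]
    rfl
  have pg : ∀ i : Fin d, PG (fun v => ⟪M (EuclideanSpace.single i 1), W v⟫) := by
    intro i
    obtain ⟨C, p, hC⟩ := pW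
    refine ⟨‖M (EuclideanSpace.single i 1)‖ * C, p, fun v => ?_⟩
    rw [mul_assoc]
    exact (norm_inner_le_norm _ _).trans (mul_le_mul_of_nonneg_left (hC v) (norm_nonneg _))
  have pg' : ∀ i : Fin d,
      PG (fun v => fderiv ℝ (fun v => ⟪M (EuclideanSpace.single i 1), W v⟫) v) := by
    intro i
    obtain ⟨C, p, hC⟩ := pW'
    refine ⟨‖M (EuclideanSpace.single i 1)‖ * C, p, fun v => ?_⟩
    have h1 : fderiv ℝ (fun v => ⟪M (EuclideanSpace.single i 1), W v⟫) v =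
        (innerSL ℝ (M (EuclideanSpace.single i 1))).comp (fderiv ℝ W v) := by
      ext e
      exact hfd i v e
    beta_reduce
    rw [h1, mul_assoc]
    refine (ContinuousLinearMap.opNorm_comp_le _ _).trans ?_
    rw [innerSL_apply_norm]
    exact mul_le_mul_of_nonneg_left (hC v) (norm_nonneg _)
  have key : ∀ i : Fin d,
      ∫ v, ⟪M (EuclideanSpace.single i 1), fderiv ℝ W v (EuclideanSpace.single i 1)⟫
        ∂(stdGaussian (E d)) =
      ∫ v, v i * ⟪M (EuclideanSpace.single i 1), W v⟫ ∂(stdGaussian (E d)) := by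
    intro i
    have h1 := gauss_ibp (hg i) (pg i) (pg' i) (EuclideanSpace.single i (1 : ℝ))
    simp only [hfd] at h1
    rw [h1]
    refine integral_congr_ae (Filter.Eventually.of_forall fun v => ?_)
    show ⟪v, EuclideanSpace.single i (1 : ℝ)⟫ • ⟪M (EuclideanSpace.single i 1), W v⟫ =
      v i * ⟪M (EuclideanSpace.single i 1), W v⟫
    rw [EuclideanSpace.inner_single_right, smul_eq_mul]
    simp
  have hexp : ∀ v : E d, ⟪M v, W v⟫ = ∑ i, v i * ⟪M (EuclideanSpace.single i 1), W v⟫ := by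
    intro v
    have hv : v = ∑ i, v i • (EuclideanSpace.single i (1 : ℝ) : E d) := by
      ext j
      simp [Finset.sum_apply, Pi.single_apply]
    conv_lhs => rw [hv]
    rw [map_sum, sum_inner]
    refine Finset.sum_congr rfl fun i _ => ?_
    rw [map_smul, real_inner_smul_left]
    rw [← hv]
  have hi1 : ∀ i ∈ (Finset.univ : Finset (Fin d)),
      Integrable (fun v : E d => v i * ⟪M (EuclideanSpace.single i 1), W v⟫)
        (stdGaussian (E d)) := by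
    intro i _
    have hm : Continuous (fun v : E d => v i * ⟪M (EuclideanSpace.single i 1), W v⟫) :=
      (by fun_prop : Continuous (fun v : E d => v i)).mul (hg i).continuous
    refine gauss_integrable hm.aestronglyMeasurable ?_
    exact (PG.apply PG_id i).mul (pg i)
  have hi2 : ∀ i ∈ (Finset.univ : Finset (Fin d)),
      Integrable (fun v : E d =>
        ⟪M (EuclideanSpace.single i 1), fderiv ℝ W v (EuclideanSpace.single i 1)⟫)
        (stdGaussian (E d)) := by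
    intro i _
    have hc : Continuous (fun v : E d =>
        ⟪M (EuclideanSpace.single i 1), fderiv ℝ W v (EuclideanSpace.single i 1)⟫) :=
      continuous_const.inner ((hW.continuous_fderiv one_ne_zero).clm_apply continuous_const)
    refine gauss_integrable hc.aestronglyMeasurable ?_
    obtain ⟨C, p, hC⟩ := pW'
    refine ⟨‖M (EuclideanSpace.single i 1)‖ * C, p, fun v => ?_⟩
    rw [mul_assoc]
    refine (norm_inner_le_norm _ _).trans (mul_le_mul_of_nonneg_left ?_ (norm_nonneg _))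
    have h2 := (fderiv ℝ W v).le_opNorm (EuclideanSpace.single i (1 : ℝ))
    have h3 : ‖(EuclideanSpace.single i (1 : ℝ) : E d)‖ = 1 := by simp
    rw [h3, mul_one] at h2
    exact h2.trans (hC v)
  simp only [hexp]
  rw [integral_finsetSum _ hi1, integral_finsetSum _ hi2]
  exact Finset.sum_congr rfl fun i _ => (key i).symm

/-- Cauchy-Schwarz for square integrable real functions -/
theorem RhoA_cs {Ω : Type} [MeasurableSpace Ω] (μ : Measure Ω) {f g h : Ω → ℝ}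
    (hh : Integrable h μ) (hf : Integrable (fun x => f x ^ 2) μ)
    (hg : Integrable (fun x => g x ^ 2) μ) (hb : ∀ x, |h x| ≤ |f x| * |g x|) :
    |∫ x, h x ∂μ| ≤ √(∫ x, f x ^ 2 ∂μ) * √(∫ x, g x ^ 2 ∂μ) := by
  set A := ∫ x, f x ^ 2 ∂μ with hA
  set B := ∫ x, g x ^ 2 ∂μ with hB
  have hA0 : 0 ≤ A := integral_nonneg fun x => sq_nonneg _
  have hB0 : 0 ≤ B := integral_nonneg fun x => sq_nonneg _
  have key : ∀ t : ℝ, 0 ≤ A * (t * t) + (-(2 * |∫ x, h x ∂μ|)) * t + B := by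
    intro t
    have h1 : 2 * |t| * |∫ x, h x ∂μ| ≤ A * (t * t) + B := by
      have h2 : |∫ x, h x ∂μ| ≤ ∫ x, |h x| ∂μ := abs_integral_le_integral_abs
      have h3 : 2 * |t| * ∫ x, |h x| ∂μ ≤ A * (t * t) + B := by
        rw [← integral_const_mul]
        have h4 : A * (t * t) + B = ∫ x, (f x ^ 2 * (t * t) + g x ^ 2) ∂μ := by
          rw [integral_add (hf.mul_const _) hg, integral_mul_const]
        rw [h4]
        refine integral_mono (hh.abs.const_mul _) ((hf.mul_const _).add hg) fun x => ?_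
        have h5 : 2 * |t| * |h x| ≤ 2 * |t| * (|f x| * |g x|) :=
          mul_le_mul_of_nonneg_left (hb x) (by positivity)
        have h6 : 0 ≤ (|t| * |f x| - |g x|) ^ 2 := sq_nonneg _
        have h7 : |f x| ^ 2 = f x ^ 2 := sq_abs _
        have h8 : |g x| ^ 2 = g x ^ 2 := sq_abs _
        have h9 : |t| ^ 2 = t * t := by rw [sq_abs, sq]
        have h10 : 2 * |t| * (|f x| * |g x|) ≤ f x ^ 2 * (t * t) + g x ^ 2 := by
          rw [← h7, ← h8, ← h9]
          nlinarith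
        exact h5.trans h10
      have h4 : 2 * |t| * |∫ x, h x ∂μ| ≤ 2 * |t| * ∫ x, |h x| ∂μ :=
        mul_le_mul_of_nonneg_left h2 (by positivity)
      linarith
    have h2 : 2 * t * |∫ x, h x ∂μ| ≤ 2 * |t| * |∫ x, h x ∂μ| :=
      mul_le_mul_of_nonneg_right (by linarith [le_abs_self t]) (abs_nonneg _)
    nlinarith
  have hd := discrim_le_zero key
  unfold discrim at hd
  have h1 : |∫ x, h x ∂μ| ^ 2 ≤ A * B := by nlinarith
  rw [← Real.sqrt_mul hA0]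
  exact Real.le_sqrt_of_sq_le h1

theorem RhoA_sq_int {F : Type} [NormedAddCommGroup F] [NormedSpace ℝ F] [MeasurableSpace F]
    [BorelSpace F] [SecondCountableTopology F] {u : E d → F} (hu : Measurable u) (pu : PG u) :
    Integrable (fun x => ‖u x‖ ^ 2) (stdGaussian (E d)) :=
  gauss_integrable (hu.norm.pow_const 2).aestronglyMeasurable (pu.norm.pow 2)

/-- Cauchy-Schwarz -/
theorem AA_le {ρ : ℝ} (h0 : 0 ≤ ρ) (h1 : ρ ≤ 1) {u w : E d → EuclideanSpace ℝ ι}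
    (hu : Measurable u) (pu : PG u) (hw : Measurable w) (bw : ∃ C, ∀ x, ‖w x‖ ≤ C) :
    |AA u w ρ| ≤ √(∫ x, ‖u x‖ ^ 2 ∂(stdGaussian (E d))) *
      √(∫ x, ‖w x‖ ^ 2 ∂(stdGaussian (E d))) := by
  have hρ : |ρ| ≤ 1 := by rwa [abs_of_nonneg h0]
  have hk := RhoA_kap h0 h1
  have pw : PG w := by
    obtain ⟨C, hC⟩ := bw
    exact PG.of_bdd hC
  have hsqm : Measurable (fun y => ‖u y‖ ^ 2) := hu.norm.pow_const 2
  rw [RhoA_AA_prod hu pu hw bw h0 h1]
  have i2 : Integrable (fun p : E d × E d => ‖w p.1‖ ^ 2)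
      ((stdGaussian (E d)).prod (stdGaussian (E d))) := (RhoA_sq_int hw pw).comp_fst _
  have h2 := RhoA_cs _ (RhoA_int_inner hu pu hw bw hρ RhoA_kap_le)
    (RhoA_int hsqm (pu.norm.pow 2) hρ (RhoA_kap_le (ρ := ρ))) i2 (fun p => by
      rw [abs_norm, abs_norm]
      exact abs_real_inner_le_norm _ _)
  have e1 : ∫ p : E d × E d, ‖u (ρ • p.1 + √(1 - ρ ^ 2) • p.2)‖ ^ 2
      ∂((stdGaussian (E d)).prod (stdGaussian (E d))) = ∫ x, ‖u x‖ ^ 2 ∂(stdGaussian (E d)) := by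
    rw [RhoA_comb2 hsqm, hk, Real.sqrt_one]
    simp only [one_smul]
  have e2 : ∫ p : E d × E d, ‖w p.1‖ ^ 2 ∂((stdGaussian (E d)).prod (stdGaussian (E d)))
      = ∫ x, ‖w x‖ ^ 2 ∂(stdGaussian (E d)) := by
    rw [integral_prod _ i2]
    simp
  rw [e1, e2] at h2
  exact h2

/-- Cauchy-Schwarz for centred `w`, with the Poincare inequality for `u` -/
theorem AA_le_centred {ρ : ℝ} (h0 : 0 ≤ ρ) (h1 : ρ ≤ 1) {u w : E d → EuclideanSpace ℝ ι}
    {B : ℝ} (hu : ContDiff ℝ 1 u) (hB : ∀ x, ‖Dv u x‖ ≤ B) (hw : Measurable w)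
    (bw : ∃ C, ∀ x, ‖w x‖ ≤ C) (hw0 : ∫ x, w x ∂(stdGaussian (E d)) = 0) :
    |AA u w ρ| ≤ B * √(∫ x, ‖w x‖ ^ 2 ∂(stdGaussian (E d))) := by
  have hB0 : 0 ≤ B := (norm_nonneg _).trans (hB 0)
  have hud : Differentiable ℝ u := hu.differentiable one_ne_zero
  have hρ : |ρ| ≤ 1 := by rwa [abs_of_nonneg h0]
  have pu : PG u := by
    refine ⟨‖u 0‖ + B, 1, fun x => ?_⟩
    have h2 := lip_of_Dv hud hB x 0
    rw [sub_zero] at h2
    have h3 : ‖u x‖ ≤ ‖u x - u 0‖ + ‖u 0‖ := by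
      have := norm_add_le (u x - u 0) (u 0)
      rwa [sub_add_cancel] at this
    have h4 := mul_nonneg (norm_nonneg (u 0)) (norm_nonneg x)
    nlinarith [norm_nonneg x, norm_nonneg (u 0)]
  have pw : PG w := by
    obtain ⟨C, hC⟩ := bw
    exact PG.of_bdd hC
  have hum : Measurable u := hu.continuous.measurable
  set c : EuclideanSpace ℝ ι := ∫ x, u x ∂(stdGaussian (E d)) with hc
  set v : E d → EuclideanSpace ℝ ι := fun x => u x - c with hv
  have hvm : Measurable v := hum.sub_const c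
  have pv : PG v := pu.sub (PG.of_bdd (C := ‖c‖) fun _ => le_rfl)
  have e1 : AA u w ρ = AA v w ρ := by
    rw [RhoA_AA_prod hum pu hw bw h0 h1, RhoA_AA_prod hvm pv hw bw h0 h1]
    have h2 : ∀ p : E d × E d, ⟪v (ρ • p.1 + √(1 - ρ ^ 2) • p.2), w p.1⟫ =
        ⟪u (ρ • p.1 + √(1 - ρ ^ 2) • p.2), w p.1⟫ - ⟪c, w p.1⟫ := fun p => inner_sub_left _ _ _
    have i3 : Integrable (fun p : E d × E d => ⟪c, w p.1⟫)
        ((stdGaussian (E d)).prod (stdGaussian (E d))) := by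
      have := (gauss_integrable hw.aestronglyMeasurable pw).const_inner (𝕜 := ℝ) c
      exact this.comp_fst _
    simp only [h2]
    rw [integral_sub (RhoA_int_inner hum pu hw bw hρ RhoA_kap_le) i3]
    have e3 : ∫ p : E d × E d, ⟪c, w p.1⟫ ∂((stdGaussian (E d)).prod (stdGaussian (E d))) = 0 := by
      rw [integral_prod _ i3]
      simp only [integral_const, probReal_univ, one_smul]
      rw [integral_inner (gauss_integrable hw.aestronglyMeasurable pw), hw0, inner_zero_right]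
    rw [e3, sub_zero]
  rw [e1]
  refine (AA_le h0 h1 hvm pv hw bw).trans ?_
  refine mul_le_mul_of_nonneg_right ?_ (Real.sqrt_nonneg _)
  refine Real.sqrt_le_iff.2 ⟨hB0, ?_⟩
  have hiu := gauss_integrable hum.aestronglyMeasurable pu
  have hiu2 := RhoA_sq_int hum pu
  have e2 : ∫ x, ‖v x‖ ^ 2 ∂(stdGaussian (E d)) =
      (∫ x, ‖u x‖ ^ 2 ∂(stdGaussian (E d))) - ‖c‖ ^ 2 := by
    have h2 : ∀ x, ‖v x‖ ^ 2 = ‖u x‖ ^ 2 - 2 * ⟪c, u x⟫ + ‖c‖ ^ 2 := by
      intro x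
      rw [hv]
      show ‖u x - c‖ ^ 2 = _
      rw [norm_sub_sq_real, real_inner_comm]
    simp only [h2]
    have i4 : Integrable (fun x => 2 * ⟪c, u x⟫) (stdGaussian (E d)) :=
      (hiu.const_inner (𝕜 := ℝ) c).const_mul 2
    have i6 : Integrable (fun x => ‖u x‖ ^ 2 - 2 * ⟪c, u x⟫) (stdGaussian (E d)) := hiu2.sub i4
    rw [integral_add i6 (integrable_const _), integral_sub hiu2 i4,
      integral_const_mul, integral_inner hiu]
    simp only [integral_const, probReal_univ, one_smul]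
    rw [← hc, real_inner_self_eq_norm_sq]
    ring
  rw [e2]
  have hp := gauss_poinc hu pu (PG.of_bdd hB)
  refine hp.trans ?_
  have i5 : Integrable (fun _ : E d => B ^ 2) (stdGaussian (E d)) := integrable_const _
  calc ∫ x, ‖Dv u x‖ ^ 2 ∂(stdGaussian (E d)) ≤ ∫ _x : E d, B ^ 2 ∂(stdGaussian (E d)) := by
        refine integral_mono_of_nonneg (Filter.Eventually.of_forall fun x => sq_nonneg _) i5
          (Filter.Eventually.of_forall fun x => ?_)
        exact pow_le_pow_left₀ (norm_nonneg _) (hB x) 2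
    _ = B ^ 2 := by simp

/-- continuity up to the end points -/
theorem AA_continuousOn {u w : E d → EuclideanSpace ℝ ι}
    (hu : Continuous u) (pu : PG u) (hw : Measurable w) (bw : ∃ C, ∀ x, ‖w x‖ ≤ C) :
    ContinuousOn (AA u w) (Set.Icc 0 1) := by
  have h1 : ContinuousOn (fun ρ : ℝ => ∫ p : E d × E d, ⟪u (ρ • p.1 + √(1 - ρ ^ 2) • p.2), w p.1⟫
      ∂((stdGaussian (E d)).prod (stdGaussian (E d)))) (Set.Icc 0 1) := by
    obtain ⟨C, p, hC⟩ := pu
    obtain ⟨C', hC'⟩ := bw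
    have hC'0 : 0 ≤ C' := (norm_nonneg _).trans (hC' 0)
    refine continuousOn_of_dominated
      (bound := fun z => (C * ((1 + ‖z.1‖) ^ p * (1 + ‖z.2‖) ^ p)) * C') ?_ ?_ ?_ ?_
    · intro ρ _
      exact ((hu.measurable.comp (RhoA_meas ρ _)).inner
        (hw.comp measurable_fst)).aestronglyMeasurable
    · intro ρ hρ
      refine Filter.Eventually.of_forall fun z => ?_
      refine (norm_inner_le_norm _ _).trans ?_
      exact mul_le_mul (RhoA_bd hC (by rw [abs_of_nonneg hρ.1]; exact hρ.2) RhoA_kap_le z.1 z.2)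
        (hC' _) (norm_nonneg _)
        ((norm_nonneg _).trans (RhoA_bd hC (a := 0) (b := 0) (by norm_num) (by norm_num) z.1 z.2))
    · exact ((RhoA_poly2 p p).const_mul C).mul_const C'
    · refine Filter.Eventually.of_forall fun z => Continuous.continuousOn ?_
      have h2 : Continuous (fun ρ : ℝ => ρ • z.1 + √(1 - ρ ^ 2) • z.2) := by fun_prop
      exact (hu.comp h2).inner continuous_const
  refine h1.congr fun ρ hρ => ?_
  exact RhoA_AA_prod hu.measurable pu hw bw hρ.1 hρ.2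

theorem RhoA_kap_deriv {ρ : ℝ} (h0 : 0 < ρ) (h1 : ρ < 1) :
    HasDerivAt (fun r : ℝ => √(1 - r ^ 2)) (-(ρ / √(1 - ρ ^ 2))) ρ := by
  have h2 : 0 < 1 - ρ ^ 2 := by nlinarith
  have h3 : HasDerivAt (fun r : ℝ => 1 - r ^ 2) (-(2 * ρ)) ρ := by
    have := ((hasDerivAt_id ρ).pow 2).const_sub 1
    simpa using this
  have h4 := h3.sqrt h2.ne'
  have h5 : -(2 * ρ) / (2 * √(1 - ρ ^ 2)) = -(ρ / √(1 - ρ ^ 2)) := by
    rw [neg_div, mul_div_mul_left _ _ (two_ne_zero)]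
  rw [h5] at h4
  exact h4

/-- the derivative of the integrand -/
noncomputable def RhoA_F' (u w : E d → EuclideanSpace ℝ ι) (ρ : ℝ) (p : E d × E d) : ℝ :=
  ⟪fderiv ℝ u (ρ • p.1 + √(1 - ρ ^ 2) • p.2) (p.1 - (ρ / √(1 - ρ ^ 2)) • p.2), w p.1⟫

theorem RhoA_hasDeriv {u w : E d → EuclideanSpace ℝ ι} (hu : ContDiff ℝ 1 u) {ρ : ℝ}
    (h0 : 0 < ρ) (h1 : ρ < 1) (p : E d × E d) :
    HasDerivAt (fun r : ℝ => ⟪u (r • p.1 + √(1 - r ^ 2) • p.2), w p.1⟫) (RhoA_F' u w ρ p) ρ := by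
  have h2 : HasDerivAt (fun r : ℝ => r • p.1 + √(1 - r ^ 2) • p.2)
      ((1 : ℝ) • p.1 + (-(ρ / √(1 - ρ ^ 2))) • p.2) ρ :=
    ((hasDerivAt_id ρ).smul_const p.1).add ((RhoA_kap_deriv h0 h1).smul_const p.2)
  have h3 : (1 : ℝ) • p.1 + (-(ρ / √(1 - ρ ^ 2))) • p.2 = p.1 - (ρ / √(1 - ρ ^ 2)) • p.2 := by
    rw [one_smul, neg_smul, ← sub_eq_add_neg]
  rw [h3] at h2
  have h4 : HasFDerivAt u (fderiv ℝ u (ρ • p.1 + √(1 - ρ ^ 2) • p.2))
      (ρ • p.1 + √(1 - ρ ^ 2) • p.2) :=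
    (hu.differentiable one_ne_zero _).hasFDerivAt
  have h5 := h4.comp_hasDerivAt ρ h2
  have h6 := h5.inner ℝ (hasDerivAt_const ρ (w p.1))
  simp only [inner_zero_right, zero_add] at h6
  exact h6

theorem RhoA_meas_F' {u w : E d → EuclideanSpace ℝ ι} (hu : ContDiff ℝ 1 u) (hw : Measurable w)
    (ρ : ℝ) : Measurable (RhoA_F' u w ρ) := by
  unfold RhoA_F'
  have hc : Continuous (fun p : E d × E d =>
      fderiv ℝ u (ρ • p.1 + √(1 - ρ ^ 2) • p.2) (p.1 - (ρ / √(1 - ρ ^ 2)) • p.2)) := by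
    refine ((hu.continuous_fderiv one_ne_zero).comp (by fun_prop)).clm_apply (by fun_prop)
  exact hc.measurable.inner (hw.comp measurable_fst)

theorem RhoA_bound {u w : E d → EuclideanSpace ℝ ι} {C : ℝ} {q : ℕ}
    (hC : ∀ x, ‖Dv u x‖ ≤ C * (1 + ‖x‖) ^ q) {C' : ℝ} (hC' : ∀ x, ‖w x‖ ≤ C') {K : ℝ}
    {ρ : ℝ} (hρ : |ρ| ≤ 1) (hK : |ρ / √(1 - ρ ^ 2)| ≤ K) (p : E d × E d) :
    ‖RhoA_F' u w ρ p‖ ≤
      (C * (1 + K) * C') * ((1 + ‖p.1‖) ^ (q + 1) * (1 + ‖p.2‖) ^ (q + 1)) := by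
  have hK0 : 0 ≤ K := (abs_nonneg _).trans hK
  have hC0 : 0 ≤ C := RhoA_nonneg hC
  unfold RhoA_F'
  refine (norm_inner_le_norm _ _).trans ?_
  have h1 : ‖fderiv ℝ u (ρ • p.1 + √(1 - ρ ^ 2) • p.2)‖ ≤
      C * ((1 + ‖p.1‖) ^ q * (1 + ‖p.2‖) ^ q) :=
    (opNorm_le_Dv u _).trans (RhoA_bd hC hρ RhoA_kap_le p.1 p.2)
  have h2 : ‖p.1 - (ρ / √(1 - ρ ^ 2)) • p.2‖ ≤ (1 + K) * ((1 + ‖p.1‖) * (1 + ‖p.2‖)) := by
    refine (norm_sub_le _ _).trans ?_
    rw [norm_smul, Real.norm_eq_abs]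
    have h3 : |ρ / √(1 - ρ ^ 2)| * ‖p.2‖ ≤ K * ‖p.2‖ :=
      mul_le_mul_of_nonneg_right hK (norm_nonneg _)
    have h4 := norm_nonneg p.1
    have h5 := norm_nonneg p.2
    have h6 := mul_nonneg h4 h5
    have h7 := mul_nonneg hK0 h4
    have h8 := mul_nonneg hK0 h6
    have h9 := mul_nonneg hK0 h5
    nlinarith
  have h3 := (fderiv ℝ u (ρ • p.1 + √(1 - ρ ^ 2) • p.2)).le_opNorm
    (p.1 - (ρ / √(1 - ρ ^ 2)) • p.2)
  have h4 : 0 ≤ C * ((1 + ‖p.1‖) ^ q * (1 + ‖p.2‖) ^ q) := (norm_nonneg _).trans h1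
  have h5 := h3.trans (mul_le_mul h1 h2 (norm_nonneg _) h4)
  refine (mul_le_mul h5 (hC' p.1) (norm_nonneg _) ((norm_nonneg _).trans h5)).trans
    (le_of_eq ?_)
  rw [pow_succ, pow_succ]
  ring

/-- the derivative after rotation -/
theorem RhoA_value {ρ : ℝ} (h0 : 0 < ρ) (h1 : ρ < 1) {u w : E d → EuclideanSpace ℝ ι}
    (hu : ContDiff ℝ 1 u) (pu' : PG (Dv u)) (hw : CB 1 w)
    (hint : Integrable (RhoA_F' u w ρ) ((stdGaussian (E d)).prod (stdGaussian (E d)))) :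
    ∫ p, RhoA_F' u w ρ p ∂((stdGaussian (E d)).prod (stdGaussian (E d))) =
      AA (Dv u) (Dv w) ρ := by
  have hk := RhoA_kap h0.le h1.le
  have hρ : |ρ| ≤ 1 := by rw [abs_of_pos h0]; exact h1.le
  have hκ0 : 0 < √(1 - ρ ^ 2) := Real.sqrt_pos.2 (by nlinarith)
  set κ := √(1 - ρ ^ 2) with hκ
  have hκ1 : |κ| ≤ 1 := RhoA_kap_le
  obtain ⟨C', hC'⟩ := hw.bdd
  obtain ⟨C'', hC''⟩ := hw.dv.bdd
  have hwc : ContDiff ℝ 1 w := hw.contDiff
  have hwd : Differentiable ℝ w := hwc.differentiable one_ne_zero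
  have hDu : Measurable (Dv u) := (contDiff_Dv (k := 0) hu).continuous.measurable
  have hDw : Measurable (Dv w) := (contDiff_Dv (k := 0) hwc).continuous.measurable
  -- the rotated integrand
  set g : E d × E d → ℝ := fun q => κ⁻¹ * ⟪fderiv ℝ u q.1 q.2, w (ρ • q.1 + κ • q.2)⟫ with hg
  have hgm : Measurable g := by
    have hc : Continuous (fun q : E d × E d => fderiv ℝ u q.1 q.2) :=
      ((hu.continuous_fderiv one_ne_zero).comp continuous_fst).clm_apply continuous_snd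
    exact (hc.measurable.inner (hwc.continuous.measurable.comp (RhoA_meas ρ κ))).const_mul _
  have e1 : ∀ p : E d × E d, RhoA_F' u w ρ p = g (ρ • p.1 + κ • p.2, κ • p.1 - ρ • p.2) := by
    intro p
    show ⟪fderiv ℝ u (ρ • p.1 + κ • p.2) (p.1 - (ρ / κ) • p.2), w p.1⟫ =
      κ⁻¹ * ⟪fderiv ℝ u (ρ • p.1 + κ • p.2) (κ • p.1 - ρ • p.2),
        w (ρ • (ρ • p.1 + κ • p.2) + κ • (κ • p.1 - ρ • p.2))⟫
    rw [RhoA_inv hk, ← real_inner_smul_left, ← map_smul, smul_sub, smul_smul, smul_smul,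
      inv_mul_cancel₀ hκ0.ne', one_smul, inv_mul_eq_div]
  have e2 : ∫ p, RhoA_F' u w ρ p ∂((stdGaussian (E d)).prod (stdGaussian (E d))) =
      ∫ q, g q ∂((stdGaussian (E d)).prod (stdGaussian (E d))) := by
    simp only [e1]
    exact RhoA_rot hk hgm
  have hT : Measurable (fun p : E d × E d => (ρ • p.1 + κ • p.2, κ • p.1 - ρ • p.2)) := by
    fun_prop
  have hgi : Integrable g ((stdGaussian (E d)).prod (stdGaussian (E d))) := by
    have h3 : Integrable (g ∘ fun p : E d × E d => (ρ • p.1 + κ • p.2, κ • p.1 - ρ • p.2))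
        ((stdGaussian (E d)).prod (stdGaussian (E d))) :=
      hint.congr (Filter.Eventually.of_forall e1)
    have h4 := (integrable_map_measure (μ := (stdGaussian (E d)).prod (stdGaussian (E d)))
      (f := fun p : E d × E d => (ρ • p.1 + κ • p.2, κ • p.1 - ρ • p.2)) (g := g)
      hgm.aestronglyMeasurable hT.aemeasurable).2 h3
    rwa [gauss_rot hk] at h4
  rw [e2, integral_prod _ hgi]
  -- inner integral
  have e3 : ∀ Y : E d, ∫ v, g (Y, v) ∂(stdGaussian (E d)) = ⟪Dv u Y, Ps ρ (Dv w) Y⟫ := by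
    intro Y
    have hWc : ContDiff ℝ 1 (fun v => w (ρ • Y + κ • v)) :=
      hwc.comp (contDiff_const.add (contDiff_id.const_smul κ))
    have hWf : ∀ v e : E d, fderiv ℝ (fun v => w (ρ • Y + κ • v)) v e =
        κ • fderiv ℝ w (ρ • Y + κ • v) e := by
      intro v e
      have h3 : HasFDerivAt (fun v : E d => ρ • Y + κ • v)
          (κ • ContinuousLinearMap.id ℝ (E d)) v :=
        ((hasFDerivAt_id v).const_smul κ).const_add _
      have h4 := (hwd (ρ • Y + κ • v)).hasFDerivAt.comp v h3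
      have h5 : fderiv ℝ (fun v => w (ρ • Y + κ • v)) v =
        (fderiv ℝ w (ρ • Y + κ • v)).comp (κ • ContinuousLinearMap.id ℝ (E d)) := h4.fderiv
      rw [h5, ContinuousLinearMap.comp_apply]
      exact map_smul (fderiv ℝ w (ρ • Y + κ • v)) κ e
    have pW : PG (fun v => w (ρ • Y + κ • v)) := PG.of_bdd (C := C') fun v => hC' _
    have pW' : PG (fun v => fderiv ℝ (fun v => w (ρ • Y + κ • v)) v) := by
      refine PG.of_bdd (C := κ * C'') fun v => ?_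
      have h5 : fderiv ℝ (fun v => w (ρ • Y + κ • v)) v = κ • fderiv ℝ w (ρ • Y + κ • v) := by
        ext1 e
        exact hWf v e
      rw [h5, norm_smul, Real.norm_of_nonneg hκ0.le]
      exact mul_le_mul_of_nonneg_left ((opNorm_le_Dv w _).trans (hC'' _)) hκ0.le
    have h6 := RhoA_ibp (fderiv ℝ u Y) hWc pW pW'
    have h7 : ∫ v, g (Y, v) ∂(stdGaussian (E d)) =
        κ⁻¹ * ∫ v, ⟪fderiv ℝ u Y v, w (ρ • Y + κ • v)⟫ ∂(stdGaussian (E d)) :=
      integral_const_mul _ _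
    rw [h7, h6, ← integral_const_mul]
    have h8 : ⟪Dv u Y, Ps ρ (Dv w) Y⟫ =
        ∫ v, ⟪Dv u Y, Dv w (ρ • Y + κ • v)⟫ ∂(stdGaussian (E d)) := by
      rw [integral_inner (RhoA_int1 hDw (PG.of_bdd hC'') hρ hκ1 Y)]
      rfl
    rw [h8]
    refine integral_congr_ae (Filter.Eventually.of_forall fun v => ?_)
    show κ⁻¹ * (∑ i, ⟪fderiv ℝ u Y (EuclideanSpace.single i 1),
      fderiv ℝ (fun v => w (ρ • Y + κ • v)) v (EuclideanSpace.single i 1)⟫) =
        ⟪Dv u Y, Dv w (ρ • Y + κ • v)⟫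
    simp only [hWf, real_inner_smul_right]
    rw [← Finset.mul_sum, ← mul_assoc, inv_mul_cancel₀ hκ0.ne', one_mul, PiLp.inner_apply,
      Fintype.sum_prod_type]
    refine Finset.sum_congr rfl fun i _ => ?_
    rw [PiLp.inner_apply]
    rfl
  simp only [e3]
  rw [RhoA_AA_Ps hDu pu' h0.le h1.le, RhoA_symm h0.le h1.le hDu pu' hDw ⟨C'', hC''⟩]

/-- derivative in the correlation parameter -/
theorem AA_deriv {ρ : ℝ} (h0 : 0 < ρ) (h1 : ρ < 1) {u w : E d → EuclideanSpace ℝ ι}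
    (hu : ContDiff ℝ 1 u) (pu : PG u) (pu' : PG (Dv u)) (hw : CB 1 w) :
    HasDerivAt (AA u w) (AA (Dv u) (Dv w) ρ) ρ := by
  obtain ⟨C, q, hC⟩ := id pu'
  obtain ⟨C', hC'⟩ := hw.bdd
  have hwc : ContDiff ℝ 1 w := hw.contDiff
  have hwm : Measurable w := hwc.continuous.measurable
  have hum : Measurable u := hu.continuous.measurable
  set b : ℝ := (1 + ρ) / 2 with hb
  have hb1 : b < 1 := by rw [hb]; linarith
  have hρb : ρ < b := by rw [hb]; linarith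
  have hb0 : 0 < b := h0.trans hρb
  set κ₀ := √(1 - b ^ 2) with hκ₀
  have hκ₀0 : 0 < κ₀ := Real.sqrt_pos.2 (by nlinarith)
  have hs : Set.Ioo 0 b ∈ nhds ρ := Ioo_mem_nhds h0 hρb
  have hK : ∀ r ∈ Set.Ioo (0 : ℝ) b, |r / √(1 - r ^ 2)| ≤ κ₀⁻¹ := by
    intro r hr
    have h2 : κ₀ ≤ √(1 - r ^ 2) := Real.sqrt_le_sqrt (by nlinarith [hr.1, hr.2])
    rw [abs_div, abs_of_pos hr.1, abs_of_nonneg (Real.sqrt_nonneg _), ← one_div]
    exact div_le_div₀ zero_le_one (hr.2.le.trans hb1.le) hκ₀0 h2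
  have hmain := hasDerivAt_integral_of_dominated_loc_of_deriv_le
    (μ := (stdGaussian (E d)).prod (stdGaussian (E d))) (x₀ := ρ) (s := Set.Ioo 0 b)
    (F := fun (r : ℝ) (p : E d × E d) => ⟪u (r • p.1 + √(1 - r ^ 2) • p.2), w p.1⟫)
    (F' := fun (r : ℝ) (p : E d × E d) => RhoA_F' u w r p)
    (bound := fun p => (C * (1 + κ₀⁻¹) * C') * ((1 + ‖p.1‖) ^ (q + 1) * (1 + ‖p.2‖) ^ (q + 1)))
    hs ?_ ?_ ?_ ?_ ?_ ?_
  · have hval := RhoA_value h0 h1 hu pu' hw hmain.1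
    have h2 := hmain.2
    rw [hval] at h2
    refine h2.congr_of_eventuallyEq ?_
    filter_upwards [Ioo_mem_nhds h0 h1] with r hr
    exact RhoA_AA_prod hum pu hwm ⟨C', hC'⟩ hr.1.le hr.2.le
  · refine Filter.Eventually.of_forall fun r => ?_
    exact ((hum.comp (RhoA_meas r _)).inner (hwm.comp measurable_fst)).aestronglyMeasurable
  · exact RhoA_int_inner hum pu hwm ⟨C', hC'⟩ (by rw [abs_of_pos h0]; exact h1.le) RhoA_kap_le
  · exact (RhoA_meas_F' hu hwm ρ).aestronglyMeasurable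
  · refine Filter.Eventually.of_forall fun p r hr => ?_
    exact RhoA_bound hC hC' (by rw [abs_of_pos hr.1]; exact hr.2.le.trans hb1.le) (hK r hr) p
  · exact (RhoA_poly2 (q + 1) (q + 1)).const_mul _
  · refine Filter.Eventually.of_forall fun p r hr => ?_
    exact RhoA_hasDeriv hu hr.1 (hr.2.trans hb1) p

end Vale.Agent.P347
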