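import Vale.Agent.Lib.P347.RhoA

/-!
P347: derivatives of the Mehler correlation functional of all orders.

Proof of `AA_smooth`. Induction on `m`, for all `ι`, `u`, `w` at once. `m = 0`: `AA_le`; continuity
near `ρ` follows from the representation below. Step: fix `ρ₀` in `(0,1)` and put
`s² = (1 + ρ₀)/2`. For `ρ` near `ρ₀`, `AA u w ρ = AA (Ps s u) (Ps s w) (ρ/s²)` (`AA_split`), which
has derivative `s⁻² AA (Dv (Ps s u)) (Dv (Ps s w)) (ρ/s²)` (`AA_deriv`). The induction hypothesis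
for `Dv (Ps s u)`, `Dv (Ps s w)` (bounded, continuous, `L²` norms at most
`(s/√(1-s²))` times those of `u`, `w`, `Ps_Dv_sq`) at `ρ₀/s² = 2ρ₀/(1+ρ₀)`
(`1 - ρ₀/s² = (1-ρ₀)/(1+ρ₀) ≥ (1-ρ₀)/2`) gives
`|AA^(m+1)(ρ₀)| ≤ s^(-2(m+1)) C_m (1-ρ₀/s²)^(-m) (s²/(1-s²)) |u||w| ≤ C_(m+1) (1-ρ₀)^(-(m+1)) |u||w|`.
`AA_smooth'`: same with the one sided splitting `AA_split'`, `s = (1 + ρ₀)/2`:
`AA F w ρ = AA F (Ps s w) (ρ/s)`, derivative `s⁻¹ AA (Dv F) (Dv (Ps s w)) (ρ/s)`, then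
`AA_smooth` with `m - 1` for the bounded continuous maps `Dv F`, `Dv (Ps s w)`;
`|Dv (Ps s w)|₂ ≤ (1-s²)^(-1/2) |w|₂`, `1 - s² ≥ (1-ρ₀)/2`.
-/

open MeasureTheory ProbabilityTheory

namespace Vale.Agent.P347

private theorem step {m : ℕ} {f g : ℝ → ℝ} {x c b : ℝ} {U : Set ℝ} (hU : U ∈ nhds x)
    (hf : ∀ y ∈ U, HasDerivAt f (b * g (c * y)) y) (hg : ContDiffAt ℝ m g (c * x)) :
    ContDiffAt ℝ (m + 1 : ℕ) f x ∧
      iteratedDeriv (m + 1) f x = b * c ^ m * iteratedDeriv m g (c * x) := by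
  have h1 : ContDiffAt ℝ m (fun y => b * g (c * y)) x := by
    refine contDiffAt_const.mul ?_
    exact ContDiffAt.comp x hg (contDiffAt_const.mul contDiffAt_id)
  constructor
  · have h2 : ((m + 1 : ℕ) : WithTop ℕ∞) = (m : WithTop ℕ∞) + 1 := by push_cast; rfl
    rw [h2, contDiffAt_succ_iff_hasFDerivAt]
    refine ⟨fun y => ContinuousLinearMap.toSpanSingleton ℝ (b * g (c * y)), ⟨U, hU, ?_⟩, ?_⟩
    · intro y hy
      exact (hf y hy).hasFDerivAt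
    · exact (ContinuousLinearMap.toSpanSingletonCLE (𝕜 := ℝ) (E := ℝ)).contDiff.contDiffAt.comp x h1
  · have h3 : deriv f =ᶠ[nhds x] fun y => b * g (c * y) :=
      Filter.mem_of_superset hU fun y hy => (hf y hy).deriv
    have h4 : ∀ (k : ℕ) (h : ℝ → ℝ), iteratedDeriv k (fun y => h (c * y)) =
        fun y => c ^ k * iteratedDeriv k h (c * y) := by
      intro k
      induction k with
      | zero => intro h; funext y; simp
      | succ k ih =>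
        intro h
        rw [iteratedDeriv_succ']
        have h5 : deriv (fun y => h (c * y)) = fun y => c * deriv h (c * y) := by
          funext y
          rw [deriv_comp_mul_left, smul_eq_mul]
        rw [h5]
        funext y
        rw [iteratedDeriv_const_mul_field, ih (deriv h), iteratedDeriv_succ']
        ring
    rw [iteratedDeriv_succ', (h3.iteratedDeriv m).self_of_nhds, iteratedDeriv_const_mul_field,
      h4 m g]
    ring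

private theorem pg_of_bdd {d : ℕ} {F : Type} [Norm F] {u : E d → F}
    (hu : ∃ B, ∀ x, ‖u x‖ ≤ B) : PG u := by
  obtain ⟨B, hB⟩ := hu
  exact ⟨B, 0, fun x => by simpa using hB x⟩

private theorem CB2_unfold {d : ℕ} {ι : Type} [Fintype ι] {u : E d → EuclideanSpace ℝ ι}
    (h : CB 2 u) : ContDiff ℝ 1 u ∧ (∃ C, ∀ x, ‖u x‖ ≤ C) ∧ CB 1 u ∧ ContDiff ℝ 1 (Dv u) ∧
      ∃ C, ∀ x, ‖Dv u x‖ ≤ C := by
  obtain ⟨h1, h2, h3, h4, -⟩ := h
  exact ⟨h1, h2, ⟨h1, h2, h3.continuous, h4⟩, h3, h4⟩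

private theorem AA_local {d : ℕ} {ι : Type} [Fintype ι] {u w : E d → EuclideanSpace ℝ ι}
    (hu : Measurable u) (bu : ∃ B, ∀ x, ‖u x‖ ≤ B) (hw : Measurable w)
    (bw : ∃ B, ∀ x, ‖w x‖ ≤ B) {s : ℝ} (h0 : 0 < s) (h1 : s < 1) {ρ : ℝ} (hρ0 : 0 < ρ)
    (hρ1 : ρ < s ^ 2) :
    HasDerivAt (AA u w) ((s ^ 2)⁻¹ * AA (Dv (Ps s u)) (Dv (Ps s w)) ((s ^ 2)⁻¹ * ρ)) ρ := by
  obtain ⟨cu1, cu2, -, cu4, cu5⟩ := CB2_unfold (Ps_CB h0 h1 hu bu)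
  obtain ⟨-, -, cw3, -, -⟩ := CB2_unfold (Ps_CB h0 h1 hw bw)
  have hs2 : 0 < s ^ 2 := by positivity
  have e1 : AA u w =ᶠ[nhds ρ] fun t => AA (Ps s u) (Ps s w) ((s ^ 2)⁻¹ * t) := by
    filter_upwards [Ioo_mem_nhds hρ0 hρ1] with t ht
    rw [AA_split h0 h1 ht.1.le ht.2.le hu bu hw bw, div_eq_inv_mul]
  have h2 : 0 < (s ^ 2)⁻¹ * ρ := by positivity
  have h3 : (s ^ 2)⁻¹ * ρ < 1 := by
    rw [inv_mul_lt_iff₀ hs2, mul_one]
    exact hρ1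
  have h4 := AA_deriv h2 h3 cu1 (pg_of_bdd cu2) (pg_of_bdd cu5) cw3
  have h5 : HasDerivAt (fun t : ℝ => (s ^ 2)⁻¹ * t) ((s ^ 2)⁻¹ * 1) ρ :=
    (hasDerivAt_id ρ).const_mul _
  have h6 := HasDerivAt.comp ρ h4 h5
  rw [mul_one, mul_comm] at h6
  exact h6.congr_of_eventuallyEq e1

private theorem AA_local' {d : ℕ} {ι : Type} [Fintype ι] {F w : E d → EuclideanSpace ℝ ι}
    {B : ℝ} (hF : ContDiff ℝ 1 F) (hB : ∀ x, ‖Dv F x‖ ≤ B) (hw : Measurable w)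
    (bw : ∃ B', ∀ x, ‖w x‖ ≤ B') {s : ℝ} (h0 : 0 < s) (h1 : s < 1) {ρ : ℝ} (hρ0 : 0 < ρ)
    (hρ1 : ρ < s) :
    HasDerivAt (AA F w) (s⁻¹ * AA (Dv F) (Dv (Ps s w)) (s⁻¹ * ρ)) ρ := by
  obtain ⟨-, -, cw3, -, -⟩ := CB2_unfold (Ps_CB h0 h1 hw bw)
  have hB0 : 0 ≤ B := (norm_nonneg _).trans (hB 0)
  have hPG : PG F := by
    refine ⟨‖F 0‖ + B, 1, fun x => ?_⟩
    have h2 := lip_of_Dv (hF.differentiable (by norm_num)) hB x 0
    rw [sub_zero] at h2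
    have h3 : ‖F x‖ ≤ ‖F 0‖ + ‖F x - F 0‖ := by
      have := norm_add_le (F 0) (F x - F 0)
      rwa [add_sub_cancel] at this
    rw [pow_one]
    have h4 := norm_nonneg (F 0)
    have h5 := norm_nonneg x
    nlinarith [mul_nonneg h4 h5]
  have e1 : AA F w =ᶠ[nhds ρ] fun t => AA F (Ps s w) (s⁻¹ * t) := by
    filter_upwards [Ioo_mem_nhds hρ0 hρ1] with t ht
    rw [AA_split' h0 h1 ht.1.le ht.2.le hF.continuous hPG hw bw, div_eq_inv_mul]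
  have h2 : 0 < s⁻¹ * ρ := by positivity
  have h3 : s⁻¹ * ρ < 1 := by
    rw [inv_mul_lt_iff₀ h0, mul_one]
    exact hρ1
  have h4 := AA_deriv h2 h3 hF hPG (pg_of_bdd ⟨B, hB⟩) cw3
  have h5 : HasDerivAt (fun t : ℝ => s⁻¹ * t) (s⁻¹ * 1) ρ := (hasDerivAt_id ρ).const_mul _
  have h6 := HasDerivAt.comp ρ h4 h5
  rw [mul_one, mul_comm] at h6
  exact h6.congr_of_eventuallyEq e1

theorem AA_smooth (m : ℕ) : ∃ C : ℝ, 0 ≤ C ∧ ∀ (d : ℕ) (ι : Type) (_ : Fintype ι)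
    (u w : E d → EuclideanSpace ℝ ι), Measurable u → (∃ B, ∀ x, ‖u x‖ ≤ B) →
    Measurable w → (∃ B, ∀ x, ‖w x‖ ≤ B) → ∀ ρ : ℝ, 0 < ρ → ρ < 1 →
      ContDiffAt ℝ m (AA u w) ρ ∧
      |iteratedDeriv m (AA u w) ρ| ≤ C / (1 - ρ) ^ m *
        (√(∫ x, ‖u x‖ ^ 2 ∂(stdGaussian (E d))) * √(∫ x, ‖w x‖ ^ 2 ∂(stdGaussian (E d)))) := by
  induction m with
  | zero =>
    refine ⟨1, zero_le_one, ?_⟩
    intro d ι _ u w hu bu hw bw ρ h0 h1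
    constructor
    · have hs : ρ < √((1 + ρ) / 2) ^ 2 := by
        rw [Real.sq_sqrt (by linarith)]
        linarith
      have hs0 : 0 < √((1 + ρ) / 2) := Real.sqrt_pos.2 (by linarith)
      have hs1 : √((1 + ρ) / 2) < 1 := by
        rw [Real.sqrt_lt' one_pos]
        linarith
      have h2 : ((0 : ℕ) : WithTop ℕ∞) = 0 := rfl
      rw [h2, contDiffAt_zero]
      refine ⟨Set.Ioo 0 (√((1 + ρ) / 2) ^ 2), Ioo_mem_nhds h0 hs, ?_⟩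
      intro t ht
      exact (AA_local hu bu hw bw hs0 hs1 ht.1 ht.2).continuousAt.continuousWithinAt
    · rw [iteratedDeriv_zero, pow_zero, div_one, one_mul]
      exact AA_le h0.le h1.le hu (pg_of_bdd bu) hw bw
  | succ m ih =>
    obtain ⟨C, hC, ih⟩ := ih
    refine ⟨2 ^ (m + 1) * C, by positivity, ?_⟩
    intro d ι _ u w hu bu hw bw ρ h0 h1
    obtain ⟨s, hsdef⟩ : ∃ s, s = √((1 + ρ) / 2) := ⟨_, rfl⟩
    have hs2 : s ^ 2 = (1 + ρ) / 2 := by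
      rw [hsdef, Real.sq_sqrt (by linarith)]
    have hs0 : 0 < s := by
      rw [hsdef]
      exact Real.sqrt_pos.2 (by linarith)
    have hs1 : s < 1 := by
      rw [hsdef, Real.sqrt_lt' one_pos]
      linarith
    have hρs : ρ < s ^ 2 := by
      rw [hs2]
      linarith
    obtain ⟨-, -, -, cu4, cu5⟩ := CB2_unfold (Ps_CB hs0 hs1 hu bu)
    obtain ⟨-, -, -, cw4, cw5⟩ := CB2_unfold (Ps_CB hs0 hs1 hw bw)
    have hs2' : 0 < s ^ 2 := by positivity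
    have hr0 : 0 < (s ^ 2)⁻¹ * ρ := by positivity
    have hr1 : (s ^ 2)⁻¹ * ρ < 1 := by
      rw [inv_mul_lt_iff₀ hs2', mul_one]
      exact hρs
    obtain ⟨i1, i2⟩ := ih d (Fin d × ι) inferInstance (Dv (Ps s u)) (Dv (Ps s w))
      cu4.continuous.measurable cu5 cw4.continuous.measurable cw5 ((s ^ 2)⁻¹ * ρ) hr0 hr1
    obtain ⟨j1, j2⟩ := step (Ioo_mem_nhds h0 hρs)
      (fun y hy => AA_local hu bu hw bw hs0 hs1 hy.1 hy.2) i1
    refine ⟨j1, ?_⟩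
    rw [j2, abs_mul, abs_of_nonneg (by positivity)]
    have hK : s ^ 2 / (1 - s ^ 2) = (1 + ρ) / (1 - ρ) := by
      rw [hs2]
      have h5 : (1 : ℝ) - ρ ≠ 0 := by linarith
      have h6 : (1 : ℝ) - (1 + ρ) / 2 = (1 - ρ) / 2 := by ring
      rw [h6]
      field_simp
    have hK0 : 0 ≤ (1 + ρ) / (1 - ρ) := div_nonneg (by linarith) (by linarith)
    have pu := Ps_Dv_sq hs0 hs1 hu bu
    have pw := Ps_Dv_sq hs0 hs1 hw bw
    rw [hK] at pu pw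
    have pu' := Real.sqrt_le_sqrt pu
    have pw' := Real.sqrt_le_sqrt pw
    rw [Real.sqrt_mul hK0] at pu' pw'
    have hprod : √(∫ x, ‖Dv (Ps s u) x‖ ^ 2 ∂(stdGaussian (E d))) *
        √(∫ x, ‖Dv (Ps s w) x‖ ^ 2 ∂(stdGaussian (E d))) ≤
        (1 + ρ) / (1 - ρ) * (√(∫ x, ‖u x‖ ^ 2 ∂(stdGaussian (E d))) *
          √(∫ x, ‖w x‖ ^ 2 ∂(stdGaussian (E d)))) := by
      refine (mul_le_mul pu' pw' (Real.sqrt_nonneg _) (by positivity)).trans (le_of_eq ?_)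
      have := Real.mul_self_sqrt hK0
      calc _ = (√((1 + ρ) / (1 - ρ)) * √((1 + ρ) / (1 - ρ))) *
          (√(∫ x, ‖u x‖ ^ 2 ∂(stdGaussian (E d))) *
          √(∫ x, ‖w x‖ ^ 2 ∂(stdGaussian (E d)))) := by ring
        _ = _ := by rw [this]
    have hr : (1 : ℝ) - (s ^ 2)⁻¹ * ρ = (1 - ρ) / (1 + ρ) := by
      rw [hs2]
      have : (1 : ℝ) + ρ ≠ 0 := by linarith
      field_simp
      ring
    rw [hr] at i2
    have hs2i : (s ^ 2)⁻¹ = 2 / (1 + ρ) := by rw [hs2, inv_div]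
    have h1ρ : 0 < 1 - ρ := by linarith
    have h1ρ' : 0 < 1 + ρ := by linarith
    calc (s ^ 2)⁻¹ * ((s ^ 2)⁻¹) ^ m *
        |iteratedDeriv m (AA (Dv (Ps s u)) (Dv (Ps s w))) ((s ^ 2)⁻¹ * ρ)|
        ≤ (s ^ 2)⁻¹ * ((s ^ 2)⁻¹) ^ m * (C / ((1 - ρ) / (1 + ρ)) ^ m *
          ((1 + ρ) / (1 - ρ) * (√(∫ x, ‖u x‖ ^ 2 ∂(stdGaussian (E d))) *
          √(∫ x, ‖w x‖ ^ 2 ∂(stdGaussian (E d)))))) := by
          refine mul_le_mul_of_nonneg_left (i2.trans ?_) (by positivity)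
          exact mul_le_mul_of_nonneg_left hprod (by positivity)
      _ = _ := by
        rw [hs2i]
        generalize √(∫ x, ‖u x‖ ^ 2 ∂(stdGaussian (E d))) = a
        generalize √(∫ x, ‖w x‖ ^ 2 ∂(stdGaussian (E d))) = b
        rw [div_pow, div_pow, pow_succ, pow_succ]
        field_simp

theorem AA_smooth' (m : ℕ) (hm : 1 ≤ m) : ∃ C : ℝ, 0 ≤ C ∧ ∀ (d : ℕ) (ι : Type) (_ : Fintype ι)
    (F w : E d → EuclideanSpace ℝ ι) (B : ℝ), ContDiff ℝ 1 F → (∀ x, ‖Dv F x‖ ≤ B) →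
    Measurable w → (∃ B', ∀ x, ‖w x‖ ≤ B') → ∀ ρ : ℝ, 0 < ρ → ρ < 1 →
      ContDiffAt ℝ m (AA F w) ρ ∧
      |iteratedDeriv m (AA F w) ρ| ≤ C * (√(1 - ρ) / (1 - ρ) ^ m) *
        (B * √(∫ x, ‖w x‖ ^ 2 ∂(stdGaussian (E d)))) := by
  obtain ⟨m, rfl⟩ : ∃ k, m = k + 1 := ⟨m - 1, by omega⟩
  obtain ⟨C, hC, ih⟩ := AA_smooth m
  refine ⟨2 ^ (m + 1) * C, by positivity, ?_⟩
  intro d ι _ F w B hF hB hw bw ρ h0 h1
  obtain ⟨s, hsdef⟩ : ∃ s, s = (1 + ρ) / 2 := ⟨_, rfl⟩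
  have hs0 : 0 < s := by linarith
  have hs1 : s < 1 := by linarith
  have hρs : ρ < s := by linarith
  have hB0 : 0 ≤ B := (norm_nonneg _).trans (hB 0)
  obtain ⟨-, -, -, cw4, cw5⟩ := CB2_unfold (Ps_CB hs0 hs1 hw bw)
  have hr0 : 0 < s⁻¹ * ρ := by positivity
  have hr1 : s⁻¹ * ρ < 1 := by
    rw [inv_mul_lt_iff₀ hs0, mul_one]
    exact hρs
  have hDc : Continuous (Dv F) := by
    have hc : Continuous (fun x => fderiv ℝ F x) := hF.continuous_fderiv one_ne_zero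
    refine (PiLp.continuous_toLp 2 _).comp (continuous_pi fun p => ?_)
    exact (EuclideanSpace.proj (𝕜 := ℝ) p.2).continuous.comp (hc.clm_apply continuous_const)
  obtain ⟨i1, i2⟩ := ih d (Fin d × ι) inferInstance (Dv F) (Dv (Ps s w))
      hDc.measurable ⟨B, hB⟩ cw4.continuous.measurable cw5 (s⁻¹ * ρ) hr0 hr1
  obtain ⟨j1, j2⟩ := step (Ioo_mem_nhds h0 hρs)
      (fun y hy => AA_local' hF hB hw bw hs0 hs1 hy.1 hy.2) i1
  refine ⟨j1, ?_⟩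
  rw [j2, abs_mul, abs_of_nonneg (by positivity)]
  have h1ρ : 0 < 1 - ρ := by linarith
  have h1ρ' : 0 < 1 + ρ := by linarith
  obtain ⟨q, hq⟩ : ∃ q, q = √(1 - ρ) := ⟨_, rfl⟩
  have hq0 : 0 < q := by
    rw [hq]
    exact Real.sqrt_pos.2 h1ρ
  have hq2 : 1 - ρ = q ^ 2 := by rw [hq, Real.sq_sqrt h1ρ.le]
  have hK : √(s ^ 2 / (1 - s ^ 2)) ≤ (1 + ρ) / q := by
    have h2 : 0 < 1 - s ^ 2 := by nlinarith
    have h3 : s ^ 2 / (1 - s ^ 2) ≤ ((1 + ρ) / q) ^ 2 := by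
      rw [div_pow, ← hq2, div_le_div_iff₀ h2 h1ρ, hsdef]
      nlinarith [mul_pos h1ρ' h1ρ', mul_pos h1ρ h1ρ', mul_pos (mul_pos h1ρ' h1ρ') h1ρ,
        mul_pos (mul_pos h1ρ' h1ρ') h0]
    exact Real.sqrt_le_iff.2 ⟨by positivity, h3⟩
  have pw := Real.sqrt_le_sqrt (Ps_Dv_sq hs0 hs1 hw bw)
  rw [Real.sqrt_mul (by
    have h2 : 0 < 1 - s ^ 2 := by nlinarith
    positivity)] at pw
  have pw' : √(∫ x, ‖Dv (Ps s w) x‖ ^ 2 ∂(stdGaussian (E d))) ≤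
      (1 + ρ) / q * √(∫ x, ‖w x‖ ^ 2 ∂(stdGaussian (E d))) :=
    pw.trans (mul_le_mul_of_nonneg_right hK (Real.sqrt_nonneg _))
  have pF : √(∫ x, ‖Dv F x‖ ^ 2 ∂(stdGaussian (E d))) ≤ B := by
    refine Real.sqrt_le_iff.2 ⟨hB0, ?_⟩
    have h2 : ∫ x, ‖Dv F x‖ ^ 2 ∂(stdGaussian (E d)) ≤ ∫ _x, B ^ 2 ∂(stdGaussian (E d)) := by
      refine integral_mono_of_nonneg (Filter.Eventually.of_forall fun x => by positivity)
        (integrable_const _) (Filter.Eventually.of_forall fun x => ?_)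
      exact pow_le_pow_left₀ (norm_nonneg _) (hB x) 2
    simpa using h2
  have hr : (1 : ℝ) - s⁻¹ * ρ = q ^ 2 / (1 + ρ) := by
    rw [hsdef, ← hq2]
    field_simp
    ring
  rw [hr] at i2
  have hsi : s⁻¹ = 2 / (1 + ρ) := by rw [hsdef, inv_div]
  rw [← hq, hq2]
  calc s⁻¹ * (s⁻¹) ^ m * |iteratedDeriv m (AA (Dv F) (Dv (Ps s w))) (s⁻¹ * ρ)|
      ≤ s⁻¹ * (s⁻¹) ^ m * (C / (q ^ 2 / (1 + ρ)) ^ m * (B * ((1 + ρ) / q *
          √(∫ x, ‖w x‖ ^ 2 ∂(stdGaussian (E d)))))) := by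
        refine mul_le_mul_of_nonneg_left (i2.trans ?_) (by positivity)
        exact mul_le_mul_of_nonneg_left
          (mul_le_mul pF pw' (Real.sqrt_nonneg _) hB0) (by positivity)
    _ = _ := by
      rw [hsi]
      generalize √(∫ x, ‖w x‖ ^ 2 ∂(stdGaussian (E d))) = b
      rw [div_pow, div_pow, pow_succ, pow_succ]
      field_simp
      ring

end Vale.Agent.P347
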