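import Vale.Agent.Lib.P347.RhoB

/-!
P347: the function `φ ρ = ρ * AA F w ρ` of the quadrature problem.

Proofs. `phi_deriv`: differentiate under the integral sign (`w` is only bounded measurable):
`d/dρ (ρ F (ρ x + κ z)) = F Y + (ρ/κ) fderiv F Y (κ x - ρ z)`.
`phi_bounds`: Leibniz, `φ^(m) = ρ AA^(m) + m AA^(m-1)`, `AA_smooth'` for orders at least one and
`AA_le_centred` for order zero (`norm_Dv_le_of_opNorm`: `‖Dv F‖ ≤ a √d`);
`1 ≤ √(1-ρ)/(1-ρ)`. `phi_ends`: `AA_continuousOn` and evaluation (`√(1 - 1) = 0`).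
-/

open MeasureTheory ProbabilityTheory
open scoped RealInnerProductSpace

namespace Vale.Agent.P347

private theorem rhoC_nonneg {d : ℕ} {F : E d → E d} {a : ℝ} (ha : ∀ x, ‖fderiv ℝ F x‖ ≤ a) :
    0 ≤ a := (norm_nonneg _).trans (ha 0)

private theorem rhoC_lip {d : ℕ} {F : E d → E d} {a : ℝ} (hF : ContDiff ℝ 1 F)
    (ha : ∀ x, ‖fderiv ℝ F x‖ ≤ a) (x : E d) : ‖F x‖ ≤ ‖F 0‖ + a * ‖x‖ := by
  have h1 : ‖F x - F 0‖ ≤ a * ‖x - 0‖ :=
    convex_univ.norm_image_sub_le_of_norm_fderiv_le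
      (fun y _ => (hF.differentiable one_ne_zero) y) (fun y _ => ha y)
      (Set.mem_univ _) (Set.mem_univ _)
  rw [sub_zero] at h1
  have h2 : ‖F x‖ ≤ ‖F 0‖ + ‖F x - F 0‖ := by
    have h3 : F x = F 0 + (F x - F 0) := by abel
    calc ‖F x‖ = ‖F 0 + (F x - F 0)‖ := by rw [← h3]
      _ ≤ _ := norm_add_le _ _
  linarith

private theorem rhoC_PG {d : ℕ} {F : E d → E d} {a : ℝ} (hF : ContDiff ℝ 1 F)
    (ha : ∀ x, ‖fderiv ℝ F x‖ ≤ a) : PG F := by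
  refine ⟨‖F 0‖ + a, 1, fun x => ?_⟩
  have h := rhoC_lip hF ha x
  have h0 := rhoC_nonneg ha
  have h1 := norm_nonneg x
  have h2 := norm_nonneg (F 0)
  rw [pow_one]
  nlinarith [mul_nonneg h2 h1]

private theorem rhoC_normInt {d : ℕ} : Integrable (fun x : E d => ‖x‖) (stdGaussian (E d)) :=
  (gauss_integrable (u := fun x : E d => x) aestronglyMeasurable_id PG_id).norm

private theorem rhoC_leibniz {g : ℝ → ℝ} {ρ : ℝ} (m : ℕ) (hg : ContDiffAt ℝ (m + 1 : ℕ) g ρ) :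
    iteratedDeriv (m + 1) (fun t => t * g t) ρ =
      ρ * iteratedDeriv (m + 1) g ρ + (m + 1) * iteratedDeriv m g ρ := by
  have hL := iteratedDeriv_fun_mul (f := fun t : ℝ => t) (g := g) (x := ρ) (n := m + 1)
    contDiffAt_id hg
  rw [hL, Finset.sum_range_succ', Finset.sum_range_succ']
  have h0 : ∑ k ∈ Finset.range m, ((m + 1).choose (k + 1 + 1) : ℝ) *
      iteratedDeriv (k + 1 + 1) (fun t : ℝ => t) ρ *
        iteratedDeriv (m + 1 - (k + 1 + 1)) g ρ = 0 := by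
    refine Finset.sum_eq_zero fun k _ => ?_
    rw [iteratedDeriv_fun_id, if_neg (by omega), if_neg (by omega)]
    ring
  rw [h0]
  simp only [iteratedDeriv_fun_id]
  simp
  ring


theorem phi_deriv {d : ℕ} {F w : E d → E d} {a : ℝ} (hF : ContDiff ℝ 1 F)
    (ha : ∀ x, ‖fderiv ℝ F x‖ ≤ a) (hw : Measurable w) (bw : ∃ B, ∀ x, ‖w x‖ ≤ B)
    {ρ : ℝ} (h0 : 0 < ρ) (h1 : ρ < 1) :
    HasDerivAt (fun t => t * AA F w t)
      (∫ x, ∫ z, ⟪F (ρ • x + √(1 - ρ ^ 2) • z) + (ρ / √(1 - ρ ^ 2)) •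
          fderiv ℝ F (ρ • x + √(1 - ρ ^ 2) • z) (√(1 - ρ ^ 2) • x - ρ • z), w x⟫
          ∂(stdGaussian (E d)) ∂(stdGaussian (E d))) ρ := by
  obtain ⟨B, hB⟩ := bw
  have hB0 : 0 ≤ B := (norm_nonneg _).trans (hB 0)
  have ha0 : 0 ≤ a := rhoC_nonneg ha
  have hFc : Continuous F := hF.continuous
  have hF' : Continuous (fderiv ℝ F) := hF.continuous_fderiv one_ne_zero
  set γ := stdGaussian (E d) with hγ
  -- neighbourhood
  obtain ⟨l, hl0, hlρ⟩ : ∃ l, 0 < l ∧ l < ρ := ⟨ρ / 2, by linarith, by linarith⟩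
  obtain ⟨r, hρr, hr1⟩ : ∃ r, ρ < r ∧ r < 1 := ⟨(ρ + 1) / 2, by linarith, by linarith⟩
  set M : ℝ := 1 / √(1 - r ^ 2) with hM
  have hr2 : 0 < 1 - r ^ 2 := by nlinarith
  have hM0 : 0 < √(1 - r ^ 2) := Real.sqrt_pos.2 hr2
  have hMn : 0 ≤ M := by positivity
  have hs : Set.Ioo l r ∈ nhds ρ := Ioo_mem_nhds hlρ hρr
  have hkap : ∀ t ∈ Set.Ioo l r, 0 < 1 - t ^ 2 ∧ √(1 - t ^ 2) ≤ 1 ∧ t / √(1 - t ^ 2) ≤ M ∧
      0 ≤ t / √(1 - t ^ 2) := by
    intro t ht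
    have h2 : 1 - r ^ 2 ≤ 1 - t ^ 2 := by nlinarith [ht.1, ht.2]
    have h3 : 0 < 1 - t ^ 2 := by linarith
    have h4 : 0 < √(1 - t ^ 2) := Real.sqrt_pos.2 h3
    refine ⟨h3, ?_, ?_, ?_⟩
    · rw [Real.sqrt_le_one]
      nlinarith [ht.1]
    · rw [hM, div_le_div_iff₀ h4 hM0]
      have h5 : √(1 - r ^ 2) ≤ √(1 - t ^ 2) := Real.sqrt_le_sqrt h2
      nlinarith [ht.1, ht.2, h4]
    · exact div_nonneg (by linarith [ht.1]) h4.le
  -- integrands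
  let Φ : ℝ → E d × E d → ℝ := fun t p => t * ⟪F (t • p.1 + √(1 - t ^ 2) • p.2), w p.1⟫
  let Φ' : ℝ → E d × E d → ℝ := fun t p =>
    ⟪F (t • p.1 + √(1 - t ^ 2) • p.2) + (t / √(1 - t ^ 2)) •
      fderiv ℝ F (t • p.1 + √(1 - t ^ 2) • p.2) (√(1 - t ^ 2) • p.1 - t • p.2), w p.1⟫
  have hmY : ∀ t : ℝ, Continuous (fun p : E d × E d => t • p.1 + √(1 - t ^ 2) • p.2) := by
    intro t; fun_prop
  have hw1 : Measurable (fun p : E d × E d => w p.1) := hw.comp measurable_fst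
  have hΦm : ∀ t, Measurable (Φ t) := by
    intro t
    exact ((hFc.comp (hmY t)).measurable.inner hw1).const_mul t
  have hΦ'm : ∀ t, Measurable (Φ' t) := by
    intro t
    refine Measurable.inner ?_ hw1
    refine Continuous.measurable ?_
    have hc1 : Continuous (fun p : E d × E d =>
        fderiv ℝ F (t • p.1 + √(1 - t ^ 2) • p.2) (√(1 - t ^ 2) • p.1 - t • p.2)) :=
      (hF'.comp (hmY t)).clm_apply (by fun_prop)
    exact (hFc.comp (hmY t)).add (hc1.const_smul (t / √(1 - t ^ 2)))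
  have hY : ∀ t ∈ Set.Icc (0 : ℝ) 1, ∀ p : E d × E d,
      ‖t • p.1 + √(1 - t ^ 2) • p.2‖ ≤ ‖p.1‖ + ‖p.2‖ := by
    intro t ht p
    have h2 : √(1 - t ^ 2) ≤ 1 := by
      rw [Real.sqrt_le_one]
      nlinarith [ht.1]
    calc ‖t • p.1 + √(1 - t ^ 2) • p.2‖ ≤ ‖t • p.1‖ + ‖√(1 - t ^ 2) • p.2‖ := norm_add_le _ _
      _ = t * ‖p.1‖ + √(1 - t ^ 2) * ‖p.2‖ := by
          rw [norm_smul, norm_smul, Real.norm_of_nonneg ht.1,
            Real.norm_of_nonneg (Real.sqrt_nonneg _)]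
      _ ≤ ‖p.1‖ + ‖p.2‖ := by
          have h3 := norm_nonneg p.1
          have h4 := norm_nonneg p.2
          have h5 := mul_le_mul_of_nonneg_right ht.2 h3
          have h6 := mul_le_mul_of_nonneg_right h2 h4
          linarith
  have hY' : ∀ t ∈ Set.Icc (0 : ℝ) 1, ∀ p : E d × E d,
      ‖√(1 - t ^ 2) • p.1 - t • p.2‖ ≤ ‖p.1‖ + ‖p.2‖ := by
    intro t ht p
    have h2 : √(1 - t ^ 2) ≤ 1 := by
      rw [Real.sqrt_le_one]
      nlinarith [ht.1]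
    calc ‖√(1 - t ^ 2) • p.1 - t • p.2‖ ≤ ‖√(1 - t ^ 2) • p.1‖ + ‖t • p.2‖ := norm_sub_le _ _
      _ = √(1 - t ^ 2) * ‖p.1‖ + t * ‖p.2‖ := by
          rw [norm_smul, norm_smul, Real.norm_of_nonneg ht.1,
            Real.norm_of_nonneg (Real.sqrt_nonneg _)]
      _ ≤ ‖p.1‖ + ‖p.2‖ := by
          have h3 := norm_nonneg p.1
          have h4 := norm_nonneg p.2
          have h5 := mul_le_mul_of_nonneg_right ht.2 h4
          have h6 := mul_le_mul_of_nonneg_right h2 h3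
          linarith
  have hFY : ∀ t ∈ Set.Icc (0 : ℝ) 1, ∀ p : E d × E d,
      ‖F (t • p.1 + √(1 - t ^ 2) • p.2)‖ ≤ ‖F 0‖ + a * (‖p.1‖ + ‖p.2‖) := by
    intro t ht p
    have h1 := rhoC_lip hF ha (t • p.1 + √(1 - t ^ 2) • p.2)
    have h2 := mul_le_mul_of_nonneg_left (hY t ht p) ha0
    linarith
  have hsub : ∀ t ∈ Set.Ioo l r, t ∈ Set.Icc (0 : ℝ) 1 := fun t ht =>
    ⟨by linarith [ht.1], by linarith [ht.2]⟩
  have hρI : ρ ∈ Set.Icc (0 : ℝ) 1 := ⟨h0.le, h1.le⟩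
  have hN : Integrable (fun p : E d × E d => ‖p.1‖ + ‖p.2‖) (γ.prod γ) :=
    (rhoC_normInt.comp_fst γ).add (rhoC_normInt.comp_snd γ)
  have hbd : Integrable (fun p : E d × E d =>
      (‖F 0‖ + (a + M * a) * (‖p.1‖ + ‖p.2‖)) * B) (γ.prod γ) :=
    ((integrable_const _).add (hN.const_mul _)).mul_const _
  have hΦint : ∀ t ∈ Set.Icc (0 : ℝ) 1, Integrable (Φ t) (γ.prod γ) := by
    intro t ht
    have h2 : Integrable (fun p : E d × E d => (‖F 0‖ + a * (‖p.1‖ + ‖p.2‖)) * B) (γ.prod γ) :=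
      ((integrable_const _).add (hN.const_mul _)).mul_const _
    refine h2.mono' (hΦm t).aestronglyMeasurable (Filter.Eventually.of_forall fun p => ?_)
    have h3 : ‖⟪F (t • p.1 + √(1 - t ^ 2) • p.2), w p.1⟫‖ ≤
        (‖F 0‖ + a * (‖p.1‖ + ‖p.2‖)) * B :=
      (norm_inner_le_norm _ _).trans
        (mul_le_mul (hFY t ht p) (hB _) (norm_nonneg _) (by positivity))
    have h4 : ‖Φ t p‖ = t * ‖⟪F (t • p.1 + √(1 - t ^ 2) • p.2), w p.1⟫‖ := by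
      show ‖t * ⟪F (t • p.1 + √(1 - t ^ 2) • p.2), w p.1⟫‖ = _
      rw [norm_mul, Real.norm_of_nonneg ht.1]
    rw [h4]
    have h5 := mul_le_mul_of_nonneg_right ht.2
      (norm_nonneg (⟪F (t • p.1 + √(1 - t ^ 2) • p.2), w p.1⟫ : ℝ))
    linarith
  have hΦ'b : ∀ t ∈ Set.Ioo l r, ∀ p : E d × E d,
      ‖Φ' t p‖ ≤ (‖F 0‖ + (a + M * a) * (‖p.1‖ + ‖p.2‖)) * B := by
    intro t ht p
    have hk := hkap t ht
    have h2 : ‖F (t • p.1 + √(1 - t ^ 2) • p.2) + (t / √(1 - t ^ 2)) •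
        fderiv ℝ F (t • p.1 + √(1 - t ^ 2) • p.2) (√(1 - t ^ 2) • p.1 - t • p.2)‖ ≤
        ‖F 0‖ + (a + M * a) * (‖p.1‖ + ‖p.2‖) := by
      refine (norm_add_le _ _).trans ?_
      rw [norm_smul, Real.norm_of_nonneg hk.2.2.2]
      have h3 := hFY t (hsub t ht) p
      have h4 : ‖fderiv ℝ F (t • p.1 + √(1 - t ^ 2) • p.2) (√(1 - t ^ 2) • p.1 - t • p.2)‖ ≤
          a * (‖p.1‖ + ‖p.2‖) :=
        ((fderiv ℝ F _).le_opNorm _).trans
          (mul_le_mul (ha _) (hY' t (hsub t ht) p) (norm_nonneg _) ha0)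
      have h5 : t / √(1 - t ^ 2) *
          ‖fderiv ℝ F (t • p.1 + √(1 - t ^ 2) • p.2) (√(1 - t ^ 2) • p.1 - t • p.2)‖ ≤
          M * (a * (‖p.1‖ + ‖p.2‖)) :=
        mul_le_mul hk.2.2.1 h4 (norm_nonneg _) hMn
      linarith
    exact (norm_inner_le_norm _ _).trans (mul_le_mul h2 (hB _) (norm_nonneg _) (by positivity))
  have hder : ∀ t ∈ Set.Ioo l r, ∀ p : E d × E d, HasDerivAt (fun s => Φ s p) (Φ' t p) t := by
    intro t ht p
    have hk := hkap t ht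
    have hk0 : √(1 - t ^ 2) ≠ 0 := (Real.sqrt_pos.2 hk.1).ne'
    have e1 : HasDerivAt (fun s : ℝ => √(1 - s ^ 2)) (-(t / √(1 - t ^ 2))) t := by
      have h2 : HasDerivAt (fun s : ℝ => 1 - s ^ 2) (-(2 * t)) t := by
        simpa using ((hasDerivAt_id t).pow 2).const_sub 1
      have h3 := h2.sqrt hk.1.ne'
      refine h3.congr_deriv ?_
      field_simp
    have e2 : HasDerivAt (fun s : ℝ => s • p.1 + √(1 - s ^ 2) • p.2)
        (p.1 + (-(t / √(1 - t ^ 2))) • p.2) t := by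
      have h2 : HasDerivAt (fun s : ℝ => s • p.1) p.1 t := by
        simpa using (hasDerivAt_id t).smul_const p.1
      exact h2.add (e1.smul_const p.2)
    have e3 : HasDerivAt (fun s : ℝ => F (s • p.1 + √(1 - s ^ 2) • p.2))
        (fderiv ℝ F (t • p.1 + √(1 - t ^ 2) • p.2) (p.1 + (-(t / √(1 - t ^ 2))) • p.2)) t :=
      ((hF.differentiable one_ne_zero) _).hasFDerivAt.comp_hasDerivAt t e2
    have e4 : HasDerivAt (fun s : ℝ => ⟪F (s • p.1 + √(1 - s ^ 2) • p.2), w p.1⟫)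
        ⟪fderiv ℝ F (t • p.1 + √(1 - t ^ 2) • p.2) (p.1 + (-(t / √(1 - t ^ 2))) • p.2), w p.1⟫
        t := by
      have h2 := e3.inner ℝ (hasDerivAt_const t (w p.1))
      refine h2.congr_deriv ?_
      simp
    have e5 := (hasDerivAt_id t).mul e4
    refine e5.congr_deriv ?_
    show 1 * ⟪F (t • p.1 + √(1 - t ^ 2) • p.2), w p.1⟫ + t *
      ⟪fderiv ℝ F (t • p.1 + √(1 - t ^ 2) • p.2) (p.1 + (-(t / √(1 - t ^ 2))) • p.2), w p.1⟫
      = ⟪F (t • p.1 + √(1 - t ^ 2) • p.2) + (t / √(1 - t ^ 2)) •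
      fderiv ℝ F (t • p.1 + √(1 - t ^ 2) • p.2) (√(1 - t ^ 2) • p.1 - t • p.2), w p.1⟫
    have e6 : √(1 - t ^ 2) • p.1 - t • p.2 =
        √(1 - t ^ 2) • (p.1 + (-(t / √(1 - t ^ 2))) • p.2) := by
      rw [smul_add, smul_smul, sub_eq_add_neg, ← neg_smul]
      congr 2
      field_simp
    rw [e6, map_smul, smul_smul, inner_add_left, inner_smul_left]
    have e7 : t / √(1 - t ^ 2) * √(1 - t ^ 2) = t := by field_simp
    rw [e7]
    simp
  have key := hasDerivAt_integral_of_dominated_loc_of_deriv_le (μ := γ.prod γ) (F := Φ)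
    (F' := Φ') (x₀ := ρ) hs (Filter.Eventually.of_forall fun t => (hΦm t).aestronglyMeasurable)
    (hΦint ρ hρI) (hΦ'm ρ).aestronglyMeasurable
    (Filter.Eventually.of_forall fun p t ht => hΦ'b t ht p) hbd
    (Filter.Eventually.of_forall fun p t ht => hder t ht p)
  have hval : ∫ p, Φ' ρ p ∂(γ.prod γ) =
      ∫ x, ∫ z, ⟪F (ρ • x + √(1 - ρ ^ 2) • z) + (ρ / √(1 - ρ ^ 2)) •
          fderiv ℝ F (ρ • x + √(1 - ρ ^ 2) • z) (√(1 - ρ ^ 2) • x - ρ • z), w x⟫ ∂γ ∂γ :=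
    integral_prod _ key.1
  rw [← hval]
  refine key.2.congr_of_eventuallyEq ?_
  filter_upwards [hs] with t ht
  show t * AA F w t = ∫ p, Φ t p ∂(γ.prod γ)
  rw [integral_prod _ (hΦint t (hsub t ht))]
  show t * AA F w t = ∫ x, ∫ z, t * ⟪F (t • x + √(1 - t ^ 2) • z), w x⟫ ∂γ ∂γ
  simp only [integral_const_mul]
  rfl

theorem phi_ends {d : ℕ} {F w : E d → E d} {a : ℝ} (hF : ContDiff ℝ 1 F)
    (ha : ∀ x, ‖fderiv ℝ F x‖ ≤ a) (hw : Measurable w) (bw : ∃ B, ∀ x, ‖w x‖ ≤ B) :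
    ContinuousOn (fun t => t * AA F w t) (Set.Icc 0 1) ∧
      (1 : ℝ) * AA F w 1 - 0 * AA F w 0 = ∫ x, ⟪F x, w x⟫ ∂(stdGaussian (E d)) := by
  refine ⟨continuousOn_id.mul (AA_continuousOn hF.continuous (rhoC_PG hF ha) hw bw), ?_⟩
  rw [one_mul, zero_mul, sub_zero]
  show ∫ x, ∫ z, ⟪F ((1 : ℝ) • x + √(1 - (1 : ℝ) ^ 2) • z), w x⟫ ∂(stdGaussian (E d))
    ∂(stdGaussian (E d)) = _
  refine integral_congr_ae (Filter.Eventually.of_forall fun x => ?_)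
  simp

theorem phi_bounds (r : ℕ) : ∃ C : ℝ, 0 ≤ C ∧ ∀ (d : ℕ) (F w : E d → E d) (a : ℝ),
    ContDiff ℝ 1 F → (∀ x, ‖fderiv ℝ F x‖ ≤ a) → Measurable w → (∃ B, ∀ x, ‖w x‖ ≤ B) →
    ∫ x, w x ∂(stdGaussian (E d)) = 0 →
      ∀ ρ : ℝ, 0 < ρ → ρ < 1 → ContDiffAt ℝ (r + 1 : ℕ) (fun t => t * AA F w t) ρ ∧
        ∀ m : ℕ, 1 ≤ m → m ≤ r + 1 →
          |iteratedDeriv m (fun t => t * AA F w t) ρ| ≤
            C * (a * √d * √(∫ x, ‖w x‖ ^ 2 ∂(stdGaussian (E d)))) *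
              (√(1 - ρ) / (1 - ρ) ^ m) := by
  classical
  have hC := fun m : ℕ => AA_smooth' (m + 1) (by omega)
  choose C hC0 hC using hC
  -- constant: `C m` bounds the derivative of order `m + 1`
  refine ⟨∑ m ∈ Finset.range (r + 2), (C m + (m + 1) * (1 + C (m - 1))), ?_, ?_⟩
  · refine Finset.sum_nonneg fun m _ => ?_
    have h1 := hC0 m
    have h2 := hC0 (m - 1)
    positivity
  intro d F w a hF ha hw bw hw0 ρ h0 h1
  have ha0 : 0 ≤ a := rhoC_nonneg ha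
  have hDv : ∀ x, ‖Dv F x‖ ≤ a * √d := fun x => norm_Dv_le_of_opNorm ha0 (ha x)
  have hcd : ∀ m : ℕ, ContDiffAt ℝ (m + 1 : ℕ) (AA F w) ρ := fun m =>
    (hC m d (Fin d) inferInstance F w (a * √d) hF hDv hw bw ρ h0 h1).1
  have hb : ∀ m : ℕ, |iteratedDeriv (m + 1) (AA F w) ρ| ≤
      C m * (√(1 - ρ) / (1 - ρ) ^ (m + 1)) *
        (a * √d * √(∫ x, ‖w x‖ ^ 2 ∂(stdGaussian (E d)))) := fun m =>
    (hC m d (Fin d) inferInstance F w (a * √d) hF hDv hw bw ρ h0 h1).2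
  refine ⟨contDiffAt_id.mul (hcd r), fun m hm1 hmr => ?_⟩
  obtain ⟨k, rfl⟩ : ∃ k, m = k + 1 := ⟨m - 1, by omega⟩
  set W : ℝ := a * √d * √(∫ x, ‖w x‖ ^ 2 ∂(stdGaussian (E d))) with hW
  have hW0 : 0 ≤ W := by positivity
  have hk0 : 0 < 1 - ρ := by linarith
  set q : ℝ := √(1 - ρ) / (1 - ρ) ^ (k + 1) with hq
  have hq0 : 0 ≤ q := by positivity
  rw [rhoC_leibniz k (hcd k)]
  have hlow : |iteratedDeriv k (AA F w) ρ| ≤ (1 + C (k - 1)) * (q * W) := by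
    rcases Nat.eq_zero_or_pos k with rfl | hk
    · rw [iteratedDeriv_zero]
      have h2 := AA_le_centred h0.le h1.le hF hDv hw bw hw0
      have h3 : 1 ≤ q := by
        rw [hq, zero_add, pow_one, one_le_div hk0]
        have h4 : (1 - ρ) ^ 2 ≤ 1 - ρ := by nlinarith
        calc 1 - ρ = √((1 - ρ) ^ 2) := (Real.sqrt_sq hk0.le).symm
          _ ≤ √(1 - ρ) := Real.sqrt_le_sqrt h4
      have h5 := hC0 (0 - 1)
      have h6 : W ≤ q * W := le_mul_of_one_le_left hW0 h3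
      have h7 : 0 ≤ C (0 - 1) * (q * W) := by positivity
      linarith
    · obtain ⟨j, rfl⟩ : ∃ j, k = j + 1 := ⟨k - 1, by omega⟩
      have h2 := hb j
      rw [Nat.add_sub_cancel]
      have h3 : √(1 - ρ) / (1 - ρ) ^ (j + 1) ≤ q := by
        rw [hq]
        refine div_le_div_of_nonneg_left (Real.sqrt_nonneg _) (by positivity) ?_
        exact pow_le_pow_of_le_one hk0.le (by linarith) (by omega)
      have h4 := hC0 j
      have h5 : C j * (√(1 - ρ) / (1 - ρ) ^ (j + 1)) * W ≤ C j * q * W :=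
        mul_le_mul_of_nonneg_right (mul_le_mul_of_nonneg_left h3 h4) hW0
      have h6 : 0 ≤ q * W := by positivity
      calc |iteratedDeriv (j + 1) (AA F w) ρ| ≤ C j * q * W := h2.trans h5
        _ ≤ (1 + C j) * (q * W) := by linarith
  have hhigh := hb k
  have h2 : |ρ * iteratedDeriv (k + 1) (AA F w) ρ + ((k : ℝ) + 1) * iteratedDeriv k (AA F w) ρ| ≤
      C k * q * W + ((k : ℝ) + 1) * ((1 + C (k - 1)) * (q * W)) := by
    refine (abs_add_le _ _).trans ?_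
    rw [abs_mul, abs_mul, abs_of_pos h0, abs_of_nonneg (by positivity : (0 : ℝ) ≤ (k : ℝ) + 1)]
    have h3 : ρ * |iteratedDeriv (k + 1) (AA F w) ρ| ≤ C k * q * W := by
      have h4 := mul_le_mul_of_nonneg_right h1.le (abs_nonneg (iteratedDeriv (k + 1) (AA F w) ρ))
      linarith
    have h5 := mul_le_mul_of_nonneg_left hlow (by positivity : (0 : ℝ) ≤ (k : ℝ) + 1)
    linarith
  refine h2.trans ?_
  have h3 : C k + ((k : ℝ) + 1) * (1 + C (k - 1)) ≤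
      ∑ m ∈ Finset.range (r + 2), (C m + (m + 1) * (1 + C (m - 1))) := by
    refine Finset.single_le_sum (f := fun m : ℕ => C m + ((m : ℝ) + 1) * (1 + C (m - 1)))
      (fun m _ => ?_) (Finset.mem_range.2 (by omega))
    have h4 := hC0 m
    have h5 := hC0 (m - 1)
    positivity
  have h4 := mul_le_mul_of_nonneg_right h3 (by positivity : (0 : ℝ) ≤ q * W)
  calc C k * q * W + ((k : ℝ) + 1) * ((1 + C (k - 1)) * (q * W))
      = (C k + ((k : ℝ) + 1) * (1 + C (k - 1))) * (q * W) := by ring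
    _ ≤ _ := h4
    _ = _ := by ring

end Vale.Agent.P347
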