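import Vale.Agent.Lib.P347.StepC
import Vale.Agent.Lib.P347.Casc

/-!
P347: running the algorithm: number of queries and law of the output.

Proofs. `run_cpt`: induction on the list. `run_law`: induction on the list for all `y`, splitting
off the first noise variable (`measurePreserving_piFinSuccAbove` at `0`, Fubini; the noise
variable `ω 0` is a pair (noise of the step, forward noise)). `exists_algo`: a single uniform seed
generates the whole noise (`MeasureTheory.Measure.exists_measurable_map_eq` for the standard Borel
space `Fin m → Noise d K × E d`, composed with the evaluation of the seeds at `0`, whose law is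
uniform), then `Cpt.toAlgo`, `Cpt.comap` and `run_law` for the indicator of `B`.
-/

open MeasureTheory ProbabilityTheory

namespace Vale.Agent.P347

/-- noise of one step together with the forward noise -/
abbrev SN (d K : ℕ) := Noise d K × E d

/-- its law -/
noncomputable def snLaw (d K : ℕ) : Measure (SN d K) := (noiseLaw d K).prod (stdGaussian (E d))

/-- the run of the algorithm along a list of steps, followed by the last step -/
noncomputable def run {d K : ℕ} (N : Nodes K) (o : E d → Ans d) :
    (l : List (ℝ × ℝ)) → ℝ → E d → (Fin (l.length + 1) → SN d K) → E d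
  | [], hl, y, ω => (y - hl • (o y).2) + √hl • (ω 0).2
  | a :: l, hl, y, ω => run N o l hl (stepO N o a.1 y (ω 0).1 + √a.2 • (ω 0).2) (Fin.tail ω)

/-- the corresponding operator -/
noncomputable def opL {d K : ℕ} (N : Nodes K) (V : E d → ℝ) :
    List (ℝ × ℝ) → ℝ → (E d → ℝ) → E d → ℝ
  | [], hl, f => Lst V hl f
  | a :: l, hl, f => Phat N V a.1 a.2 (opL N V l hl f)

/-- list of the cascade steps -/
noncomputable def cascList : ℝ → ℕ → List (ℝ × ℝ)
  | _, 0 => []
  | h, J + 1 => (h, h / 2) :: cascList (h / 2) J

variable {d K : ℕ} (N : Nodes K)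

theorem length_cascList (h : ℝ) (J : ℕ) : (cascList h J).length = J := by
  induction J generalizing h with
  | zero => rfl
  | succ J ih => simp [cascList, ih]

theorem opL_casc (V : E d → ℝ) (h : ℝ) (J : ℕ) (f : E d → ℝ) :
    opL N V (cascList h J) (h / 2 ^ J) f = casc N V h J f := by
  induction J generalizing h with
  | zero => simp [cascList, opL, casc]
  | succ J ih =>
    have e : h / 2 ^ (J + 1) = (h / 2) / 2 ^ J := by
      rw [pow_succ, div_div, mul_comm]
    rw [e]
    change Phat N V h (h / 2) (opL N V (cascList (h / 2) J) (h / 2 / 2 ^ J) f) = _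
    rw [ih (h / 2)]
    rfl

theorem opL_main (V : E d → ℝ) (h hl : ℝ) (n : ℕ) (l : List (ℝ × ℝ)) (f : E d → ℝ) :
    opL N V (List.replicate n (h, h) ++ l) hl f = (Phat N V h h)^[n] (opL N V l hl f) := by
  induction n with
  | zero => rfl
  | succ n ih =>
    rw [Function.iterate_succ_apply', ← ih]
    rfl

theorem opL_measurable {V : E d → ℝ} (hV : Pot d V) (l : List (ℝ × ℝ)) (hl : ℝ) {f : E d → ℝ}
    (hf : Measurable f) : Measurable (opL N V l hl f) := by
  induction l with
  | nil => exact casc_measurable (N := N) hV hf 0 hl
  | cons a l ih => exact Phat_measurable hV ih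

theorem RunL.measurable_tail {n : ℕ} {X : Type} [MeasurableSpace X] :
    Measurable (fun ω : Fin (n + 1) → X => Fin.tail ω) :=
  measurable_pi_lambda _ (fun i => measurable_pi_apply i.succ)

theorem run_measurable {V : E d → ℝ} (hV : Pot d V) (l : List (ℝ × ℝ)) (hl : ℝ) :
    Measurable (fun p : E d × (Fin (l.length + 1) → SN d K) =>
      run N (oracle V) l hl p.1 p.2) := by
  have hg : Measurable (gradient V) := hV.grad_contDiff.continuous.measurable
  induction l with
  | nil =>
    have h0 : Measurable (fun p : E d × (Fin (([] : List (ℝ × ℝ)).length + 1) → SN d K) =>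
        p.2 0) := (measurable_pi_apply 0).comp measurable_snd
    exact (measurable_fst.sub ((hg.comp measurable_fst).const_smul hl)).add
      ((measurable_snd.comp h0).const_smul (√hl))
  | cons a l ih =>
    have h0 : Measurable (fun p : E d × (Fin ((a :: l).length + 1) → SN d K) =>
        p.2 0) := (measurable_pi_apply 0).comp measurable_snd
    have h1 : Measurable (fun p : E d × (Fin ((a :: l).length + 1) → SN d K) =>
        stepO N (oracle V) a.1 p.1 (p.2 0).1 + √a.2 • (p.2 0).2) := by
      simp_rw [stepO_oracle]
      exact ((stepA_measurable (N := N) (h := a.1) hV).comp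
        (measurable_fst.prodMk (measurable_fst.comp h0))).add
          ((measurable_snd.comp h0).const_smul (√a.2))
    exact ih.comp (h1.prodMk (RunL.measurable_tail.comp measurable_snd))

theorem RunL.noiseLaw_prob (d K : ℕ) : IsProbabilityMeasure (noiseLaw d K) := by
  unfold noiseLaw
  infer_instance

theorem RunL.snLaw_prob (d K : ℕ) : IsProbabilityMeasure (snLaw d K) := by
  have := RunL.noiseLaw_prob d K
  unfold snLaw
  infer_instance

theorem run_law {V : E d → ℝ} (hV : Pot d V) (l : List (ℝ × ℝ)) (hl : ℝ) {f : E d → ℝ}
    (hf : Measurable f) (bf : ∃ C, ∀ x, |f x| ≤ C) (y : E d) :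
    ∫ ω, f (run N (oracle V) l hl y ω)
      ∂(Measure.pi fun _ : Fin (l.length + 1) => snLaw d K) = opL N V l hl f y := by
  obtain ⟨C, hC⟩ := bf
  have hN := RunL.noiseLaw_prob d K
  have hS := RunL.snLaw_prob d K
  induction l generalizing y with
  | nil =>
    have hg : Measurable (fun z : E d => f (cen V hl y + √hl • z)) :=
      hf.comp (measurable_const.add
        (Measurable.const_smul (g := fun z : E d => z) measurable_id (√hl)))
    have e1 : MeasurePreserving (fun ω : Fin (([] : List (ℝ × ℝ)).length + 1) → SN d K => ω 0)
        (Measure.pi fun _ => snLaw d K) (snLaw d K) :=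
      measurePreserving_eval (fun _ : Fin (([] : List (ℝ × ℝ)).length + 1) => snLaw d K) 0
    have e2 : MeasurePreserving (Prod.snd : SN d K → E d) (snLaw d K) (stdGaussian (E d)) :=
      measurePreserving_snd
    have e3 := e2.comp e1
    change ∫ ω : Fin (([] : List (ℝ × ℝ)).length + 1) → SN d K,
      f ((y - hl • gradient V y) + √hl • (ω 0).2) ∂_ = _
    have e4 : opL N V [] hl f y = ∫ z, f (cen V hl y + √hl • z) ∂(stdGaussian (E d)) := rfl
    rw [e4, ← e3.map_eq, integral_map e3.measurable.aemeasurable hg.aestronglyMeasurable]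
    rfl
  | cons a l ih =>
    have hb : ∀ x, |opL N V l hl f x| ≤ C := by
      intro x
      rw [← ih x]
      have := norm_integral_le_of_norm_le_const
        (μ := (Measure.pi fun _ : Fin (l.length + 1) => snLaw d K))
        (f := fun ω => f (run N (oracle V) l hl x ω)) (C := C)
        (Filter.Eventually.of_forall (fun ω => hC _))
      simpa using this
    let ν := Measure.pi fun _ : Fin (l.length + 1) => snLaw d K
    let F : SN d K × (Fin (l.length + 1) → SN d K) → ℝ := fun p =>
      f (run N (oracle V) l hl (stepA N V a.1 y p.1.1 + √a.2 • p.1.2) p.2)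
    have hFm : Measurable F := by
      refine hf.comp ((run_measurable N hV l hl).comp (Measurable.prodMk ?_ measurable_snd))
      exact ((stepA_measurable (N := N) (h := a.1) hV).comp
        (measurable_const.prodMk (measurable_fst.comp measurable_fst))).add
          ((measurable_snd.comp measurable_fst).const_smul (√a.2))
    have hFi : Integrable F ((snLaw d K).prod ν) :=
      Integrable.of_bound hFm.aestronglyMeasurable C (Filter.Eventually.of_forall (fun p => hC _))
    have mp : MeasurePreserving
        (MeasurableEquiv.piFinSuccAbove (fun _ : Fin (l.length + 1 + 1) => SN d K) 0)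
        (Measure.pi fun _ : Fin (l.length + 1 + 1) => snLaw d K) ((snLaw d K).prod ν) :=
      measurePreserving_piFinSuccAbove (fun _ : Fin (l.length + 1 + 1) => snLaw d K) 0
    have s1 : ∫ ω, f (run N (oracle V) (a :: l) hl y ω)
        ∂(Measure.pi fun _ : Fin ((a :: l).length + 1) => snLaw d K) =
        ∫ p, F p ∂((snLaw d K).prod ν) := by
      rw [← mp.map_eq, integral_map mp.measurable.aemeasurable hFm.aestronglyMeasurable]
      refine integral_congr_ae (Filter.Eventually.of_forall (fun ω => ?_))
      change f (run N (oracle V) l hl (stepO N (oracle V) a.1 y (ω 0).1 + √a.2 • (ω 0).2)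
        (Fin.tail ω)) = _
      rw [stepO_oracle]
      rfl
    rw [s1, integral_prod F hFi]
    have s2 : ∀ s : SN d K, ∫ ω, F (s, ω) ∂ν =
        opL N V l hl f (stepA N V a.1 y s.1 + √a.2 • s.2) :=
      fun s => ih (stepA N V a.1 y s.1 + √a.2 • s.2)
    simp_rw [s2]
    have hom := opL_measurable N hV l hl hf
    have hGm : Measurable (fun s : SN d K =>
        opL N V l hl f (stepA N V a.1 y s.1 + √a.2 • s.2)) := by
      refine hom.comp ?_
      exact ((stepA_measurable (N := N) (h := a.1) hV).comp
        (measurable_const.prodMk measurable_fst)).add (measurable_snd.const_smul (√a.2))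
    have hGi : Integrable (fun s : SN d K =>
        opL N V l hl f (stepA N V a.1 y s.1 + √a.2 • s.2))
        ((noiseLaw d K).prod (stdGaussian (E d))) :=
      Integrable.of_bound hGm.aestronglyMeasurable C (Filter.Eventually.of_forall (fun p => hb _))
    unfold snLaw
    rw [integral_prod _ hGi]
    rfl

theorem run_cpt (l : List (ℝ × ℝ)) (hl : ℝ) :
    Cpt d ((l.length + 1) * (2 * K + 3)) (E d × (Fin (l.length + 1) → SN d K)) (E d)
      (fun o p => run N o l hl p.1 p.2) := by
  induction l with
  | nil =>
    have h0 : Measurable (fun p : E d × (Fin (([] : List (ℝ × ℝ)).length + 1) → SN d K) =>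
        p.2 0) := (measurable_pi_apply 0).comp measurable_snd
    have c1 : Cpt d 1 (E d × (Fin (([] : List (ℝ × ℝ)).length + 1) → SN d K)) (Ans d)
        (fun o p => o p.1) := Cpt.query measurable_fst
    have c2 : Cpt d 0 ((E d × (Fin (([] : List (ℝ × ℝ)).length + 1) → SN d K)) × Ans d) (E d)
        (fun _ q => (q.1.1 - hl • q.2.2) + √hl • (q.1.2 0).2) := by
      refine Cpt.pure ?_
      exact ((measurable_fst.comp measurable_fst).sub
        ((measurable_snd.comp measurable_snd).const_smul hl)).add
          ((measurable_snd.comp (h0.comp measurable_fst)).const_smul (√hl))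
    refine (Cpt.comp c1 c2).mono ?_
    simp only [List.length_nil]
    omega
  | cons a l ih =>
    have h0 : Measurable (fun p : E d × (Fin ((a :: l).length + 1) → SN d K) =>
        p.2 0) := (measurable_pi_apply 0).comp measurable_snd
    have c1 : Cpt d (2 * K + 3) (E d × (Fin ((a :: l).length + 1) → SN d K)) (E d)
        (fun o p => stepO N o a.1 p.1 (p.2 0).1) :=
      (step_cpt (d := d) N a.1).comap (m := fun p : E d × (Fin ((a :: l).length + 1) → SN d K) =>
        (p.1, (p.2 0).1)) (measurable_fst.prodMk (measurable_fst.comp h0))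
    have c2 : Cpt d ((l.length + 1) * (2 * K + 3))
        ((E d × (Fin ((a :: l).length + 1) → SN d K)) × E d) (E d)
        (fun o q => run N o l hl (q.2 + √a.2 • (q.1.2 0).2) (Fin.tail q.1.2)) := by
      refine ih.comap (m := fun q : (E d × (Fin ((a :: l).length + 1) → SN d K)) × E d =>
        (q.2 + √a.2 • (q.1.2 0).2, Fin.tail q.1.2)) ?_
      exact (measurable_snd.add ((measurable_snd.comp (h0.comp measurable_fst)).const_smul
        (√a.2))).prodMk (RunL.measurable_tail.comp (measurable_snd.comp measurable_fst))
    refine (Cpt.comp c1 c2).mono ?_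
    simp only [List.length_cons]
    exact le_of_eq (by ring)

theorem exists_algo (h : ℝ) (n J : ℕ) :
    ∃ A : Algo d ((n + J + 1) * (2 * K + 3)), ∀ V : E d → ℝ, Pot d V → ∀ B : Set (E d),
      MeasurableSet B → (A.law V).real B =
        ((Phat N V h h)^[n] (casc N V h J (B.indicator (fun _ => (1 : ℝ))))) 0 := by
  set l : List (ℝ × ℝ) := List.replicate n (h, h) ++ cascList h J with hl
  have hlen : l.length = n + J := by
    rw [hl, List.length_append, List.length_replicate, length_cascList]
  have hS := RunL.snLaw_prob d K
  obtain ⟨g, hg, hgm⟩ := MeasureTheory.Measure.exists_measurable_map_eq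
    (Measure.pi fun _ : Fin (l.length + 1) => snLaw d K)
  have hc : Cpt d ((l.length + 1) * (2 * K + 3)) Seed (E d)
      (fun o s => run N o l (h / 2 ^ J) 0 (g (s 0))) :=
    (run_cpt N l (h / 2 ^ J)).comap (m := fun s : Seed => ((0 : E d), g (s 0)))
      (measurable_const.prodMk (hg.comp (measurable_pi_apply 0)))
  rw [← hlen]
  obtain ⟨A, hA⟩ := hc.toAlgo
  refine ⟨A, fun V hV B hB => ?_⟩
  have e1 : MeasurePreserving (fun s : Seed => g (s 0)) seedLaw
      (Measure.pi fun _ : Fin (l.length + 1) => snLaw d K) := by
    have e2 : MeasurePreserving (fun s : Seed => s 0) seedLaw (volume : Measure unitInterval) :=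
      measurePreserving_eval_infinitePi (fun _ : ℕ => (volume : Measure unitInterval)) 0
    exact (MeasurePreserving.mk hg hgm).comp e2
  have rm : Measurable (fun ω : Fin (l.length + 1) → SN d K =>
      run N (oracle V) l (h / 2 ^ J) 0 ω) :=
    (run_measurable N hV l (h / 2 ^ J)).comp (measurable_const.prodMk measurable_id)
  have hind : Measurable (B.indicator (fun _ => (1 : ℝ))) := measurable_const.indicator hB
  have e3 : A.law V = (Measure.pi fun _ : Fin (l.length + 1) => snLaw d K).map
      (fun ω => run N (oracle V) l (h / 2 ^ J) 0 ω) := by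
    unfold Algo.law
    rw [← e1.map_eq, Measure.map_map rm e1.measurable]
    congr 1
    funext s
    exact hA (oracle V) s
  rw [e3]
  have e4 : ((Phat N V h h)^[n] (casc N V h J (B.indicator (fun _ => (1 : ℝ))))) 0 =
      opL N V l (h / 2 ^ J) (B.indicator (fun _ => (1 : ℝ))) 0 := by
    rw [hl, opL_main, opL_casc]
  rw [e4, ← run_law N hV l (h / 2 ^ J) hind ⟨1, fun x => by
    by_cases hx : x ∈ B <;> simp [hx]⟩ 0]
  rw [← integral_map (φ := fun ω : Fin (l.length + 1) → SN d K =>
      run N (oracle V) l (h / 2 ^ J) 0 ω) (f := B.indicator (fun _ => (1 : ℝ)))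
      rm.aemeasurable hind.aestronglyMeasurable]
  rw [integral_indicator hB]
  simp

end Vale.Agent.P347
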