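import Vale.Agent.Lib.P347.CalcB
import Vale.Agent.Lib.P347.Ops

/-!
P347: measures with density proportional to `exp (-U)` for `U` with quadratic lower growth.

Proofs: `exp (-U x) ≤ exp C * exp (-c |x|^2)` and polynomial growth gives integrability
(compare with a smaller Gaussian rate, `integrable_exp_neg_mul_sq` in several dimensions:
see `GaussianFourier.integrable_cexp_neg_mul_sq_norm_add` or
`integrable_rpow_mul_exp_neg_mul_rpow`, or use that `(1 + |x|) ^ p ≤ K * exp (c / 2 * |x| ^ 2)`).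
The integration by parts formula is `integral (fderiv (exp (-U) • u) e) = 0`
(`integral_fderiv_eq_zero` type statements, e.g.
`integral_bilinear_hasFDerivAt_right_eq_neg_left_of_integrable` or the line derivative versions).
-/

open MeasureTheory ProbabilityTheory
open scoped RealInnerProductSpace

namespace Vale.Agent.P347

variable {d : ℕ} {α : ℝ} {U : E d → ℝ}

/-- powers of `1 + t` times a Gaussian are bounded on the half line -/
theorem scm_bound {c : ℝ} (hc : 0 < c) (m : ℕ) :
    ∃ K : ℝ, 0 ≤ K ∧ ∀ t : ℝ, 0 ≤ t → (1 + t) ^ m * Real.exp (-(c * t ^ 2)) ≤ K := by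
  refine ⟨2 ^ m * (m.factorial / c ^ m * Real.exp c), by positivity, fun t ht => ?_⟩
  have h1 : (1 + t) ^ m ≤ (2 * (1 + t ^ 2)) ^ m := by
    apply pow_le_pow_left₀ (by positivity)
    nlinarith [sq_nonneg (t - 1)]
  have h2 := Real.pow_div_factorial_le_exp (x := c * (1 + t ^ 2)) (by positivity) m
  have hm : (0 : ℝ) < m.factorial := by positivity
  have hcm : 0 < c ^ m := by positivity
  have h3 : (1 + t ^ 2) ^ m ≤ m.factorial / c ^ m * Real.exp (c * (1 + t ^ 2)) := by
    rw [mul_pow, div_le_iff₀ hm] at h2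
    rw [div_mul_eq_mul_div, le_div_iff₀ hcm]
    linarith
  calc (1 + t) ^ m * Real.exp (-(c * t ^ 2))
      ≤ (2 * (1 + t ^ 2)) ^ m * Real.exp (-(c * t ^ 2)) := by gcongr
    _ = 2 ^ m * (1 + t ^ 2) ^ m * Real.exp (-(c * t ^ 2)) := by rw [mul_pow]
    _ ≤ 2 ^ m * (m.factorial / c ^ m * Real.exp (c * (1 + t ^ 2))) *
        Real.exp (-(c * t ^ 2)) := by gcongr
    _ = 2 ^ m * (m.factorial / c ^ m * (Real.exp (c * (1 + t ^ 2)) *
        Real.exp (-(c * t ^ 2)))) := by ring
    _ = 2 ^ m * (m.factorial / c ^ m * Real.exp c) := by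
        rw [← Real.exp_add]; ring_nf

theorem SC.integrable_exp_smul {F : Type} [NormedAddCommGroup F] [NormedSpace ℝ F]
    (h : SC d α U) {u : E d → F} (hu : AEStronglyMeasurable u volume) (hp : PG u) :
    Integrable (fun x => Real.exp (-U x) • u x) volume := by
  obtain ⟨c, hc, C, hC⟩ := h.grow
  obtain ⟨A, p, hA⟩ := hp
  obtain ⟨K, hK, hb⟩ := scm_bound hc (p + (d + 1))
  have hA0 : 0 ≤ A := by
    have := (norm_nonneg _).trans (hA 0)
    simpa using this
  have hint : Integrable (fun x : E d => (Real.exp C * A * K) *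
      (1 + ‖x‖) ^ (-((d : ℝ) + 1))) volume := by
    refine Integrable.const_mul (integrable_one_add_norm ?_) _
    rw [finrank_euclideanSpace, Fintype.card_fin]
    linarith
  refine hint.mono' ((Real.continuous_exp.comp h.cont.neg).aestronglyMeasurable.smul hu)
    (Filter.Eventually.of_forall fun x => ?_)
  have hx : (0 : ℝ) < 1 + ‖x‖ := by positivity
  have e1 : (1 + ‖x‖) ^ (-((d : ℝ) + 1)) = ((1 + ‖x‖) ^ (d + 1))⁻¹ := by
    rw [Real.rpow_neg hx.le]
    congr 1
    rw [← Real.rpow_natCast]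
    push_cast
    rfl
  rw [norm_smul, Real.norm_eq_abs, abs_of_pos (Real.exp_pos _), e1]
  have h1 : Real.exp (-U x) ≤ Real.exp C * Real.exp (-(c * ‖x‖ ^ 2)) := by
    rw [← Real.exp_add]
    apply Real.exp_le_exp.mpr
    linarith [hC x]
  have h2 := hb ‖x‖ (norm_nonneg x)
  have h3 : (1 + ‖x‖) ^ p * Real.exp (-(c * ‖x‖ ^ 2)) ≤ K * ((1 + ‖x‖) ^ (d + 1))⁻¹ := by
    rw [← div_eq_mul_inv, le_div_iff₀ (by positivity)]
    calc (1 + ‖x‖) ^ p * Real.exp (-(c * ‖x‖ ^ 2)) * (1 + ‖x‖) ^ (d + 1)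
        = (1 + ‖x‖) ^ (p + (d + 1)) * Real.exp (-(c * ‖x‖ ^ 2)) := by rw [pow_add]; ring
      _ ≤ K := h2
  calc Real.exp (-U x) * ‖u x‖
      ≤ (Real.exp C * Real.exp (-(c * ‖x‖ ^ 2))) * (A * (1 + ‖x‖) ^ p) := by
        apply mul_le_mul h1 (hA x) (norm_nonneg _) (by positivity)
    _ = Real.exp C * A * ((1 + ‖x‖) ^ p * Real.exp (-(c * ‖x‖ ^ 2))) := by ring
    _ ≤ Real.exp C * A * (K * ((1 + ‖x‖) ^ (d + 1))⁻¹) := by gcongr
    _ = Real.exp C * A * K * ((1 + ‖x‖) ^ (d + 1))⁻¹ := by ring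

theorem SC.integrable_exp (h : SC d α U) : Integrable (fun x => Real.exp (-U x)) volume := by
  have h1 : PG (fun _ : E d => (1 : ℝ)) := ⟨1, 0, fun x => by simp⟩
  have h2 := h.integrable_exp_smul (u := fun _ => (1 : ℝ)) aestronglyMeasurable_const h1
  simpa using h2

theorem SC.integral_exp_pos (h : SC d α U) : 0 < ∫ x, Real.exp (-U x) :=
  MeasureTheory.integral_exp_pos h.integrable_exp

theorem SC.isProb (h : SC d α U) :
    IsProbabilityMeasure ((volume : Measure (E d)).tilted (fun x => -U x)) :=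
  isProbabilityMeasure_tilted h.integrable_exp

theorem SC.integrable {F : Type} [NormedAddCommGroup F] [NormedSpace ℝ F]
    (h : SC d α U) {u : E d → F} (hu : AEStronglyMeasurable u volume) (hp : PG u) :
    Integrable u ((volume : Measure (E d)).tilted (fun x => -U x)) := by
  rw [integrable_tilted_iff h.integrable_exp]
  exact h.integrable_exp_smul hu hp

theorem SC.integral_tilted {F : Type} [NormedAddCommGroup F] [NormedSpace ℝ F]
    (u : E d → F) :
    ∫ x, u x ∂((volume : Measure (E d)).tilted (fun x => -U x)) =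
      (∫ x, Real.exp (-U x))⁻¹ • ∫ x, Real.exp (-U x) • u x := by
  rw [MeasureTheory.integral_tilted, ← integral_smul]
  congr 1
  funext x
  rw [smul_smul, div_eq_inv_mul]

theorem SC.ibp (h : SC d α U) (hU : ContDiff ℝ 1 U) (hgr : PG (gradient U))
    {F : Type} [NormedAddCommGroup F] [NormedSpace ℝ F] [CompleteSpace F]
    {u : E d → F} (hu : ContDiff ℝ 1 u) (hp : PG u) (hp' : PG (fun x => fderiv ℝ u x)) (e : E d) :
    ∫ x, fderiv ℝ u x e ∂((volume : Measure (E d)).tilted (fun x => -U x)) =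
      ∫ x, ⟪gradient U x, e⟫ • u x ∂((volume : Measure (E d)).tilted (fun x => -U x)) := by
  have hdU : Differentiable ℝ U := hU.differentiable (by simp)
  have hdu : Differentiable ℝ u := hu.differentiable (by simp)
  have hinner : ∀ x, ⟪gradient U x, e⟫ = fderiv ℝ U x e := by
    intro x
    rw [gradient, InnerProductSpace.toDual_symm_apply]
  have hfd : ∀ x, fderiv ℝ (fun y => Real.exp (-U y)) x e =
      -(Real.exp (-U x) * ⟪gradient U x, e⟫) := by
    intro x
    have h1 : HasFDerivAt (fun y => Real.exp (-U y)) (Real.exp (-U x) • (-fderiv ℝ U x)) x :=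
      ((hdU x).hasFDerivAt.neg).exp
    rw [h1.fderiv, hinner]
    simp
  have hcU : Continuous (fun x => fderiv ℝ U x) := hU.continuous_fderiv (by simp)
  have hcu : Continuous (fun x => fderiv ℝ u x) := hu.continuous_fderiv (by simp)
  have hg : PG (fun x => ⟪gradient U x, e⟫) := by
    obtain ⟨C, p, hC⟩ := hgr
    refine ⟨C * ‖e‖, p, fun x => ?_⟩
    calc ‖⟪gradient U x, e⟫‖ ≤ ‖gradient U x‖ * ‖e‖ := norm_inner_le_norm _ _
      _ ≤ (C * (1 + ‖x‖) ^ p) * ‖e‖ := by gcongr; exact hC x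
      _ = C * ‖e‖ * (1 + ‖x‖) ^ p := by ring
  have hcg : Continuous (fun x => ⟪gradient U x, e⟫) := by
    simp only [hinner]
    exact hcU.clm_apply continuous_const
  have hcu' : Continuous (fun x => fderiv ℝ u x e) := hcu.clm_apply continuous_const
  have hpe : PG (fun x => fderiv ℝ u x e) := by
    obtain ⟨C, p, hC⟩ := hp'
    refine ⟨C * ‖e‖, p, fun x => ?_⟩
    calc ‖fderiv ℝ u x e‖ ≤ ‖fderiv ℝ u x‖ * ‖e‖ := (fderiv ℝ u x).le_opNorm e
      _ ≤ (C * (1 + ‖x‖) ^ p) * ‖e‖ := by gcongr; exact hC x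
      _ = C * ‖e‖ * (1 + ‖x‖) ^ p := by ring
  have hgu : PG (fun x => ⟪gradient U x, e⟫ • u x) := hg.smul hp
  rw [SC.integral_tilted, SC.integral_tilted]
  congr 1
  have i1 : Integrable (fun x => Real.exp (-U x) • u x) volume :=
    h.integrable_exp_smul hu.continuous.aestronglyMeasurable hp
  have i2 : Integrable (fun x => Real.exp (-U x) • fderiv ℝ u x e) volume :=
    h.integrable_exp_smul hcu'.aestronglyMeasurable hpe
  have i3 : Integrable (fun x => Real.exp (-U x) • (⟪gradient U x, e⟫ • u x)) volume :=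
    h.integrable_exp_smul (hcg.smul hu.continuous).aestronglyMeasurable hgu
  have e3 : ∀ x, fderiv ℝ (fun y => Real.exp (-U y)) x e • u x =
      -(Real.exp (-U x) • (⟪gradient U x, e⟫ • u x)) := by
    intro x
    rw [hfd, neg_smul, smul_smul]
  have key := integral_smul_fderiv_eq_neg_fderiv_smul_of_integrable (μ := (volume : Measure (E d)))
    (f := fun y => Real.exp (-U y)) (g := u) (v := e)
    (by simp only [e3]; exact i3.neg) i2 i1
    (fun x _ => (Real.differentiable_exp.comp hdU.neg) x) (fun x _ => hdu x)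
  rw [key]
  simp only [e3]
  rw [integral_neg, neg_neg]

end Vale.Agent.P347
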