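import Vale.Agent.Lib.P347.EfS

/-!
P347: the scheme in unit scale: regularity and block derivatives.

All proofs are direct computations with the chain rule. `SS` is a sum of `J_k F (ρ_k ξ + κ_k z_k)`,
`XX = ξ - SS - bb`, `bb = F (z₀ - SS (z₀, z)) - F z₀`. Constants: `GoodNodes` gives
`Σ |J_k| ≤ C` (since `kap ≤ 1`) and `0 < ρ_k < 1`, `0 < kap k ≤ 1`.
-/

open MeasureTheory ProbabilityTheory
open scoped RealInnerProductSpace

namespace Vale.Agent.P347

variable {d K : ℕ}

/-- the `k`-th evaluation point -/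
noncomputable def YY (N : Nodes K) (k : Fin K) (ω : Noise d K) : E d :=
  N.rho k • ω.1 + N.kap k • ω.2 (Sum.inl k)

/-- the direction orthogonal to the `k`-th evaluation point -/
noncomputable def vv (N : Nodes K) (k : Fin K) (ω : Noise d K) : E d :=
  N.kap k • ω.1 - N.rho k • ω.2 (Sum.inl k)

/-- the derivative of the force at the `k`-th evaluation point -/
noncomputable def MM (N : Nodes K) (F : E d → E d) (k : Fin K) (ω : Noise d K) :
    E d →L[ℝ] E d := fderiv ℝ F (YY N k ω)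

/-- the first order integrand -/
noncomputable def DD (N : Nodes K) (F : E d → E d) (ω : Noise d K) : E d :=
  ∑ k, N.J k • (F (YY N k ω) + (N.rho k / N.kap k) • MM N F k ω (vv N k ω))

/-- the second order trace terms -/
noncomputable def TT (N : Nodes K) (F : E d → E d) (f : E d → ℝ) (k l : Fin K)
    (ω : Noise d K) : ℝ :=
  ∑ i, ⟪MM N F k ω (EuclideanSpace.single i 1),
    fderiv ℝ (gradient f) (XX N F ω) (MM N F l ω (EuclideanSpace.single i 1))⟫

/-- the mean correction as a function of the noise -/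
noncomputable def bbω (N : Nodes K) (F : E d → E d) (ω : Noise d K) : E d :=
  bb N F (fun o => ω.2 (Sum.inr o))

/-- the smoothed drift as a function of the noise -/
noncomputable def SSω (N : Nodes K) (F : E d → E d) (ω : Noise d K) : E d :=
  SS N F ω.1 (fun k => ω.2 (Sum.inl k))

theorem kap_pos {N : Nodes K} {C ε : ℝ} (hN : GoodNodes N C ε) (k : Fin K) : 0 < N.kap k := by
  have h1 := hN.pos k
  have h2 := hN.lt k
  unfold Nodes.kap
  refine Real.sqrt_pos.mpr ?_
  nlinarith

theorem kap_le_one {N : Nodes K} {C ε : ℝ} (hN : GoodNodes N C ε) (k : Fin K) :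
    N.kap k ≤ 1 := by
  unfold Nodes.kap
  refine Real.sqrt_le_iff.mpr ⟨zero_le_one, ?_⟩
  nlinarith [sq_nonneg (N.rho k)]

theorem rho_sq_add {N : Nodes K} {C ε : ℝ} (hN : GoodNodes N C ε) (k : Fin K) :
    N.rho k ^ 2 + N.kap k ^ 2 = 1 := by
  have h1 := hN.pos k
  have h2 := hN.lt k
  unfold Nodes.kap
  rw [Real.sq_sqrt (by nlinarith)]
  ring

theorem sum_abs_J_le {N : Nodes K} {C ε : ℝ} (hN : GoodNodes N C ε) : ∑ k, |N.J k| ≤ C := by
  refine le_trans (Finset.sum_le_sum fun k _ => ?_) hN.abs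
  exact le_div_self (abs_nonneg _) (kap_pos hN k) (kap_le_one hN k)

variable {N : Nodes K} {C ε a : ℝ} {F : E d → E d}

theorem XX_continuous (hF : Continuous F) : Continuous (XX N F) := by
  unfold XX SS bb SS
  fun_prop

/-- linear growth in the noise -/
def LGr (g : Noise d K → E d) : Prop :=
  ∃ C0 : ℝ, 0 ≤ C0 ∧ ∀ ω : Noise d K, ‖g ω‖ ≤ C0 * (1 + ‖ω.1‖ + ∑ r, ‖ω.2 r‖)

theorem noise_S_ge (ω : Noise d K) : 1 ≤ 1 + ‖ω.1‖ + ∑ r, ‖ω.2 r‖ := by
  have h1 := norm_nonneg ω.1
  have h2 : 0 ≤ ∑ r, ‖ω.2 r‖ := Finset.sum_nonneg fun r _ => norm_nonneg _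
  linarith

theorem LGr_fst : LGr (fun ω : Noise d K => ω.1) := by
  refine ⟨1, zero_le_one, fun ω => ?_⟩
  have h2 : 0 ≤ ∑ r, ‖ω.2 r‖ := Finset.sum_nonneg fun r _ => norm_nonneg _
  linarith

theorem LGr_snd (r : Rest K) : LGr (fun ω : Noise d K => ω.2 r) := by
  refine ⟨1, zero_le_one, fun ω => ?_⟩
  have h1 := norm_nonneg ω.1
  have h2 : ‖ω.2 r‖ ≤ ∑ r, ‖ω.2 r‖ :=
    Finset.single_le_sum (f := fun r => ‖ω.2 r‖) (fun r _ => norm_nonneg _) (Finset.mem_univ r)
  linarith

theorem LGr.add {g g' : Noise d K → E d} (h : LGr g) (h' : LGr g') :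
    LGr (fun ω => g ω + g' ω) := by
  obtain ⟨c, hc, h⟩ := h
  obtain ⟨c', hc', h'⟩ := h'
  refine ⟨c + c', add_nonneg hc hc', fun ω => (norm_add_le _ _).trans ?_⟩
  have h1 := h ω
  have h2 := h' ω
  linarith

theorem LGr.sub {g g' : Noise d K → E d} (h : LGr g) (h' : LGr g') :
    LGr (fun ω => g ω - g' ω) := by
  obtain ⟨c, hc, h⟩ := h
  obtain ⟨c', hc', h'⟩ := h'
  refine ⟨c + c', add_nonneg hc hc', fun ω => (norm_sub_le _ _).trans ?_⟩
  have h1 := h ω
  have h2 := h' ω
  linarith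

theorem LGr.smul {g : Noise d K → E d} (h : LGr g) (t : ℝ) :
    LGr (fun ω => t • g ω) := by
  obtain ⟨c, hc, h⟩ := h
  refine ⟨|t| * c, mul_nonneg (abs_nonneg _) hc, fun ω => ?_⟩
  rw [norm_smul, Real.norm_eq_abs, mul_assoc]
  exact mul_le_mul_of_nonneg_left (h ω) (abs_nonneg _)

theorem LGr.sum {ι : Type} (s : Finset ι) {g : ι → Noise d K → E d} (h : ∀ i, LGr (g i)) :
    LGr (fun ω => ∑ i ∈ s, g i ω) := by
  choose c hc h using h
  refine ⟨∑ i ∈ s, c i, Finset.sum_nonneg fun i _ => hc i, fun ω => ?_⟩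
  rw [Finset.sum_mul]
  exact (norm_sum_le _ _).trans (Finset.sum_le_sum fun i _ => h i ω)

theorem F_growth (hF : ContDiff ℝ 1 F) (ha : ∀ x, ‖fderiv ℝ F x‖ ≤ a) (x : E d) :
    ‖F x‖ ≤ ‖F 0‖ + a * ‖x‖ := by
  have h1 : ‖F x - F 0‖ ≤ a * ‖x - 0‖ :=
    Convex.norm_image_sub_le_of_norm_fderiv_le (𝕜 := ℝ) (s := Set.univ)
      (fun y _ => (hF.differentiable one_ne_zero) y) (fun y _ => ha y) convex_univ
      (Set.mem_univ _) (Set.mem_univ _)
  rw [sub_zero] at h1
  have h2 : ‖F x‖ ≤ ‖F 0‖ + ‖F x - F 0‖ := by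
    have := norm_add_le (F 0) (F x - F 0)
    rwa [add_sub_cancel] at this
  linarith

theorem a_nonneg (ha : ∀ x, ‖fderiv ℝ F x‖ ≤ a) : 0 ≤ a := (norm_nonneg _).trans (ha 0)

theorem LGr.comp {g : Noise d K → E d} (h : LGr g) (hF : ContDiff ℝ 1 F)
    (ha : ∀ x, ‖fderiv ℝ F x‖ ≤ a) : LGr (fun ω => F (g ω)) := by
  obtain ⟨c, hc, h⟩ := h
  have ha0 := a_nonneg ha
  refine ⟨‖F 0‖ + a * c, add_nonneg (norm_nonneg _) (mul_nonneg ha0 hc), fun ω => ?_⟩
  refine (F_growth hF ha _).trans ?_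
  have h1 := noise_S_ge ω
  have h2 := mul_le_mul_of_nonneg_left (h ω) ha0
  have h3 := mul_le_mul_of_nonneg_left h1 (norm_nonneg (F 0))
  rw [add_mul, mul_assoc]
  linarith

theorem XX_LGr (hF : ContDiff ℝ 1 F) (ha : ∀ x, ‖fderiv ℝ F x‖ ≤ a) :
    LGr (XX N F : Noise d K → E d) := by
  unfold XX
  have hS : LGr (fun ω : Noise d K => SS N F ω.1 (fun k => ω.2 (Sum.inl k))) := by
    unfold SS
    refine LGr.sum _ fun k => LGr.smul (LGr.comp ?_ hF ha) _
    exact (LGr_fst.smul _).add ((LGr_snd _).smul _)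
  have hS' : LGr (fun ω : Noise d K =>
      SS N F (ω.2 (Sum.inr none)) (fun k => ω.2 (Sum.inr (some k)))) := by
    unfold SS
    refine LGr.sum _ fun k => LGr.smul (LGr.comp ?_ hF ha) _
    exact ((LGr_snd _).smul _).add ((LGr_snd _).smul _)
  refine (LGr_fst.sub hS).sub ?_
  unfold bb
  exact (((LGr_snd _).sub hS').comp hF ha).sub ((LGr_snd _).comp hF ha)

theorem XX_growth (hF : ContDiff ℝ 1 F) (ha : ∀ x, ‖fderiv ℝ F x‖ ≤ a) :
    ∃ C0 : ℝ, ∀ ω : Noise d K, ‖XX N F ω‖ ≤ C0 * (1 + ‖ω.1‖ + ∑ r, ‖ω.2 r‖) := by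
  obtain ⟨c, _, h⟩ := XX_LGr (N := N) hF ha
  exact ⟨c, h⟩

theorem XX_fourth (hF : ContDiff ℝ 1 F) (ha : ∀ x, ‖fderiv ℝ F x‖ ≤ a) :
    Integrable (fun x => ‖x‖ ^ 4) ((noiseLaw d K).map (XX N F)) := by
  obtain ⟨c, h⟩ := XX_growth (N := N) hF ha
  have hc : Continuous (XX N F : Noise d K → E d) := XX_continuous hF.continuous
  rw [integrable_map_measure (by fun_prop) hc.aemeasurable]
  refine noise_integrable (C := c ^ 4) (p := 4) ?_ fun ω => ?_
  · exact ((continuous_norm.pow 4).comp hc).aestronglyMeasurable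
  · show ‖‖XX N F ω‖ ^ 4‖ ≤ _
    rw [norm_pow, norm_norm, ← mul_pow]
    exact pow_le_pow_left₀ (norm_nonneg _) (h ω) 4

/-- derivative in the main Gaussian vector -/
theorem XX_xi_has (hF : ContDiff ℝ 1 F) (ζ : Rest K → E d) (x : E d) :
    HasFDerivAt (fun x => XX N F (x, ζ))
      (ContinuousLinearMap.id ℝ (E d) - ∑ k, (N.J k * N.rho k) • MM N F k (x, ζ)) x := by
  unfold XX SS
  have h1 : ∀ k : Fin K, HasFDerivAt (fun x : E d => N.J k • F (N.rho k • x + N.kap k • ζ (Sum.inl k)))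
      ((N.J k * N.rho k) • MM N F k (x, ζ)) x := by
    intro k
    have h2 : HasFDerivAt (fun x : E d => N.rho k • x + N.kap k • ζ (Sum.inl k))
        (N.rho k • ContinuousLinearMap.id ℝ (E d)) x :=
      ((hasFDerivAt_id x).const_smul (N.rho k)).add_const _
    have h3 : HasFDerivAt F (MM N F k (x, ζ)) (N.rho k • x + N.kap k • ζ (Sum.inl k)) :=
      (hF.differentiable one_ne_zero _).hasFDerivAt
    have h4 := (h3.comp x h2).const_smul (N.J k)
    refine h4.congr_fderiv ?_
    ext e : 1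
    simp [smul_smul]
  have h2 : HasFDerivAt (fun x : E d => x) (ContinuousLinearMap.id ℝ (E d)) x := hasFDerivAt_id x
  have h3 : HasFDerivAt
      (fun x : E d => ∑ k, N.J k • F (N.rho k • x + N.kap k • ζ (Sum.inl k)))
      (∑ k, (N.J k * N.rho k) • MM N F k (x, ζ)) x := HasFDerivAt.fun_sum fun k _ => h1 k
  exact (h2.fun_sub h3).sub_const (bb N F (fun o => ζ (Sum.inr o)))

theorem XX_xi (hF : ContDiff ℝ 1 F) (ζ : Rest K → E d) :
    ContDiff ℝ 1 (fun x => XX N F (x, ζ)) ∧ ∀ x e,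
      fderiv ℝ (fun x => XX N F (x, ζ)) x e =
        e - ∑ k, (N.J k * N.rho k) • MM N F k (x, ζ) e := by
  constructor
  · unfold XX SS
    have h0 : ∀ k, ContDiff ℝ 1 (fun x : E d => N.rho k • x + N.kap k • ζ (Sum.inl k)) := by
      intro k
      fun_prop
    have h1 : ContDiff ℝ 1 (fun x : E d => ∑ k, N.J k • F (N.rho k • x + N.kap k • ζ (Sum.inl k))) :=
      ContDiff.sum fun k _ => (hF.comp (h0 k)).const_smul _
    exact ((contDiff_id (𝕜 := ℝ) (E := E d)).sub h1).sub
      (contDiff_const (c := bb N F (fun o => ζ (Sum.inr o))))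
  · intro x e
    rw [(XX_xi_has hF ζ x).fderiv]
    simp

theorem XX_xi_norm (hN : GoodNodes N C ε) (ha0 : 0 ≤ a) (hF : ContDiff ℝ 1 F)
    (ha : ∀ x, ‖fderiv ℝ F x‖ ≤ a) (ζ : Rest K → E d) (x : E d) :
    ‖fderiv ℝ (fun x => XX N F (x, ζ)) x‖ ≤ 1 + a * C := by
  rw [(XX_xi_has hF ζ x).fderiv]
  refine (norm_sub_le _ _).trans (add_le_add ContinuousLinearMap.norm_id_le ?_)
  refine (norm_sum_le _ _).trans ?_
  refine le_trans ?_ (mul_le_mul_of_nonneg_left (sum_abs_J_le hN) ha0)
  rw [Finset.mul_sum]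
  refine Finset.sum_le_sum fun k _ => ?_
  rw [norm_smul, Real.norm_eq_abs, abs_mul, abs_of_pos (hN.pos k)]
  have h1 : ‖MM N F k (x, ζ)‖ ≤ a := ha _
  have h2 := (hN.lt k).le
  calc |N.J k| * N.rho k * ‖MM N F k (x, ζ)‖ ≤ |N.J k| * 1 * a := by
        refine mul_le_mul (mul_le_mul_of_nonneg_left h2 (abs_nonneg _)) h1 (norm_nonneg _) ?_
        positivity
    _ = a * |N.J k| := by ring

/-- Lipschitz constants of the auxiliary blocks -/
noncomputable def LL (N : Nodes K) (C a : ℝ) : Rest K → ℝ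
  | Sum.inl k => a * |N.J k|
  | Sum.inr none => a * (2 + a * C)
  | Sum.inr (some k) => a ^ 2 * |N.J k|

/-- of class `C^1` with derivative bounded by `L` -/
def DB (g : E d → E d) (L : ℝ) : Prop := ContDiff ℝ 1 g ∧ ∀ z, ‖fderiv ℝ g z‖ ≤ L

theorem DB.mono {g : E d → E d} {L L' : ℝ} (h : DB g L) (hL : L ≤ L') : DB g L' :=
  ⟨h.1, fun z => (h.2 z).trans hL⟩

theorem DB_const (c : E d) : DB (fun _ : E d => c) 0 :=
  ⟨contDiff_const, fun z => by simp⟩

theorem DB_id : DB (fun z : E d => z) 1 :=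
  ⟨contDiff_id, fun z => by
    rw [fderiv_fun_id]
    exact ContinuousLinearMap.norm_id_le⟩

theorem DB.add {g g' : E d → E d} {L L' : ℝ} (h : DB g L) (h' : DB g' L') :
    DB (fun z => g z + g' z) (L + L') :=
  ⟨h.1.add h'.1, fun z => by
    rw [fderiv_fun_add (h.1.differentiable one_ne_zero _) (h'.1.differentiable one_ne_zero _)]
    exact (norm_add_le _ _).trans (add_le_add (h.2 z) (h'.2 z))⟩

theorem DB.sub {g g' : E d → E d} {L L' : ℝ} (h : DB g L) (h' : DB g' L') :
    DB (fun z => g z - g' z) (L + L') :=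
  ⟨h.1.sub h'.1, fun z => by
    rw [fderiv_fun_sub (h.1.differentiable one_ne_zero _) (h'.1.differentiable one_ne_zero _)]
    exact (norm_sub_le _ _).trans (add_le_add (h.2 z) (h'.2 z))⟩

theorem DB.smul {g : E d → E d} {L : ℝ} (h : DB g L) (t : ℝ) :
    DB (fun z => t • g z) (|t| * L) :=
  ⟨h.1.const_smul t, fun z => by
    rw [fderiv_fun_const_smul (h.1.differentiable one_ne_zero _), norm_smul, Real.norm_eq_abs]
    exact mul_le_mul_of_nonneg_left (h.2 z) (abs_nonneg _)⟩

theorem DB.sum {ι : Type} (s : Finset ι) {g : ι → E d → E d} {L : ι → ℝ}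
    (h : ∀ i, DB (g i) (L i)) : DB (fun z => ∑ i ∈ s, g i z) (∑ i ∈ s, L i) := by
  classical
  induction s using Finset.induction_on with
  | empty => simpa using DB_const (d := d) 0
  | insert i s hi ih =>
    simp only [Finset.sum_insert hi]
    exact (h i).add ih

theorem DB.comp {g : E d → E d} {L : ℝ} (h : DB g L) (hF : ContDiff ℝ 1 F)
    (ha : ∀ x, ‖fderiv ℝ F x‖ ≤ a) : DB (fun z => F (g z)) (a * L) :=
  ⟨hF.comp h.1, fun z => by
    have h1 : fderiv ℝ (fun z => F (g z)) z = (fderiv ℝ F (g z)).comp (fderiv ℝ g z) :=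
      fderiv_comp z (hF.differentiable one_ne_zero _) (h.1.differentiable one_ne_zero _)
    rw [h1]
    refine (ContinuousLinearMap.opNorm_comp_le _ _).trans ?_
    exact mul_le_mul (ha _) (h.2 z) (norm_nonneg _) (a_nonneg ha)⟩

theorem DB_update (ζ : Rest K → E d) (r s : Rest K) :
    DB (fun z => Function.update ζ r z s) (if s = r then 1 else 0) := by
  by_cases h : s = r
  · subst h
    simpa using DB_id (d := d)
  · simpa [h, Function.update_of_ne h] using DB_const (d := d) (ζ s)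

theorem XX_DB (hF : ContDiff ℝ 1 F)
    (ha : ∀ x, ‖fderiv ℝ F x‖ ≤ a) (ω : Noise d K) (r : Rest K) :
    DB (fun z => XX N F (ω.1, Function.update ω.2 r z))
      (0 + (∑ l, |N.J l| * (a * (|N.rho l| * 0 + |N.kap l| * (if Sum.inl l = r then 1 else 0)))) +
        (a * ((if Sum.inr none = r then 1 else 0) +
            ∑ l, |N.J l| * (a * (|N.rho l| * (if Sum.inr none = r then 1 else 0) +
              |N.kap l| * (if Sum.inr (some l) = r then 1 else 0)))) +
          a * (if Sum.inr none = r then 1 else 0))) := by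
  unfold XX SS bb SS
  refine ((DB_const ω.1).sub (DB.sum _ fun l => DB.smul (DB.comp ?_ hF ha) _)).sub
    ((DB.comp (DB.sub (DB_update _ _ _) (DB.sum _ fun l => DB.smul (DB.comp ?_ hF ha) _))
      hF ha).sub (DB.comp (DB_update _ _ _) hF ha))
  · exact ((DB_const ω.1).smul _).add ((DB_update _ _ _).smul _)
  · exact ((DB_update _ _ _).smul _).add ((DB_update _ _ _).smul _)

theorem XX_block (hN : GoodNodes N C ε) (ha0 : 0 ≤ a) (hF : ContDiff ℝ 1 F)
    (ha : ∀ x, ‖fderiv ℝ F x‖ ≤ a) (ω : Noise d K) (r : Rest K) :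
    ContDiff ℝ 1 (fun z => XX N F (ω.1, Function.update ω.2 r z)) ∧ ∀ z,
      ‖fderiv ℝ (fun z => XX N F (ω.1, Function.update ω.2 r z)) z‖ ≤ LL N C a r := by
  refine (XX_DB (N := N) hF ha ω r).mono ?_
  have hJ := sum_abs_J_le hN
  rcases r with k | _ | k
  · have h1 : |N.J k| * (a * |N.kap k|) ≤ a * |N.J k| := by
      rw [abs_of_pos (kap_pos hN k)]
      have := kap_le_one hN k
      have h2 : a * N.kap k ≤ a := by nlinarith
      have := mul_le_mul_of_nonneg_left h2 (abs_nonneg (N.J k))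
      linarith
    simpa [LL] using h1
  · have h1 : ∑ l, |N.J l| * (a * |N.rho l|) ≤ a * C := by
      refine le_trans ?_ (mul_le_mul_of_nonneg_left hJ ha0)
      rw [Finset.mul_sum]
      refine Finset.sum_le_sum fun k _ => ?_
      rw [abs_of_pos (hN.pos k)]
      have := (hN.lt k).le
      have h2 : a * N.rho k ≤ a := by nlinarith
      have := mul_le_mul_of_nonneg_left h2 (abs_nonneg (N.J k))
      linarith
    have h2 := mul_le_mul_of_nonneg_left h1 ha0
    simp only [LL, reduceCtorEq, if_false, if_true, mul_zero, add_zero, zero_add, mul_one,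
      Finset.sum_const_zero, Option.some_ne_none, Sum.inr.injEq]
    nlinarith
  · have h1 : |N.J k| * (a * |N.kap k|) ≤ a * |N.J k| := by
      rw [abs_of_pos (kap_pos hN k)]
      have := kap_le_one hN k
      have h2 : a * N.kap k ≤ a := by nlinarith
      have := mul_le_mul_of_nonneg_left h2 (abs_nonneg (N.J k))
      linarith
    have h2 := mul_le_mul_of_nonneg_left h1 ha0
    have h3 : a ^ 2 * |N.J k| = a * (a * |N.J k|) := by ring
    simpa [LL, h3] using h2

theorem sum_LL_sq (hN : GoodNodes N C ε) (ha0 : 0 ≤ a) (haC : a * C ≤ 1 / 8) :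
    ∑ r, LL N C a r ^ 2 ≤ 6 * a ^ 2 * C ^ 2 := by
  have hJ := sum_abs_J_le hN
  have hC := hN.one_le
  have h0 : 0 ≤ ∑ k, |N.J k| := Finset.sum_nonneg fun k _ => abs_nonneg _
  have h1 : ∑ k, |N.J k| ^ 2 ≤ (∑ k, |N.J k|) ^ 2 :=
    Finset.sum_sq_le_sq_sum_of_nonneg fun k _ => abs_nonneg _
  have h2 : ∑ k, |N.J k| ^ 2 ≤ C ^ 2 := h1.trans (by nlinarith)
  have ha : a ≤ 1 / 8 := by nlinarith
  have h3 : ∑ r, LL N C a r ^ 2 = a ^ 2 * ∑ k, |N.J k| ^ 2 +
      ((a * (2 + a * C)) ^ 2 + a ^ 4 * ∑ k, |N.J k| ^ 2) := by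
    rw [Fintype.sum_sum_type, Fintype.sum_option, Finset.mul_sum, Finset.mul_sum]
    simp only [LL]
    congr 1
    · exact Finset.sum_congr rfl fun k _ => by ring
    · congr 1
      exact Finset.sum_congr rfl fun k _ => by ring
  rw [h3]
  have h4 : a ^ 2 * ∑ k, |N.J k| ^ 2 ≤ a ^ 2 * C ^ 2 :=
    mul_le_mul_of_nonneg_left h2 (sq_nonneg _)
  have h5 : a ^ 4 * ∑ k, |N.J k| ^ 2 ≤ a ^ 2 * C ^ 2 * (1 / 64) := by
    have h6 : a ^ 2 ≤ 1 / 64 := by nlinarith
    have h7 : a ^ 4 * ∑ k, |N.J k| ^ 2 ≤ a ^ 4 * C ^ 2 :=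
      mul_le_mul_of_nonneg_left h2 (by positivity)
    have h8 : a ^ 4 * C ^ 2 = a ^ 2 * C ^ 2 * a ^ 2 := by ring
    have h9 : a ^ 2 * C ^ 2 * a ^ 2 ≤ a ^ 2 * C ^ 2 * (1 / 64) :=
      mul_le_mul_of_nonneg_left h6 (by positivity)
    linarith
  have h6 : (a * (2 + a * C)) ^ 2 ≤ a ^ 2 * C ^ 2 * (289 / 64) := by
    have h7 : (2 + a * C) ^ 2 ≤ 289 / 64 := by
      have : 0 ≤ a * C := by positivity
      nlinarith
    have h8 : (1 : ℝ) ≤ C ^ 2 := by nlinarith
    calc (a * (2 + a * C)) ^ 2 = a ^ 2 * (2 + a * C) ^ 2 := by ring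
      _ ≤ a ^ 2 * (289 / 64) := mul_le_mul_of_nonneg_left h7 (sq_nonneg _)
      _ ≤ a ^ 2 * (C ^ 2 * (289 / 64)) := by
          refine mul_le_mul_of_nonneg_left ?_ (sq_nonneg _)
          nlinarith
      _ = a ^ 2 * C ^ 2 * (289 / 64) := by ring
  have h7 : 0 ≤ a ^ 2 * C ^ 2 := by positivity
  nlinarith

/-- derivative along the rotated block -/
theorem XX_rot_has (hN : GoodNodes N C ε) (hF : ContDiff ℝ 1 F) (u : E d) (ζ : Rest K → E d)
    (k : Fin K) (v : E d) :
    HasFDerivAt (fun v => XX N F (N.rho k • u + N.kap k • v,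
      Function.update ζ (Sum.inl k) (N.kap k • u - N.rho k • v)))
      (N.kap k • (ContinuousLinearMap.id ℝ (E d) -
        ∑ l ∈ Finset.univ.erase k, (N.J l * N.rho l) •
          MM N F l (N.rho k • u + N.kap k • v,
            Function.update ζ (Sum.inl k) (N.kap k • u - N.rho k • v)))) v := by
  classical
  have hid : HasFDerivAt (fun v : E d => N.rho k • u + N.kap k • v)
      (N.kap k • ContinuousLinearMap.id ℝ (E d)) v :=
    ((hasFDerivAt_id v).const_smul (N.kap k)).const_add _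
  have h1 : ∀ l : Fin K, HasFDerivAt (fun v : E d => N.J l • F (N.rho l • (N.rho k • u + N.kap k • v) +
      N.kap l • Function.update ζ (Sum.inl k) (N.kap k • u - N.rho k • v) (Sum.inl l)))
      (if l = k then 0 else (N.J l * N.rho l * N.kap k) •
        MM N F l (N.rho k • u + N.kap k • v,
            Function.update ζ (Sum.inl k) (N.kap k • u - N.rho k • v))) v := by
    intro l
    by_cases hl : l = k
    · subst hl
      rw [if_pos rfl]
      have h2 : (fun v : E d => N.J l • F (N.rho l • (N.rho l • u + N.kap l • v) +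
          N.kap l • Function.update ζ (Sum.inl l) (N.kap l • u - N.rho l • v) (Sum.inl l))) =
          fun _ => N.J l • F u := by
        funext v
        congr 2
        rw [Function.update_self]
        have h3 := rho_sq_add hN l
        have h4 : N.rho l • (N.rho l • u + N.kap l • v) + N.kap l • (N.kap l • u - N.rho l • v) =
            (N.rho l ^ 2 + N.kap l ^ 2) • u := by
          module
        rw [h4, h3, one_smul]
      rw [h2]
      exact hasFDerivAt_const _ _
    · rw [if_neg hl]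
      have hne : (Sum.inl l : Rest K) ≠ Sum.inl k := fun h => hl (Sum.inl_injective h)
      simp only [Function.update_of_ne hne]
      have h2 : HasFDerivAt (fun v : E d => N.rho l • (N.rho k • u + N.kap k • v) +
          N.kap l • ζ (Sum.inl l)) (N.rho l • (N.kap k • ContinuousLinearMap.id ℝ (E d))) v :=
        (hid.const_smul (N.rho l)).add_const _
      have h3 : HasFDerivAt F (MM N F l (N.rho k • u + N.kap k • v,
          Function.update ζ (Sum.inl k) (N.kap k • u - N.rho k • v)))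
          (N.rho l • (N.rho k • u + N.kap k • v) + N.kap l • ζ (Sum.inl l)) := by
        have h4 : YY N l (N.rho k • u + N.kap k • v,
            Function.update ζ (Sum.inl k) (N.kap k • u - N.rho k • v)) =
            N.rho l • (N.rho k • u + N.kap k • v) + N.kap l • ζ (Sum.inl l) := by
          show N.rho l • (N.rho k • u + N.kap k • v) + N.kap l •
            Function.update ζ (Sum.inl k) (N.kap k • u - N.rho k • v) (Sum.inl l) = _
          rw [Function.update_of_ne hne]
        unfold MM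
        rw [h4]
        exact (hF.differentiable one_ne_zero _).hasFDerivAt
      have h4 := (h3.comp v h2).const_smul (N.J l)
      refine h4.congr_fderiv ?_
      ext e : 1
      simp [smul_smul, mul_assoc]
  have h5 : HasFDerivAt (fun v => XX N F (N.rho k • u + N.kap k • v,
      Function.update ζ (Sum.inl k) (N.kap k • u - N.rho k • v)))
      (N.kap k • ContinuousLinearMap.id ℝ (E d) - ∑ l, (if l = k then 0 else
        (N.J l * N.rho l * N.kap k) • MM N F l (N.rho k • u + N.kap k • v,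
            Function.update ζ (Sum.inl k) (N.kap k • u - N.rho k • v)))) v := by
    unfold XX SS
    have h6 : ∀ v : E d, bb N F (fun o => Function.update ζ (Sum.inl k)
        (N.kap k • u - N.rho k • v) (Sum.inr o)) = bb N F (fun o => ζ (Sum.inr o)) := by
      intro v
      congr 1
    simp only [h6]
    exact (hid.fun_sub (HasFDerivAt.fun_sum fun l _ => h1 l)).sub_const _
  refine h5.congr_fderiv ?_
  rw [smul_sub, Finset.smul_sum]
  congr 1
  rw [← Finset.add_sum_erase _ _ (Finset.mem_univ k), if_pos rfl, zero_add]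
  refine Finset.sum_congr rfl fun l hl => ?_
  rw [if_neg (Finset.ne_of_mem_erase hl), smul_smul]
  congr 1
  ring

theorem XX_rot (hN : GoodNodes N C ε) (hF : ContDiff ℝ 1 F) (u : E d) (ζ : Rest K → E d)
    (k : Fin K) :
    ContDiff ℝ 1 (fun v => XX N F (N.rho k • u + N.kap k • v,
      Function.update ζ (Sum.inl k) (N.kap k • u - N.rho k • v))) ∧ ∀ v e,
      fderiv ℝ (fun v => XX N F (N.rho k • u + N.kap k • v,
        Function.update ζ (Sum.inl k) (N.kap k • u - N.rho k • v))) v e =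
        N.kap k • (e - ∑ l ∈ Finset.univ.erase k, (N.J l * N.rho l) •
          MM N F l (N.rho k • u + N.kap k • v,
            Function.update ζ (Sum.inl k) (N.kap k • u - N.rho k • v)) e) := by
  constructor
  · have hu : ∀ r : Rest K, ContDiff ℝ 1 (fun v : E d =>
        Function.update ζ (Sum.inl k) (N.kap k • u - N.rho k • v) r) := by
      intro r
      by_cases hr : r = Sum.inl k
      · subst hr
        simp only [Function.update_self]
        fun_prop
      · simp only [Function.update_of_ne hr]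
        fun_prop
    have h1 : ContDiff ℝ 1 (fun v : E d => N.rho k • u + N.kap k • v) := by fun_prop
    unfold XX SS bb SS
    have h2 : ContDiff ℝ 1 (fun v : E d => ∑ l, N.J l • F (N.rho l • (N.rho k • u + N.kap k • v) +
        N.kap l • Function.update ζ (Sum.inl k) (N.kap k • u - N.rho k • v) (Sum.inl l))) :=
      ContDiff.sum fun l _ =>
        (hF.comp ((h1.const_smul (N.rho l)).add ((hu (Sum.inl l)).const_smul (N.kap l)))).const_smul _
    have h3 : ContDiff ℝ 1 (fun v : E d => ∑ l, N.J l • F (N.rho l •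
        Function.update ζ (Sum.inl k) (N.kap k • u - N.rho k • v) (Sum.inr none) +
        N.kap l • Function.update ζ (Sum.inl k) (N.kap k • u - N.rho k • v)
          (Sum.inr (some l)))) :=
      ContDiff.sum fun l _ =>
        (hF.comp (((hu (Sum.inr none)).const_smul (N.rho l)).add
          ((hu (Sum.inr (some l))).const_smul (N.kap l)))).const_smul _
    exact (h1.sub h2).sub ((hF.comp ((hu (Sum.inr none)).sub h3)).sub
      (hF.comp (hu (Sum.inr none))))
  · intro v e
    rw [(XX_rot_has hN hF u ζ k v).fderiv]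
    simp

end Vale.Agent.P347
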