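import Vale.Agent.Lib.P347.SchA

/-!
P347: the exact Stein identity of the scheme.

Proof. Write `X = XX`, `F = gradient G`, `H = fderiv (gradient f) X` (symmetric). By definition
`Ls G f X = tr H - ⟪X + F X, gradient f X⟫` and `X = ξ - SS - bb`. (1) For fixed `ζ` integrate by
parts in `ξ` (`gauss_ibp_mat` with `M = id` and `w ξ = gradient f (XX (ξ, ζ))`, bounded with
bounded derivative; `XX_xi`):
`E ⟪ξ, gradient f X⟫ = E Σ_i ⟪e_i, H (e_i - Σ_k J_k ρ_k M_k e_i)⟫`
`= E tr H - Σ_k J_k ρ_k E Σ_i ⟪M_k e_i, H e_i⟫` (symmetry of `H`). Hence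
`E Ls G f X = E ⟪SS + bb - F X, gradient f X⟫ + Σ_k J_k ρ_k E Σ_i ⟪M_k e_i, H e_i⟫`.
(2) Change variables `(ξ, z_k) = (ρ u + κ v, κ u - ρ v)` (`gauss_rot`, Fubini), `M_k = fderiv F u`
does not depend on `v`; integrate by parts in `v` (`gauss_ibp_mat` with `M = M_k`, `XX_rot`):
`E ⟪M_k v_k, gradient f X⟫ = κ_k E Σ_i ⟪M_k e_i, H (e_i - Σ_{l≠k} J_l ρ_l M_l e_i)⟫`, i.e.
`E Σ_i ⟪M_k e_i, H e_i⟫ = κ_k⁻¹ E ⟪M_k v_k, gradient f X⟫ + Σ_{l≠k} J_l ρ_l E TT k l`.
-/

open MeasureTheory ProbabilityTheory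
open scoped RealInnerProductSpace

namespace Vale.Agent.P347

private theorem sid_facts {d : ℕ} {f : E d → ℝ} (hf : CB 2 (sc f)) :
    ContDiff ℝ 1 (gradient f) ∧ (∃ A1, 0 ≤ A1 ∧ ∀ x, ‖gradient f x‖ ≤ A1) ∧
    (∃ A2, 0 ≤ A2 ∧ ∀ x, ‖fderiv ℝ (gradient f) x‖ ≤ A2) ∧
    (∀ x v w, ⟪fderiv ℝ (gradient f) x v, w⟫ = ⟪v, fderiv ℝ (gradient f) x w⟫) := by
  have hg : CB 1 (gradient f) := CB.gradient hf
  have hf2 : ContDiff ℝ 2 f := by exact_mod_cast CB.contDiff_of_sc hf
  refine ⟨hg.1, ?_, ?_, ?_⟩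
  · obtain ⟨C, hC⟩ := hg.2.1
    exact ⟨C, (norm_nonneg _).trans (hC 0), hC⟩
  · obtain ⟨C, hC⟩ := hg.2.2.2
    exact ⟨C, (norm_nonneg _).trans (hC 0), fun x => (opNorm_le_Dv _ x).trans (hC x)⟩
  · intro x v w
    rw [real_inner_comm (fderiv ℝ (gradient f) x w) v, Conv.fderiv_grad hf2,
      Conv.fderiv_grad hf2, Conv.symm2 hf2]

private theorem sid_update {R : Type} [Fintype R] [DecidableEq R] {Z : Type} [MeasurableSpace Z]
    (μ : Measure Z) [IsProbabilityMeasure μ] (r : R) :
    MeasurePreserving (fun p : (R → Z) × Z => Function.update p.1 r p.2)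
      ((Measure.pi fun _ : R => μ).prod μ) (Measure.pi fun _ : R => μ) := by
  have hm : Measurable (fun p : (R → Z) × Z => Function.update p.1 r p.2) := by
    rw [measurable_pi_iff]
    intro j
    by_cases h : j = r
    · subst h
      simp only [Function.update_self]
      exact measurable_snd
    · simp only [Function.update_of_ne h]
      exact (measurable_pi_apply j).comp measurable_fst
  refine ⟨hm, ?_⟩
  symm
  apply Measure.pi_eq
  intro s hs
  rw [Measure.map_apply hm (MeasurableSet.univ_pi hs)]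
  have hpre : (fun p : (R → Z) × Z => Function.update p.1 r p.2) ⁻¹' Set.pi Set.univ s =
      (Set.pi Set.univ (Function.update s r Set.univ)) ×ˢ s r := by
    ext p
    simp only [Set.mem_preimage, Set.mem_pi, Set.mem_univ, true_implies, Set.mem_prod]
    constructor
    · intro h
      refine ⟨fun j => ?_, ?_⟩
      · by_cases hj : j = r
        · subst hj
          rw [Function.update_self]
          trivial
        · have := h j
          rw [Function.update_of_ne hj] at this ⊢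
          exact this
      · have := h r
        rwa [Function.update_self] at this
    · rintro ⟨h1, h2⟩ j
      by_cases hj : j = r
      · subst hj
        rw [Function.update_self]
        exact h2
      · have := h1 j
        rw [Function.update_of_ne hj] at this ⊢
        exact this
  rw [hpre, Measure.prod_prod, Measure.pi_pi,
    ← Finset.mul_prod_erase Finset.univ (fun i => μ (Function.update s r Set.univ i))
      (Finset.mem_univ r),
    ← Finset.mul_prod_erase Finset.univ (fun i => μ (s i)) (Finset.mem_univ r)]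
  have h1 : ∏ i ∈ Finset.univ.erase r, μ (Function.update s r Set.univ i) =
      ∏ i ∈ Finset.univ.erase r, μ (s i) := by
    refine Finset.prod_congr rfl fun i hi => ?_
    rw [Function.update_of_ne (Finset.ne_of_mem_erase hi)]
  rw [h1, Function.update_self, measure_univ, one_mul, mul_comm]

private theorem sid_rot {d K : ℕ} (k : Fin K) {ρ κ : ℝ} (h : ρ ^ 2 + κ ^ 2 = 1) :
    MeasurePreserving (fun q : (E d × (Rest K → E d)) × E d =>
        ((ρ • q.1.1 + κ • q.2,
          Function.update q.1.2 (Sum.inl k) (κ • q.1.1 - ρ • q.2)) : Noise d K))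
      (((stdGaussian (E d)).prod (Measure.pi fun _ : Rest K => stdGaussian (E d))).prod
        (stdGaussian (E d))) (noiseLaw d K) := by
  set μ : Measure (E d) := stdGaussian (E d) with hμ
  set π : Measure (Rest K → E d) := Measure.pi fun _ : Rest K => μ with hπ
  have hid : MeasurePreserving (id : E d → E d) μ μ := MeasurePreserving.id μ
  have hidπ : MeasurePreserving (id : (Rest K → E d) → (Rest K → E d)) π π :=
    MeasurePreserving.id π
  have m1 : MeasurePreserving (fun q : (E d × (Rest K → E d)) × E d => ((q.1.1, q.2), q.1.2))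
      ((μ.prod π).prod μ) ((μ.prod μ).prod π) := by
    have a1 := measurePreserving_prodAssoc μ π μ
    have a2 := hid.prod (Measure.measurePreserving_swap (μ := π) (ν := μ))
    have a3 := (measurePreserving_prodAssoc μ μ π).symm
    exact a3.comp (a2.comp a1)
  have hrot : MeasurePreserving (fun p : E d × E d => (ρ • p.1 + κ • p.2, κ • p.1 - ρ • p.2))
      (μ.prod μ) (μ.prod μ) := by
    refine ⟨?_, gauss_rot h⟩
    have hcont : Continuous (fun p : E d × E d => (ρ • p.1 + κ • p.2, κ • p.1 - ρ • p.2)) := by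
      fun_prop
    exact hcont.measurable
  have m2 := hrot.prod hidπ
  have m3 : MeasurePreserving (fun q : (E d × E d) × (Rest K → E d) =>
      ((q.1.1, Function.update q.2 (Sum.inl k) q.1.2) : Noise d K))
      ((μ.prod μ).prod π) (μ.prod π) := by
    have a1 := measurePreserving_prodAssoc μ μ π
    have a2 := hid.prod (Measure.measurePreserving_swap (μ := μ) (ν := π))
    have a3 := hid.prod (sid_update μ (Sum.inl k : Rest K))
    exact a3.comp (a2.comp a1)
  exact m3.comp (m2.comp m1)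

/-- integrals over the noise in the rotated variables -/
private theorem sid_rot_integral {d K : ℕ} (k : Fin K) {ρ κ : ℝ} (h : ρ ^ 2 + κ ^ 2 = 1)
    {Φ : Noise d K → ℝ} (hΦ : Integrable Φ (noiseLaw d K)) :
    ∫ ω, Φ ω ∂(noiseLaw d K) =
      ∫ b : E d × (Rest K → E d), (∫ v, Φ (ρ • b.1 + κ • v,
          Function.update b.2 (Sum.inl k) (κ • b.1 - ρ • v)) ∂(stdGaussian (E d)))
        ∂((stdGaussian (E d)).prod (Measure.pi fun _ : Rest K => stdGaussian (E d))) := by
  have hp := sid_rot (d := d) k h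
  have h1 : Integrable (fun q : (E d × (Rest K → E d)) × E d =>
      Φ (ρ • q.1.1 + κ • q.2, Function.update q.1.2 (Sum.inl k) (κ • q.1.1 - ρ • q.2)))
      (((stdGaussian (E d)).prod (Measure.pi fun _ : Rest K => stdGaussian (E d))).prod
        (stdGaussian (E d))) := by
    have h2 := (hp.integrable_comp hΦ.aestronglyMeasurable).2 hΦ
    exact h2
  have h3 : ∫ ω, Φ ω ∂(noiseLaw d K) = ∫ q : (E d × (Rest K → E d)) × E d,
      Φ (ρ • q.1.1 + κ • q.2, Function.update q.1.2 (Sum.inl k) (κ • q.1.1 - ρ • q.2))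
      ∂(((stdGaussian (E d)).prod (Measure.pi fun _ : Rest K => stdGaussian (E d))).prod
        (stdGaussian (E d))) := by
    have h4 := hΦ.aestronglyMeasurable
    rw [← hp.map_eq] at h4
    rw [← hp.map_eq]
    exact integral_map hp.measurable.aemeasurable h4
  rw [h3, integral_prod _ h1]

section cont
variable {d K : ℕ} {N : Nodes K} {F : E d → E d} {f : E d → ℝ}

private theorem sid_YY_cont (k : Fin K) : Continuous (YY (d := d) N k) := by
  show Continuous (fun ω : Noise d K => N.rho k • ω.1 + N.kap k • ω.2 (Sum.inl k))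
  fun_prop

private theorem sid_vv_cont (k : Fin K) : Continuous (vv (d := d) N k) := by
  show Continuous (fun ω : Noise d K => N.kap k • ω.1 - N.rho k • ω.2 (Sum.inl k))
  fun_prop

private theorem sid_MM_cont (hF : ContDiff ℝ 1 F) (k : Fin K) : Continuous (MM N F k) :=
  (hF.continuous_fderiv one_ne_zero).comp (sid_YY_cont k)

private theorem sid_H_cont (hF : ContDiff ℝ 1 F) (hg : ContDiff ℝ 1 (gradient f)) :
    Continuous (fun ω => fderiv ℝ (gradient f) (XX N F ω)) :=
  (hg.continuous_fderiv one_ne_zero).comp (XX_continuous hF.continuous)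

private theorem sid_g_cont (hF : ContDiff ℝ 1 F) (hg : ContDiff ℝ 1 (gradient f)) :
    Continuous (fun ω => gradient f (XX N F ω)) :=
  hg.continuous.comp (XX_continuous hF.continuous)

end cont

private theorem sid_norm_single {d : ℕ} (i : Fin d) :
    ‖(EuclideanSpace.single i (1 : ℝ) : E d)‖ = 1 := by simp

private theorem sid_integrable_bdd {d K : ℕ} {Φ : Noise d K → ℝ} (hc : Continuous Φ) {C : ℝ}
    (hb : ∀ ω, ‖Φ ω‖ ≤ C) : Integrable Φ (noiseLaw d K) := by
  refine noise_integrable (C := C) (p := 0) hc.aestronglyMeasurable fun ω => ?_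
  rw [pow_zero, mul_one]
  exact hb ω

/-- the trace function is integrable -/
private theorem sid_tr_integrable {d K : ℕ} {N : Nodes K} {F : E d → E d} {f : E d → ℝ} {a : ℝ}
    (hF : ContDiff ℝ 1 F) (ha : ∀ x, ‖fderiv ℝ F x‖ ≤ a) (hf : CB 2 (sc f)) (k : Fin K) :
    Integrable (fun ω => ∑ i, ⟪MM N F k ω (EuclideanSpace.single i 1),
      fderiv ℝ (gradient f) (XX N F ω) (EuclideanSpace.single i 1)⟫) (noiseLaw d K) := by
  obtain ⟨hg, -, ⟨A2, hA20, hA2⟩, -⟩ := sid_facts hf
  refine sid_integrable_bdd (C := ∑ _i : Fin d, a * A2) ?_ fun ω => ?_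
  · refine continuous_finsetSum _ fun i _ => ?_
    exact ((sid_MM_cont hF k).clm_apply continuous_const).inner
      ((sid_H_cont hF hg).clm_apply continuous_const)
  · refine (norm_sum_le _ _).trans (Finset.sum_le_sum fun i _ => ?_)
    refine (norm_inner_le_norm _ _).trans ?_
    have h1 : ‖MM N F k ω (EuclideanSpace.single i 1)‖ ≤ a := by
      have := (MM N F k ω).le_opNorm (EuclideanSpace.single i 1)
      rw [sid_norm_single, mul_one] at this
      exact this.trans (ha _)
    have h2 : ‖fderiv ℝ (gradient f) (XX N F ω) (EuclideanSpace.single i 1)‖ ≤ A2 := by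
      have := (fderiv ℝ (gradient f) (XX N F ω)).le_opNorm (EuclideanSpace.single i 1)
      rw [sid_norm_single, mul_one] at this
      exact this.trans (hA2 _)
    exact mul_le_mul h1 h2 (norm_nonneg _) ((norm_nonneg _).trans h1)

private theorem sid_TT_integrable {d K : ℕ} {N : Nodes K} {F : E d → E d} {f : E d → ℝ} {a : ℝ}
    (hF : ContDiff ℝ 1 F) (ha : ∀ x, ‖fderiv ℝ F x‖ ≤ a) (hf : CB 2 (sc f)) (k l : Fin K) :
    Integrable (TT N F f k l) (noiseLaw d K) := by
  obtain ⟨hg, -, ⟨A2, hA20, hA2⟩, -⟩ := sid_facts hf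
  have ha0 : 0 ≤ a := (norm_nonneg _).trans (ha 0)
  refine sid_integrable_bdd (C := ∑ _i : Fin d, a * (A2 * a)) ?_ fun ω => ?_
  · unfold TT
    refine continuous_finsetSum _ fun i _ => ?_
    exact ((sid_MM_cont hF k).clm_apply continuous_const).inner
      ((sid_H_cont hF hg).clm_apply ((sid_MM_cont hF l).clm_apply continuous_const))
  · unfold TT
    refine (norm_sum_le _ _).trans (Finset.sum_le_sum fun i _ => ?_)
    refine (norm_inner_le_norm _ _).trans ?_
    have h1 : ∀ j : Fin K, ‖MM N F j ω (EuclideanSpace.single i 1)‖ ≤ a := by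
      intro j
      have := (MM N F j ω).le_opNorm (EuclideanSpace.single i 1)
      rw [sid_norm_single, mul_one] at this
      exact this.trans (ha _)
    have h2 : ‖fderiv ℝ (gradient f) (XX N F ω) (MM N F l ω (EuclideanSpace.single i 1))‖
        ≤ A2 * a := by
      have := (fderiv ℝ (gradient f) (XX N F ω)).le_opNorm (MM N F l ω (EuclideanSpace.single i 1))
      exact this.trans (mul_le_mul (hA2 _) (h1 l) (norm_nonneg _) hA20)
    exact mul_le_mul (h1 k) h2 (norm_nonneg _) ha0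

private theorem sid_Mv_integrable {d K : ℕ} {N : Nodes K} {F : E d → E d} {f : E d → ℝ} {a : ℝ}
    (hF : ContDiff ℝ 1 F) (ha : ∀ x, ‖fderiv ℝ F x‖ ≤ a) (hf : CB 2 (sc f)) (k : Fin K) :
    Integrable (fun ω => ⟪MM N F k ω (vv N k ω), gradient f (XX N F ω)⟫) (noiseLaw d K) := by
  obtain ⟨hg, ⟨A1, hA10, hA1⟩, -, -⟩ := sid_facts hf
  have ha0 : 0 ≤ a := (norm_nonneg _).trans (ha 0)
  have hc : Continuous (fun ω => ⟪MM N F k ω (vv N k ω), gradient f (XX N F ω)⟫) :=
    ((sid_MM_cont hF k).clm_apply (sid_vv_cont k)).inner (sid_g_cont hF hg)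
  refine noise_integrable (C := a * (|N.kap k| + |N.rho k|) * A1) (p := 1)
    hc.aestronglyMeasurable fun ω => ?_
  rw [pow_one]
  refine (norm_inner_le_norm _ _).trans ?_
  have hs : ‖ω.2 (Sum.inl k)‖ ≤ ∑ r, ‖ω.2 r‖ :=
    Finset.single_le_sum (f := fun r => ‖ω.2 r‖) (fun r _ => norm_nonneg _) (Finset.mem_univ _)
  have hsum0 : 0 ≤ ∑ r, ‖ω.2 r‖ := Finset.sum_nonneg fun r _ => norm_nonneg _
  have hv : ‖vv N k ω‖ ≤ (|N.kap k| + |N.rho k|) * (1 + ‖ω.1‖ + ∑ r, ‖ω.2 r‖) := by
    unfold vv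
    refine (norm_sub_le _ _).trans ?_
    rw [norm_smul, norm_smul, Real.norm_eq_abs, Real.norm_eq_abs]
    have h1 : |N.kap k| * ‖ω.1‖ ≤ |N.kap k| * (1 + ‖ω.1‖ + ∑ r, ‖ω.2 r‖) :=
      mul_le_mul_of_nonneg_left (by linarith) (abs_nonneg _)
    have h2 : |N.rho k| * ‖ω.2 (Sum.inl k)‖ ≤ |N.rho k| * (1 + ‖ω.1‖ + ∑ r, ‖ω.2 r‖) :=
      mul_le_mul_of_nonneg_left (by linarith [norm_nonneg ω.1]) (abs_nonneg _)
    linarith
  have hM : ‖MM N F k ω (vv N k ω)‖ ≤
      a * ((|N.kap k| + |N.rho k|) * (1 + ‖ω.1‖ + ∑ r, ‖ω.2 r‖)) :=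
    ((MM N F k ω).le_opNorm _).trans (mul_le_mul (ha _) hv (norm_nonneg _) ha0)
  calc ‖MM N F k ω (vv N k ω)‖ * ‖gradient f (XX N F ω)‖
      ≤ (a * ((|N.kap k| + |N.rho k|) * (1 + ‖ω.1‖ + ∑ r, ‖ω.2 r‖))) * A1 :=
        mul_le_mul hM (hA1 _) (norm_nonneg _) ((norm_nonneg _).trans hM)
    _ = a * (|N.kap k| + |N.rho k|) * A1 * (1 + ‖ω.1‖ + ∑ r, ‖ω.2 r‖) := by ring

/-- integration by parts in the rotated variable -/
private theorem sid_inner {d K : ℕ} {N : Nodes K} {C ε a : ℝ} {F : E d → E d} {f : E d → ℝ}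
    (hN : GoodNodes N C ε) (hF : ContDiff ℝ 1 F) (ha : ∀ x, ‖fderiv ℝ F x‖ ≤ a)
    (hf : CB 2 (sc f)) (k : Fin K) (u : E d) (ζ : Rest K → E d) :
    ∫ v, (fun ω => ⟪MM N F k ω (vv N k ω), gradient f (XX N F ω)⟫) (N.rho k • u + N.kap k • v,
          Function.update ζ (Sum.inl k) (N.kap k • u - N.rho k • v)) ∂(stdGaussian (E d)) =
    ∫ v, (fun ω => N.kap k * ((∑ i, ⟪MM N F k ω (EuclideanSpace.single i 1),
        fderiv ℝ (gradient f) (XX N F ω) (EuclideanSpace.single i 1)⟫) -
        ∑ l ∈ Finset.univ.erase k, N.J l * N.rho l * TT N F f k l ω))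
          (N.rho k • u + N.kap k • v,
          Function.update ζ (Sum.inl k) (N.kap k • u - N.rho k • v)) ∂(stdGaussian (E d)) := by
  obtain ⟨hg, ⟨A1, hA10, hA1⟩, ⟨A2, hA20, hA2⟩, hsym⟩ := sid_facts hf
  have ha0 : 0 ≤ a := (norm_nonneg _).trans (ha 0)
  have hrk := rho_sq_add hN k
  obtain ⟨hc, hd⟩ := XX_rot hN hF u ζ k
  set Θ : E d → Noise d K := fun v => (N.rho k • u + N.kap k • v,
    Function.update ζ (Sum.inl k) (N.kap k • u - N.rho k • v)) with hΘ
  have hw : ContDiff ℝ 1 (fun v => gradient f (XX N F (Θ v))) := hg.comp hc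
  have hfd : ∀ v e, fderiv ℝ (fun v => gradient f (XX N F (Θ v))) v e =
      fderiv ℝ (gradient f) (XX N F (Θ v)) (N.kap k • (e - ∑ l ∈ Finset.univ.erase k,
        (N.J l * N.rho l) • MM N F l (Θ v) e)) := by
    intro v e
    have h1 : fderiv ℝ (fun v => gradient f (XX N F (Θ v))) v =
        (fderiv ℝ (gradient f) (XX N F (Θ v))).comp (fderiv ℝ (fun v => XX N F (Θ v)) v) :=
      fderiv_comp v ((hg.differentiable one_ne_zero) _) ((hc.differentiable one_ne_zero) v)
    rw [h1, ContinuousLinearMap.comp_apply, hd v e]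
  have hpg : PG (fun v => gradient f (XX N F (Θ v))) := PG.of_bdd (C := A1) fun v => hA1 _
  have hpg' : PG (fun v => fderiv ℝ (fun v => gradient f (XX N F (Θ v))) v) := by
    refine PG.of_bdd (C := A2 * (|N.kap k| * (1 + ∑ l ∈ Finset.univ.erase k,
      |N.J l * N.rho l| * a))) fun v => ?_
    have hB : 0 ≤ |N.kap k| * (1 + ∑ l ∈ Finset.univ.erase k, |N.J l * N.rho l| * a) := by
      have : 0 ≤ ∑ l ∈ Finset.univ.erase k, |N.J l * N.rho l| * a :=
        Finset.sum_nonneg fun l _ => mul_nonneg (abs_nonneg _) ha0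
      exact mul_nonneg (abs_nonneg _) (by linarith)
    refine ContinuousLinearMap.opNorm_le_bound _ (mul_nonneg hA20 hB) fun e => ?_
    rw [hfd v e]
    refine ((fderiv ℝ (gradient f) (XX N F (Θ v))).le_opNorm _).trans ?_
    rw [mul_assoc]
    refine mul_le_mul (hA2 _) ?_ (norm_nonneg _) hA20
    rw [norm_smul, Real.norm_eq_abs, mul_assoc]
    refine mul_le_mul_of_nonneg_left ?_ (abs_nonneg _)
    refine (norm_sub_le _ _).trans ?_
    have h2 : ‖∑ l ∈ Finset.univ.erase k, (N.J l * N.rho l) • MM N F l (Θ v) e‖ ≤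
        (∑ l ∈ Finset.univ.erase k, |N.J l * N.rho l| * a) * ‖e‖ := by
      refine (norm_sum_le _ _).trans ?_
      rw [Finset.sum_mul]
      refine Finset.sum_le_sum fun l _ => ?_
      rw [norm_smul, Real.norm_eq_abs, mul_assoc]
      refine mul_le_mul_of_nonneg_left ?_ (abs_nonneg _)
      exact ((MM N F l (Θ v)).le_opNorm e).trans
        (mul_le_mul_of_nonneg_right (ha _) (norm_nonneg _))
    linarith
  have key := gauss_ibp_mat (fderiv ℝ F u) hw hpg hpg'
  have hYY : ∀ v, YY N k (Θ v) = u := by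
    intro v
    show N.rho k • (N.rho k • u + N.kap k • v) +
      N.kap k • (Function.update ζ (Sum.inl k) (N.kap k • u - N.rho k • v)) (Sum.inl k) = u
    rw [Function.update_self]
    have h1 : N.rho k • (N.rho k • u + N.kap k • v) + N.kap k • (N.kap k • u - N.rho k • v) =
        (N.rho k ^ 2 + N.kap k ^ 2) • u := by module
    rw [h1, hrk, one_smul]
  have hvv : ∀ v, vv N k (Θ v) = v := by
    intro v
    show N.kap k • (N.rho k • u + N.kap k • v) -
      N.rho k • (Function.update ζ (Sum.inl k) (N.kap k • u - N.rho k • v)) (Sum.inl k) = v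
    rw [Function.update_self]
    have h1 : N.kap k • (N.rho k • u + N.kap k • v) - N.rho k • (N.kap k • u - N.rho k • v) =
        (N.rho k ^ 2 + N.kap k ^ 2) • v := by module
    rw [h1, hrk, one_smul]
  have hMM : ∀ v, MM N F k (Θ v) = fderiv ℝ F u := by
    intro v
    unfold MM
    rw [hYY]
  have e1 : ∀ v, ⟪MM N F k (Θ v) (vv N k (Θ v)), gradient f (XX N F (Θ v))⟫ =
      ⟪fderiv ℝ F u v, gradient f (XX N F (Θ v))⟫ := by
    intro v
    rw [hMM, hvv]
  have e2 : ∀ v, N.kap k * ((∑ i, ⟪MM N F k (Θ v) (EuclideanSpace.single i 1),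
        fderiv ℝ (gradient f) (XX N F (Θ v)) (EuclideanSpace.single i 1)⟫) -
        ∑ l ∈ Finset.univ.erase k, N.J l * N.rho l * TT N F f k l (Θ v)) =
      ∑ i, ⟪fderiv ℝ F u (EuclideanSpace.single i 1),
        fderiv ℝ (fun v => gradient f (XX N F (Θ v))) v (EuclideanSpace.single i 1)⟫ := by
    intro v
    have h1 : ∀ i : Fin d, ⟪fderiv ℝ F u (EuclideanSpace.single i 1),
        fderiv ℝ (fun v => gradient f (XX N F (Θ v))) v (EuclideanSpace.single i 1)⟫ =
        N.kap k * (⟪MM N F k (Θ v) (EuclideanSpace.single i 1),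
          fderiv ℝ (gradient f) (XX N F (Θ v)) (EuclideanSpace.single i 1)⟫ -
          ∑ l ∈ Finset.univ.erase k, N.J l * N.rho l *
            ⟪MM N F k (Θ v) (EuclideanSpace.single i 1), fderiv ℝ (gradient f) (XX N F (Θ v))
              (MM N F l (Θ v) (EuclideanSpace.single i 1))⟫) := by
      intro i
      rw [hfd, hMM, map_smul, map_sub, map_sum, inner_smul_right, inner_sub_right, inner_sum]
      congr 2
      refine Finset.sum_congr rfl fun l _ => ?_
      rw [map_smul, inner_smul_right]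
    rw [Finset.sum_congr rfl fun i _ => h1 i, ← Finset.mul_sum, Finset.sum_sub_distrib,
      Finset.sum_comm]
    congr 2
    refine Finset.sum_congr rfl fun l _ => ?_
    rw [← Finset.mul_sum]
    rfl
  show ∫ v, ⟪MM N F k (Θ v) (vv N k (Θ v)), gradient f (XX N F (Θ v))⟫ ∂(stdGaussian (E d)) =
    ∫ v, N.kap k * ((∑ i, ⟪MM N F k (Θ v) (EuclideanSpace.single i 1),
        fderiv ℝ (gradient f) (XX N F (Θ v)) (EuclideanSpace.single i 1)⟫) -
        ∑ l ∈ Finset.univ.erase k, N.J l * N.rho l * TT N F f k l (Θ v)) ∂(stdGaussian (E d))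
  simp only [e1, e2]
  exact key

theorem scheme_trace {d K : ℕ} {N : Nodes K} {C ε a : ℝ} {G : E d → ℝ} (hN : GoodNodes N C ε)
    (ha : 0 ≤ a) (hG : Pert d a G) {f : E d → ℝ} (hf : CB 2 (sc f)) (k : Fin K) :
    ∫ ω, (∑ i, ⟪MM N (gradient G) k ω (EuclideanSpace.single i 1),
      fderiv ℝ (gradient f) (XX N (gradient G) ω) (EuclideanSpace.single i 1)⟫) ∂(noiseLaw d K) =
    (N.kap k)⁻¹ * (∫ ω, ⟪MM N (gradient G) k ω (vv N k ω),
        gradient f (XX N (gradient G) ω)⟫ ∂(noiseLaw d K)) +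
      ∑ l ∈ Finset.univ.erase k, N.J l * N.rho l *
        ∫ ω, TT N (gradient G) f k l ω ∂(noiseLaw d K) := by
  have hF : ContDiff ℝ 1 (gradient G) := hG.grad_contDiff
  have haF : ∀ x, ‖fderiv ℝ (gradient G) x‖ ≤ a := hG.norm_fderiv_le ha
  have hrk := rho_sq_add hN k
  have hk := kap_pos hN k
  have i1 := sid_Mv_integrable (N := N) hF haF hf k
  have i2 := sid_tr_integrable (N := N) hF haF hf k
  have i3 : ∀ l, Integrable (fun ω => N.J l * N.rho l * TT N (gradient G) f k l ω)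
      (noiseLaw d K) := fun l => (sid_TT_integrable (N := N) hF haF hf k l).const_mul _
  have i4 : Integrable (fun ω => ∑ l ∈ Finset.univ.erase k,
      N.J l * N.rho l * TT N (gradient G) f k l ω) (noiseLaw d K) :=
    integrable_finsetSum _ fun l _ => i3 l
  have i5 := (i2.sub i4).const_mul (N.kap k)
  have h1 := sid_rot_integral k hrk i1
  have h2 := sid_rot_integral k hrk i5
  have h3 : ∫ ω, ⟪MM N (gradient G) k ω (vv N k ω), gradient f (XX N (gradient G) ω)⟫
      ∂(noiseLaw d K) = N.kap k * ((∫ ω, (∑ i, ⟪MM N (gradient G) k ω (EuclideanSpace.single i 1),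
      fderiv ℝ (gradient f) (XX N (gradient G) ω) (EuclideanSpace.single i 1)⟫) ∂(noiseLaw d K)) -
      ∑ l ∈ Finset.univ.erase k, N.J l * N.rho l *
        ∫ ω, TT N (gradient G) f k l ω ∂(noiseLaw d K)) := by
    have h4 : ∫ ω, ⟪MM N (gradient G) k ω (vv N k ω), gradient f (XX N (gradient G) ω)⟫
        ∂(noiseLaw d K) = ∫ ω, N.kap k * ((∑ i, ⟪MM N (gradient G) k ω (EuclideanSpace.single i 1),
        fderiv ℝ (gradient f) (XX N (gradient G) ω) (EuclideanSpace.single i 1)⟫) -
        ∑ l ∈ Finset.univ.erase k, N.J l * N.rho l * TT N (gradient G) f k l ω)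
        ∂(noiseLaw d K) := by
      refine h1.trans (Eq.trans ?_ h2.symm)
      refine integral_congr_ae (Filter.Eventually.of_forall fun b => ?_)
      exact sid_inner hN hF haF hf k b.1 b.2
    rw [h4, integral_const_mul, integral_sub i2 i4, integral_finsetSum _ fun l _ => i3 l]
    congr 2
    refine Finset.sum_congr rfl fun l _ => ?_
    rw [integral_const_mul]
  rw [h3, ← mul_assoc, inv_mul_cancel₀ hk.ne', one_mul]
  ring

/-- integration by parts in the main variable -/
private theorem sid_xi_inner {d K : ℕ} {N : Nodes K} {C ε a : ℝ} {F : E d → E d} {f : E d → ℝ}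
    (hN : GoodNodes N C ε) (hF : ContDiff ℝ 1 F) (ha : ∀ x, ‖fderiv ℝ F x‖ ≤ a)
    (hf : CB 2 (sc f)) (ζ : Rest K → E d) :
    ∫ x, ⟪x, gradient f (XX N F (x, ζ))⟫ ∂(stdGaussian (E d)) =
    ∫ x, ((∑ i, ⟪(EuclideanSpace.single i (1 : ℝ) : E d),
        fderiv ℝ (gradient f) (XX N F (x, ζ)) (EuclideanSpace.single i 1)⟫) -
        ∑ k, N.J k * N.rho k * ∑ i, ⟪MM N F k (x, ζ) (EuclideanSpace.single i 1),
          fderiv ℝ (gradient f) (XX N F (x, ζ)) (EuclideanSpace.single i 1)⟫)
          ∂(stdGaussian (E d)) := by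
  obtain ⟨hg, ⟨A1, hA10, hA1⟩, ⟨A2, hA20, hA2⟩, hsym⟩ := sid_facts hf
  have ha0 : 0 ≤ a := (norm_nonneg _).trans (ha 0)
  obtain ⟨hc, hd⟩ := XX_xi (N := N) hF ζ
  have hw : ContDiff ℝ 1 (fun x => gradient f (XX N F (x, ζ))) := hg.comp hc
  have hcomp : ∀ x, fderiv ℝ (fun x => gradient f (XX N F (x, ζ))) x =
      (fderiv ℝ (gradient f) (XX N F (x, ζ))).comp (fderiv ℝ (fun x => XX N F (x, ζ)) x) := fun x =>
    fderiv_comp x ((hg.differentiable one_ne_zero) _) ((hc.differentiable one_ne_zero) x)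
  have hpg : PG (fun x => gradient f (XX N F (x, ζ))) := PG.of_bdd (C := A1) fun v => hA1 _
  have hpg' : PG (fun x => fderiv ℝ (fun x => gradient f (XX N F (x, ζ))) x) := by
    refine PG.of_bdd (C := A2 * (1 + a * C)) fun x => ?_
    rw [hcomp]
    refine (ContinuousLinearMap.opNorm_comp_le _ _).trans ?_
    exact mul_le_mul (hA2 _) (XX_xi_norm hN ha0 hF ha ζ x) (norm_nonneg _) hA20
  have key := gauss_ibp_mat (ContinuousLinearMap.id ℝ (E d)) hw hpg hpg'
  have e1 : ∀ x, (∑ i, ⟪(EuclideanSpace.single i (1 : ℝ) : E d),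
        fderiv ℝ (gradient f) (XX N F (x, ζ)) (EuclideanSpace.single i 1)⟫) -
        ∑ k, N.J k * N.rho k * ∑ i, ⟪MM N F k (x, ζ) (EuclideanSpace.single i 1),
          fderiv ℝ (gradient f) (XX N F (x, ζ)) (EuclideanSpace.single i 1)⟫ =
      ∑ i, ⟪(ContinuousLinearMap.id ℝ (E d)) (EuclideanSpace.single i 1),
        fderiv ℝ (fun x => gradient f (XX N F (x, ζ))) x (EuclideanSpace.single i 1)⟫ := by
    intro x
    have h1 : ∀ i : Fin d, ⟪(ContinuousLinearMap.id ℝ (E d)) (EuclideanSpace.single i 1),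
        fderiv ℝ (fun x => gradient f (XX N F (x, ζ))) x (EuclideanSpace.single i 1)⟫ =
        ⟪(EuclideanSpace.single i (1 : ℝ) : E d),
          fderiv ℝ (gradient f) (XX N F (x, ζ)) (EuclideanSpace.single i 1)⟫ -
        ∑ k, N.J k * N.rho k * ⟪MM N F k (x, ζ) (EuclideanSpace.single i 1),
          fderiv ℝ (gradient f) (XX N F (x, ζ)) (EuclideanSpace.single i 1)⟫ := by
      intro i
      rw [hcomp, ContinuousLinearMap.comp_apply, hd, map_sub, map_sum, inner_sub_right, inner_sum]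
      congr 1
      refine Finset.sum_congr rfl fun k _ => ?_
      rw [map_smul, inner_smul_right]
      congr 1
      show ⟪(EuclideanSpace.single i (1 : ℝ) : E d), fderiv ℝ (gradient f) (XX N F (x, ζ))
        (MM N F k (x, ζ) (EuclideanSpace.single i 1))⟫ = _
      rw [← hsym, real_inner_comm]
    rw [Finset.sum_congr rfl fun i _ => h1 i, Finset.sum_sub_distrib, Finset.sum_comm]
    congr 1
    refine Finset.sum_congr rfl fun k _ => ?_
    rw [← Finset.mul_sum]
  simp only [e1]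
  exact key

private theorem sid_tr0_integrable {d K : ℕ} {N : Nodes K} {F : E d → E d} {f : E d → ℝ}
    (hF : ContDiff ℝ 1 F) (hf : CB 2 (sc f)) :
    Integrable (fun ω => ∑ i, ⟪(EuclideanSpace.single i (1 : ℝ) : E d),
      fderiv ℝ (gradient f) (XX N F ω) (EuclideanSpace.single i 1)⟫) (noiseLaw d K) := by
  obtain ⟨hg, -, ⟨A2, hA20, hA2⟩, -⟩ := sid_facts hf
  refine sid_integrable_bdd (C := ∑ _i : Fin d, 1 * A2) ?_ fun ω => ?_
  · refine continuous_finsetSum _ fun i _ => ?_
    exact continuous_const.inner ((sid_H_cont hF hg).clm_apply continuous_const)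
  · refine (norm_sum_le _ _).trans (Finset.sum_le_sum fun i _ => ?_)
    refine (norm_inner_le_norm _ _).trans ?_
    have h2 : ‖fderiv ℝ (gradient f) (XX N F ω) (EuclideanSpace.single i 1)‖ ≤ A2 := by
      have := (fderiv ℝ (gradient f) (XX N F ω)).le_opNorm (EuclideanSpace.single i 1)
      rw [sid_norm_single, mul_one] at this
      exact this.trans (hA2 _)
    exact mul_le_mul (sid_norm_single i).le h2 (norm_nonneg _) zero_le_one

private theorem sid_xig_integrable {d K : ℕ} {N : Nodes K} {F : E d → E d} {f : E d → ℝ}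
    (hF : ContDiff ℝ 1 F) (hf : CB 2 (sc f)) :
    Integrable (fun ω : Noise d K => ⟪ω.1, gradient f (XX N F ω)⟫) (noiseLaw d K) := by
  obtain ⟨hg, ⟨A1, hA10, hA1⟩, -, -⟩ := sid_facts hf
  have hc : Continuous (fun ω : Noise d K => ⟪ω.1, gradient f (XX N F ω)⟫) :=
    continuous_fst.inner (sid_g_cont hF hg)
  refine noise_integrable (C := A1) (p := 1) hc.aestronglyMeasurable fun ω => ?_
  rw [pow_one]
  refine (norm_inner_le_norm _ _).trans ?_
  have hsum0 : 0 ≤ ∑ r, ‖ω.2 r‖ := Finset.sum_nonneg fun r _ => norm_nonneg _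
  calc ‖ω.1‖ * ‖gradient f (XX N F ω)‖ ≤ (1 + ‖ω.1‖ + ∑ r, ‖ω.2 r‖) * A1 :=
        mul_le_mul (by linarith) (hA1 _) (norm_nonneg _) (by linarith [norm_nonneg ω.1])
    _ = A1 * (1 + ‖ω.1‖ + ∑ r, ‖ω.2 r‖) := mul_comm _ _

private theorem sid_drift_eq {d K : ℕ} {N : Nodes K} {F : E d → E d} (ω : Noise d K) :
    SSω N F ω + bbω N F ω - F (XX N F ω) = (ω.1 - XX N F ω) - F (XX N F ω) := by
  have h1 : XX N F ω = ω.1 - SSω N F ω - bbω N F ω := rfl
  have h2 : SSω N F ω + bbω N F ω = ω.1 - XX N F ω := by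
    rw [h1]
    abel
  rw [h2]

private theorem sid_drift_integrable {d K : ℕ} {N : Nodes K} {F : E d → E d} {f : E d → ℝ} {a : ℝ}
    (hF : ContDiff ℝ 1 F) (ha : ∀ x, ‖fderiv ℝ F x‖ ≤ a) (hf : CB 2 (sc f)) :
    Integrable (fun ω : Noise d K => ⟪SSω N F ω + bbω N F ω - F (XX N F ω),
      gradient f (XX N F ω)⟫) (noiseLaw d K) := by
  obtain ⟨hg, ⟨A1, hA10, hA1⟩, -, -⟩ := sid_facts hf
  have ha0 : 0 ≤ a := (norm_nonneg _).trans (ha 0)
  simp only [sid_drift_eq]
  have hXc : Continuous (XX (d := d) N F) := XX_continuous hF.continuous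
  have hc : Continuous (fun ω : Noise d K => ⟪(ω.1 - XX N F ω) - F (XX N F ω),
      gradient f (XX N F ω)⟫) :=
    ((continuous_fst.sub hXc).sub (hF.continuous.comp hXc)).inner (sid_g_cont hF hg)
  obtain ⟨C0, hC0⟩ := XX_growth (N := N) hF ha
  refine noise_integrable (C := (1 + C0 + (‖F 0‖ + a * C0)) * A1) (p := 1)
    hc.aestronglyMeasurable fun ω => ?_
  rw [pow_one]
  refine (norm_inner_le_norm _ _).trans ?_
  have hsum0 : 0 ≤ ∑ r, ‖ω.2 r‖ := Finset.sum_nonneg fun r _ => norm_nonneg _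
  have hω0 := norm_nonneg ω.1
  set B := 1 + ‖ω.1‖ + ∑ r, ‖ω.2 r‖ with hB
  have hB1 : 1 ≤ B := by linarith
  have hX := hC0 ω
  have hlip : ‖F (XX N F ω) - F 0‖ ≤ a * ‖XX N F ω - 0‖ :=
    Convex.norm_image_sub_le_of_norm_fderiv_le (𝕜 := ℝ) (s := Set.univ)
      (fun z _ => (hF.differentiable one_ne_zero) z) (fun z _ => ha z) convex_univ
      (Set.mem_univ _) (Set.mem_univ _)
  rw [sub_zero] at hlip
  have hFX : ‖F (XX N F ω)‖ ≤ ‖F 0‖ * B + a * (C0 * B) := by
    have h1 : ‖F (XX N F ω)‖ ≤ ‖F 0‖ + ‖F (XX N F ω) - F 0‖ := by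
      have := norm_add_le (F 0) (F (XX N F ω) - F 0)
      rwa [add_sub_cancel] at this
    have h2 : ‖F 0‖ ≤ ‖F 0‖ * B := le_mul_of_one_le_right (norm_nonneg _) hB1
    have h3 : a * ‖XX N F ω‖ ≤ a * (C0 * B) := mul_le_mul_of_nonneg_left hX ha0
    linarith
  have h4 : ‖(ω.1 - XX N F ω) - F (XX N F ω)‖ ≤ (1 + C0 + (‖F 0‖ + a * C0)) * B := by
    have h5 := norm_sub_le (ω.1 - XX N F ω) (F (XX N F ω))
    have h6 := norm_sub_le ω.1 (XX N F ω)
    have h7 : ‖ω.1‖ ≤ B := by linarith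
    calc ‖(ω.1 - XX N F ω) - F (XX N F ω)‖ ≤ B + C0 * B + (‖F 0‖ * B + a * (C0 * B)) := by
          linarith
      _ = (1 + C0 + (‖F 0‖ + a * C0)) * B := by ring
  calc ‖(ω.1 - XX N F ω) - F (XX N F ω)‖ * ‖gradient f (XX N F ω)‖
      ≤ ((1 + C0 + (‖F 0‖ + a * C0)) * B) * A1 :=
        mul_le_mul h4 (hA1 _) (norm_nonneg _) ((norm_nonneg _).trans h4)
    _ = (1 + C0 + (‖F 0‖ + a * C0)) * A1 * B := by ring

theorem scheme_xi {d K : ℕ} {N : Nodes K} {C ε a : ℝ} {G : E d → ℝ} (hN : GoodNodes N C ε)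
    (ha : 0 ≤ a) (hG : Pert d a G) {f : E d → ℝ} (hf : CB 2 (sc f)) :
    ∫ ω, Ls G f (XX N (gradient G) ω) ∂(noiseLaw d K) =
      (∫ ω, ⟪SSω N (gradient G) ω + bbω N (gradient G) ω - gradient G (XX N (gradient G) ω),
        gradient f (XX N (gradient G) ω)⟫ ∂(noiseLaw d K)) +
      ∑ k, N.J k * N.rho k * ∫ ω, (∑ i, ⟪MM N (gradient G) k ω (EuclideanSpace.single i 1),
        fderiv ℝ (gradient f) (XX N (gradient G) ω) (EuclideanSpace.single i 1)⟫)
          ∂(noiseLaw d K) := by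
  have hF : ContDiff ℝ 1 (gradient G) := hG.grad_contDiff
  have haF : ∀ x, ‖fderiv ℝ (gradient G) x‖ ≤ a := hG.norm_fderiv_le ha
  have i0 := sid_tr0_integrable (K := K) (N := N) hF hf
  have i1 := sid_xig_integrable (K := K) (N := N) hF hf
  have i2 := sid_drift_integrable (K := K) (N := N) hF haF hf
  have i3 : ∀ k, Integrable (fun ω => N.J k * N.rho k * ∑ i,
      ⟪MM N (gradient G) k ω (EuclideanSpace.single i 1),
      fderiv ℝ (gradient f) (XX N (gradient G) ω) (EuclideanSpace.single i 1)⟫)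
      (noiseLaw d K) := fun k => (sid_tr_integrable (N := N) hF haF hf k).const_mul _
  have i4 : Integrable (fun ω => ∑ k, N.J k * N.rho k * ∑ i,
      ⟪MM N (gradient G) k ω (EuclideanSpace.single i 1),
      fderiv ℝ (gradient f) (XX N (gradient G) ω) (EuclideanSpace.single i 1)⟫)
      (noiseLaw d K) := integrable_finsetSum _ fun k _ => i3 k
  have h1 : ∫ ω : Noise d K, ⟪ω.1, gradient f (XX N (gradient G) ω)⟫ ∂(noiseLaw d K) =
      (∫ ω, (∑ i, ⟪(EuclideanSpace.single i (1 : ℝ) : E d),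
        fderiv ℝ (gradient f) (XX N (gradient G) ω) (EuclideanSpace.single i 1)⟫)
        ∂(noiseLaw d K)) -
      ∑ k, N.J k * N.rho k * ∫ ω, (∑ i, ⟪MM N (gradient G) k ω (EuclideanSpace.single i 1),
        fderiv ℝ (gradient f) (XX N (gradient G) ω) (EuclideanSpace.single i 1)⟫)
          ∂(noiseLaw d K) := by
    have h2 : ∫ ω : Noise d K, ⟪ω.1, gradient f (XX N (gradient G) ω)⟫ ∂(noiseLaw d K) =
        ∫ ω, ((∑ i, ⟪(EuclideanSpace.single i (1 : ℝ) : E d),
          fderiv ℝ (gradient f) (XX N (gradient G) ω) (EuclideanSpace.single i 1)⟫) -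
          ∑ k, N.J k * N.rho k * ∑ i, ⟪MM N (gradient G) k ω (EuclideanSpace.single i 1),
            fderiv ℝ (gradient f) (XX N (gradient G) ω) (EuclideanSpace.single i 1)⟫)
          ∂(noiseLaw d K) := by
      have h3 := integral_prod_symm _ i1
      have h4 := integral_prod_symm _ (i0.sub i4)
      refine h3.trans (Eq.trans ?_ h4.symm)
      refine integral_congr_ae (Filter.Eventually.of_forall fun ζ => ?_)
      exact sid_xi_inner hN hF haF hf ζ
    rw [h2, integral_sub i0 i4, integral_finsetSum _ fun k _ => i3 k]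
    congr 1
    refine Finset.sum_congr rfl fun k _ => ?_
    rw [integral_const_mul]
  have h5 : ∀ ω : Noise d K, Ls G f (XX N (gradient G) ω) =
      ((∑ i, ⟪(EuclideanSpace.single i (1 : ℝ) : E d),
        fderiv ℝ (gradient f) (XX N (gradient G) ω) (EuclideanSpace.single i 1)⟫) -
        ⟪ω.1, gradient f (XX N (gradient G) ω)⟫) +
      ⟪SSω N (gradient G) ω + bbω N (gradient G) ω - gradient G (XX N (gradient G) ω),
        gradient f (XX N (gradient G) ω)⟫ := by
    intro ω
    rw [sid_drift_eq]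
    unfold Ls
    have h6 : ∀ i : Fin d, Dv (gradient f) (XX N (gradient G) ω) (i, i) =
        ⟪(EuclideanSpace.single i (1 : ℝ) : E d),
        fderiv ℝ (gradient f) (XX N (gradient G) ω) (EuclideanSpace.single i 1)⟫ := by
      intro i
      rw [Dv_apply, EuclideanSpace.inner_single_left]
      simp
    rw [Finset.sum_congr rfl fun i _ => h6 i]
    have h7 : ⟪XX N (gradient G) ω + gradient G (XX N (gradient G) ω),
        gradient f (XX N (gradient G) ω)⟫ = ⟪ω.1, gradient f (XX N (gradient G) ω)⟫ -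
        ⟪ω.1 - XX N (gradient G) ω - gradient G (XX N (gradient G) ω),
          gradient f (XX N (gradient G) ω)⟫ := by
      rw [← inner_sub_left]
      congr 1
      abel
    rw [h7]
    ring
  have h8 : ∫ ω, Ls G f (XX N (gradient G) ω) ∂(noiseLaw d K) =
      (∫ ω, (∑ i, ⟪(EuclideanSpace.single i (1 : ℝ) : E d),
        fderiv ℝ (gradient f) (XX N (gradient G) ω) (EuclideanSpace.single i 1)⟫)
        ∂(noiseLaw d K)) - (∫ ω : Noise d K, ⟪ω.1, gradient f (XX N (gradient G) ω)⟫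
        ∂(noiseLaw d K)) +
      ∫ ω, ⟪SSω N (gradient G) ω + bbω N (gradient G) ω - gradient G (XX N (gradient G) ω),
        gradient f (XX N (gradient G) ω)⟫ ∂(noiseLaw d K) := by
    have i6 : Integrable (fun ω : Noise d K => (∑ i, ⟪(EuclideanSpace.single i (1 : ℝ) : E d),
        fderiv ℝ (gradient f) (XX N (gradient G) ω) (EuclideanSpace.single i 1)⟫) -
        ⟪ω.1, gradient f (XX N (gradient G) ω)⟫) (noiseLaw d K) := i0.sub i1
    simp only [h5]
    rw [integral_add i6 i2, integral_sub i0 i1]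
  rw [h8, h1]
  ring

theorem scheme_id {d K : ℕ} {N : Nodes K} {C ε a : ℝ} {G : E d → ℝ} (hN : GoodNodes N C ε)
    (ha : 0 ≤ a) (hG : Pert d a G) {f : E d → ℝ} (hf : CB 2 (sc f)) :
    ∫ ω, Ls G f (XX N (gradient G) ω) ∂(noiseLaw d K) =
      (∫ ω, ⟪DD N (gradient G) ω + bbω N (gradient G) ω - gradient G (XX N (gradient G) ω),
        gradient f (XX N (gradient G) ω)⟫ ∂(noiseLaw d K)) +
      ∑ k, ∑ l ∈ Finset.univ.erase k, N.J k * N.rho k * (N.J l * N.rho l) *
        ∫ ω, TT N (gradient G) f k l ω ∂(noiseLaw d K) := by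
  have hF : ContDiff ℝ 1 (gradient G) := hG.grad_contDiff
  have haF : ∀ x, ‖fderiv ℝ (gradient G) x‖ ≤ a := hG.norm_fderiv_le ha
  have i2 := sid_drift_integrable (K := K) (N := N) hF haF hf
  have i3 : ∀ k, Integrable (fun ω => N.J k * (N.rho k / N.kap k) *
      ⟪MM N (gradient G) k ω (vv N k ω), gradient f (XX N (gradient G) ω)⟫)
      (noiseLaw d K) := fun k => (sid_Mv_integrable (N := N) hF haF hf k).const_mul _
  have i4 : Integrable (fun ω => ∑ k, N.J k * (N.rho k / N.kap k) *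
      ⟪MM N (gradient G) k ω (vv N k ω), gradient f (XX N (gradient G) ω)⟫)
      (noiseLaw d K) := integrable_finsetSum _ fun k _ => i3 k
  have h1 : ∀ ω : Noise d K,
      ⟪DD N (gradient G) ω + bbω N (gradient G) ω - gradient G (XX N (gradient G) ω),
        gradient f (XX N (gradient G) ω)⟫ =
      ⟪SSω N (gradient G) ω + bbω N (gradient G) ω - gradient G (XX N (gradient G) ω),
        gradient f (XX N (gradient G) ω)⟫ + ∑ k, N.J k * (N.rho k / N.kap k) *
      ⟪MM N (gradient G) k ω (vv N k ω), gradient f (XX N (gradient G) ω)⟫ := by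
    intro ω
    have h2 : DD N (gradient G) ω = SSω N (gradient G) ω + ∑ k, (N.J k * (N.rho k / N.kap k)) •
        MM N (gradient G) k ω (vv N k ω) := by
      have h3 : SSω N (gradient G) ω = ∑ k, N.J k • gradient G (YY N k ω) := rfl
      unfold DD
      rw [h3, ← Finset.sum_add_distrib]
      refine Finset.sum_congr rfl fun k _ => ?_
      rw [smul_add, smul_smul]
    have h4 : DD N (gradient G) ω + bbω N (gradient G) ω - gradient G (XX N (gradient G) ω) =
        (SSω N (gradient G) ω + bbω N (gradient G) ω - gradient G (XX N (gradient G) ω)) +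
        ∑ k, (N.J k * (N.rho k / N.kap k)) • MM N (gradient G) k ω (vv N k ω) := by
      rw [h2]
      abel
    rw [h4, inner_add_left, sum_inner]
    congr 1
    refine Finset.sum_congr rfl fun k _ => ?_
    rw [real_inner_smul_left]
  have h5 : ∫ ω, ⟪DD N (gradient G) ω + bbω N (gradient G) ω - gradient G (XX N (gradient G) ω),
        gradient f (XX N (gradient G) ω)⟫ ∂(noiseLaw d K) =
      (∫ ω, ⟪SSω N (gradient G) ω + bbω N (gradient G) ω - gradient G (XX N (gradient G) ω),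
        gradient f (XX N (gradient G) ω)⟫ ∂(noiseLaw d K)) +
      ∑ k, N.J k * (N.rho k / N.kap k) * ∫ ω, ⟪MM N (gradient G) k ω (vv N k ω),
        gradient f (XX N (gradient G) ω)⟫ ∂(noiseLaw d K) := by
    simp only [h1]
    rw [integral_add i2 i4, integral_finsetSum _ fun k _ => i3 k]
    congr 1
    refine Finset.sum_congr rfl fun k _ => ?_
    rw [integral_const_mul]
  rw [scheme_xi hN ha hG hf, h5, add_assoc, ← Finset.sum_add_distrib]
  congr 1
  refine Finset.sum_congr rfl fun k _ => ?_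
  rw [scheme_trace hN ha hG hf k, mul_add, Finset.mul_sum]
  congr 1
  · rw [div_eq_mul_inv]
    ring
  · refine Finset.sum_congr rfl fun l _ => ?_
    ring

end Vale.Agent.P347
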