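import Vale.Agent.Lib.P347.SchV
import Vale.Agent.Lib.P347.SchId

/-!
P347: the Stein discrepancy of the scheme.

Proofs. `TT_bd`: `|Σ_i ⟪M_k e_i, H M_l e_i⟫| ≤ ‖M_k‖_HS ‖H M_l‖_HS ≤ (a √d) (A2 a)`.
`first_bd`: `E (DD - F ξ) = 0` (rotation: `E M_k v_k = 0`, `E F (YY) = E F ξ`, `Σ J_k = 1`), so one
can replace `gradient f X` by `W = gradient f X - E gradient f X = w(ξ) + R`, where
`w(ξ) = E[gradient f X | ξ] - E gradient f X` and `R = gradient f X - E[gradient f X | ξ]`.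
`E ⟪DD - F ξ, w(ξ)⟫` is at most `ε a √d |w|₂ ≤ ε a √d √(3/2) A2` by `GoodNodes.exact`. As `R` is
orthogonal to functions of `ξ`,
`E ⟪DD - F ξ, R⟫ = E ⟪DD - Σ J_k F (ρ_k ξ), R⟫ ≤ 2 a C √d * √6 a C A2` (`dd_size`, `var_rest`).
`second_bd`: with `T = F (ξ - SSω) - F ξ`, `F X - F ξ = T + (F X - F (ξ - SSω))` and
`|F X - F (ξ - SSω)| ≤ a |bbω|`, `E |bbω| ≤ a C (m0 + a √d)`. And `bbω` is independent of `(ξ, z)`,
with the law of `T`, so `E (bbω - T) = 0` and
`E ⟪bbω - T, gradient f X⟫ = E ⟪bbω - T, W⟫ ≤ 2 a C (m0 + a √d) √(3/2) A2`.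
`stein_bd`: add up, using `scheme_id`; `1 + 12 + 6 ≤ 20`.
-/

open MeasureTheory ProbabilityTheory
open scoped RealInnerProductSpace

namespace Vale.Agent.P347

variable {d K : ℕ} {N : Nodes K} {C ε a : ℝ}


/-! ### growth of functions of the noise -/

/-- polynomial growth in the noise -/
private def SchB_NG {F : Type} [NormedAddCommGroup F] (u : Noise d K → F) : Prop :=
  ∃ (C : ℝ) (p : ℕ), ∀ ω, ‖u ω‖ ≤ C * (1 + ‖ω.1‖ + ∑ r, ‖ω.2 r‖) ^ p

private theorem SchB_W (ω : Noise d K) : 1 ≤ 1 + ‖ω.1‖ + ∑ r, ‖ω.2 r‖ := by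
  have h1 := norm_nonneg ω.1
  have h2 : 0 ≤ ∑ r, ‖ω.2 r‖ := Finset.sum_nonneg fun _ _ => norm_nonneg _
  linarith

private theorem SchB_C_nonneg {F : Type} [NormedAddCommGroup F] {u : Noise d K → F} {C : ℝ} {p : ℕ}
    (h : ∀ ω, ‖u ω‖ ≤ C * (1 + ‖ω.1‖ + ∑ r, ‖ω.2 r‖) ^ p) : 0 ≤ C := by
  have h0 := (norm_nonneg (u 0)).trans (h 0)
  have h1 := SchB_W (0 : Noise d K)
  by_contra hC
  have h2 : 0 < (1 + ‖(0 : Noise d K).1‖ + ∑ r, ‖(0 : Noise d K).2 r‖) ^ p := by positivity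
  nlinarith

private theorem SchB_bdd {F : Type} [NormedAddCommGroup F] {u : Noise d K → F} {C : ℝ}
    (h : ∀ ω, ‖u ω‖ ≤ C) : SchB_NG u :=
  ⟨C, 0, fun ω => by rw [pow_zero, mul_one]; exact h ω⟩

private theorem SchB_add {F : Type} [NormedAddCommGroup F] {u v : Noise d K → F}
    (hu : SchB_NG u) (hv : SchB_NG v) : SchB_NG (fun ω => u ω + v ω) := by
  obtain ⟨C, p, hC⟩ := hu
  obtain ⟨C', q, hC'⟩ := hv
  refine ⟨C + C', p + q, fun ω => ?_⟩
  have h1 := mul_le_mul_of_nonneg_left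
    (pow_le_pow_right₀ (SchB_W ω) (Nat.le_add_right p q)) (SchB_C_nonneg hC)
  have h2 := mul_le_mul_of_nonneg_left
    (pow_le_pow_right₀ (SchB_W ω) (Nat.le_add_left q p)) (SchB_C_nonneg hC')
  calc ‖u ω + v ω‖ ≤ ‖u ω‖ + ‖v ω‖ := norm_add_le _ _
    _ ≤ _ := add_le_add ((hC ω).trans h1) ((hC' ω).trans h2)
    _ = (C + C') * (1 + ‖ω.1‖ + ∑ r, ‖ω.2 r‖) ^ (p + q) := by ring

private theorem SchB_neg {F : Type} [NormedAddCommGroup F] {u : Noise d K → F}
    (hu : SchB_NG u) : SchB_NG (fun ω => - u ω) := by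
  obtain ⟨C, p, hC⟩ := hu
  exact ⟨C, p, fun ω => by rw [norm_neg]; exact hC ω⟩

private theorem SchB_sub {F : Type} [NormedAddCommGroup F] {u v : Noise d K → F}
    (hu : SchB_NG u) (hv : SchB_NG v) : SchB_NG (fun ω => u ω - v ω) := by
  have h := SchB_add hu (SchB_neg hv)
  simpa only [sub_eq_add_neg] using h

private theorem SchB_mono {F F' : Type} [NormedAddCommGroup F] [NormedAddCommGroup F']
    {u : Noise d K → F} {v : Noise d K → F'} (hu : SchB_NG u) (h : ∀ ω, ‖v ω‖ ≤ ‖u ω‖) :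
    SchB_NG v := by
  obtain ⟨C, p, hC⟩ := hu
  exact ⟨C, p, fun ω => (h ω).trans (hC ω)⟩

private theorem SchB_mul {u v : Noise d K → ℝ} (hu : SchB_NG u) (hv : SchB_NG v) :
    SchB_NG (fun ω => u ω * v ω) := by
  obtain ⟨C, p, hC⟩ := hu
  obtain ⟨C', q, hC'⟩ := hv
  refine ⟨C * C', p + q, fun ω => ?_⟩
  have h0 : 0 ≤ C * (1 + ‖ω.1‖ + ∑ r, ‖ω.2 r‖) ^ p := (norm_nonneg _).trans (hC ω)
  calc ‖u ω * v ω‖ = ‖u ω‖ * ‖v ω‖ := norm_mul _ _
    _ ≤ (C * (1 + ‖ω.1‖ + ∑ r, ‖ω.2 r‖) ^ p) * (C' * (1 + ‖ω.1‖ + ∑ r, ‖ω.2 r‖) ^ q) :=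
      mul_le_mul (hC ω) (hC' ω) (norm_nonneg _) h0
    _ = C * C' * (1 + ‖ω.1‖ + ∑ r, ‖ω.2 r‖) ^ (p + q) := by ring

private theorem SchB_norm {F : Type} [NormedAddCommGroup F] {u : Noise d K → F}
    (hu : SchB_NG u) : SchB_NG (fun ω => ‖u ω‖) :=
  SchB_mono hu fun ω => by rw [norm_norm]

private theorem SchB_smul {F : Type} [NormedAddCommGroup F] [NormedSpace ℝ F] (c : ℝ)
    {u : Noise d K → F} (hu : SchB_NG u) : SchB_NG (fun ω => c • u ω) := by
  have h1 : SchB_NG (fun ω : Noise d K => ‖c‖ * ‖u ω‖) :=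
    SchB_mul (SchB_bdd (C := ‖c‖) fun _ => by rw [norm_norm]) (SchB_norm hu)
  exact SchB_mono h1 fun ω => by rw [norm_smul, norm_mul, norm_norm, norm_norm]

private theorem SchB_inner {F : Type} [NormedAddCommGroup F] [InnerProductSpace ℝ F]
    {u v : Noise d K → F} (hu : SchB_NG u) (hv : SchB_NG v) : SchB_NG (fun ω => ⟪u ω, v ω⟫) := by
  have h1 := SchB_mul (SchB_norm hu) (SchB_norm hv)
  refine SchB_mono h1 fun ω => ?_
  rw [norm_mul, norm_norm, norm_norm]
  exact norm_inner_le_norm _ _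

private theorem SchB_sq {F : Type} [NormedAddCommGroup F] {u : Noise d K → F}
    (hu : SchB_NG u) : SchB_NG (fun ω => ‖u ω‖ ^ 2) := by
  have h1 := SchB_mul (SchB_norm hu) (SchB_norm hu)
  simpa only [pow_two] using h1

private theorem SchB_sum {ι F : Type} [NormedAddCommGroup F] (s : Finset ι)
    {u : ι → Noise d K → F} (hu : ∀ i ∈ s, SchB_NG (u i)) :
    SchB_NG (fun ω => ∑ i ∈ s, u i ω) := by
  classical
  induction s using Finset.induction_on with
  | empty => exact SchB_bdd (C := 0) fun ω => by simp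
  | insert i s hi ih =>
    have h1 := SchB_add (hu i (Finset.mem_insert_self i s))
      (ih fun j hj => hu j (Finset.mem_insert_of_mem hj))
    refine SchB_mono h1 fun ω => ?_
    rw [Finset.sum_insert hi]

private theorem SchB_fst : SchB_NG (fun ω : Noise d K => ω.1) := by
  refine ⟨1, 1, fun ω => ?_⟩
  have h2 : 0 ≤ ∑ r, ‖ω.2 r‖ := Finset.sum_nonneg fun _ _ => norm_nonneg _
  rw [pow_one, one_mul]
  linarith

private theorem SchB_coord (r : Rest K) : SchB_NG (fun ω : Noise d K => ω.2 r) := by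
  refine ⟨1, 1, fun ω => ?_⟩
  have h2 : ‖ω.2 r‖ ≤ ∑ r, ‖ω.2 r‖ :=
    Finset.single_le_sum (f := fun r => ‖ω.2 r‖) (fun _ _ => norm_nonneg _) (Finset.mem_univ r)
  have h1 := norm_nonneg ω.1
  rw [pow_one, one_mul]
  linarith

private theorem SchB_F {F : E d → E d} (hF : ContDiff ℝ 1 F) (ha : ∀ x, ‖fderiv ℝ F x‖ ≤ a)
    (x y : E d) : ‖F x - F y‖ ≤ a * ‖x - y‖ :=
  convex_univ.norm_image_sub_le_of_norm_fderiv_le
    (fun z _ => hF.differentiable one_ne_zero z) (fun z _ => ha z) (Set.mem_univ y) (Set.mem_univ x)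

private theorem SchB_comp {F : E d → E d} (hF : ContDiff ℝ 1 F) (ha : ∀ x, ‖fderiv ℝ F x‖ ≤ a)
    {u : Noise d K → E d} (hu : SchB_NG u) : SchB_NG (fun ω => F (u ω)) := by
  have h1 : SchB_NG (fun ω : Noise d K => ‖F 0‖ + a * ‖u ω‖) :=
    SchB_add (SchB_bdd (C := ‖F 0‖) fun _ => by rw [norm_norm])
      (SchB_mul (SchB_bdd (C := ‖a‖) fun _ => le_rfl) (SchB_norm hu))
  refine SchB_mono h1 fun ω => ?_
  have h2 := SchB_F hF ha (u ω) 0
  rw [sub_zero] at h2
  have h3 := norm_le_norm_add_norm_sub' (F (u ω)) (F 0)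
  exact (h3.trans (add_le_add le_rfl h2)).trans (le_abs_self _)

private theorem SchB_int {F : Type} [NormedAddCommGroup F] {u : Noise d K → F}
    [SecondCountableTopologyEither (Noise d K) F]
    (hc : Continuous u) (hu : SchB_NG u) : Integrable u (noiseLaw d K) := by
  obtain ⟨C, p, hC⟩ := hu
  exact noise_integrable hc.aestronglyMeasurable hC



/-! ### marginals of the noise -/

private theorem SchB_mp_inj {R R' : Type} [Fintype R] [Fintype R'] {Z : Type} [MeasurableSpace Z]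
    (μ : Measure Z) [IsProbabilityMeasure μ] (e : R' → R) (he : Function.Injective e) :
    MeasurePreserving (fun (ω : R → Z) (r : R') => ω (e r)) (Measure.pi fun _ : R => μ)
      (Measure.pi fun _ : R' => μ) := by
  classical
  have hm : Measurable (fun (ω : R → Z) (r : R') => ω (e r)) :=
    measurable_pi_lambda _ fun r => measurable_pi_apply _
  refine ⟨hm, ?_⟩
  symm
  refine Measure.pi_eq fun s hs => ?_
  rw [Measure.map_apply hm (MeasurableSet.univ_pi hs)]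
  have h1 : (fun (ω : R → Z) (r : R') => ω (e r)) ⁻¹' (Set.pi Set.univ s) =
      Set.pi Set.univ (Function.extend e s fun _ => Set.univ) := by
    ext ω
    simp only [Set.mem_preimage, Set.mem_pi, Set.mem_univ, true_implies]
    constructor
    · intro h r
      by_cases hr : ∃ r', e r' = r
      · obtain ⟨r', rfl⟩ := hr
        rw [he.extend_apply]
        exact h r'
      · rw [Function.extend_apply' _ _ _ hr]
        exact Set.mem_univ _
    · intro h r'
      have h2 := h (e r')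
      rw [he.extend_apply] at h2
      exact h2
  rw [h1, Measure.pi_pi]
  symm
  refine Finset.prod_of_injOn e he.injOn (fun _ _ => Finset.mem_coe.2 (Finset.mem_univ _)) ?_ ?_
  · intro r _ hr
    have hr' : ¬ ∃ r', e r' = r := by
      rintro ⟨r', hr'⟩
      exact hr ⟨r', Finset.mem_coe.2 (Finset.mem_univ _), hr'⟩
    rw [Function.extend_apply' _ _ _ hr']
    exact measure_univ
  · intro r _
    rw [he.extend_apply]

private theorem SchB_mp_option {R : Type} [Fintype R] {Z : Type} [MeasurableSpace Z]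
    (μ : Measure Z) [IsProbabilityMeasure μ] :
    MeasurePreserving (fun (p : Z × (R → Z)) (o : Option R) => o.elim p.1 p.2)
      (μ.prod (Measure.pi fun _ : R => μ)) (Measure.pi fun _ : Option R => μ) := by
  classical
  have hm : Measurable (fun (p : Z × (R → Z)) (o : Option R) => o.elim p.1 p.2) := by
    refine measurable_pi_lambda _ fun o => ?_
    cases o with
    | none => exact measurable_fst
    | some r => exact (measurable_pi_apply r).comp measurable_snd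
  refine ⟨hm, ?_⟩
  symm
  refine Measure.pi_eq fun s hs => ?_
  rw [Measure.map_apply hm (MeasurableSet.univ_pi hs)]
  have h1 : (fun (p : Z × (R → Z)) (o : Option R) => o.elim p.1 p.2) ⁻¹' (Set.pi Set.univ s) =
      (s none) ×ˢ (Set.pi Set.univ fun r => s (some r)) := by
    ext p
    simp only [Set.mem_preimage, Set.mem_pi, Set.mem_univ, true_implies, Set.mem_prod]
    constructor
    · intro h
      exact ⟨h none, fun r => h (some r)⟩
    · rintro ⟨h, h'⟩ o
      cases o with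
      | none => exact h
      | some r => exact h' r
  rw [h1, Measure.prod_prod, Measure.pi_pi, Fintype.prod_option]

/-- the mean correction block and the first blocks have the same law -/
private theorem SchB_law1 (d K : ℕ) :
    MeasurePreserving (fun (ω : Noise d K) (o : Option (Fin K)) =>
      o.elim ω.1 (fun k => ω.2 (Sum.inl k))) (noiseLaw d K)
      (Measure.pi fun _ : Option (Fin K) => stdGaussian (E d)) := by
  have h1 := SchB_mp_option (R := Rest K) (stdGaussian (E d))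
  have h2 := SchB_mp_inj (stdGaussian (E d))
    (fun o : Option (Fin K) => o.elim (none : Option (Rest K)) (fun k => some (Sum.inl k))) (by
      intro o o' h
      cases o with
      | none =>
        cases o' with
        | none => rfl
        | some k => cases h
      | some k =>
        cases o' with
        | none => cases h
        | some k' =>
          have h3 : (Sum.inl k : Rest K) = Sum.inl k' := Option.some.inj h
          rw [Sum.inl.inj h3])
  have h3 := h2.comp h1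
  have h4 : ((fun (ω : Option (Rest K) → E d) (o : Option (Fin K)) =>
      ω (o.elim (none : Option (Rest K)) (fun k => some (Sum.inl k)))) ∘
      (fun (p : E d × (Rest K → E d)) (o : Option (Rest K)) => o.elim p.1 p.2)) =
      (fun (ω : Noise d K) (o : Option (Fin K)) => o.elim ω.1 (fun k => ω.2 (Sum.inl k))) := by
    funext ω o
    cases o <;> rfl
  rw [h4] at h3
  exact h3

private theorem SchB_law2 (d K : ℕ) :
    MeasurePreserving (fun (ω : Noise d K) (o : Option (Fin K)) => ω.2 (Sum.inr o))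
      (noiseLaw d K) (Measure.pi fun _ : Option (Fin K) => stdGaussian (E d)) := by
  have h1 : MeasurePreserving (Prod.snd : Noise d K → (Rest K → E d)) (noiseLaw d K)
      (Measure.pi fun _ : Rest K => stdGaussian (E d)) := measurePreserving_snd
  have h2 := SchB_mp_inj (stdGaussian (E d)) (fun o : Option (Fin K) => (Sum.inr o : Rest K))
    Sum.inr_injective
  exact h2.comp h1

private theorem SchB_pair (d : ℕ) {K : ℕ} (k : Fin K) :
    MeasurePreserving (fun ω : Noise d K => (ω.1, ω.2 (Sum.inl k))) (noiseLaw d K)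
      ((stdGaussian (E d)).prod (stdGaussian (E d))) := by
  have h1 : MeasurePreserving (Function.eval (Sum.inl k) : (Rest K → E d) → E d)
      (Measure.pi fun _ : Rest K => stdGaussian (E d)) (stdGaussian (E d)) :=
    measurePreserving_eval (fun _ : Rest K => stdGaussian (E d)) (Sum.inl k)
  exact (MeasurePreserving.id (stdGaussian (E d))).prod h1

/-! ### Cauchy-Schwarz -/

private theorem SchB_cs {Ω : Type} [MeasurableSpace Ω] {μ : Measure Ω} {u v : Ω → E d}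
    (hu : Integrable (fun ω => ‖u ω‖ ^ 2) μ) (hv : Integrable (fun ω => ‖v ω‖ ^ 2) μ)
    (huv : Integrable (fun ω => ⟪u ω, v ω⟫) μ) {A B : ℝ} (hA : 0 ≤ A) (hB : 0 ≤ B)
    (h1 : ∫ ω, ‖u ω‖ ^ 2 ∂μ ≤ A ^ 2) (h2 : ∫ ω, ‖v ω‖ ^ 2 ∂μ ≤ B ^ 2) :
    |∫ ω, ⟪u ω, v ω⟫ ∂μ| ≤ A * B := by
  have h : ∀ t : ℝ, 0 ≤ (∫ ω, ‖u ω‖ ^ 2 ∂μ) * (t * t) + (2 * ∫ ω, ⟪u ω, v ω⟫ ∂μ) * t +
      ∫ ω, ‖v ω‖ ^ 2 ∂μ := by
    intro t
    have e1 : ∫ ω, ‖t • u ω + v ω‖ ^ 2 ∂μ = (∫ ω, ‖u ω‖ ^ 2 ∂μ) * (t * t) +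
        (2 * ∫ ω, ⟪u ω, v ω⟫ ∂μ) * t + ∫ ω, ‖v ω‖ ^ 2 ∂μ := by
      have e2 : ∀ ω, ‖t • u ω + v ω‖ ^ 2 = (t * t) * ‖u ω‖ ^ 2 + (2 * t) * ⟪u ω, v ω⟫ +
          ‖v ω‖ ^ 2 := by
        intro ω
        rw [norm_add_sq_real, norm_smul, inner_smul_left, mul_pow, Real.norm_eq_abs, sq_abs]
        simp only [conj_trivial]
        ring
      simp_rw [e2]
      have i1 : Integrable (fun ω => (t * t) * ‖u ω‖ ^ 2 + (2 * t) * ⟪u ω, v ω⟫) μ :=
        (hu.const_mul _).add (huv.const_mul _)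
      rw [integral_add i1 hv,
        integral_add (hu.const_mul _) (huv.const_mul _), integral_const_mul, integral_const_mul]
      ring
    rw [← e1]
    exact integral_nonneg fun ω => sq_nonneg _
  have h3 := discrim_le_zero h
  unfold discrim at h3
  have h4 : 0 ≤ ∫ ω, ‖u ω‖ ^ 2 ∂μ := integral_nonneg fun ω => sq_nonneg _
  have h5 : 0 ≤ ∫ ω, ‖v ω‖ ^ 2 ∂μ := integral_nonneg fun ω => sq_nonneg _
  refine abs_le_of_sq_le_sq ?_ (mul_nonneg hA hB)
  have h6 : (∫ ω, ‖u ω‖ ^ 2 ∂μ) * (∫ ω, ‖v ω‖ ^ 2 ∂μ) ≤ A ^ 2 * B ^ 2 :=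
    mul_le_mul h1 h2 h5 (sq_nonneg A)
  nlinarith



set_option linter.unusedVariables false in
theorem TT_bd {F : E d → E d} (ha0 : 0 ≤ a) (hF : ContDiff ℝ 1 F)
    (ha : ∀ x, ‖fderiv ℝ F x‖ ≤ a) {f : E d → ℝ} (hf : CB 2 (sc f))
    {A2 : ℝ} (hA2 : ∀ x, ‖Dv (Dv (sc f)) x‖ ≤ A2) (k l : Fin K) (ω : Noise d K) :
    |TT N F f k l ω| ≤ a ^ 2 * √d * A2 := by
  have hf2 : ContDiff ℝ 2 f := hf.contDiff_of_sc
  have hA0 : 0 ≤ A2 := (norm_nonneg _).trans (hA2 0)
  have hg : ContDiff ℝ 1 (gradient f) := Conv.grad_contDiff hf2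
  unfold TT
  -- Hilbert-Schmidt norms
  have h1 : ∑ i, ‖MM N F k ω (EuclideanSpace.single i (1 : ℝ))‖ ^ 2 ≤ (a * √d) ^ 2 := by
    have e1 := norm_Dv_sq F (YY N k ω)
    have e2 := norm_Dv_le_of_opNorm ha0 (ha (YY N k ω))
    unfold MM
    rw [← e1]
    exact pow_le_pow_left₀ (norm_nonneg _) e2 2
  have h2 : ∑ i, ‖fderiv ℝ (gradient f) (XX N F ω)
      (MM N F l ω (EuclideanSpace.single i (1 : ℝ)))‖ ^ 2 ≤ (a * A2) ^ 2 := by
    have hφ : HasFDerivAt (fun y : E d => XX N F ω + MM N F l ω y) (MM N F l ω) 0 :=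
      (MM N F l ω).hasFDerivAt.const_add _
    have hφ0 : (fun y : E d => XX N F ω + MM N F l ω y) 0 = XX N F ω := by simp
    have hu : DifferentiableAt ℝ (gradient f) ((fun y : E d => XX N F ω + MM N F l ω y) 0) :=
      hg.differentiable one_ne_zero _
    have e3 : ‖Dv (fun y : E d => gradient f (XX N F ω + MM N F l ω y)) 0‖ ≤
        a * ‖Dv (gradient f) (XX N F ω)‖ := by
      have e30 := norm_Dv_comp_right (u := gradient f)
        (φ := fun y : E d => XX N F ω + MM N F l ω y) (x := 0) (L := a) hu hφ.differentiableAt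
        (by rw [hφ.fderiv]; exact ha _)
      rw [map_zero, add_zero] at e30
      exact e30
    have e4 : fderiv ℝ (fun y : E d => gradient f (XX N F ω + MM N F l ω y)) 0 =
        (fderiv ℝ (gradient f) (XX N F ω)).comp (MM N F l ω) := by
      have e5 := hu.hasFDerivAt.comp (0 : E d) hφ
      rw [hφ0] at e5
      exact e5.fderiv
    have e6 := norm_Dv_sq (fun y : E d => gradient f (XX N F ω + MM N F l ω y)) 0
    rw [e4] at e6
    have e7 : ∑ i, ‖fderiv ℝ (gradient f) (XX N F ω)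
      (MM N F l ω (EuclideanSpace.single i (1 : ℝ)))‖ ^ 2 =
        ‖Dv (fun y : E d => gradient f (XX N F ω + MM N F l ω y)) 0‖ ^ 2 := e6.symm
    rw [e7]
    refine pow_le_pow_left₀ (norm_nonneg _) (e3.trans ?_) 2
    refine mul_le_mul_of_nonneg_left ?_ ha0
    rw [← norm_DDv_sc hf2]
    exact hA2 _
  have h3 : |∑ i, ⟪MM N F k ω (EuclideanSpace.single i (1 : ℝ)),
      fderiv ℝ (gradient f) (XX N F ω) (MM N F l ω (EuclideanSpace.single i (1 : ℝ)))⟫| ≤
      ∑ i, ‖MM N F k ω (EuclideanSpace.single i (1 : ℝ))‖ *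
        ‖fderiv ℝ (gradient f) (XX N F ω) (MM N F l ω (EuclideanSpace.single i (1 : ℝ)))‖ := by
    refine (Finset.abs_sum_le_sum_abs _ _).trans (Finset.sum_le_sum fun i _ => ?_)
    exact abs_real_inner_le_norm _ _
  refine h3.trans ?_
  have h4 := Finset.sum_mul_sq_le_sq_mul_sq Finset.univ
    (fun i => ‖MM N F k ω (EuclideanSpace.single i (1 : ℝ))‖)
    (fun i => ‖fderiv ℝ (gradient f) (XX N F ω) (MM N F l ω (EuclideanSpace.single i (1 : ℝ)))‖)
  have h5 : (∑ i, ‖MM N F k ω (EuclideanSpace.single i (1 : ℝ))‖ *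
        ‖fderiv ℝ (gradient f) (XX N F ω) (MM N F l ω (EuclideanSpace.single i (1 : ℝ)))‖) ^ 2 ≤
        ((a * √d) * (a * A2)) ^ 2 := by
    refine h4.trans ?_
    rw [mul_pow (a * √d)]
    exact mul_le_mul h1 h2 (Finset.sum_nonneg fun _ _ => sq_nonneg _) (sq_nonneg _)
  have h6 := abs_le_of_sq_le_sq h5 (by positivity)
  refine (le_abs_self _).trans (h6.trans (le_of_eq ?_))
  ring



/-! ### the objects of the scheme -/

private theorem SchB_int' {F : Type} [NormedAddCommGroup F] {u : Noise d K → F}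
    (hc : AEStronglyMeasurable u (noiseLaw d K)) (hu : SchB_NG u) : Integrable u (noiseLaw d K) := by
  obtain ⟨C, p, hC⟩ := hu
  exact noise_integrable hc hC

private theorem SchB_push {Ω Ω' : Type} [MeasurableSpace Ω] [MeasurableSpace Ω'] {μ : Measure Ω}
    {μ' : Measure Ω'} {T : Ω → Ω'} (hT : MeasurePreserving T μ μ') {F : Type}
    [NormedAddCommGroup F] [NormedSpace ℝ F] {φ : Ω' → F} (hφ : AEStronglyMeasurable φ μ') :
    ∫ ω, φ (T ω) ∂μ = ∫ y, φ y ∂μ' := by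
  rw [← hT.map_eq, integral_map hT.measurable.aemeasurable (by rw [hT.map_eq]; exact hφ)]

private theorem SchB_YY_cont (N : Nodes K) (k : Fin K) :
    Continuous (YY N k : Noise d K → E d) := by
  unfold YY
  fun_prop

private theorem SchB_vv_cont (N : Nodes K) (k : Fin K) :
    Continuous (vv N k : Noise d K → E d) := by
  unfold vv
  fun_prop

private theorem SchB_YY_ng (N : Nodes K) (k : Fin K) : SchB_NG (YY N k : Noise d K → E d) :=
  SchB_add (SchB_smul _ SchB_fst) (SchB_smul _ (SchB_coord _))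

private theorem SchB_vv_ng (N : Nodes K) (k : Fin K) : SchB_NG (vv N k : Noise d K → E d) :=
  SchB_sub (SchB_smul _ SchB_fst) (SchB_smul _ (SchB_coord _))

private theorem SchB_MM_cont {F : E d → E d} (hF : ContDiff ℝ 1 F) (k : Fin K) :
    Continuous (MM N F k : Noise d K → _) :=
  (hF.continuous_fderiv one_ne_zero).comp (SchB_YY_cont N k)

private theorem SchB_Mv_cont {F : E d → E d} (hF : ContDiff ℝ 1 F) (k : Fin K) :
    Continuous (fun ω : Noise d K => MM N F k ω (vv N k ω)) :=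
  (SchB_MM_cont hF k).clm_apply (SchB_vv_cont N k)

private theorem SchB_Mv_ng {F : E d → E d} (ha : ∀ x, ‖fderiv ℝ F x‖ ≤ a) (k : Fin K) :
    SchB_NG (fun ω : Noise d K => MM N F k ω (vv N k ω)) := by
  have h1 := SchB_smul a (SchB_vv_ng (d := d) N k)
  refine SchB_mono h1 fun ω => ?_
  have ha0 : 0 ≤ a := (norm_nonneg _).trans (ha 0)
  rw [norm_smul, Real.norm_eq_abs, abs_of_nonneg ha0]
  exact ((MM N F k ω).le_opNorm _).trans (mul_le_mul_of_nonneg_right (ha _) (norm_nonneg _))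

private theorem SchB_term_cont {F : E d → E d} (hF : ContDiff ℝ 1 F) (k : Fin K) :
    Continuous (fun ω : Noise d K =>
      F (YY N k ω) + (N.rho k / N.kap k) • MM N F k ω (vv N k ω)) :=
  (hF.continuous.comp (SchB_YY_cont N k)).fun_add ((SchB_Mv_cont hF k).fun_const_smul _)

private theorem SchB_term_ng {F : E d → E d} (hF : ContDiff ℝ 1 F)
    (ha : ∀ x, ‖fderiv ℝ F x‖ ≤ a) (k : Fin K) :
    SchB_NG (fun ω : Noise d K =>
      F (YY N k ω) + (N.rho k / N.kap k) • MM N F k ω (vv N k ω)) :=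
  SchB_add (SchB_comp hF ha (SchB_YY_ng N k)) (SchB_smul _ (SchB_Mv_ng ha k))

private theorem SchB_DD_cont {F : E d → E d} (hF : ContDiff ℝ 1 F) :
    Continuous (DD N F : Noise d K → E d) :=
  continuous_finsetSum _ fun k _ => (SchB_term_cont hF k).fun_const_smul _

private theorem SchB_DD_ng {F : E d → E d} (hF : ContDiff ℝ 1 F)
    (ha : ∀ x, ‖fderiv ℝ F x‖ ≤ a) : SchB_NG (DD N F : Noise d K → E d) :=
  SchB_sum _ fun k _ => SchB_smul _ (SchB_term_ng hF ha k)

private theorem SchB_SS_cont {F : E d → E d} (hF : ContDiff ℝ 1 F) :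
    Continuous (SSω N F : Noise d K → E d) := by
  have h0 := hF.continuous
  unfold SSω SS
  fun_prop

private theorem SchB_SS_ng {F : E d → E d} (hF : ContDiff ℝ 1 F)
    (ha : ∀ x, ‖fderiv ℝ F x‖ ≤ a) : SchB_NG (SSω N F : Noise d K → E d) :=
  SchB_sum _ fun k _ => SchB_smul _ (SchB_comp hF ha (SchB_YY_ng N k))

private theorem SchB_bb_cont {F : E d → E d} (hF : ContDiff ℝ 1 F) :
    Continuous (bbω N F : Noise d K → E d) := by
  have h0 := hF.continuous
  unfold bbω bb SS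
  fun_prop

private theorem SchB_bb_ng {F : E d → E d} (hF : ContDiff ℝ 1 F)
    (ha : ∀ x, ‖fderiv ℝ F x‖ ≤ a) : SchB_NG (bbω N F : Noise d K → E d) := by
  refine SchB_sub (SchB_comp hF ha (SchB_sub (SchB_coord (Sum.inr none)) ?_))
    (SchB_comp hF ha (SchB_coord (Sum.inr none)))
  exact SchB_sum _ fun k _ => SchB_smul _ (SchB_comp hF ha
    (SchB_add (SchB_smul _ (SchB_coord (Sum.inr none)))
      (SchB_smul _ (SchB_coord (Sum.inr (some k))))))

private theorem SchB_XX_ng {F : E d → E d} (hF : ContDiff ℝ 1 F)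
    (ha : ∀ x, ‖fderiv ℝ F x‖ ≤ a) : SchB_NG (XX N F : Noise d K → E d) :=
  SchB_sub (SchB_sub SchB_fst (SchB_SS_ng hF ha)) (SchB_bb_ng hF ha)

/-- the shifted force difference -/
private noncomputable def SchB_T (N : Nodes K) (F : E d → E d) (ω : Noise d K) : E d :=
  F (ω.1 - SSω N F ω) - F ω.1

private theorem SchB_T_cont {F : E d → E d} (hF : ContDiff ℝ 1 F) :
    Continuous (SchB_T N F : Noise d K → E d) :=
  (hF.continuous.comp (continuous_fst.sub (SchB_SS_cont hF))).sub (hF.continuous.comp continuous_fst)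

private theorem SchB_T_ng {F : E d → E d} (hF : ContDiff ℝ 1 F)
    (ha : ∀ x, ‖fderiv ℝ F x‖ ≤ a) : SchB_NG (SchB_T N F : Noise d K → E d) :=
  SchB_sub (SchB_comp hF ha (SchB_sub SchB_fst (SchB_SS_ng hF ha))) (SchB_comp hF ha SchB_fst)

/-! ### mean values -/

private theorem SchB_mean_YY (hN : GoodNodes N C ε) {F : E d → E d} (hF : ContDiff ℝ 1 F)
    (k : Fin K) : ∫ ω : Noise d K, F (YY N k ω) ∂(noiseLaw d K) =
      ∫ x, F x ∂(stdGaussian (E d)) := by
  have h1 : Continuous (fun p : E d × E d => F (N.rho k • p.1 + N.kap k • p.2)) :=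
    hF.continuous.comp (by fun_prop)
  have h2 : ∫ ω : Noise d K, F (YY N k ω) ∂(noiseLaw d K) =
      ∫ p : E d × E d, F (N.rho k • p.1 + N.kap k • p.2)
        ∂((stdGaussian (E d)).prod (stdGaussian (E d))) :=
    SchB_push (SchB_pair d k) (φ := fun p : E d × E d => F (N.rho k • p.1 + N.kap k • p.2))
      h1.aestronglyMeasurable
  have h3 : MeasurePreserving (fun p : E d × E d => N.rho k • p.1 + N.kap k • p.2)
      ((stdGaussian (E d)).prod (stdGaussian (E d))) (stdGaussian (E d)) :=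
    ⟨Continuous.measurable (by fun_prop), gauss_comb (rho_sq_add hN k)⟩
  rw [h2]
  exact SchB_push h3 hF.continuous.aestronglyMeasurable

private theorem SchB_mean_Mv (hN : GoodNodes N C ε) {F : E d → E d} (hF : ContDiff ℝ 1 F)
    (k : Fin K) : ∫ ω : Noise d K, MM N F k ω (vv N k ω) ∂(noiseLaw d K) = 0 := by
  have hc : Continuous (fun q : E d × E d => fderiv ℝ F q.1 q.2) :=
    ((hF.continuous_fderiv one_ne_zero).comp continuous_fst).clm_apply continuous_snd
  have h3 : MeasurePreserving (fun p : E d × E d =>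
      (N.rho k • p.1 + N.kap k • p.2, N.kap k • p.1 - N.rho k • p.2))
      ((stdGaussian (E d)).prod (stdGaussian (E d)))
      ((stdGaussian (E d)).prod (stdGaussian (E d))) :=
    ⟨Continuous.measurable (by fun_prop), gauss_rot (rho_sq_add hN k)⟩
  have h4 := h3.comp (SchB_pair d k)
  have h5 : ∫ ω : Noise d K, MM N F k ω (vv N k ω) ∂(noiseLaw d K) =
      ∫ q : E d × E d, fderiv ℝ F q.1 q.2 ∂((stdGaussian (E d)).prod (stdGaussian (E d))) :=
    SchB_push h4 (φ := fun q : E d × E d => fderiv ℝ F q.1 q.2) hc.aestronglyMeasurable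
  rw [h5]
  by_cases hi : Integrable (fun q : E d × E d => fderiv ℝ F q.1 q.2)
      ((stdGaussian (E d)).prod (stdGaussian (E d)))
  · rw [integral_prod _ hi]
    have h6 : ∀ u : E d, ∫ v, fderiv ℝ F u v ∂(stdGaussian (E d)) = 0 := by
      intro u
      have hid : Integrable (fun v : E d => v) (stdGaussian (E d)) :=
        gauss_integrable continuous_id.aestronglyMeasurable PG_id
      rw [(fderiv ℝ F u).integral_comp_comm hid, gauss_mean, map_zero]
    simp only [h6, integral_zero]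
  · exact integral_undef hi

private theorem SchB_mean_Z (hN : GoodNodes N C ε) {F : E d → E d} (hF : ContDiff ℝ 1 F)
    (ha : ∀ x, ‖fderiv ℝ F x‖ ≤ a) :
    ∫ ω : Noise d K, (DD N F ω - F ω.1) ∂(noiseLaw d K) = 0 := by
  have i1 : ∀ k : Fin K, Integrable (fun ω : Noise d K => F (YY N k ω)) (noiseLaw d K) := fun k =>
    SchB_int (hF.continuous.comp (SchB_YY_cont N k)) (SchB_comp hF ha (SchB_YY_ng N k))
  have i2 : ∀ k : Fin K, Integrable (fun ω : Noise d K => MM N F k ω (vv N k ω))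
      (noiseLaw d K) := fun k => SchB_int (SchB_Mv_cont hF k) (SchB_Mv_ng ha k)
  have i3 : Integrable (fun ω : Noise d K => F ω.1) (noiseLaw d K) :=
    SchB_int (hF.continuous.comp continuous_fst) (SchB_comp hF ha SchB_fst)
  have i4 : Integrable (DD N F : Noise d K → E d) (noiseLaw d K) :=
    SchB_int (SchB_DD_cont hF) (SchB_DD_ng hF ha)
  rw [integral_sub i4 i3]
  have e1 : ∫ ω : Noise d K, F ω.1 ∂(noiseLaw d K) = ∫ x, F x ∂(stdGaussian (E d)) :=
    SchB_push (T := fun ω : Noise d K => ω.1) measurePreserving_fst hF.continuous.aestronglyMeasurable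
  have e2 : ∫ ω : Noise d K, DD N F ω ∂(noiseLaw d K) = ∫ x, F x ∂(stdGaussian (E d)) := by
    unfold DD
    have i6 : ∀ k ∈ (Finset.univ : Finset (Fin K)), Integrable (fun ω : Noise d K => N.J k •
        (F (YY N k ω) + (N.rho k / N.kap k) • MM N F k ω (vv N k ω))) (noiseLaw d K) :=
      fun k _ => ((i1 k).fun_add ((i2 k).fun_smul _)).fun_smul _
    rw [integral_finsetSum _ i6]
    have e3 : ∀ k : Fin K, ∫ ω : Noise d K, N.J k •
        (F (YY N k ω) + (N.rho k / N.kap k) • MM N F k ω (vv N k ω)) ∂(noiseLaw d K) =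
        N.J k • ∫ x, F x ∂(stdGaussian (E d)) := by
      intro k
      have i5 : Integrable (fun ω : Noise d K => (N.rho k / N.kap k) • MM N F k ω (vv N k ω))
        (noiseLaw d K) := (i2 k).fun_smul _
      rw [integral_smul, integral_add (i1 k) i5, integral_smul, SchB_mean_YY hN hF,
        SchB_mean_Mv hN hF, smul_zero, add_zero]
    rw [Finset.sum_congr rfl fun k _ => e3 k, ← Finset.sum_smul, hN.sum, one_smul]
  rw [e1, e2, sub_self]

private theorem SchB_mean_T {F : E d → E d} (hF : ContDiff ℝ 1 F) :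
    ∫ ω : Noise d K, SchB_T N F ω ∂(noiseLaw d K) =
      ∫ ω : Noise d K, bbω N F ω ∂(noiseLaw d K) := by
  have h0 := hF.continuous
  have hc : Continuous (bb N F : (Option (Fin K) → E d) → E d) := by
    unfold bb SS
    fun_prop
  have h1 := SchB_push (SchB_law1 d K) (φ := bb N F) hc.aestronglyMeasurable
  have h2 := SchB_push (SchB_law2 d K) (φ := bb N F) hc.aestronglyMeasurable
  exact h1.trans h2.symm



/-! ### conditional averages -/

/-- the gradient at the output -/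
private noncomputable def SchB_g (N : Nodes K) (F : E d → E d) (f : E d → ℝ)
    (ω : Noise d K) : E d := gradient f (XX N F ω)

/-- average over the auxiliary noise -/
private noncomputable def SchB_g1 (N : Nodes K) (F : E d → E d) (f : E d → ℝ) (x : E d) : E d :=
  ∫ ζ, gradient f (XX N F (x, ζ)) ∂(Measure.pi fun _ : Rest K => stdGaussian (E d))

/-- total average -/
private noncomputable def SchB_gb (N : Nodes K) (F : E d → E d) (f : E d → ℝ) : E d :=
  ∫ ω, gradient f (XX N F ω) ∂(noiseLaw d K)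

private theorem SchB_g_cont {F : E d → E d} (hF : ContDiff ℝ 1 F) {f : E d → ℝ}
    (hf : CB 2 (sc f)) : Continuous (SchB_g N F f) :=
  (Conv.grad_contDiff hf.contDiff_of_sc).continuous.comp (XX_continuous hF.continuous)

private theorem SchB_g_bdd {F : E d → E d} {f : E d → ℝ} {A1 : ℝ}
    (hA1 : ∀ x, ‖Dv (sc f) x‖ ≤ A1) (ω : Noise d K) : ‖SchB_g N F f ω‖ ≤ A1 := by
  have h := hA1 (XX N F ω)
  rw [norm_Dv_sc] at h
  exact h

private theorem SchB_g1_meas {F : E d → E d} (hF : ContDiff ℝ 1 F) {f : E d → ℝ}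
    (hf : CB 2 (sc f)) : StronglyMeasurable (SchB_g1 N F f) := by
  have h1 : StronglyMeasurable (SchB_g N F f : Noise d K → E d) :=
    (SchB_g_cont hF hf).stronglyMeasurable
  exact h1.integral_prod_right'

private theorem SchB_g1_bdd {F : E d → E d} {f : E d → ℝ} {A1 : ℝ}
    (hA1 : ∀ x, ‖Dv (sc f) x‖ ≤ A1) (x : E d) : ‖SchB_g1 N F f x‖ ≤ A1 := by
  have h := norm_integral_le_of_norm_le_const (μ := Measure.pi fun _ : Rest K => stdGaussian (E d))
    (f := fun ζ => gradient f (XX N F (x, ζ))) (C := A1)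
    (Filter.Eventually.of_forall fun ζ => SchB_g_bdd (N := N) (F := F) hA1 (x, ζ))
  refine h.trans (le_of_eq ?_)
  simp

private theorem SchB_R_meas {F : E d → E d} (hF : ContDiff ℝ 1 F) {f : E d → ℝ}
    (hf : CB 2 (sc f)) :
    StronglyMeasurable (fun ω : Noise d K => SchB_g N F f ω - SchB_g1 N F f ω.1) :=
  (SchB_g_cont hF hf).stronglyMeasurable.sub ((SchB_g1_meas hF hf).comp_measurable measurable_fst)

private theorem SchB_R_ng {F : E d → E d} {f : E d → ℝ} {A1 : ℝ}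
    (hA1 : ∀ x, ‖Dv (sc f) x‖ ≤ A1) :
    SchB_NG (fun ω : Noise d K => SchB_g N F f ω - SchB_g1 N F f ω.1) :=
  SchB_sub (SchB_bdd fun ω => SchB_g_bdd hA1 ω) (SchB_bdd fun ω => SchB_g1_bdd hA1 ω.1)

/-- the fluctuation is orthogonal to functions of the first block -/
private theorem SchB_orth {F : E d → E d} (hF : ContDiff ℝ 1 F) {f : E d → ℝ}
    (hf : CB 2 (sc f)) {A1 : ℝ} (hA1 : ∀ x, ‖Dv (sc f) x‖ ≤ A1) {h : E d → E d}
    (hm : StronglyMeasurable h) (hh : SchB_NG (fun ω : Noise d K => h ω.1)) :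
    ∫ ω : Noise d K, ⟪h ω.1, SchB_g N F f ω - SchB_g1 N F f ω.1⟫ ∂(noiseLaw d K) = 0 := by
  have hi : Integrable (fun ω : Noise d K => ⟪h ω.1, SchB_g N F f ω - SchB_g1 N F f ω.1⟫)
      (noiseLaw d K) :=
    SchB_int' (((hm.comp_measurable measurable_fst).inner (SchB_R_meas hF hf)).aestronglyMeasurable)
      (SchB_inner hh (SchB_R_ng hA1))
  unfold noiseLaw at hi ⊢
  rw [integral_prod _ hi]
  have h1 : ∀ x : E d, ∫ ζ, ⟪h x, SchB_g N F f (x, ζ) - SchB_g1 N F f x⟫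
      ∂(Measure.pi fun _ : Rest K => stdGaussian (E d)) = 0 := by
    intro x
    have i1 : Integrable (fun ζ => SchB_g N F f (x, ζ))
        (Measure.pi fun _ : Rest K => stdGaussian (E d)) := by
      refine Integrable.of_bound ?_ A1 (Filter.Eventually.of_forall fun ζ => SchB_g_bdd hA1 (x, ζ))
      exact ((SchB_g_cont hF hf).comp (by fun_prop)).aestronglyMeasurable
    have i2 : Integrable (fun ζ => SchB_g N F f (x, ζ) - SchB_g1 N F f x)
        (Measure.pi fun _ : Rest K => stdGaussian (E d)) := i1.sub (integrable_const _)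
    rw [integral_inner i2, integral_sub i1 (integrable_const _)]
    have h2 : ∫ ζ, SchB_g N F f (x, ζ) ∂(Measure.pi fun _ : Rest K => stdGaussian (E d)) =
        SchB_g1 N F f x := rfl
    rw [h2, integral_const]
    simp
  simp only [h1, integral_zero]

private theorem SchB_g1_mean {F : E d → E d} (hF : ContDiff ℝ 1 F) {f : E d → ℝ}
    (hf : CB 2 (sc f)) {A1 : ℝ} (hA1 : ∀ x, ‖Dv (sc f) x‖ ≤ A1) :
    ∫ x, SchB_g1 N F f x ∂(stdGaussian (E d)) = SchB_gb N F f := by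
  have hi : Integrable (SchB_g N F f : Noise d K → E d) (noiseLaw d K) :=
    SchB_int (SchB_g_cont hF hf) (SchB_bdd fun ω => SchB_g_bdd hA1 ω)
  unfold SchB_gb
  have h1 : ∫ ω, gradient f (XX N F ω) ∂(noiseLaw d K) =
    ∫ ω, SchB_g N F f ω ∂(noiseLaw d K) := rfl
  rw [h1]
  unfold noiseLaw at hi ⊢
  rw [integral_prod _ hi]
  rfl

/-- the variance of the conditional average -/
private theorem SchB_w_sq {F : E d → E d} (hF : ContDiff ℝ 1 F) {f : E d → ℝ}
    (hf : CB 2 (sc f)) {A1 : ℝ} (hA1 : ∀ x, ‖Dv (sc f) x‖ ≤ A1) :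
    ∫ x, ‖SchB_g1 N F f x - SchB_gb N F f‖ ^ 2 ∂(stdGaussian (E d)) ≤
      ∫ ω, ‖SchB_g N F f ω - SchB_gb N F f‖ ^ 2 ∂(noiseLaw d K) := by
  have hP := noise_isProb d K
  have hwm : StronglyMeasurable (fun x : E d => SchB_g1 N F f x - SchB_gb N F f) :=
    (SchB_g1_meas hF hf).sub stronglyMeasurable_const
  have hwng : SchB_NG (fun ω : Noise d K => SchB_g1 N F f ω.1 - SchB_gb N F f) :=
    SchB_sub (SchB_bdd fun ω => SchB_g1_bdd hA1 ω.1) (SchB_bdd fun ω => le_rfl)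
  have hwm' : StronglyMeasurable (fun ω : Noise d K => SchB_g1 N F f ω.1 - SchB_gb N F f) :=
    hwm.comp_measurable measurable_fst
  have e1 : ∫ x, ‖SchB_g1 N F f x - SchB_gb N F f‖ ^ 2 ∂(stdGaussian (E d)) =
      ∫ ω : Noise d K, ‖SchB_g1 N F f ω.1 - SchB_gb N F f‖ ^ 2 ∂(noiseLaw d K) :=
    (SchB_push (T := fun ω : Noise d K => ω.1) measurePreserving_fst
      (φ := fun x => ‖SchB_g1 N F f x - SchB_gb N F f‖ ^ 2)
      (hwm.norm.pow 2).aestronglyMeasurable).symm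
  have i1 : Integrable (fun ω : Noise d K => ‖SchB_g1 N F f ω.1 - SchB_gb N F f‖ ^ 2)
      (noiseLaw d K) := SchB_int' (hwm'.norm.pow 2).aestronglyMeasurable (SchB_sq hwng)
  have i2 : Integrable (fun ω : Noise d K => ⟪SchB_g1 N F f ω.1 - SchB_gb N F f,
      SchB_g N F f ω - SchB_g1 N F f ω.1⟫) (noiseLaw d K) :=
    SchB_int' (hwm'.inner (SchB_R_meas hF hf)).aestronglyMeasurable
      (SchB_inner hwng (SchB_R_ng hA1))
  have i3 : Integrable (fun ω : Noise d K => ‖SchB_g N F f ω - SchB_gb N F f‖ ^ 2)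
      (noiseLaw d K) :=
    SchB_int (((SchB_g_cont hF hf).sub continuous_const).norm.pow 2)
      (SchB_sq (SchB_sub (SchB_bdd fun ω => SchB_g_bdd hA1 ω) (SchB_bdd fun ω => le_rfl)))
  rw [e1]
  have e2 : ∫ ω : Noise d K, ‖SchB_g1 N F f ω.1 - SchB_gb N F f‖ ^ 2 ∂(noiseLaw d K) =
      ∫ ω : Noise d K, (‖SchB_g1 N F f ω.1 - SchB_gb N F f‖ ^ 2 +
        2 * ⟪SchB_g1 N F f ω.1 - SchB_gb N F f, SchB_g N F f ω - SchB_g1 N F f ω.1⟫)
          ∂(noiseLaw d K) := by
    rw [integral_add i1 (i2.const_mul 2), integral_const_mul,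
      SchB_orth hF hf hA1 hwm hwng, mul_zero, add_zero]
  rw [e2]
  refine integral_mono (i1.add (i2.const_mul 2)) i3 fun ω => ?_
  have e3 : SchB_g N F f ω - SchB_gb N F f = (SchB_g1 N F f ω.1 - SchB_gb N F f) +
      (SchB_g N F f ω - SchB_g1 N F f ω.1) := by abel
  show ‖SchB_g1 N F f ω.1 - SchB_gb N F f‖ ^ 2 +
        2 * ⟪SchB_g1 N F f ω.1 - SchB_gb N F f, SchB_g N F f ω - SchB_g1 N F f ω.1⟫ ≤
        ‖SchB_g N F f ω - SchB_gb N F f‖ ^ 2
  rw [e3, norm_add_sq_real]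
  have h4 := sq_nonneg ‖SchB_g N F f ω - SchB_g1 N F f ω.1‖
  linarith



/-- the main part of the first order term, by the quadrature property of the nodes -/
private theorem SchB_main (hN : GoodNodes N C ε) {F : E d → E d} (hF : ContDiff ℝ 1 F)
    (ha : ∀ x, ‖fderiv ℝ F x‖ ≤ a) {w : E d → E d} (hw : StronglyMeasurable w)
    {B : ℝ} (hB : ∀ x, ‖w x‖ ≤ B) (h0 : ∫ x, w x ∂(stdGaussian (E d)) = 0) :
    |∫ ω : Noise d K, ⟪DD N F ω - F ω.1, w ω.1⟫ ∂(noiseLaw d K)| ≤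
      ε * (a * √d) * √(∫ x, ‖w x‖ ^ 2 ∂(stdGaussian (E d))) := by
  have hwm : StronglyMeasurable (fun ω : Noise d K => w ω.1) := hw.comp_measurable measurable_fst
  have hwng : SchB_NG (fun ω : Noise d K => w ω.1) := SchB_bdd fun ω => hB ω.1
  have i1 : ∀ k : Fin K, Integrable (fun ω : Noise d K =>
      ⟪F (YY N k ω) + (N.rho k / N.kap k) • MM N F k ω (vv N k ω), w ω.1⟫) (noiseLaw d K) :=
    fun k => SchB_int' ((SchB_term_cont hF k).aestronglyMeasurable.inner hwm.aestronglyMeasurable)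
      (SchB_inner (SchB_term_ng hF ha k) hwng)
  have i2 : Integrable (fun ω : Noise d K => ⟪F ω.1, w ω.1⟫) (noiseLaw d K) :=
    SchB_int' ((hF.continuous.comp continuous_fst).aestronglyMeasurable.inner
      hwm.aestronglyMeasurable) (SchB_inner (SchB_comp hF ha SchB_fst) hwng)
  have e1 : ∀ ω : Noise d K, ⟪DD N F ω - F ω.1, w ω.1⟫ = (∑ k, N.J k *
      ⟪F (YY N k ω) + (N.rho k / N.kap k) • MM N F k ω (vv N k ω), w ω.1⟫) - ⟪F ω.1, w ω.1⟫ := by
    intro ω
    rw [inner_sub_left]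
    unfold DD
    rw [sum_inner]
    congr 1
    refine Finset.sum_congr rfl fun k _ => ?_
    rw [real_inner_smul_left]
  have i3 : ∀ k ∈ (Finset.univ : Finset (Fin K)), Integrable (fun ω : Noise d K => N.J k *
      ⟪F (YY N k ω) + (N.rho k / N.kap k) • MM N F k ω (vv N k ω), w ω.1⟫) (noiseLaw d K) :=
    fun k _ => (i1 k).const_mul _
  have i4 : Integrable (fun ω : Noise d K => ∑ k, N.J k *
      ⟪F (YY N k ω) + (N.rho k / N.kap k) • MM N F k ω (vv N k ω), w ω.1⟫) (noiseLaw d K) :=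
    integrable_finsetSum _ i3
  have e2 : ∫ ω : Noise d K, ⟪DD N F ω - F ω.1, w ω.1⟫ ∂(noiseLaw d K) =
      (∑ k, N.J k * ∫ ω : Noise d K,
        ⟪F (YY N k ω) + (N.rho k / N.kap k) • MM N F k ω (vv N k ω), w ω.1⟫ ∂(noiseLaw d K)) -
      ∫ ω : Noise d K, ⟪F ω.1, w ω.1⟫ ∂(noiseLaw d K) := by
    simp_rw [e1]
    rw [integral_sub i4 i2, integral_finsetSum _ i3]
    congr 1
    exact Finset.sum_congr rfl fun k _ => integral_const_mul _ _
  have e3 : ∫ ω : Noise d K, ⟪F ω.1, w ω.1⟫ ∂(noiseLaw d K) =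
      ∫ x, ⟪F x, w x⟫ ∂(stdGaussian (E d)) :=
    SchB_push (T := fun ω : Noise d K => ω.1) measurePreserving_fst
      (φ := fun x => ⟪F x, w x⟫) (hF.continuous.stronglyMeasurable.inner hw).aestronglyMeasurable
  have e4 : ∀ k : Fin K, ∫ ω : Noise d K,
      ⟪F (YY N k ω) + (N.rho k / N.kap k) • MM N F k ω (vv N k ω), w ω.1⟫ ∂(noiseLaw d K) =
      ∫ x, ∫ z, ⟪F (N.rho k • x + N.kap k • z) + (N.rho k / N.kap k) •
          fderiv ℝ F (N.rho k • x + N.kap k • z) (N.kap k • x - N.rho k • z), w x⟫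
          ∂(stdGaussian (E d)) ∂(stdGaussian (E d)) := by
    intro k
    have hc : Continuous (fun p : E d × E d =>
        F (N.rho k • p.1 + N.kap k • p.2) + (N.rho k / N.kap k) •
          fderiv ℝ F (N.rho k • p.1 + N.kap k • p.2) (N.kap k • p.1 - N.rho k • p.2)) := by
      have h1 : Continuous (fun p : E d × E d => N.rho k • p.1 + N.kap k • p.2) := by fun_prop
      have h2 : Continuous (fun p : E d × E d => N.kap k • p.1 - N.rho k • p.2) := by fun_prop
      exact (hF.continuous.comp h1).fun_add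
        ((((hF.continuous_fderiv one_ne_zero).comp h1).clm_apply h2).fun_const_smul _)
    have hm : AEStronglyMeasurable (fun p : E d × E d =>
        ⟪F (N.rho k • p.1 + N.kap k • p.2) + (N.rho k / N.kap k) •
          fderiv ℝ F (N.rho k • p.1 + N.kap k • p.2) (N.kap k • p.1 - N.rho k • p.2), w p.1⟫)
        ((stdGaussian (E d)).prod (stdGaussian (E d))) :=
      (hc.stronglyMeasurable.inner (hw.comp_measurable measurable_fst)).aestronglyMeasurable
    have h3 := SchB_push (SchB_pair d k) hm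
    have h4 : Integrable (fun p : E d × E d =>
        ⟪F (N.rho k • p.1 + N.kap k • p.2) + (N.rho k / N.kap k) •
          fderiv ℝ F (N.rho k • p.1 + N.kap k • p.2) (N.kap k • p.1 - N.rho k • p.2), w p.1⟫)
        ((stdGaussian (E d)).prod (stdGaussian (E d))) := by
      rw [← (SchB_pair d k).integrable_comp hm]
      exact i1 k
    refine Eq.trans h3 ?_
    exact integral_prod _ h4
  rw [e2, e3, Finset.sum_congr rfl fun k _ => by rw [e4 k]]
  exact hN.exact d F a hF ha w hw.measurable ⟨B, hB⟩ h0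

theorem first_bd {F : E d → E d} (hN : GoodNodes N C ε) (hε : 0 ≤ ε) (hεa : ε ≤ a)
    (haC : a * C ≤ 1 / 8)
    (hF : ContDiff ℝ 1 F) (ha : ∀ x, ‖fderiv ℝ F x‖ ≤ a) {f : E d → ℝ} (hf : CB 2 (sc f))
    {A2 : ℝ} (hA2 : ∀ x, ‖Dv (Dv (sc f)) x‖ ≤ A2) :
    |∫ ω, ⟪DD N F ω - F ω.1, gradient f (XX N F ω)⟫ ∂(noiseLaw d K)| ≤
      12 * C ^ 2 * a ^ 2 * √d * A2 := by
  have hP := noise_isProb d K
  have ha0 : 0 ≤ a := hε.trans hεa
  have hC1 := hN.one_le
  have hA0 : 0 ≤ A2 := (norm_nonneg _).trans (hA2 0)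
  have hd0 : 0 ≤ √(d : ℝ) := Real.sqrt_nonneg _
  obtain ⟨A1, hA1⟩ := hf.dv.bdd
  have hZc : Continuous (fun ω : Noise d K => DD N F ω - F ω.1) :=
    (SchB_DD_cont hF).sub (hF.continuous.comp continuous_fst)
  have hZng : SchB_NG (fun ω : Noise d K => DD N F ω - F ω.1) :=
    SchB_sub (SchB_DD_ng hF ha) (SchB_comp hF ha SchB_fst)
  have hZi : Integrable (fun ω : Noise d K => DD N F ω - F ω.1) (noiseLaw d K) :=
    SchB_int hZc hZng
  have hwm : StronglyMeasurable (fun x : E d => SchB_g1 N F f x - SchB_gb N F f) :=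
    (SchB_g1_meas hF hf).sub stronglyMeasurable_const
  have hwb : ∀ x, ‖SchB_g1 N F f x - SchB_gb N F f‖ ≤ A1 + ‖SchB_gb N F f‖ := fun x =>
    (norm_sub_le _ _).trans (add_le_add (SchB_g1_bdd hA1 x) le_rfl)
  have hg1i : Integrable (SchB_g1 N F f) (stdGaussian (E d)) :=
    Integrable.of_bound (SchB_g1_meas hF hf).aestronglyMeasurable A1
      (Filter.Eventually.of_forall fun x => SchB_g1_bdd hA1 x)
  have hw0 : ∫ x, (SchB_g1 N F f x - SchB_gb N F f) ∂(stdGaussian (E d)) = 0 := by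
    rw [integral_sub hg1i (integrable_const _), SchB_g1_mean hF hf hA1, integral_const]
    simp
  -- the pieces
  have hwm' : StronglyMeasurable (fun ω : Noise d K => SchB_g1 N F f ω.1 - SchB_gb N F f) :=
    hwm.comp_measurable measurable_fst
  have hwng : SchB_NG (fun ω : Noise d K => SchB_g1 N F f ω.1 - SchB_gb N F f) :=
    SchB_bdd fun ω => hwb ω.1
  have i1 : Integrable (fun ω : Noise d K => ⟪DD N F ω - F ω.1, SchB_gb N F f⟫)
      (noiseLaw d K) := SchB_int (hZc.inner continuous_const)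
        (SchB_inner hZng (SchB_bdd fun ω => le_rfl))
  have i2 : Integrable (fun ω : Noise d K =>
      ⟪DD N F ω - F ω.1, SchB_g1 N F f ω.1 - SchB_gb N F f⟫) (noiseLaw d K) :=
    SchB_int' (hZc.aestronglyMeasurable.inner hwm'.aestronglyMeasurable) (SchB_inner hZng hwng)
  have hhc : Continuous (fun x : E d => ∑ k, N.J k • F (N.rho k • x)) := by
    have h0 := hF.continuous
    fun_prop
  have hhng : SchB_NG (fun ω : Noise d K => ∑ k, N.J k • F (N.rho k • ω.1)) :=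
    SchB_sum _ fun k _ => SchB_smul _ (SchB_comp hF ha (SchB_smul _ SchB_fst))
  have hDc : Continuous (fun ω : Noise d K => DD N F ω - ∑ k, N.J k • F (N.rho k • ω.1)) :=
    (SchB_DD_cont hF).sub (hhc.comp continuous_fst)
  have hDng : SchB_NG (fun ω : Noise d K => DD N F ω - ∑ k, N.J k • F (N.rho k • ω.1)) :=
    SchB_sub (SchB_DD_ng hF ha) hhng
  have hqc : Continuous (fun x : E d => (∑ k, N.J k • F (N.rho k • x)) - F x) :=
    hhc.sub hF.continuous
  have hqng : SchB_NG (fun ω : Noise d K => (∑ k, N.J k • F (N.rho k • ω.1)) - F ω.1) :=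
    SchB_sub hhng (SchB_comp hF ha SchB_fst)
  have i3 : Integrable (fun ω : Noise d K => ⟪DD N F ω - ∑ k, N.J k • F (N.rho k • ω.1),
      SchB_g N F f ω - SchB_g1 N F f ω.1⟫) (noiseLaw d K) :=
    SchB_int' (hDc.aestronglyMeasurable.inner (SchB_R_meas hF hf).aestronglyMeasurable)
      (SchB_inner hDng (SchB_R_ng hA1))
  have i4 : Integrable (fun ω : Noise d K => ⟪(∑ k, N.J k • F (N.rho k • ω.1)) - F ω.1,
      SchB_g N F f ω - SchB_g1 N F f ω.1⟫) (noiseLaw d K) :=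
    SchB_int' ((hqc.comp continuous_fst).aestronglyMeasurable.inner
      (SchB_R_meas hF hf).aestronglyMeasurable) (SchB_inner hqng (SchB_R_ng hA1))
  have e1 : ∀ ω : Noise d K, ⟪DD N F ω - F ω.1, gradient f (XX N F ω)⟫ =
      ((⟪DD N F ω - F ω.1, SchB_gb N F f⟫ +
        ⟪DD N F ω - F ω.1, SchB_g1 N F f ω.1 - SchB_gb N F f⟫) +
        ⟪DD N F ω - ∑ k, N.J k • F (N.rho k • ω.1), SchB_g N F f ω - SchB_g1 N F f ω.1⟫) +
        ⟪(∑ k, N.J k • F (N.rho k • ω.1)) - F ω.1, SchB_g N F f ω - SchB_g1 N F f ω.1⟫ := by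
    intro ω
    have h1 : gradient f (XX N F ω) = SchB_g N F f ω := rfl
    rw [h1, ← inner_add_right, add_assoc, ← inner_add_left, sub_add_sub_cancel,
      ← inner_add_right]
    congr 1
    abel
  have e2 : ∫ ω, ⟪DD N F ω - F ω.1, gradient f (XX N F ω)⟫ ∂(noiseLaw d K) =
      (∫ ω : Noise d K, ⟪DD N F ω - F ω.1, SchB_g1 N F f ω.1 - SchB_gb N F f⟫
        ∂(noiseLaw d K)) +
      ∫ ω : Noise d K, ⟪DD N F ω - ∑ k, N.J k • F (N.rho k • ω.1),
        SchB_g N F f ω - SchB_g1 N F f ω.1⟫ ∂(noiseLaw d K) := by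
    simp_rw [e1]
    have i12 := i1.fun_add i2
    have i123 := i12.fun_add i3
    rw [integral_add i123 i4, integral_add i12 i3, integral_add i1 i2,
      SchB_orth hF hf hA1 (h := fun x => (∑ k, N.J k • F (N.rho k • x)) - F x)
        hqc.stronglyMeasurable hqng]
    have h2 : ∫ ω : Noise d K, ⟪DD N F ω - F ω.1, SchB_gb N F f⟫ ∂(noiseLaw d K) = 0 := by
      have h3 : ∀ ω : Noise d K, ⟪DD N F ω - F ω.1, SchB_gb N F f⟫ =
          ⟪SchB_gb N F f, DD N F ω - F ω.1⟫ := fun ω => real_inner_comm _ _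
      simp_rw [h3]
      rw [integral_inner hZi, SchB_mean_Z hN hF ha, inner_zero_right]
    rw [h2]
    ring
  have b1 := SchB_main hN hF ha hwm hwb hw0
  have b2 : √(∫ x, ‖SchB_g1 N F f x - SchB_gb N F f‖ ^ 2 ∂(stdGaussian (E d))) ≤
      5 / 4 * A2 := by
    rw [Real.sqrt_le_left (by positivity)]
    refine (SchB_w_sq hF hf hA1).trans ((var_full hN ha0 haC hF ha hf hA2).trans ?_)
    nlinarith [sq_nonneg A2]
  have b3 : |∫ ω : Noise d K, ⟪DD N F ω - F ω.1, SchB_g1 N F f ω.1 - SchB_gb N F f⟫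
      ∂(noiseLaw d K)| ≤ a * (a * √d) * (5 / 4 * A2) := by
    refine b1.trans ?_
    have h1 : 0 ≤ a * √(d : ℝ) := mul_nonneg ha0 hd0
    refine mul_le_mul (mul_le_mul_of_nonneg_right hεa h1) b2 (Real.sqrt_nonneg _)
      (mul_nonneg ha0 h1)
  have b4 : |∫ ω : Noise d K, ⟪DD N F ω - ∑ k, N.J k • F (N.rho k • ω.1),
      SchB_g N F f ω - SchB_g1 N F f ω.1⟫ ∂(noiseLaw d K)| ≤
      (2 * a * C * √d) * (5 / 2 * (a * C * A2)) := by
    refine SchB_cs ?_ ?_ i3 (by positivity) (by positivity) (dd_size hN ha0 hF ha) ?_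
    · exact SchB_int (hDc.norm.pow 2) (SchB_sq hDng)
    · exact SchB_int' ((SchB_R_meas hF hf).norm.pow 2).aestronglyMeasurable
        (SchB_sq (SchB_R_ng hA1))
    · refine (var_rest hN ha0 haC hF ha hf hA2).trans ?_
      have : 0 ≤ (a * C * A2) ^ 2 := sq_nonneg _
      nlinarith
  rw [e2]
  refine (abs_add_le _ _).trans ((add_le_add b3 b4).trans ?_)
  have hX : 0 ≤ a ^ 2 * √(d : ℝ) * A2 := by positivity
  have hC2 : 1 ≤ C ^ 2 := by nlinarith
  nlinarith [mul_nonneg hX (sub_nonneg.2 hC2)]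



theorem second_bd {F : E d → E d} (hN : GoodNodes N C ε) (ha0 : 0 ≤ a)
    (haC : a * C ≤ 1 / 8)
    (hF : ContDiff ℝ 1 F) (ha : ∀ x, ‖fderiv ℝ F x‖ ≤ a) {f : E d → ℝ} (hf : CB 2 (sc f))
    {A1 A2 : ℝ} (hA1 : ∀ x, ‖Dv (sc f) x‖ ≤ A1) (hA2 : ∀ x, ‖Dv (Dv (sc f)) x‖ ≤ A2) :
    |∫ ω, ⟪F ω.1 + bbω N F ω - F (XX N F ω), gradient f (XX N F ω)⟫ ∂(noiseLaw d K)| ≤
      6 * C * a * (‖F 0‖ + a * √d) * (a * A1 + A2) := by
  have hP := noise_isProb d K
  have hC1 := hN.one_le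
  have hC0 : 0 ≤ C := zero_le_one.trans hC1
  have hA20 : 0 ≤ A2 := (norm_nonneg _).trans (hA2 0)
  have hA10 : 0 ≤ A1 := (norm_nonneg _).trans (hA1 0)
  have hd0 : 0 ≤ √(d : ℝ) := Real.sqrt_nonneg _
  have hm0 : 0 ≤ ‖F 0‖ + a * √(d : ℝ) := add_nonneg (norm_nonneg _) (mul_nonneg ha0 hd0)
  have hbc : Continuous (bbω N F : Noise d K → E d) := SchB_bb_cont hF
  have hbng : SchB_NG (bbω N F : Noise d K → E d) := SchB_bb_ng hF ha
  have hTc : Continuous (SchB_T N F : Noise d K → E d) := SchB_T_cont hF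
  have hTng : SchB_NG (SchB_T N F : Noise d K → E d) := SchB_T_ng hF ha
  have hXc : Continuous (XX N F : Noise d K → E d) := XX_continuous hF.continuous
  have hXng : SchB_NG (XX N F : Noise d K → E d) := SchB_XX_ng hF ha
  have hgc : Continuous (SchB_g N F f : Noise d K → E d) := SchB_g_cont hF hf
  have hgng : SchB_NG (SchB_g N F f : Noise d K → E d) := SchB_bdd fun ω => SchB_g_bdd hA1 ω
  have hYc : Continuous (fun ω : Noise d K => F (XX N F ω) - F (ω.1 - SSω N F ω)) :=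
    (hF.continuous.comp hXc).sub (hF.continuous.comp (continuous_fst.sub (SchB_SS_cont hF)))
  have hYng : SchB_NG (fun ω : Noise d K => F (XX N F ω) - F (ω.1 - SSω N F ω)) :=
    SchB_sub (SchB_comp hF ha hXng) (SchB_comp hF ha (SchB_sub SchB_fst (SchB_SS_ng hF ha)))
  have hDc : Continuous (fun ω : Noise d K => bbω N F ω - SchB_T N F ω) := hbc.sub hTc
  have hDng : SchB_NG (fun ω : Noise d K => bbω N F ω - SchB_T N F ω) := SchB_sub hbng hTng
  have hDi : Integrable (fun ω : Noise d K => bbω N F ω - SchB_T N F ω) (noiseLaw d K) :=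
    SchB_int hDc hDng
  have hgbc : Continuous (fun ω : Noise d K => SchB_g N F f ω - SchB_gb N F f) :=
    hgc.sub continuous_const
  have hgbng : SchB_NG (fun ω : Noise d K => SchB_g N F f ω - SchB_gb N F f) :=
    SchB_sub hgng (SchB_bdd fun ω => le_rfl)
  have i1 : Integrable (fun ω : Noise d K => ⟪bbω N F ω - SchB_T N F ω, SchB_gb N F f⟫)
      (noiseLaw d K) := SchB_int (hDc.inner continuous_const)
        (SchB_inner hDng (SchB_bdd fun ω => le_rfl))
  have i2 : Integrable (fun ω : Noise d K =>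
      ⟪bbω N F ω - SchB_T N F ω, SchB_g N F f ω - SchB_gb N F f⟫) (noiseLaw d K) :=
    SchB_int (hDc.inner hgbc) (SchB_inner hDng hgbng)
  have i3 : Integrable (fun ω : Noise d K =>
      ⟪F (XX N F ω) - F (ω.1 - SSω N F ω), SchB_g N F f ω⟫) (noiseLaw d K) :=
    SchB_int (hYc.inner hgc) (SchB_inner hYng hgng)
  have i4 : Integrable (fun ω : Noise d K => ‖bbω N F ω‖ ^ 2) (noiseLaw d K) :=
    SchB_int (hbc.norm.pow 2) (SchB_sq hbng)
  have i5 : Integrable (fun ω : Noise d K => ‖bbω N F ω‖) (noiseLaw d K) :=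
    SchB_int hbc.norm (SchB_norm hbng)
  have i6 : Integrable (fun ω : Noise d K => ‖SchB_T N F ω‖ ^ 2) (noiseLaw d K) :=
    SchB_int (hTc.norm.pow 2) (SchB_sq hTng)
  have i7 : Integrable (fun ω : Noise d K => ‖SSω N F ω‖ ^ 2) (noiseLaw d K) :=
    SchB_int ((SchB_SS_cont hF).norm.pow 2) (SchB_sq (SchB_SS_ng hF ha))
  -- decomposition
  have e1 : ∀ ω : Noise d K, ⟪F ω.1 + bbω N F ω - F (XX N F ω), gradient f (XX N F ω)⟫ =
      (⟪bbω N F ω - SchB_T N F ω, SchB_gb N F f⟫ +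
        ⟪bbω N F ω - SchB_T N F ω, SchB_g N F f ω - SchB_gb N F f⟫) -
        ⟪F (XX N F ω) - F (ω.1 - SSω N F ω), SchB_g N F f ω⟫ := by
    intro ω
    have h1 : gradient f (XX N F ω) = SchB_g N F f ω := rfl
    rw [h1, ← inner_add_right, add_sub_cancel, ← inner_sub_left]
    congr 1
    unfold SchB_T
    abel
  have e2 : ∫ ω, ⟪F ω.1 + bbω N F ω - F (XX N F ω), gradient f (XX N F ω)⟫ ∂(noiseLaw d K) =
      (∫ ω : Noise d K, ⟪bbω N F ω - SchB_T N F ω, SchB_g N F f ω - SchB_gb N F f⟫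
        ∂(noiseLaw d K)) -
      ∫ ω : Noise d K, ⟪F (XX N F ω) - F (ω.1 - SSω N F ω), SchB_g N F f ω⟫
        ∂(noiseLaw d K) := by
    simp_rw [e1]
    rw [integral_sub (i1.fun_add i2) i3, integral_add i1 i2]
    have h2 : ∫ ω : Noise d K, ⟪bbω N F ω - SchB_T N F ω, SchB_gb N F f⟫ ∂(noiseLaw d K) = 0 := by
      have h3 : ∀ ω : Noise d K, ⟪bbω N F ω - SchB_T N F ω, SchB_gb N F f⟫ =
          ⟪SchB_gb N F f, bbω N F ω - SchB_T N F ω⟫ := fun ω => real_inner_comm _ _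
      simp_rw [h3]
      rw [integral_inner hDi, integral_sub (SchB_int hbc hbng) (SchB_int hTc hTng),
        SchB_mean_T hF, sub_self, inner_zero_right]
    rw [h2]
    ring
  -- sizes
  have s1 : ∫ ω : Noise d K, ‖SchB_T N F ω‖ ^ 2 ∂(noiseLaw d K) ≤
      (a * C * (‖F 0‖ + a * √d)) ^ 2 := by
    have h1 : ∫ ω : Noise d K, ‖SchB_T N F ω‖ ^ 2 ∂(noiseLaw d K) ≤
        ∫ ω : Noise d K, a ^ 2 * ‖SSω N F ω‖ ^ 2 ∂(noiseLaw d K) := by
      refine integral_mono i6 (i7.const_mul _) fun ω => ?_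
      show ‖SchB_T N F ω‖ ^ 2 ≤ a ^ 2 * ‖SSω N F ω‖ ^ 2
      rw [← mul_pow]
      refine pow_le_pow_left₀ (norm_nonneg _) ?_ 2
      have h2 := SchB_F hF ha (ω.1 - SSω N F ω) ω.1
      rw [sub_sub_cancel_left, norm_neg] at h2
      exact h2
    refine h1.trans ?_
    rw [integral_const_mul]
    have h3 := ss_size (d := d) hN ha0 hF ha
    calc a ^ 2 * ∫ ω : Noise d K, ‖SSω N F ω‖ ^ 2 ∂(noiseLaw d K) ≤
          a ^ 2 * (C * (‖F 0‖ + a * √d)) ^ 2 := mul_le_mul_of_nonneg_left h3 (sq_nonneg a)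
      _ = (a * C * (‖F 0‖ + a * √d)) ^ 2 := by ring
  have s2 := bb_size (d := d) hN ha0 hF ha
  have s3 : ∫ ω : Noise d K, ‖bbω N F ω - SchB_T N F ω‖ ^ 2 ∂(noiseLaw d K) ≤
      (2 * (a * C * (‖F 0‖ + a * √d))) ^ 2 := by
    have h1 : ∫ ω : Noise d K, ‖bbω N F ω - SchB_T N F ω‖ ^ 2 ∂(noiseLaw d K) ≤
        ∫ ω : Noise d K, (2 * ‖bbω N F ω‖ ^ 2 + 2 * ‖SchB_T N F ω‖ ^ 2) ∂(noiseLaw d K) := by
      refine integral_mono (SchB_int (hDc.norm.pow 2) (SchB_sq hDng))
        ((i4.const_mul _).fun_add (i6.const_mul _)) fun ω => ?_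
      show ‖bbω N F ω - SchB_T N F ω‖ ^ 2 ≤ 2 * ‖bbω N F ω‖ ^ 2 + 2 * ‖SchB_T N F ω‖ ^ 2
      have h2 := norm_sub_le (bbω N F ω) (SchB_T N F ω)
      have h3 := norm_nonneg (bbω N F ω - SchB_T N F ω)
      nlinarith [sq_nonneg (‖bbω N F ω‖ - ‖SchB_T N F ω‖)]
    refine h1.trans ?_
    rw [integral_add (i4.const_mul _) (i6.const_mul _), integral_const_mul, integral_const_mul]
    nlinarith
  -- first part
  have b1 : |∫ ω : Noise d K, ⟪bbω N F ω - SchB_T N F ω, SchB_g N F f ω - SchB_gb N F f⟫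
        ∂(noiseLaw d K)| ≤ (2 * (a * C * (‖F 0‖ + a * √d))) * (5 / 4 * A2) := by
    refine SchB_cs ?_ ?_ i2 (by positivity) (by positivity) s3 ?_
    · exact SchB_int (hDc.norm.pow 2) (SchB_sq hDng)
    · exact SchB_int (hgbc.norm.pow 2) (SchB_sq hgbng)
    · refine (var_full hN ha0 haC hF ha hf hA2).trans ?_
      nlinarith [sq_nonneg A2]
  -- second part
  have b2 : ∫ ω : Noise d K, ‖bbω N F ω‖ ∂(noiseLaw d K) ≤ a * C * (‖F 0‖ + a * √d) := by
    have hq : 0 ≤ a * C * (‖F 0‖ + a * √d) := by positivity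
    have h0 : 0 ≤ ∫ ω : Noise d K, (‖bbω N F ω‖ - ∫ ω' : Noise d K, ‖bbω N F ω'‖
        ∂(noiseLaw d K)) ^ 2 ∂(noiseLaw d K) := integral_nonneg fun ω => sq_nonneg _
    have h1 : ∫ ω : Noise d K, (‖bbω N F ω‖ - ∫ ω' : Noise d K, ‖bbω N F ω'‖
        ∂(noiseLaw d K)) ^ 2 ∂(noiseLaw d K) = (∫ ω : Noise d K, ‖bbω N F ω‖ ^ 2
        ∂(noiseLaw d K)) - (∫ ω' : Noise d K, ‖bbω N F ω'‖ ∂(noiseLaw d K)) ^ 2 := by
      generalize hc : ∫ ω' : Noise d K, ‖bbω N F ω'‖ ∂(noiseLaw d K) = c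
      have h2 : ∀ ω : Noise d K, (‖bbω N F ω‖ - c) ^ 2 = ‖bbω N F ω‖ ^ 2 -
          ((2 * c) * ‖bbω N F ω‖ - c ^ 2) := fun ω => by ring
      simp_rw [h2]
      have j1 : Integrable (fun ω : Noise d K => (2 * c) * ‖bbω N F ω‖ - c ^ 2) (noiseLaw d K) :=
        (i5.const_mul _).sub (integrable_const _)
      rw [integral_sub i4 j1, integral_sub (i5.const_mul _) (integrable_const _),
        integral_const_mul, hc, integral_const]
      simp only [probReal_univ, smul_eq_mul, one_mul]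
      ring
    rw [h1] at h0
    have h3 : (∫ ω' : Noise d K, ‖bbω N F ω'‖ ∂(noiseLaw d K)) ^ 2 ≤
        (a * C * (‖F 0‖ + a * √d)) ^ 2 := by linarith
    exact (le_abs_self _).trans (abs_le_of_sq_le_sq h3 hq)
  have b3 : |∫ ω : Noise d K, ⟪F (XX N F ω) - F (ω.1 - SSω N F ω), SchB_g N F f ω⟫
        ∂(noiseLaw d K)| ≤ (a * A1) * (a * C * (‖F 0‖ + a * √d)) := by
    have h1 : |∫ ω : Noise d K, ⟪F (XX N F ω) - F (ω.1 - SSω N F ω), SchB_g N F f ω⟫
        ∂(noiseLaw d K)| ≤ ∫ ω : Noise d K, (a * A1) * ‖bbω N F ω‖ ∂(noiseLaw d K) := by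
      rw [← Real.norm_eq_abs]
      refine norm_integral_le_of_norm_le (i5.const_mul _)
        (Filter.Eventually.of_forall fun ω => ?_)
      have h2 := SchB_F hF ha (XX N F ω) (ω.1 - SSω N F ω)
      have h3 : XX N F ω - (ω.1 - SSω N F ω) = - bbω N F ω := by
        unfold XX SSω bbω
        abel
      rw [h3, norm_neg] at h2
      calc ‖⟪F (XX N F ω) - F (ω.1 - SSω N F ω), SchB_g N F f ω⟫‖ ≤
            ‖F (XX N F ω) - F (ω.1 - SSω N F ω)‖ * ‖SchB_g N F f ω‖ := norm_inner_le_norm _ _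
        _ ≤ (a * ‖bbω N F ω‖) * A1 := mul_le_mul h2 (SchB_g_bdd hA1 ω) (norm_nonneg _)
            (mul_nonneg ha0 (norm_nonneg _))
        _ = (a * A1) * ‖bbω N F ω‖ := by ring
    refine h1.trans ?_
    rw [integral_const_mul]
    exact mul_le_mul_of_nonneg_left b2 (mul_nonneg ha0 hA10)
  rw [e2]
  refine (abs_sub _ _).trans ((add_le_add b1 b3).trans ?_)
  have hX : 0 ≤ a * C * (‖F 0‖ + a * √(d : ℝ)) := by positivity
  have hY : 0 ≤ a * A1 := mul_nonneg ha0 hA10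
  nlinarith [mul_nonneg hX hY, mul_nonneg hX hA20]

theorem stein_bd {G : E d → ℝ} (hN : GoodNodes N C ε) (hε : 0 ≤ ε) (hεa : ε ≤ a)
    (haC : a * C ≤ 1 / 8) (hG : Pert d a G) {f : E d → ℝ} (hf : CB 2 (sc f))
    {A1 A2 : ℝ} (hA1 : ∀ x, ‖Dv (sc f) x‖ ≤ A1) (hA2 : ∀ x, ‖Dv (Dv (sc f)) x‖ ≤ A2) :
    |∫ ω, Ls G f (XX N (gradient G) ω) ∂(noiseLaw d K)| ≤
      20 * C ^ 2 * a * (‖gradient G 0‖ + a * √d) * (a * A1 + A2) := by
  have hP := noise_isProb d K
  have ha0 : 0 ≤ a := hε.trans hεa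
  have hC1 := hN.one_le
  have hC0 : 0 ≤ C := zero_le_one.trans hC1
  have hA20 : 0 ≤ A2 := (norm_nonneg _).trans (hA2 0)
  have hA10 : 0 ≤ A1 := (norm_nonneg _).trans (hA1 0)
  have hd0 : 0 ≤ √(d : ℝ) := Real.sqrt_nonneg _
  have hF : ContDiff ℝ 1 (gradient G) := hG.grad_contDiff
  have ha : ∀ x, ‖fderiv ℝ (gradient G) x‖ ≤ a := fun x => hG.norm_fderiv_le ha0 x
  generalize hFG : gradient G = F at *
  have hgc : Continuous (SchB_g N F f : Noise d K → E d) := SchB_g_cont hF hf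
  have hgng : SchB_NG (SchB_g N F f : Noise d K → E d) := SchB_bdd fun ω => SchB_g_bdd hA1 ω
  have hZc : Continuous (fun ω : Noise d K => DD N F ω - F ω.1) :=
    (SchB_DD_cont hF).sub (hF.continuous.comp continuous_fst)
  have hZng : SchB_NG (fun ω : Noise d K => DD N F ω - F ω.1) :=
    SchB_sub (SchB_DD_ng hF ha) (SchB_comp hF ha SchB_fst)
  have hWc : Continuous (fun ω : Noise d K => F ω.1 + bbω N F ω - F (XX N F ω)) :=
    ((hF.continuous.comp continuous_fst).add (SchB_bb_cont hF)).sub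
      (hF.continuous.comp (XX_continuous hF.continuous))
  have hWng : SchB_NG (fun ω : Noise d K => F ω.1 + bbω N F ω - F (XX N F ω)) :=
    SchB_sub (SchB_add (SchB_comp hF ha SchB_fst) (SchB_bb_ng hF ha))
      (SchB_comp hF ha (SchB_XX_ng hF ha))
  have i1 : Integrable (fun ω : Noise d K => ⟪DD N F ω - F ω.1, gradient f (XX N F ω)⟫)
      (noiseLaw d K) := SchB_int (hZc.inner hgc) (SchB_inner hZng hgng)
  have i2 : Integrable (fun ω : Noise d K =>
      ⟪F ω.1 + bbω N F ω - F (XX N F ω), gradient f (XX N F ω)⟫)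
      (noiseLaw d K) := SchB_int (hWc.inner hgc) (SchB_inner hWng hgng)
  have b0 := scheme_id hN ha0 hG hf
  rw [hFG] at b0
  have b1 := first_bd hN hε hεa haC hF ha hf hA2
  have b2 := second_bd hN ha0 haC hF ha hf hA1 hA2
  have e1 : ∫ ω : Noise d K, ⟪DD N F ω + bbω N F ω - F (XX N F ω), gradient f (XX N F ω)⟫
      ∂(noiseLaw d K) = (∫ ω : Noise d K, ⟪DD N F ω - F ω.1, gradient f (XX N F ω)⟫
      ∂(noiseLaw d K)) + ∫ ω : Noise d K,
      ⟪F ω.1 + bbω N F ω - F (XX N F ω), gradient f (XX N F ω)⟫ ∂(noiseLaw d K) := by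
    rw [← integral_add i1 i2]
    refine integral_congr_ae (Filter.Eventually.of_forall fun ω => ?_)
    show ⟪DD N F ω + bbω N F ω - F (XX N F ω), gradient f (XX N F ω)⟫ =
      ⟪DD N F ω - F ω.1, gradient f (XX N F ω)⟫ +
      ⟪F ω.1 + bbω N F ω - F (XX N F ω), gradient f (XX N F ω)⟫
    rw [← inner_add_left]
    congr 1
    abel
  have b3 : ∀ k l : Fin K, |∫ ω : Noise d K, TT N F f k l ω ∂(noiseLaw d K)| ≤
      a ^ 2 * √d * A2 := by
    intro k l
    rw [← Real.norm_eq_abs]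
    have h := norm_integral_le_of_norm_le_const (μ := noiseLaw d K)
      (f := fun ω => TT N F f k l ω) (C := a ^ 2 * √d * A2)
      (Filter.Eventually.of_forall fun ω => by
        rw [Real.norm_eq_abs]
        exact TT_bd ha0 hF ha hf hA2 k l ω)
    refine h.trans (le_of_eq ?_)
    simp
  have hρ : ∀ k, |N.rho k| ≤ 1 := fun k => by
    rw [abs_of_pos (hN.pos k)]
    exact (hN.lt k).le
  have hJ := sum_abs_J_le hN
  have hJ0 : 0 ≤ ∑ k, |N.J k| := Finset.sum_nonneg fun _ _ => abs_nonneg _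
  have hTT0 : 0 ≤ a ^ 2 * √(d : ℝ) * A2 := by positivity
  have b4 : |∑ k, ∑ l ∈ Finset.univ.erase k, N.J k * N.rho k * (N.J l * N.rho l) *
        ∫ ω : Noise d K, TT N F f k l ω ∂(noiseLaw d K)| ≤ C ^ 2 * (a ^ 2 * √d * A2) := by
    have h1 : |∑ k, ∑ l ∈ Finset.univ.erase k, N.J k * N.rho k * (N.J l * N.rho l) *
        ∫ ω : Noise d K, TT N F f k l ω ∂(noiseLaw d K)| ≤
        ∑ k, ∑ l, |N.J k| * |N.J l| * (a ^ 2 * √d * A2) := by
      refine (Finset.abs_sum_le_sum_abs _ _).trans (Finset.sum_le_sum fun k _ => ?_)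
      refine (Finset.abs_sum_le_sum_abs _ _).trans ?_
      refine (Finset.sum_le_sum_of_subset_of_nonneg (Finset.erase_subset k Finset.univ)
        fun _ _ _ => abs_nonneg _).trans (Finset.sum_le_sum fun l _ => ?_)
      rw [abs_mul, abs_mul, abs_mul, abs_mul]
      have h2 : |N.J k| * |N.rho k| ≤ |N.J k| := mul_le_of_le_one_right (abs_nonneg _) (hρ k)
      have h3 : |N.J l| * |N.rho l| ≤ |N.J l| := mul_le_of_le_one_right (abs_nonneg _) (hρ l)
      refine mul_le_mul (mul_le_mul h2 h3 (by positivity) (abs_nonneg _)) (b3 k l)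
        (abs_nonneg _) (by positivity)
    refine h1.trans ?_
    have h4 : ∑ k, ∑ l, |N.J k| * |N.J l| * (a ^ 2 * √(d : ℝ) * A2) =
        (∑ k, |N.J k|) * (∑ l, |N.J l|) * (a ^ 2 * √(d : ℝ) * A2) := by
      rw [Finset.sum_mul_sum, Finset.sum_mul]
      exact Finset.sum_congr rfl fun k _ => by rw [Finset.sum_mul]
    rw [h4]
    refine mul_le_mul_of_nonneg_right ?_ hTT0
    nlinarith
  rw [b0, e1]
  refine (abs_add_le _ _).trans ((add_le_add ((abs_add_le _ _).trans (add_le_add b1 b2)) b4).trans ?_)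
  have hm : 0 ≤ ‖F 0‖ := norm_nonneg _
  have hs : 0 ≤ a * √(d : ℝ) := mul_nonneg ha0 hd0
  have hY : 0 ≤ a * A1 := mul_nonneg ha0 hA10
  have hCC : C ≤ C ^ 2 := by nlinarith
  -- a ^ 2 √d A2 ≤ a (|F 0| + a √d) (a A1 + A2)
  have c1 : a ^ 2 * √(d : ℝ) * A2 ≤ a * (‖F 0‖ + a * √d) * (a * A1 + A2) := by
    have h1 : a ^ 2 * √(d : ℝ) * A2 = a * (a * √d) * A2 := by ring
    rw [h1]
    refine mul_le_mul (mul_le_mul_of_nonneg_left (by linarith) ha0) (by linarith) hA20
      (by positivity)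
  have c0 : 0 ≤ a * (‖F 0‖ + a * √(d : ℝ)) * (a * A1 + A2) := by positivity
  have c2 : 6 * C * a * (‖F 0‖ + a * √(d : ℝ)) * (a * A1 + A2) ≤
      6 * (C ^ 2 * (a * (‖F 0‖ + a * √(d : ℝ)) * (a * A1 + A2))) := by
    nlinarith [mul_le_mul_of_nonneg_right hCC c0]
  have c3 : C ^ 2 * (a ^ 2 * √(d : ℝ) * A2) ≤
      C ^ 2 * (a * (‖F 0‖ + a * √(d : ℝ)) * (a * A1 + A2)) :=
    mul_le_mul_of_nonneg_left c1 (sq_nonneg C)
  nlinarith [mul_nonneg (sq_nonneg C) c0]

end Vale.Agent.P347
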