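import Vale.Agent.Lib.P347.Cpt

/-!
P347: the algorithm step needs `2 K + 3` queries.

Proof. `XX_cpt`: `SS` is a sum of `K` evaluations (`Cpt.sum`, `Cpt.comap`), `XX` uses two such
sums and two more evaluations of `F`. `step_cpt`: one query at `y`, then with
`g = (o y).2` stored the force `ξ ↦ √h • ((o (y - h • g + √h • ξ)).2 - g)` needs one query;
apply `XX_cpt` with `Ω = E d × E d` (the pair `(y, g)`) and `Cpt.comp`.
-/

open MeasureTheory

namespace Vale.Agent.P347

/-- the step computed from an oracle -/
noncomputable def stepO {d K : ℕ} (N : Nodes K) (o : E d → Ans d) (h : ℝ) (y : E d)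
    (ω : Noise d K) : E d :=
  (y - h • (o y).2) +
    √h • XX N (fun ξ => √h • ((o ((y - h • (o y).2) + √h • ξ)).2 - (o y).2)) ω

theorem stepO_oracle {d K : ℕ} (N : Nodes K) (V : E d → ℝ) (h : ℝ) (y : E d) (ω : Noise d K) :
    stepO N (oracle V) h y ω = stepA N V h y ω := rfl

/-- the smoothed drift with a computed force, at measurable points, needs `K` queries -/
theorem SS_cpt {d K : ℕ} (N : Nodes K) {Ω Ω' : Type} [MeasurableSpace Ω] [MeasurableSpace Ω']
    {F : (E d → Ans d) → Ω → E d → E d}
    (hF : Cpt d 1 (Ω × E d) (E d) (fun o p => F o p.1 p.2))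
    {a : Ω' → Ω} (ha : Measurable a) {x : Ω' → E d} (hx : Measurable x)
    {z : Ω' → Fin K → E d} (hz : ∀ k, Measurable (fun w => z w k)) :
    Cpt d K Ω' (E d) (fun o w => SS N (F o (a w)) (x w) (z w)) := by
  have h := Cpt.sum (d := d) (Ω := Ω') (K := K)
    (f := fun k o w => N.J k • F o (a w) (N.rho k • x w + N.kap k • z w k)) ?_
  · exact h
  · intro k
    have hm : Measurable (fun w : Ω' => ((a w, N.rho k • x w + N.kap k • z w k) : Ω × E d)) :=
      ha.prodMk ((hx.const_smul (N.rho k)).add ((hz k).const_smul (N.kap k)))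
    have h1 := hF.comap hm
    exact h1.map (m := fun u : E d => N.J k • u) (measurable_const_smul (N.J k))

theorem XX_cpt {d K : ℕ} (N : Nodes K) {Ω : Type} [MeasurableSpace Ω]
    {F : (E d → Ans d) → Ω → E d → E d}
    (hF : Cpt d 1 (Ω × E d) (E d) (fun o p => F o p.1 p.2)) :
    Cpt d (2 * K + 2) (Ω × Noise d K) (E d) (fun o p => XX N (F o p.1) p.2) := by
  have hz1 : ∀ i : Rest K, Measurable (fun p : Ω × Noise d K => p.2.2 i) := fun i =>
    (measurable_pi_apply i).comp (measurable_snd.comp measurable_snd)
  have hx1 : Measurable (fun p : Ω × Noise d K => p.2.1) := measurable_fst.comp measurable_snd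
  -- first sum
  have hS1 : Cpt d K (Ω × Noise d K) (E d)
      (fun o p => SS N (F o p.1) p.2.1 (fun k => p.2.2 (Sum.inl k))) :=
    SS_cpt N hF measurable_fst hx1 (fun k => hz1 (Sum.inl k))
  -- second sum
  have hS2 : Cpt d K (Ω × Noise d K) (E d)
      (fun o p => SS N (F o p.1) (p.2.2 (Sum.inr none))
        (fun k => p.2.2 (Sum.inr (some k)))) :=
    SS_cpt N hF measurable_fst (hz1 (Sum.inr none)) (fun k => hz1 (Sum.inr (some k)))
  -- evaluation of the force at the shifted point
  have hE1 : Cpt d (K + 1) (Ω × Noise d K) (E d)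
      (fun o p => F o p.1 (p.2.2 (Sum.inr none) - SS N (F o p.1) (p.2.2 (Sum.inr none))
        (fun k => p.2.2 (Sum.inr (some k))))) := by
    have hm : Measurable (fun w : (Ω × Noise d K) × E d =>
        ((w.1.1, w.1.2.2 (Sum.inr none) - w.2) : Ω × E d)) :=
      (measurable_fst.comp measurable_fst).prodMk
        (((hz1 (Sum.inr none)).comp measurable_fst).sub measurable_snd)
    exact hS2.comp (hF.comap hm)
  -- evaluation of the force at the auxiliary point
  have hE2 : Cpt d 1 (Ω × Noise d K) (E d)
      (fun o p => F o p.1 (p.2.2 (Sum.inr none))) := by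
    have hm : Measurable (fun p : Ω × Noise d K =>
        ((p.1, p.2.2 (Sum.inr none)) : Ω × E d)) :=
      measurable_fst.prodMk (hz1 (Sum.inr none))
    exact hF.comap hm
  -- the noise itself
  have hP : Cpt d 0 (Ω × Noise d K) (E d) (fun _ p => p.2.1) := Cpt.pure hx1
  have hA := (((hP.pair hS1).pair (hE1.pair hE2))).map
    (m := fun u : (E d × E d) × (E d × E d) => u.1.1 - u.1.2 - (u.2.1 - u.2.2))
    (((measurable_fst.comp measurable_fst).sub (measurable_snd.comp measurable_fst)).sub
      ((measurable_fst.comp measurable_snd).sub (measurable_snd.comp measurable_snd)))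
  exact hA.mono (by omega)

theorem step_cpt {d K : ℕ} (N : Nodes K) (h : ℝ) :
    Cpt d (2 * K + 3) (E d × Noise d K) (E d) (fun o p => stepO N o h p.1 p.2) := by
  -- the force computed from the stored pair
  have hF : Cpt d 1 ((E d × E d) × E d) (E d)
      (fun o p => √h • ((o ((p.1.1 - h • p.1.2) + √h • p.2)).2 - p.1.2)) := by
    have hx : Measurable (fun p : (E d × E d) × E d =>
        (p.1.1 - h • p.1.2) + √h • p.2) :=
      ((measurable_fst.comp measurable_fst).sub
        ((measurable_snd.comp measurable_fst).const_smul h)).add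
        (measurable_snd.const_smul (√h))
    have hq : Cpt d 1 ((E d × E d) × E d) (Ans d)
        (fun o p => o ((p.1.1 - h • p.1.2) + √h • p.2)) := Cpt.query hx
    have hg : Cpt d 0 ((E d × E d) × E d) (E d) (fun _ p => p.1.2) :=
      Cpt.pure (measurable_snd.comp measurable_fst)
    exact (hq.pair hg).map (m := fun u : Ans d × E d => √h • (u.1.2 - u.2))
      (((measurable_snd.comp measurable_fst).sub measurable_snd).const_smul (√h))
  have hX := XX_cpt N (F := fun (o : E d → Ans d) (yg : E d × E d) (ξ : E d) =>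
    √h • ((o ((yg.1 - h • yg.2) + √h • ξ)).2 - yg.2)) hF
  -- the step given the answer at the first point
  have hG : Cpt d (2 * K + 2) ((E d × Noise d K) × Ans d) (E d)
      (fun o w => (w.1.1 - h • w.2.2) + √h • XX N (fun ξ =>
        √h • ((o ((w.1.1 - h • w.2.2) + √h • ξ)).2 - w.2.2)) w.1.2) := by
    have hm : Measurable (fun w : (E d × Noise d K) × Ans d =>
        (((w.1.1, w.2.2), w.1.2) : (E d × E d) × Noise d K)) :=
      (((measurable_fst.comp measurable_fst).prodMk
        (measurable_snd.comp measurable_snd))).prodMk (measurable_snd.comp measurable_fst)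
    have h1 := hX.comap hm
    have h0 : Cpt d 0 ((E d × Noise d K) × Ans d) (E d)
        (fun _ w => w.1.1 - h • w.2.2) :=
      Cpt.pure ((measurable_fst.comp measurable_fst).sub
        ((measurable_snd.comp measurable_snd).const_smul h))
    have h2 := (h1.pair h0).map (m := fun u : E d × E d => u.2 + √h • u.1)
      (measurable_snd.add (measurable_fst.const_smul (√h)))
    exact h2
  have hy : Cpt d 1 (E d × Noise d K) (Ans d) (fun o p => o p.1) := Cpt.query measurable_fst
  have hC := hy.comp hG
  have hC' : Cpt d (1 + (2 * K + 2)) (E d × Noise d K) (E d)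
      (fun o p => stepO N o h p.1 p.2) := hC
  exact hC'.mono (by omega)

end Vale.Agent.P347
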